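import Vale.Agent.P281Z.Hg.S1

/-!
# P281, Hodge block: exterior powers, wedge, pairing (row F1a)
-/

open scoped Matrix
open Vale.Agent.P299.IX Vale.Agent.P299.IX.Fock

noncomputable section

namespace Vale.Agent.P281Z.Hg

namespace F1aH

variable {n a b : ℕ}

/-- the Fock space is generated by the vacuum -/
theorem fk_ind {P : Fk n → Prop} (h0 : P (ev ∅)) (he : ∀ l u, P u → P (eps l *ᵥ u))
    (ha : ∀ u v, P u → P v → P (u + v)) (hs : ∀ (c : ℂ) u, P u → P (c • u)) (u : Fk n) : P u := by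
  have h1 : ∀ I, P (ev I) := fun I => by
    induction I using Finset.induction_on_min with
    | empty => exact h0
    | insert i I hi ih => exact eps_ev_min hi ▸ he i _ ih
  rw [pi_eq_sum_univ' u]
  exact Finset.sum_induction _ P ha (zero_smul ℂ (ev ∅ : Fk n) ▸ hs 0 _ h0) fun I _ => hs _ _ (h1 I)

theorem lr_eps (J : Matrix (Fin a) (Fin b) ℂ) (l : Fin b) :
    lr J * eps l = epsV (fun p => J p l) * lr J := qz_eps _ _ (fun _ _ => epsV_epsV _ _) l

theorem lr_ev (J : Matrix (Fin a) (Fin b) ℂ) : lr J *ᵥ ev ∅ = ev ∅ := qz_ev_empty _ _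

theorem lr_epsV (J : Matrix (Fin a) (Fin b) ℂ) (v : Fin b → ℂ) :
    lr J * epsV v = epsV (J *ᵥ v) * lr J := by
  have h : J *ᵥ v = ∑ l, v l • fun p => J p l := by
    ext p
    simp [Matrix.mulVec, dotProduct, mul_comm]
  rw [h, epsV_sum, Matrix.sum_mul, epsV.eq_1 v, Matrix.mul_sum]
  exact Finset.sum_congr rfl fun l _ => by rw [Matrix.mul_smul, lr_eps, epsV_smul, Matrix.smul_mul]

theorem dgl_lr (c : ℕ → ℂ) (J : Matrix (Fin a) (Fin b) ℂ) :
    (dgl c : FM a) * lr J = lr J * (dgl c : FM b) := by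
  refine ext_ev' fun I => ?_
  rw [← Matrix.mulVec_mulVec, ← Matrix.mulVec_mulVec]
  induction I using Finset.induction_on_min generalizing c with
  | empty => rw [lr_ev, dgl_ev, dgl_ev, Matrix.mulVec_smul, lr_ev, Finset.card_empty,
      Finset.card_empty]
  | insert i I hi ih =>
    have h : lr J *ᵥ ev (insert i I) = epsV (fun p => J p i) *ᵥ (lr J *ᵥ ev I) :=
      qz_ev_insert _ _ hi
    rw [h, Matrix.mulVec_mulVec, dgl_epsV, ← Matrix.mulVec_mulVec, ih, dgl_ev, dgl_ev,
      Matrix.mulVec_smul, Matrix.mulVec_smul, Matrix.mulVec_smul, h,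
      Finset.card_insert_of_notMem fun h' => lt_irrefl i (hi i h')]

theorem wg_eps (u : Fk n) (l : Fin n) : wg (eps l *ᵥ u) = eps l * wg u := by
  ext K J
  rw [wg, Matrix.of_apply, Matrix.mulVec_mulVec, qz_eps _ _ eps_eps, ← Matrix.mulVec_mulVec]
  rfl

theorem wg_ev : wg (ev ∅ : Fk n) = 1 := by
  ext K J
  rw [wg, Matrix.of_apply, qz_ev_empty, ev, Pi.single_apply, Matrix.one_apply]

theorem wg_add (u v : Fk n) : wg (u + v) = wg u + wg v := by
  ext K J
  simp only [wg, Matrix.of_apply, Matrix.mulVec_add, Matrix.add_apply, Pi.add_apply]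

theorem wg_smul (c : ℂ) (u : Fk n) : wg (c • u) = c • wg u := by
  ext K J
  simp only [wg, Matrix.of_apply, Matrix.mulVec_smul, Matrix.smul_apply, Pi.smul_apply]

theorem wg_neg (u : Fk n) : wg (-u) = -wg u := by rw [← neg_one_smul ℂ u, wg_smul, neg_one_smul]

theorem wg_zero : wg (0 : Fk n) = 0 := by rw [← zero_smul ℂ (0 : Fk n), wg_smul, zero_smul]

theorem wg_sum {α : Type} (s : Finset α) (f : α → Fk n) :
    wg (∑ i ∈ s, f i) = ∑ i ∈ s, wg (f i) :=
  map_sum (AddMonoidHom.mk' (wg (n := n)) wg_add) f s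

theorem wg_epsV (u : Fk n) (v : Fin n → ℂ) : wg (epsV v *ᵥ u) = epsV v * wg u := by
  rw [epsV, Matrix.sum_mulVec, wg_sum, Finset.sum_mul]
  exact Finset.sum_congr rfl fun l _ => by
    rw [Matrix.smul_mulVec, wg_smul, wg_eps, Matrix.smul_mul]

theorem Bq_mul {A B : FM n} (h : hst * B = Aᵀ * hst) (u v : Fk n) :
    Bq (A *ᵥ u) v = Bq u (B *ᵥ v) := by
  rw [Bq, Bq, Matrix.mulVec_mulVec, h, ← Matrix.mulVec_mulVec, Matrix.dotProduct_mulVec u,
    Matrix.vecMul_transpose]

/-- the entries of `hst` -/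
theorem hst_apply (K I : FI n) : hst K I = if K = Iᶜ then ∏ i ∈ I, (-1) ^ i.val else 0 := by
  have h : hst *ᵥ ev I = (∏ i ∈ I, (-1 : ℂ) ^ i.val) • ev Iᶜ := by
    induction I using Finset.induction_on_min with
    | empty => rw [hst_ev_empty, Finset.compl_empty, Finset.prod_empty, one_smul]
    | insert i I hi ih =>
      have hi' : i ∉ I := fun h' => lt_irrefl i (hi i h')
      have h1 : insert i (insert i I)ᶜ = Iᶜ := by
        rw [Finset.compl_insert, Finset.insert_erase (Finset.mem_compl.2 hi')]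
      have h2 : (insert i I)ᶜ.filter (· < i) = Finset.Iio i := by
        ext j
        simp only [Finset.mem_filter, Finset.mem_compl, Finset.mem_insert, Finset.mem_Iio, not_or]
        exact ⟨fun h => h.2, fun h => ⟨⟨h.ne, fun h' => h.not_gt (hi j h')⟩, h⟩⟩
      rw [← eps_ev_min hi, hst_eps_mulVec, ih, Matrix.mulVec_smul, ← h1, iot_ev_insert (by simp),
        smul_smul, sg, h2, Fin.card_Iio, Finset.prod_insert hi', mul_comm]
  rw [← mulVec_ev hst I K, h, Pi.smul_apply, ev, Pi.single_apply, smul_eq_mul, mul_ite, mul_one,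
    mul_zero]

theorem hst_tr (d : ℕ) : (hst : Fm d)ᵀ = (-1 : ℂ) ^ d • hst := by
  have h : ∏ i : Fin (d + d), (-1 : ℂ) ^ i.val = (-1) ^ d := by
    rw [Fin.prod_univ_eq_prod_range (fun i => (-1 : ℂ) ^ i)]
    induction d with
    | zero => simp
    | succ d ih =>
      rw [show d + 1 + (d + 1) = d + d + 1 + 1 by ring, Finset.prod_range_succ,
        Finset.prod_range_succ, ih, pow_succ, pow_succ, ← two_mul, pow_mul]
      norm_num
  ext K I
  rw [Matrix.transpose_apply, Matrix.smul_apply, hst_apply, hst_apply, smul_eq_mul]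
  by_cases e : K = Iᶜ
  · subst e
    rw [if_pos (compl_compl I).symm, if_pos rfl, ← h, ← Finset.prod_compl_mul_prod I, mul_assoc,
      ← Finset.prod_mul_distrib, Finset.prod_eq_one (s := I) fun i _ => by
        rw [← mul_pow, neg_mul_neg, one_mul, one_pow], mul_one]
  · rw [if_neg e, if_neg fun e' => e (by rw [e', compl_compl]), mul_zero]

end F1aH

open F1aH in
/-- **F1a** -/
theorem f1a : F1a where
  lr_eps := lr_eps
  lr_ev := lr_ev
  lr_mul J J' := ext_eps (E := fun l => epsV fun p => (J * J') p l)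
    (by rw [← Matrix.mulVec_mulVec, lr_ev, lr_ev, lr_ev]) (lr_eps _) fun l => by
      rw [Matrix.mul_assoc, lr_eps, ← Matrix.mul_assoc, lr_epsV, Matrix.mul_assoc]
      rfl
  lr_dg J _ := dgl_lr _ J
  lr_par J := dgl_lr _ J
  wg_eps := wg_eps
  wg_ev := wg_ev
  wg_add := wg_add
  wg_smul := wg_smul
  wg_one u := by
    induction u using fk_ind with
    | h0 => rw [wg_ev, Matrix.one_mulVec]
    | he l u h => rw [wg_eps, ← Matrix.mulVec_mulVec, h]
    | ha u v h h' => rw [wg_add, Matrix.add_mulVec, h, h']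
    | hs c u h => rw [wg_smul, Matrix.smul_mulVec, h]
  wg_apply u K J := by
    simp only [wg, Matrix.of_apply, mulVec_ev]
    rfl
  eps_wg u l := by
    induction u using fk_ind with
    | h0 => rw [par, dgl_ev, Finset.card_empty, pow_zero, one_smul, wg_ev, mul_one, one_mul]
    | he k u h => rw [Matrix.mulVec_mulVec, par_eps, Matrix.neg_mulVec, ← Matrix.mulVec_mulVec,
        wg_neg, wg_eps, wg_eps, ← mul_assoc, eps_eps, neg_mul, neg_mul, mul_assoc, h, mul_assoc]
    | ha u v h h' => rw [Matrix.mulVec_add, wg_add, wg_add, mul_add, add_mul, h, h']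
    | hs c u h => rw [Matrix.mulVec_smul, wg_smul, wg_smul, Matrix.mul_smul, Matrix.smul_mul, h]
  lr_wg J u := by
    induction u using fk_ind with
    | h0 => rw [lr_ev, wg_ev, wg_ev, Matrix.mul_one, Matrix.one_mul]
    | he k u h => rw [Matrix.mulVec_mulVec, lr_eps, ← Matrix.mulVec_mulVec, wg_epsV, wg_eps,
        ← Matrix.mul_assoc, lr_eps, Matrix.mul_assoc, h, Matrix.mul_assoc]
    | ha u v h h' => rw [Matrix.mulVec_add, wg_add, wg_add, Matrix.mul_add, Matrix.add_mul, h, h']
    | hs c u h => rw [Matrix.mulVec_smul, wg_smul, wg_smul, Matrix.mul_smul, Matrix.smul_mul, h]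
  Bq_eps u v l := Bq_mul (hst_eps l) u v
  Bq_iot u v l := Bq_mul (hst_iot l) u v
  Bq_symm u v := by
    rw [Bq, Bq, Matrix.dotProduct_mulVec, ← Matrix.mulVec_transpose, hst_tr, Matrix.smul_mulVec,
      dotProduct_comm, dotProduct_smul, smul_eq_mul]
  Bq_lam J u v h := by
    rw [Bq, Bq, Matrix.mulVec_mulVec, hst_lam (B := J⁻¹ᵀ) (Matrix.mul_nonsing_inv J h),
      Matrix.smul_mulVec, dotProduct_smul, ← Matrix.mulVec_mulVec, Matrix.dotProduct_mulVec,
      ← lam_transpose, Matrix.vecMul_transpose, Matrix.mulVec_mulVec, lam_inv_mul h,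
      Matrix.one_mulVec, smul_eq_mul]
  Bq_dg u v j k h := Bq_mul (by
    ext K I
    rw [dg, dg, dgl, dgl, Matrix.diagonal_transpose, Matrix.mul_diagonal, Matrix.diagonal_mul,
      hst_apply, mul_comm]
    by_cases e : K = Iᶜ
    · have := I.card_add_card_compl
      rw [Fintype.card_fin] at this
      rw [e, if_congr (show I.card = k ↔ Iᶜ.card = j by omega) rfl rfl]
    · rw [if_neg e, mul_zero, mul_zero]) u v
  dg_mul j k := by
    rw [dg, dg, dgl_mul]
    split_ifs with h
    · exact congrArg dgl (funext fun p => by rw [h]; split_ifs <;> simp)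
    · rw [← Matrix.diagonal_zero]
      exact congrArg Matrix.diagonal (funext fun I => by
        by_cases e : I.card = j <;> simp [e, h])
  dg_sum {n} := by
    ext K I
    have : K.card < n + 1 := Nat.lt_succ_of_le (K.card_le_univ.trans_eq (Fintype.card_fin n))
    simp only [dg, dgl, Matrix.sum_apply, Matrix.diagonal_apply, Matrix.one_apply]
    split_ifs <;> simp [this]
  dg_zero {n} m h := by
    rw [← Matrix.diagonal_zero]
    exact congrArg Matrix.diagonal (funext fun I => if_neg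
      ((I.card_le_univ.trans_eq (Fintype.card_fin n)).trans_lt h).ne)
  dg0 u := by
    ext I
    rw [dg_mulVec, Pi.smul_apply, ev, Pi.single_apply]
    by_cases h : I = ∅ <;> simp [h]
  hst_star {n} := by
    ext K I
    rw [Matrix.map_apply, hst_apply]
    split_ifs <;> simp

end Vale.Agent.P281Z.Hg
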