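import Vale.Agent.P281Z.Hg.S4
import Vale.Agent.P281Z.Hg.F1a
import Vale.Agent.P284.H730.S5G1

/-!
# P281, Hodge block: the fibres are compact Kähler manifolds
-/

open scoped Manifold ContDiff Topology Matrix
open Set Filter TopologicalSpace Topology
open Vale.Agent.P272.K Vale.Agent.P299.IX Vale.Agent.P299.IX.Fock
open Vale.Agent.P281.H152.K (IsProd exists_prodChart)
open Vale.Agent.P284.H730.G (Imm ImmY isKahler_pb)
open Vale.Agent.P272.K.QN (jm pb pl loc pb_apply loc_apply)

noncomputable section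

namespace Vale.Agent.P281Z.Hg.FibH

section alg
variable {a b : ℕ} {ψ : Cm a → Cm b} {z : Cm a}

theorem col_hl (h : DifferentiableAt ℂ ψ z) (j : Fin b) :
    epsV (fun p => jc ψ z p (hl j)) = ∑ i, jm ψ z j i • eps (hl i) := by
  have h1 : DifferentiableAt ℂ (fun y => ψ y j) z := differentiableAt_pi.1 h j
  rw [epsV, Fin.sum_univ_add]
  simp only [jc, dr, cx, hl, Matrix.of_apply, Fin.addCases_left, Fin.addCases_right,
    dzb_of_holo h1, zero_smul, Finset.sum_const_zero, add_zero]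
  rfl

theorem col_ah (h : DifferentiableAt ℂ ψ z) (j : Fin b) :
    epsV (fun p => jc ψ z p (ah j)) = ∑ i, (starRingEnd ℂ) (jm ψ z j i) • eps (ah i) := by
  have h1 : DifferentiableAt ℂ (fun y => ψ y j) z := differentiableAt_pi.1 h j
  have h2 : DifferentiableAt ℝ (fun y => ψ y j) z := h1.restrictScalars ℝ
  have h3 : ∀ i, dz i (fun y => star (ψ y j)) z = 0 := fun i =>
    (dz_cj h2).trans (by rw [dzb_of_holo h1, cj, map_zero])
  have h4 : ∀ i, dzb i (fun y => star (ψ y j)) z = (starRingEnd ℂ) (jm ψ z j i) := fun i =>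
    dzb_cj h2
  rw [epsV, Fin.sum_univ_add]
  simp only [jc, dr, cx, ah, Matrix.of_apply, Fin.addCases_left, Fin.addCases_right, h3, h4,
    zero_smul, Finset.sum_const_zero, zero_add]

/-- the pull-back by a holomorphic map intertwines the Lefschetz operators -/
theorem lr_Lw (h : DifferentiableAt ℂ ψ z) (W : Matrix (Fin b) (Fin b) ℂ) :
    lr (jc ψ z) * Lw W = Lw ((jm ψ z)ᵀ * W * (jm ψ z).map (starRingEnd ℂ)) * lr (jc ψ z) := by
  have h1 : ∀ j k, lr (jc ψ z) * (eps (hl j) * eps (ah k)) = (∑ i, ∑ l,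
      (jm ψ z j i * (starRingEnd ℂ) (jm ψ z k l)) • (eps (hl i) * eps (ah l))) * lr (jc ψ z) := by
    intro j k
    rw [← Matrix.mul_assoc, F1aH.lr_eps, Matrix.mul_assoc, F1aH.lr_eps, ← Matrix.mul_assoc,
      col_hl h, col_ah h, Finset.sum_mul_sum]
    simp only [smul_mul_smul_comm]
  have h2 : lr (jc ψ z) * Lw W = (∑ j, ∑ k, (Complex.I * W j k) • ∑ i, ∑ l,
      (jm ψ z j i * (starRingEnd ℂ) (jm ψ z k l)) • (eps (hl i) * eps (ah l))) * lr (jc ψ z) := by
    rw [Lw, Matrix.mul_sum, Matrix.sum_mul]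
    refine Finset.sum_congr rfl fun j _ => ?_
    rw [Matrix.mul_sum, Matrix.sum_mul]
    refine Finset.sum_congr rfl fun k _ => ?_
    rw [Matrix.mul_smul, h1, Matrix.smul_mul]
  rw [h2, Lw]
  congr 1
  simp only [Matrix.mul_apply, Matrix.transpose_apply, Matrix.map_apply, Finset.smul_sum,
    smul_smul, Finset.mul_sum, Finset.sum_mul, Finset.sum_smul]
  rw [Finset.sum_comm]
  conv_lhs => enter [2, k]; rw [Finset.sum_comm]; enter [2, i]; rw [Finset.sum_comm]
  rw [Finset.sum_comm]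
  refine Finset.sum_congr rfl fun i _ => ?_
  rw [Finset.sum_comm]
  refine Finset.sum_congr rfl fun l _ => Finset.sum_congr rfl fun k _ =>
    Finset.sum_congr rfl fun j _ => ?_
  congr 1
  ring

end alg

section imm
variable {n m : ℕ} {X F : Type} [TopologicalSpace X] [ChartedSpace (Cm n) X]
  [IsManifold 𝓘(ℂ, Cm n) ω X] [TopologicalSpace F] [ChartedSpace (Cm m) F] {j : F → X}

omit [IsManifold 𝓘(ℂ, Cm n) ω X] in
theorem loc_omega (hj : Continuous j) (h : ∀ e ∈ atlas (Cm m) F, Imm n j e) {e : Chart m F}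
    {e' : Chart n X} {x : F} (hx : At e x) (hx' : At e' (j x)) :
    ContDiffAt ℂ ω (fun z => e' (j (e.symm z))) (e x) :=
  (h e hx.1).omega hj (e.map_source hx.2) (by rw [e.left_inv hx.2]; exact hx')

omit [IsManifold 𝓘(ℂ, Cm n) ω X] in
theorem hol (hj : Continuous j) (h : ∀ e ∈ atlas (Cm m) F, Imm n j e) :
    ContMDiff 𝓘(ℂ, Cm m) 𝓘(ℂ, Cm n) ω j := fun y => by
  rw [contMDiffAt_iff]
  exact ⟨hj.continuousAt, (loc_omega hj h ⟨chart_mem_atlas _ _, mem_chart_source _ y⟩
    ⟨chart_mem_atlas _ _, mem_chart_source _ (j y)⟩).contDiffWithinAt⟩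

theorem kah (hj : Continuous j) (h : ∀ e ∈ atlas (Cm m) F, Imm n j e)
    {w : Chart n X → Cm n → Matrix (Fin n) (Fin n) ℂ} (hw : IsKahler w) :
    IsKahler (n := m) (X := F) (pb j w) := by
  have hI : ImmY n m j := ⟨hj, fun y => ⟨chartAt (Cm m) y, mem_chart_source _ y,
    h _ (chart_mem_atlas _ y)⟩⟩
  obtain ⟨⟨k1, k2, k3⟩, k4⟩ := isKahler_pb hI hw
  exact ⟨⟨fun e x hx => k1 e x ⟨h e hx.1, hx.2⟩, fun e x hx => k2 e x ⟨h e hx.1, hx.2⟩,
    fun e e' x hx hx' => k3 e e' x ⟨h e hx.1, hx.2⟩ ⟨h e' hx'.1, hx'.2⟩⟩,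
    fun e x hx => k4 e x ⟨h e hx.1, hx.2⟩⟩

end imm

section slice
variable {p d : ℕ} {X Y : Type} [TopologicalSpace X] [ChartedSpace (Cm (p + d)) X]
  [TopologicalSpace Y] {f : X → Y} {χ : Chart p Y} {y : Y}

/-- the points of the slice lie in the fibre -/
theorem slice_mem {c : OpenPartialHomeomorph X (Cm p × Cm d)} (hc : IsProd f χ c)
    (hy : y ∈ χ.source) {w : Cm d} (hw : (χ y, w) ∈ c.target) : c.symm (χ y, w) ∈ f ⁻¹' {y} := by
  obtain ⟨h1, h2⟩ := hc.fst _ (c.map_target hw)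
  rw [c.right_inv hw] at h2
  exact (χ.injOn hy h1 h2).symm

theorem slice_eq {c : OpenPartialHomeomorph X (Cm p × Cm d)} (hc : IsProd f χ c) {x : X}
    (hx : x ∈ c.source) (h : f x = y) : ((χ y, (c x).2) : Cm p × Cm d) = c x :=
  Prod.ext (by rw [(hc.fst _ hx).2, h]) rfl

open Classical in
/-- the chart of the fibre given by a product chart -/
def slice (c : OpenPartialHomeomorph X (Cm p × Cm d)) (hc : IsProd f χ c) (hy : y ∈ χ.source)
    (m₀ : f ⁻¹' {y}) : Chart d (f ⁻¹' {y} : Set X) where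
  toFun m := (c m.1).2
  invFun w := if h : (χ y, w) ∈ c.target then ⟨c.symm (χ y, w), slice_mem hc hy h⟩ else m₀
  source := {m | m.1 ∈ c.source}
  target := {w | (χ y, w) ∈ c.target}
  map_source' m hm := by
    show (χ y, (c m.1).2) ∈ c.target
    rw [slice_eq hc hm m.2]
    exact c.map_source hm
  map_target' w hw := by
    have hw' : (χ y, w) ∈ c.target := hw
    simp only [dif_pos hw']
    exact c.map_target hw'
  left_inv' m hm := by
    have h1 := slice_eq hc hm m.2
    have h2 : (χ y, (c m.1).2) ∈ c.target := by rw [h1]; exact c.map_source hm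
    simp only [dif_pos h2]
    refine Subtype.ext ?_
    show c.symm (χ y, (c m.1).2) = m.1
    rw [h1, c.left_inv hm]
  right_inv' w hw := by
    have hw' : (χ y, w) ∈ c.target := hw
    simp only [dif_pos hw']
    rw [c.right_inv hw']
  open_source := c.open_source.preimage continuous_subtype_val
  open_target := c.open_target.preimage (by fun_prop : Continuous fun w : Cm d => (χ y, w))
  continuousOn_toFun m hm := (continuous_snd.continuousAt.comp
    (ContinuousAt.comp (g := c) (c.continuousAt hm) continuousAt_subtype_val)).continuousWithinAt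
  continuousOn_invFun := by
    rw [IsInducing.subtypeVal.continuousOn_iff]
    intro w hw
    have hw' : (χ y, w) ∈ c.target := hw
    have h1 : ContinuousAt (fun w : Cm d => c.symm (χ y, w)) w :=
      ContinuousAt.comp (g := c.symm) (c.continuousAt_symm hw')
        (by fun_prop : Continuous fun w : Cm d => (χ y, w)).continuousAt
    refine h1.continuousWithinAt.congr (fun v hv => ?_) ?_
    · have hv' : (χ y, v) ∈ c.target := hv
      simp only [Function.comp_apply, dif_pos hv']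
    · simp only [Function.comp_apply, dif_pos hw']

variable [ChartedSpace (Cm p) Y] {F : Type} [TopologicalSpace F] {j : F → X} {q : PC p d X Y}
  {e : Chart d F}

/-- the inclusion of the fibre in a slice chart -/
theorem symm_eq (hq : IsPC f q) (hs : Sl y j q e) (hj : ∀ x, f (j x) = y) {z : Cm d}
    (hz : z ∈ e.target) : j (e.symm z) = q.2.symm (q.1 y, z) := by
  have h1 : j (e.symm z) ∈ q.2.source := by
    have := e.map_target hz
    rwa [hs.src] at this
  have h2 := slice_eq hq.2 h1 (hj _)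
  rw [← hs.val _ (e.map_target hz), e.right_inv hz] at h2
  rw [h2, q.2.left_inv h1]

/-- the inclusion of the fibre is a holomorphic immersion -/
theorem imm [IsManifold 𝓘(ℂ, Cm (p + d)) ω X] (hq : IsPC f q) (hs : Sl y j q e)
    (hj : ∀ x, f (j x) = y) : Imm (p + d) j e := by
  intro z hz e' he'
  have hz' : ((q.1 y, z) : Cm p × Cm d) ∈ q.2.target := by
    have := hz
    rwa [hs.tgt] at this
  have h0 := symm_eq hq hs hj hz
  have hm := IsManifold.subset_maximalAtlas (I := 𝓘(ℂ, Cm (p + d))) (n := ω) he'.1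
  have h1 : ContDiffAt ℂ ω (fun v : Cm p × Cm d => e' (q.2.symm v)) (q.1 y, z) :=
    contMDiffAt_iff_contDiffAt.1 (ContMDiffAt.comp (g := e') _
      (contMDiffAt_of_mem_maximalAtlas hm (h0 ▸ he'.2))
      (hq.2.symm_hol.contMDiffAt (q.2.open_target.mem_nhds hz')))
  have h2 : DifferentiableAt ℂ (fun z' => e' (j (e.symm z'))) z := by
    refine ((h1.differentiableAt (by simp)).comp z
      ((differentiableAt_const _).prodMk differentiableAt_id)).congr_of_eventuallyEq ?_
    filter_upwards [e.open_target.mem_nhds hz] with v hv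
    rw [symm_eq hq hs hj hv]
    rfl
  have h3 : j (e.symm z) ∈ q.2.source := h0 ▸ q.2.map_target hz'
  have h4 : ContDiffAt ℂ ω (fun u => q.2 (e'.symm u)) (e' (j (e.symm z))) :=
    contMDiffAt_iff_contDiffAt.1 (ContMDiffAt.comp (g := q.2) _
      (hq.2.hol.contMDiffAt (q.2.open_source.mem_nhds (by rw [e'.left_inv he'.2]; exact h3)))
      (contMDiffAt_symm_of_mem_maximalAtlas hm (e'.map_source he'.2)))
  have h5 := ((h4.differentiableAt (by simp)).snd.hasFDerivAt.comp z h2.hasFDerivAt)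
  have h6 : ((fun u => (q.2 (e'.symm u)).2) ∘ fun z' => e' (j (e.symm z'))) =ᶠ[𝓝 z] id := by
    have h7 : ContinuousAt (fun v : Cm d => q.2.symm (q.1 y, v)) z :=
      ContinuousAt.comp (g := q.2.symm) (q.2.continuousAt_symm hz') (by fun_prop)
    filter_upwards [e.open_target.mem_nhds hz,
      h7.eventually (e'.open_source.mem_nhds (mem_of_eq_of_mem h0.symm he'.2))] with v hv hv'
    have hv2 : ((q.1 y, v) : Cm p × Cm d) ∈ q.2.target := by rwa [hs.tgt] at hv
    show (q.2 (e'.symm (e' (j (e.symm v))))).2 = v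
    rw [symm_eq hq hs hj hv, e'.left_inv hv', q.2.right_inv hv2]
  have h8 := (h5.congr_of_eventuallyEq h6.symm).unique (hasFDerivAt_id z)
  exact ⟨h2, fun v v' hv => by
    have a := DFunLike.congr_fun h8 v
    have b := DFunLike.congr_fun h8 v'
    rw [ContinuousLinearMap.comp_apply] at a b
    rw [hv] at a
    exact a.symm.trans b⟩

end slice

end Vale.Agent.P281Z.Hg.FibH

namespace Vale.Agent.P281Z.Hg

open FibH in
/-- row FIB -/
theorem fib (p d : ℕ) (X Y : Type) [TopologicalSpace X] [ChartedSpace (Cm (p + d)) X]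
    [TopologicalSpace Y] [ChartedSpace (Cm p) Y] [T2Space X] [CompactSpace X]
    [IsManifold 𝓘(ℂ, Cm (p + d)) ω X] [T2Space Y] [IsManifold 𝓘(ℂ, Cm p) ω Y] : FIB p d X Y := by
  intro w f U hF y hy
  have hf := hF.hol.continuous
  refine ⟨?_, fun B => ?_⟩
  · obtain ⟨x₀, hx₀⟩ := hF.onto y hy
    have hχ : At (chartAt (Cm p) y) y := ⟨chart_mem_atlas _ _, mem_chart_source _ _⟩
    have hsl : ∀ (q : PC p d X Y) (hq : IsPC f q) (h : y ∈ q.1.source),
        Sl y Subtype.val q (slice q.2 hq.2 h ⟨x₀, hx₀⟩) := fun q hq h => ⟨h, rfl, rfl, fun _ _ => rfl⟩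
    choose cc c1 c2 using fun m : (f ⁻¹' {y} : Set X) => exists_prodChart (d := d) hF.hol hχ.1
      (x := m.1) (by rw [show f m.1 = y from m.2]; exact hχ.2)
      (hF.sub _ (by rw [show f m.1 = y from m.2]; exact hy))
    let cs : ChartedSpace (Cm d) (f ⁻¹' {y} : Set X) :=
      { atlas := {e | ∃ q : PC p d X Y, IsPC f q ∧ Sl y Subtype.val q e}
        chartAt := fun m => slice (cc m) (c2 m) hχ.2 ⟨x₀, hx₀⟩
        mem_chart_source := c1
        chart_mem_atlas := fun m => ⟨(_, cc m), ⟨hχ.1, c2 m⟩, hsl (_, cc m) ⟨hχ.1, c2 m⟩ hχ.2⟩ }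
    have : SecondCountableTopology X := ChartedSpace.secondCountable_of_sigmaCompact (Cm (p + d)) X
    have cpt : CompactSpace (f ⁻¹' {y} : Set X) :=
      isCompact_iff_compactSpace.1 (isClosed_singleton.preimage hf).isCompact
    have mf : IsManifold 𝓘(ℂ, Cm d) ω (f ⁻¹' {y} : Set X) := by
      refine isManifold_of_contDiffOn 𝓘(ℂ, Cm d) ω _ fun e e' ⟨q, a, b⟩ ⟨q', a', b'⟩ z hz => ?_
      have hz' : z ∈ (e.symm ≫ₕ e').source := by simpa using hz.1
      rw [OpenPartialHomeomorph.trans_source] at hz'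
      exact (Imm.trans continuous_subtype_val (imm a b fun x => x.2) (imm a' b' fun x => x.2)
        hz'.1 hz'.2).contDiffWithinAt
    exact ⟨@Fib.mk p d X Y _ _ _ _ f y (f ⁻¹' {y} : Set X) (metrizableSpaceMetric _) cs cpt mf
      Subtype.val IsEmbedding.subtypeVal Subtype.range_coe (fun e he => he)
      fun q hq h => ⟨_, ⟨q, hq, hsl q hq h⟩, hsl q hq h⟩⟩
  · have hc := B.emb.continuous
    have hj : ∀ x, f (B.j x) = y := fun x => by
      have : B.j x ∈ f ⁻¹' {y} := B.rng ▸ mem_range_self x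
      exact this
    have hI : ∀ e ∈ atlas (Cm d) B.F, Imm (p + d) B.j e := fun e he => by
      obtain ⟨q, a, b⟩ := B.ch1 e he
      exact imm a b hj
    refine ⟨⟨hc, fun e e' x hx hx' => ((loc_omega hc hI hx hx').restrict_scalars ℝ).of_le le_top⟩,
      ⟨pb B.j w, kah hc hI hF.kah, fun e e' x hx hx' => ?_⟩, fun wF T u h1 h2 h3 e x hx => ?_⟩
    · rw [pb_apply (hol hc hI) hF.kah.toIsHermitian hx hx', pl, loc_apply hx]
      rfl
    · have hx' : At (chartAt (Cm (p + d)) (B.j x)) (B.j x) :=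
        ⟨chart_mem_atlas _ _, mem_chart_source _ _⟩
      rw [h2 u e _ x hx hx', h3 _ _ hx', h1 e _ x hx hx', Matrix.mulVec_mulVec,
        lr_Lw ((loc_omega hc hI hx hx').differentiableAt (by simp)), ← Matrix.mulVec_mulVec,
        F1aH.lr_ev]
      rfl

end Vale.Agent.P281Z.Hg
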