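import Vale.Agent.P281Z.Hg.F1a

/-!
# P281, Hodge block: types, conjugation, block matrices (row F1b)
-/

open scoped Matrix
open Vale.Agent.P299.IX Vale.Agent.P299.IX.Fock

noncomputable section

namespace Vale.Agent.P281Z.Hg

namespace F1bH

open F1aH

variable {n d : ℕ}

/-- functions of the weighted degree -/
def dw (w : Fin n → ℕ) (c : ℕ → ℂ) : FM n := Matrix.diagonal fun I => c (∑ l ∈ I, w l)

theorem dw_eps (w : Fin n → ℕ) (c : ℕ → ℂ) (l : Fin n) :
    dw w c * eps l = eps l * dw w fun m => c (m + w l) := by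
  ext I K
  rw [dw, dw, Matrix.diagonal_mul, Matrix.mul_diagonal, eps, Matrix.of_apply]
  split_ifs with h
  · rw [h.2, Finset.sum_insert h.1, add_comm, mul_comm]
  · rw [mul_zero, zero_mul]

theorem dw_lam {w w' : Fin n → ℕ} {J : Matrix (Fin n) (Fin n) ℂ}
    (h : ∀ p l, J p l ≠ 0 → w p = w' l) (c : ℕ → ℂ) : dw w c * lam J = lam J * dw w' c := by
  have h0 : ∀ (w : Fin n → ℕ) (c : ℕ → ℂ) I, dw w c *ᵥ ev I = c (∑ l ∈ I, w l) • ev I :=
    fun w c I => funext fun K => by
      rw [dw, Matrix.mulVec_diagonal, Pi.smul_apply, smul_eq_mul]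
      by_cases e : K = I <;> simp [ev, e]
  have h1 : ∀ l (c : ℕ → ℂ), dw w c * epsV (fun p => J p l) =
      epsV (fun p => J p l) * dw w fun m => c (m + w' l) := fun l c => by
    rw [epsV, Finset.mul_sum, Finset.sum_mul]
    refine Finset.sum_congr rfl fun p _ => ?_
    by_cases e : J p l = 0
    · rw [e, zero_smul, mul_zero, zero_mul]
    · rw [Matrix.mul_smul, Matrix.smul_mul, dw_eps, h p l e]
  refine ext_ev fun I => ?_
  rw [← Matrix.mulVec_mulVec, ← Matrix.mulVec_mulVec]
  induction I using Finset.induction_on_min generalizing c with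
  | empty => rw [lam_ev_empty, h0, h0, Matrix.mulVec_smul, lam_ev_empty, Finset.sum_empty,
      Finset.sum_empty]
  | insert i I hi ih =>
    rw [lam_ev_insert J hi, Matrix.mulVec_mulVec, h1, ← Matrix.mulVec_mulVec, ih, h0, h0,
      Matrix.mulVec_smul, Matrix.mulVec_smul, Matrix.mulVec_smul, lam_ev_insert J hi,
      Finset.sum_insert fun h' => lt_irrefl i (hi i h'), add_comm]

theorem hl_lt (j : Fin d) : (hl j).val < d := j.2

theorem ah_lt (j : Fin d) : ¬(ah j).val < d := Nat.not_lt.2 (Nat.le_add_right d j)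

theorem idx {P : Fin (d + d) → Prop} (h : ∀ j, P (hl j)) (h' : ∀ j, P (ah j)) (l : Fin (d + d)) :
    P l := Fin.addCases h h' l

theorem hl_ne (i j : Fin d) : hl i ≠ ah j := fun e => ah_lt j (e ▸ hl_lt i)

theorem hl_inj {i j : Fin d} : hl i = hl j ↔ i = j := (Fin.castAdd_injective d d).eq_iff

theorem ah_inj {i j : Fin d} : ah i = ah j ↔ i = j := (Fin.natAdd_injective d d).eq_iff

theorem pm_dw (d k : ℕ) :
    pm d k = dw (fun l => if l.val < d then 1 else 0) fun m => if m = k then 1 else 0 := by
  simp only [pm, dw, tp, Finset.card_filter]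

theorem pm_tr (d k : ℕ) : (pm d k)ᵀ = pm d k := Matrix.diagonal_transpose _

theorem Hd_eq (d : ℕ) : Hd d = Finset.univ.map (Fin.castAddEmb d) := by
  ext l
  rw [Hd, Finset.mem_filter, Finset.mem_map]
  exact ⟨fun h => ⟨⟨l, h.2⟩, Finset.mem_univ _, rfl⟩,
    fun ⟨j, _, e⟩ => ⟨Finset.mem_univ _, e ▸ hl_lt j⟩⟩

theorem card_Hd (d : ℕ) : (Hd d).card = d := by rw [Hd_eq, Finset.card_map, Finset.card_fin]

theorem tp_Hd (d : ℕ) : tp (Hd d) = d := by
  rw [tp, Finset.filter_true_of_mem (s := Hd d) fun _ h => (Finset.mem_filter.1 h).2, card_Hd]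

theorem tp_compl (I : FI (d + d)) : tp I + tp Iᶜ = d := by
  rw [tp, tp, ← Finset.card_union_of_disjoint (Finset.disjoint_filter_filter disjoint_compl_right),
    ← Finset.filter_union, Finset.union_compl]
  exact card_Hd d

theorem tp_le (I : FI (d + d)) : tp I ≤ d := (Nat.le_add_right _ _).trans_eq (tp_compl I)

theorem pm_hl (k : ℕ) (j : Fin d) : pm d (k + 1) * eps (hl j) = eps (hl j) * pm d k := by
  simp only [pm_dw, dw_eps, hl_lt, if_true, add_left_inj]

theorem pm_ah (k : ℕ) (j : Fin d) : pm d k * eps (ah j) = eps (ah j) * pm d k := by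
  simp only [pm_dw, dw_eps, ah_lt, if_false, add_zero]

variable (A B A' B' : Matrix (Fin d) (Fin d) ℂ) (i j : Fin d)

theorem blk_hh : blk A B (hl i) (hl j) = A i j := by simp [blk, hl]

theorem blk_aa : blk A B (ah i) (ah j) = B i j := by
  simp only [blk, ah, Matrix.reindex_apply, Matrix.submatrix_apply,
    finSumFinEquiv_symm_apply_natAdd, Matrix.fromBlocks_apply₂₂]

theorem blk_ha : blk A B (hl i) (ah j) = 0 := by
  simp only [blk, hl, ah, Matrix.reindex_apply, Matrix.submatrix_apply, Matrix.zero_apply,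
    finSumFinEquiv_symm_apply_natAdd, finSumFinEquiv_symm_apply_castAdd, Matrix.fromBlocks_apply₁₂]

theorem blk_ah : blk A B (ah i) (hl j) = 0 := by
  simp only [blk, hl, ah, Matrix.reindex_apply, Matrix.submatrix_apply, Matrix.zero_apply,
    finSumFinEquiv_symm_apply_natAdd, finSumFinEquiv_symm_apply_castAdd, Matrix.fromBlocks_apply₂₁]

theorem swm_hl (p : Fin (d + d)) : swm d p (hl j) = if p = ah j then 1 else 0 := by
  induction p using idx with
  | h i => rw [if_neg (hl_ne i j)]; simp [swm, hl]
  | h' i => simp only [ah_inj]; simp only [swm, hl, ah, Matrix.reindex_apply,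
      Matrix.submatrix_apply, Matrix.one_apply, finSumFinEquiv_symm_apply_natAdd,
      finSumFinEquiv_symm_apply_castAdd, Matrix.fromBlocks_apply₂₁]

theorem swm_ah (p : Fin (d + d)) : swm d p (ah j) = if p = hl j then 1 else 0 := by
  induction p using idx with
  | h i => simp only [hl_inj]; simp only [swm, hl, ah, Matrix.reindex_apply,
      Matrix.submatrix_apply, Matrix.one_apply, finSumFinEquiv_symm_apply_natAdd,
      finSumFinEquiv_symm_apply_castAdd, Matrix.fromBlocks_apply₁₂]
  | h' i => rw [if_neg (hl_ne j i).symm]; simp only [swm, ah, Matrix.reindex_apply,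
      Matrix.submatrix_apply, Matrix.zero_apply, finSumFinEquiv_symm_apply_natAdd,
      Matrix.fromBlocks_apply₂₂]

theorem swm_sq (d : ℕ) : swm d * swm d = 1 := by simp [swm, Matrix.fromBlocks_multiply]

theorem swm_tr (d : ℕ) : (swm d)ᵀ = swm d := by simp [swm, Matrix.fromBlocks_transpose]

theorem swm_star (d : ℕ) : (swm d).map star = swm d := by
  ext p l
  induction l using idx with
  | h j => rw [Matrix.map_apply, swm_hl]; split_ifs <;> simp
  | h' j => rw [Matrix.map_apply, swm_ah]; split_ifs <;> simp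

theorem swm_det (d : ℕ) : (swm d).det = (-1) ^ d := by
  have h : (Matrix.fromBlocks 0 1 1 0 : Matrix (Fin d ⊕ Fin d) (Fin d ⊕ Fin d) ℂ) =
      Matrix.fromBlocks 1 1 0 1 * Matrix.fromBlocks (-1) 0 1 1 * Matrix.fromBlocks 1 (-1) 0 1 := by
    simp [Matrix.fromBlocks_multiply]
  rw [swm, Matrix.det_reindex_self, h]
  simp [Matrix.det_neg]

theorem star_mv {m k : Type} [Fintype k] (M : Matrix m k ℂ) (v : k → ℂ) :
    star (M *ᵥ v) = M.map star *ᵥ star v := by
  ext p
  simp [Matrix.mulVec, dotProduct]

theorem star_mul' {l m k : Type} [Fintype m] (M : Matrix l m ℂ) (N : Matrix m k ℂ) :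
    (M * N).map star = M.map star * N.map star := Matrix.map_mul (f := starRingEnd ℂ)

theorem star_ev (I : FI n) : star (ev I) = ev I := by
  ext K
  by_cases h : K = I <;> simp [ev, h]

theorem ite_star {m : Type} [DecidableEq m] (P : m → Prop) [DecidablePred P] :
    (Matrix.diagonal fun I => if P I then (1 : ℂ) else 0).map star =
      Matrix.diagonal fun I => if P I then 1 else 0 := by
  rw [Matrix.diagonal_map (star_zero ℂ)]
  exact congrArg Matrix.diagonal (funext fun I => by split_ifs <;> simp)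

theorem lr_star {a b : ℕ} (J : Matrix (Fin a) (Fin b) ℂ) : (lr J).map star = lr (J.map star) := by
  refine ext_eps (E := fun l => epsV fun p => J.map star p l) ?_ (fun l => ?_) (lr_eps _)
  · rw [lr_ev, ← star_ev, ← star_mv, lr_ev, star_ev]
  · rw [← Fock.eps_star, ← star_mul', lr_eps, star_mul']
    congr 1
    rw [← Matrix.transpose_transpose (Matrix.map _ _), ← Matrix.transpose_map,
      ← Matrix.conjTranspose, epsV_conjTranspose, iotV_transpose]
    rfl

/-- conjugation intertwines `M` and `N` -/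
theorem cjv_mul {M N : Fm d} (h : lam (swm d) * M.map star = N * lam (swm d)) (u : Fo d) :
    cjv (M *ᵥ u) = N *ᵥ cjv u := by
  rw [cjv, cjv, star_mv, Matrix.mulVec_mulVec, h, Matrix.mulVec_mulVec]

theorem iot_star (l : Fin n) : (iot l).map star = iot l := by
  rw [iot, Matrix.transpose_map, Fock.eps_star]

theorem swm_eps {l l' : Fin (d + d)} (h : ∀ p, swm d p l = if p = l' then 1 else 0) (u : Fo d) :
    cjv (eps l *ᵥ u) = eps l' *ᵥ cjv u := cjv_mul (by
  rw [Fock.eps_star, lam_eps_col, ← epsV_single, funext h, funext (Pi.single_apply l' 1)]) u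

theorem swm_iot {l l' : Fin (d + d)} (h : ∀ p, swm d p l = if p = l' then 1 else 0) (u : Fo d) :
    cjv (iot l' *ᵥ u) = iot l *ᵥ cjv u := cjv_mul (by
  rw [iot_star, iot_lam_row, ← iotV_single, funext (Pi.single_apply l' 1), ← funext h]
  conv_lhs => rw [← swm_tr]
  rw [swm_tr]
  exact congrArg (fun v => lam (swm d) * iotV v)
    (funext fun p => congrFun (congrFun (swm_tr d) l) p)) u

theorem blk_Hd : lam (blk A B) *ᵥ ev (Hd d) = A.det • ev (Hd d) := by
  let P : Matrix (Fin (d + d)) (Fin d) ℂ := Matrix.of fun p j => if p = hl j then 1 else 0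
  have h1 : ∀ I : FI d, lr P *ᵥ ev I = ev (I.map (Fin.castAddEmb d)) := fun I => by
    induction I using Finset.induction_on_min with
    | empty => exact lr_ev P
    | insert i I hi ih =>
      rw [← eps_ev_min hi, Matrix.mulVec_mulVec, lr_eps, ← Matrix.mulVec_mulVec, ih,
        Finset.map_insert, ← eps_ev_min fun l hl => by
          obtain ⟨j, hj, rfl⟩ := Finset.mem_map.1 hl
          exact hi j hj, ← epsV_single, funext (Pi.single_apply _ 1)]
      rfl
  have h2 : blk A B * P = P * A := by
    ext p j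
    simp only [Matrix.mul_apply, P, Matrix.of_apply, mul_ite, mul_one, mul_zero,
      Finset.sum_ite_eq', Finset.mem_univ, if_true]
    induction p using idx with
    | h i => simp [blk_hh, hl_inj]
    | h' i => simp [blk_ah, (hl_ne _ i).symm]
  rw [Hd_eq, ← h1, Matrix.mulVec_mulVec, show lam (blk A B) = lr (blk A B) from rfl, ← f1a.lr_mul,
    h2, f1a.lr_mul, ← Matrix.mulVec_mulVec, show lr A = lam A from rfl, lam_ev_univ,
    Matrix.mulVec_smul]

end F1bH

open F1aH F1bH in
/-- **F1b** -/
theorem f1b : F1b where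
  pm_mul d j k := by
    rw [pm, pm, Matrix.diagonal_mul_diagonal]
    split_ifs with h
    · exact congrArg Matrix.diagonal (funext fun p => by rw [h]; split_ifs <;> simp)
    · rw [← Matrix.diagonal_zero]
      exact congrArg Matrix.diagonal (funext fun I => by by_cases e : tp I = j <;> simp [e, h])
  pm_sum d := by
    ext K I
    have := Nat.lt_succ_of_le (tp_le K)
    simp only [pm, Matrix.sum_apply, Matrix.diagonal_apply, Matrix.one_apply]
    split_ifs <;> simp [this]
  pm_zero d k h := by
    rw [← Matrix.diagonal_zero]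
    exact congrArg Matrix.diagonal (funext fun I => if_neg ((tp_le I).trans_lt h).ne)
  pm_dg d k m := Matrix.commute_diagonal _ _
  pm_lt d k m h := by
    rw [pm, dg, dgl, Matrix.diagonal_mul_diagonal, ← Matrix.diagonal_zero]
    refine congrArg Matrix.diagonal (funext fun I => ?_)
    have : tp I ≤ I.card := Finset.card_filter_le _ _
    split_ifs <;> first | omega | simp
  pm_hl _ := pm_hl
  pm0_hl d j := by
    rw [pm_dw, dw_eps]
    simp [hl_lt, dw]
  pm_ah _ := pm_ah
  pm_ihl d k j := by
    have := congrArg Matrix.transpose (pm_hl k j)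
    rw [Matrix.transpose_mul, Matrix.transpose_mul, pm_tr, pm_tr] at this
    exact this.symm
  pm_iah d k j := by
    have := congrArg Matrix.transpose (pm_ah k j)
    rw [Matrix.transpose_mul, Matrix.transpose_mul, pm_tr] at this
    exact this.symm
  Bq_pm u v j k h := Bq_mul (by
    ext K I
    rw [pm_tr, pm, pm, Matrix.mul_diagonal, Matrix.diagonal_mul, hst_apply, mul_comm]
    by_cases e : K = Iᶜ
    · have := tp_compl I
      rw [e, if_congr (show tp I = k ↔ tp Iᶜ = j by omega) rfl rfl]
    · rw [if_neg e, mul_zero, mul_zero]) u v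
  Cw_eq d := by
    ext K I
    have h1 := Nat.lt_succ_of_le (tp_le K)
    have h2 := Nat.lt_succ_of_le (K.card_le_univ.trans_eq (Fintype.card_fin _))
    simp only [Cw, pm, dg, dgl, Matrix.diagonal_mul_diagonal, Matrix.sum_apply, Matrix.smul_apply,
      Matrix.diagonal_apply]
    split_ifs <;> simp [h1, h2]
  blk_hh := blk_hh
  blk_aa := blk_aa
  blk_ha := blk_ha
  blk_ah := blk_ah
  blk_mul A B A' B' := by simp [blk, Matrix.fromBlocks_multiply]
  blk_one d := by simp [blk]
  blk_det A B := by rw [blk, Matrix.det_reindex_self, Matrix.det_fromBlocks_zero₂₁]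
  blk_ct A B := by simp [blk, Matrix.fromBlocks_conjTranspose]
  blk_tr A B := by simp [blk, Matrix.fromBlocks_transpose]
  pm_blk A B k := by
    rw [pm_dw]
    refine dw_lam (fun p l h => ?_) _
    induction p using idx <;> induction l using idx <;>
      simp_all only [hl_lt, ah_lt, blk_ha, blk_ah, ne_eq, not_true]
  blk_Hd := blk_Hd
  top {d} u := by
    refine ⟨fun h => funext fun I => ?_, fun h => ?_⟩
    · have h1 := congrFun h.1 I
      have h2 := congrFun h.2 I
      rw [pm, Matrix.mulVec_diagonal] at h1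
      rw [dg_mulVec] at h2
      rw [Pi.smul_apply, ev, Pi.single_apply, smul_eq_mul]
      split_ifs with e
      · rw [e, mul_one]
      · rw [mul_zero]
        split_ifs at h1 h2 with a b
        · refine (e (Finset.eq_of_subset_of_card_le (fun l hl => Finset.mem_filter.2
            ⟨Finset.mem_univ _, Finset.filter_card_eq (a.trans b.symm) l hl⟩) ?_)).elim
          rw [card_Hd, b]
        all_goals first | exact h2.symm | rw [← h1, zero_mul]
    · rw [h, Matrix.mulVec_smul, Matrix.mulVec_smul, dg, dgl_ev, card_Hd, if_pos rfl, one_smul]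
      refine ⟨congrArg _ (funext fun I => ?_), rfl⟩
      rw [pm, Matrix.mulVec_diagonal]
      by_cases e : I = Hd d <;> simp [ev, e, tp_Hd]
  eps_Hd j := eps_ev_of_mem (Finset.mem_filter.2 ⟨Finset.mem_univ _, hl_lt j⟩)
  iot_Hd j := iot_ev_of_notMem fun h => ah_lt j (Finset.mem_filter.1 h).2
  swm_sq := swm_sq
  swm_tr := swm_tr
  swm_star := swm_star
  swm_det := swm_det
  swm_blk A B := by simp [blk, swm, Matrix.fromBlocks_multiply]
  swm_hl := swm_hl
  swm_ah := swm_ah
  cjv_add u v := by rw [cjv, star_add, Matrix.mulVec_add, cjv, cjv]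
  cjv_smul c u := by rw [cjv, star_smul, Matrix.mulVec_smul, cjv]
  cjv_cjv u := by rw [cjv, cjv, star_mv, star_star, lam_map_star, swm_star, Matrix.mulVec_mulVec,
    ← lam_mul, swm_sq, lam_one, Matrix.one_mulVec]
  cjv_ev d := by rw [cjv, star_ev, lam_ev_empty]
  cjv_hl u j := swm_eps (swm_hl j) u
  cjv_ah u j := swm_eps (swm_ah j) u
  cjv_ihl u j := swm_iot (swm_ah j) u
  cjv_iah u j := swm_iot (swm_hl j) u
  cjv_dg u m := cjv_mul (by rw [dg_lam, dg, dgl, ite_star]) u
  cjv_pm {d} u j k := by
    have h1 : dw (fun l : Fin (d + d) => if l.val < d then 0 else 1)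
        (fun m => if m = j then 1 else 0) * lam (swm d) = lam (swm d) * pm d j := by
      rw [pm_dw]
      refine dw_lam (fun p l h => ?_) _
      induction l using idx with
      | h l => rw [swm_hl] at h; simp only [(ite_ne_right_iff.1 h).1, hl_lt, ah_lt, if_true,
          if_false]
      | h' l => rw [swm_ah] at h; simp only [(ite_ne_right_iff.1 h).1, hl_lt, ah_lt, if_true,
          if_false]
    rw [cjv_mul (M := pm d j) ((congrArg _ (ite_star _)).trans h1.symm),
      cjv_mul (M := dg (j + k)) (N := dg (j + k)) (by rw [dg_lam, dg, dgl, ite_star])]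
    ext I
    have h2 : tp I + ∑ l ∈ I, (if l.val < d then 0 else 1) = I.card := by
      rw [tp, Finset.card_filter, ← Finset.sum_add_distrib, Finset.card_eq_sum_ones]
      exact Finset.sum_congr rfl fun l _ => by split_ifs <;> rfl
    rw [dw, pm, Matrix.mulVec_diagonal, Matrix.mulVec_diagonal, dg_mulVec]
    split_ifs <;> first | omega | simp
  cjv_lr {a b} J u := by
    rw [cjv, cjv, star_mv, lr_star, Matrix.mulVec_mulVec, Matrix.mulVec_mulVec,
      show lam (swm a) = lr (swm a) from rfl, show lam (swm b) = lr (swm b) from rfl,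
      ← f1a.lr_mul, ← f1a.lr_mul, Matrix.mul_assoc _ (swm b), swm_sq, Matrix.mul_one]
  Bq_cjv {d} u v := by
    rw [cjv, cjv, f1a.Bq_lam _ _ _ (by rw [swm_det]; exact isUnit_one.neg.pow d), swm_det, Bq, Bq,
      ← f1a.hst_star, ← star_mv, Matrix.star_dotProduct_star, dotProduct_comm, f1a.hst_star]

end Vale.Agent.P281Z.Hg
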