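import Vale.Agent.P281Z.Hg.K1a
import Vale.Agent.P281Z.Hg.F1a
import Vale.Agent.P281Z.Hg.F1b
import Mathlib.LinearAlgebra.Complex.FiniteDimensional

/-!
# P281, Hodge block: pull-back calculus
-/

open scoped ContDiff ComplexOrder Topology Matrix
open Filter
open Vale.Agent.P272.K Vale.Agent.P272.K.C2 Vale.Agent.P299.IX Vale.Agent.P299.IX.Fock

noncomputable section

namespace Vale.Agent.P281Z.Hg

namespace Kb

open Ka

variable {a b : ℕ} {ψ : Cm a → Cm b} {z : Cm a}

theorem cx_clm (l : Fin (b + b)) : ∃ L : Cm b →L[ℝ] ℂ, ∀ w, cx w l = L w :=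
  Fin.addCases (fun j => ⟨.proj j, fun w => cx_hl w j⟩) (fun j =>
    ⟨(Complex.conjCLE : ℂ →L[ℝ] ℂ).comp (.proj j), fun w => cx_ah w j⟩) l

theorem cx_cd {m : WithTop ℕ∞} (l : Fin (b + b)) (h : ContDiffAt ℝ m ψ z) :
    ContDiffAt ℝ m (fun y => cx (ψ y) l) z := by
  obtain ⟨L, e⟩ := cx_clm l
  simp only [e]
  exact L.contDiff.contDiffAt.comp z h

theorem cx_df (l : Fin (b + b)) (h : DifferentiableAt ℝ ψ z) :
    DifferentiableAt ℝ (fun y => cx (ψ y) l) z := by
  obtain ⟨L, e⟩ := cx_clm l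
  simp only [e]
  exact L.differentiableAt.comp z h

theorem cx_fd (l : Fin (b + b)) (h : DifferentiableAt ℝ ψ z) (v : Cm a) :
    fderiv ℝ (fun y => cx (ψ y) l) z v = cx (fderiv ℝ ψ z v) l := by
  obtain ⟨L, e⟩ := cx_clm l
  simp only [e]
  exact congrArg (fun A => A v) (L.hasFDerivAt.comp z h.hasFDerivAt).fderiv

theorem dr_comp {g : Cm b → ℂ} (p : Fin (a + a)) (h : DifferentiableAt ℝ ψ z)
    (hg : DifferentiableAt ℝ g (ψ z)) :
    dr p (fun y => g (ψ y)) z = ∑ l, jc ψ z p l * dr l g (ψ z) := by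
  obtain ⟨s, t, v, w, e⟩ := dr_DD p
  have k : ∀ x, fderiv ℝ (fun y => g (ψ y)) z x = ∑ l, cx (fderiv ℝ ψ z x) l * dr l g (ψ z) :=
    fun x => (congrArg (fun A => A x) (hg.hasFDerivAt.comp z h.hasFDerivAt).fderiv).trans (fd _)
  simp only [jc, Matrix.of_apply, e, DD, k, cx_fd _ h, Finset.mul_sum, ← Finset.sum_add_distrib]
  exact Finset.sum_congr rfl fun l _ => by ring

theorem ext4 {A B : Matrix (Fin (a + a)) (Fin (b + b)) ℂ}
    (h1 : ∀ i j, A (hl i) (hl j) = B (hl i) (hl j)) (h2 : ∀ i j, A (hl i) (ah j) = B (hl i) (ah j))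
    (h3 : ∀ i j, A (ah i) (hl j) = B (ah i) (hl j))
    (h4 : ∀ i j, A (ah i) (ah j) = B (ah i) (ah j)) : A = B := by
  ext p l
  exact Fin.addCases (fun i => Fin.addCases (h1 i) (h2 i) l)
    (fun i => Fin.addCases (h3 i) (h4 i) l) p

theorem jc_hh (i j) : jc ψ z (hl i) (hl j) = dz i (fun y => ψ y j) z := by
  simp only [jc, Matrix.of_apply, dr_hl, cx_hl]

theorem jc_ah (i j) : jc ψ z (ah i) (hl j) = dzb i (fun y => ψ y j) z := by
  simp only [jc, Matrix.of_apply, dr_ah, cx_hl]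

theorem jc_ha (h : DifferentiableAt ℝ ψ z) (i j) :
    jc ψ z (hl i) (ah j) = star (dzb i (fun y => ψ y j) z) := by
  simp only [jc, Matrix.of_apply, dr_hl, cx_ah]
  exact dz_conj i (dp h j)

theorem jc_aa (h : DifferentiableAt ℝ ψ z) (i j) :
    jc ψ z (ah i) (ah j) = star (dz i (fun y => ψ y j) z) := by
  simp only [jc, Matrix.of_apply, dr_ah, cx_ah]
  exact dzb_conj i (dp h j)

theorem dzb_hol {g : Cm a → ℂ} (h : DifferentiableAt ℂ g z) (i : Fin a) : dzb i g z = 0 := by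
  have e : (Pi.single i Complex.I : Cm a) = Complex.I • (Pi.single i 1 : Cm a) := by
    rw [← Pi.single_smul, smul_eq_mul, mul_one]
  rw [dzb, h.fderiv_restrictScalars ℝ, ContinuousLinearMap.coe_restrictScalars', e, map_smul,
    smul_eq_mul, ← mul_assoc, Complex.I_mul_I]
  ring

theorem jc_hol {τ : Cm a → Cm a} (h : DifferentiableAt ℂ τ z) :
    jc τ z = blk (Matrix.of fun p i => dz i (fun y => τ y p) z)ᵀ
      ((Matrix.of fun p i => dz i (fun y => τ y p) z)ᵀ.map star) := by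
  have h' := h.restrictScalars ℝ
  refine ext4 (fun i j => ?_) (fun i j => ?_) (fun i j => ?_) fun i j => ?_
  · rw [f1b.blk_hh, jc_hh]
    rfl
  · rw [f1b.blk_ha, jc_ha h', dzb_hol (differentiableAt_pi.1 h j), star_zero]
  · rw [f1b.blk_ah, jc_ah, dzb_hol (differentiableAt_pi.1 h j)]
  · rw [f1b.blk_aa, jc_aa h']
    rfl

theorem jc_id (z : Cm a) : jc (fun y => y) z = 1 := by
  have e : (Matrix.of fun p i => dz i (fun y : Cm a => y p) z) = 1 := by
    ext p i
    have := (ContinuousLinearMap.proj (R := ℝ) (φ := fun _ : Fin a => ℂ) p).fderiv (x := z)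
    rw [Matrix.of_apply, dz, show (fun y : Cm a => y p) = ContinuousLinearMap.proj (R := ℝ)
      (φ := fun _ : Fin a => ℂ) p from rfl, this, Matrix.one_apply]
    by_cases k : p = i <;> simp [k]
  rw [jc_hol differentiableAt_fun_id, e, Matrix.transpose_one,
    Matrix.map_one _ (star_zero _) (star_one _), f1b.blk_one]

theorem jc_real (h : DifferentiableAt ℝ ψ z) : swm a * (jc ψ z).map star * swm b = jc ψ z := by
  have r1 : ∀ (M : Matrix (Fin (a + a)) (Fin (b + b)) ℂ) p j, (M * swm b) p (hl j) = M p (ah j) :=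
    fun M p j => by simp [Matrix.mul_apply, f1b.swm_hl]
  have r2 : ∀ (M : Matrix (Fin (a + a)) (Fin (b + b)) ℂ) p j, (M * swm b) p (ah j) = M p (hl j) :=
    fun M p j => by simp [Matrix.mul_apply, f1b.swm_ah]
  have s : ∀ p q, swm a p q = swm a q p := fun p q => congrFun (congrFun (f1b.swm_tr a) q) p
  have l1 : ∀ (M : Matrix (Fin (a + a)) (Fin (b + b)) ℂ) j p, (swm a * M) (hl j) p = M (ah j) p :=
    fun M j p => by simp [Matrix.mul_apply, s (hl j), f1b.swm_hl]
  have l2 : ∀ (M : Matrix (Fin (a + a)) (Fin (b + b)) ℂ) j p, (swm a * M) (ah j) p = M (hl j) p :=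
    fun M j p => by simp [Matrix.mul_apply, s (ah j), f1b.swm_ah]
  refine ext4 (fun i j => ?_) (fun i j => ?_) (fun i j => ?_) fun i j => ?_ <;>
    simp only [r1, r2, l1, l2, Matrix.map_apply, jc_hh, jc_ah, jc_ha h, jc_aa h, star_star]

theorem jc_det {ψ : Cm a → Cm a} (h : DifferentiableAt ℝ ψ z) :
    (jc ψ z).det = ((fderiv ℝ ψ z).det : ℝ) := by
  let s := Module.finBasisOfFinrankEq ℝ (Cm a) (n := a + a) (by
    simp [Module.finrank_pi_fintype, Complex.finrank_real_complex, mul_two])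
  let C : Matrix (Fin (a + a)) (Fin (a + a)) ℂ := .of fun k l => cx (s k) l
  have e : ∀ v l, cx v l = ∑ k, (s.repr v k : ℂ) * C k l := fun v l => by
    obtain ⟨L, e⟩ := cx_clm l
    conv_lhs => rw [e, ← s.sum_repr v, map_sum]
    simp only [C, Matrix.of_apply, e, map_smul, Complex.real_smul]
  choose x y v w hd using dr_DD (d := a)
  have h1 : (Matrix.of fun p k => x p * s.repr (v p) k + y p * s.repr (w p) k) * C = 1 := by
    rw [← jc_id z]
    ext p l
    simp only [jc, Matrix.mul_apply, Matrix.of_apply, hd, DD, cx_fd _ differentiableAt_fun_id,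
      fderiv_fun_id, ContinuousLinearMap.id_apply, e (v p), e (w p), Finset.mul_sum,
      ← Finset.sum_add_distrib]
    exact Finset.sum_congr rfl fun l _ => by ring
  have h2 : C * jc ψ z = (Complex.ofRealHom.mapMatrix
      (LinearMap.toMatrix s s (fderiv ℝ ψ z : Cm a →ₗ[ℝ] Cm a))ᵀ) * C := by
    ext k l
    have := (cx_fd l h (s k)).symm.trans (fd (s k))
    rw [e] at this
    simp only [Matrix.mul_apply, RingHom.mapMatrix_apply, Matrix.map_apply, Matrix.transpose_apply,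
      LinearMap.toMatrix_apply]
    exact this.symm
  have h3 := congrArg Matrix.det h2
  rw [Matrix.det_mul, Matrix.det_mul, ← RingHom.map_det, Matrix.det_transpose,
    LinearMap.det_toMatrix, mul_comm] at h3
  exact mul_right_cancel₀ (Matrix.det_ne_zero_of_left_inverse h1) h3

theorem lr_insert {m n : ℕ} (J : Matrix (Fin m) (Fin n) ℂ) {i : Fin n} {I : FI n}
    (h : ∀ j ∈ I, i < j) :
    lr J *ᵥ ev (insert i I) = epsV (fun p => J p i) *ᵥ (lr J *ᵥ ev I) := qz_ev_insert _ _ h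

theorem lr_cd {E : Type} [NormedAddCommGroup E] [NormedSpace ℝ E] {m n : ℕ} {r : WithTop ℕ∞}
    {J : E → Matrix (Fin m) (Fin n) ℂ} {z : E} (h : ∀ i j, ContDiffAt ℝ r (fun y => J y i j) z)
    (I : FI n) : ContDiffAt ℝ r (fun y => lr (J y) *ᵥ ev I) z := by
  induction I using Finset.induction_on_min with
  | empty =>
    simp only [F1aH.lr_ev]
    exact contDiffAt_const
  | insert i I hi ih =>
    refine contDiffAt_pi.2 fun K => ?_
    simp only [lr_insert _ hi, epsV_mulVec]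
    exact ContDiffAt.sum fun p _ => (h p i).mul
      (ContDiffAt.sum (s := Finset.univ) (f := fun L y => eps p K L * (lr (J y) *ᵥ ev I) L)
        fun L _ => contDiffAt_const.mul (contDiffAt_pi.1 ih L))

theorem mulVec_eq {m n : ℕ} (A : Matrix (FI m) (FI n) ℂ) (u : Fk n) :
    A *ᵥ u = ∑ I, u I • (A *ᵥ ev I) := by
  conv_lhs => rw [pi_eq_sum_univ' u, Matrix.mulVec_sum]
  simp only [Matrix.mulVec_smul]
  rfl

theorem jc_smooth (h : ContDiffAt ℝ ∞ ψ z) : MC ∞ (jc ψ) z := fun _ l => dr_smooth (cx_cd l h)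

theorem closed (h : ContDiffAt ℝ ∞ ψ z) (I : FI (b + b)) :
    dT (fun y => lr (jc ψ y) *ᵥ ev I) z = 0 := by
  have K := k1a f1a f1b
  induction I using Finset.induction_on_min with
  | empty =>
    simp only [F1aH.lr_ev]
    exact K.const _ _
  | insert i I hi ih =>
    have c := cx_cd i h
    have c' : ContDiffAt ℝ ∞ (fun y => cx (ψ y) i • (ev ∅ : Fo a)) z := c.smul contDiffAt_const
    have e : (fun y => lr (jc ψ y) *ᵥ ev (insert i I)) =ᶠ[𝓝 z] fun y =>
        wg (dT (fun y => cx (ψ y) i • ev ∅) y) *ᵥ (lr (jc ψ y) *ᵥ ev I) :=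
      ((c.of_le (m := 1) (by simp)).eventually (by simp)).mono fun y hy => by
        simp only
        rw [K.fun_mul (hy.differentiableAt one_ne_zero) (differentiableAt_const _), K.const,
          smul_zero, add_zero, F1aH.wg_epsV, F1aH.wg_ev, mul_one, lr_insert _ hi]
        rfl
    rw [K.congr e, K.leib ((K.smooth c').differentiableAt (by simp))
      ((lr_cd (jc_smooth h) I).differentiableAt (by simp)), K.dd c', ih, F1aH.wg_zero,
      Matrix.zero_mulVec, Matrix.mulVec_zero, add_zero]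

theorem dT_sum {ι : Type} (s : Finset ι) {F : ι → Cm a → Fo a}
    (hF : ∀ i ∈ s, DifferentiableAt ℝ (F i) z) :
    dT (fun y => ∑ i ∈ s, F i y) z = ∑ i ∈ s, dT (F i) z := by
  simp only [dT, Dv_sum s hF, Matrix.mulVec_sum]
  exact Finset.sum_comm

theorem dT_eq (u : Cm a → Fo a) (z : Cm a) :
    dT u z = ∑ I, epsV (fun c => dr c (fun y => u y I) z) *ᵥ ev I := by
  simp only [dT, epsV, Matrix.sum_mulVec, Matrix.smul_mulVec]
  rw [Finset.sum_comm]
  exact Finset.sum_congr rfl fun c _ => mulVec_eq _ _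

theorem nat {u : Cm b → Fo b} (h : ContDiffAt ℝ ∞ ψ z) (hu : ContDiffAt ℝ ∞ u (ψ z)) :
    dT (pbk ψ u) z = pbk ψ (dT u) z := by
  have K := k1a f1a f1b
  have h' := h.differentiableAt (by simp)
  have u' := hu.differentiableAt (by simp)
  have d1 : ∀ I, DifferentiableAt ℝ (fun y => u (ψ y) I) z := fun I => (dp u' I).comp z h'
  have d2 : ∀ I, DifferentiableAt ℝ (fun y => lr (jc ψ y) *ᵥ ev I) z := fun I =>
    (lr_cd (jc_smooth h) I).differentiableAt (by simp)
  rw [show pbk ψ u = fun y => ∑ I, u (ψ y) I • (lr (jc ψ y) *ᵥ ev I) from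
    funext fun y => mulVec_eq _ _, dT_sum _ fun I _ => (d1 I).fun_smul (d2 I), pbk, dT_eq u,
    Matrix.mulVec_sum]
  refine Finset.sum_congr rfl fun I _ => ?_
  rw [K.fun_mul (d1 I) (d2 I), closed h, smul_zero, add_zero, Matrix.mulVec_mulVec,
    Matrix.mulVec_mulVec, F1aH.lr_epsV]
  exact congrArg (fun v => (epsV v * lr (jc ψ z)) *ᵥ ev I)
    (funext fun c => dr_comp (g := fun y => u y I) c h' (dp u' I))

end Kb

open Kb in
/-- row K1b -/
theorem k1b' : K1b where
  jc_congr h := Matrix.ext fun _ l => Ka.dr_congr (h.mono fun _ e => congrArg (cx · l) e)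
  jc_id := jc_id
  jc_comp h h' := Matrix.ext fun p l => dr_comp p h (cx_df l h')
  jc_smooth := jc_smooth
  jc_hol := jc_hol
  jc_real := jc_real
  jc_det := jc_det
  dr_comp := dr_comp
  lr_smooth h K I := by
    simpa only [ev, Matrix.mulVec_single_one, Matrix.col_apply] using contDiffAt_pi.1 (lr_cd h I) K
  pbk_smooth {a b ψ u z} h hu := by
    rw [show pbk ψ u = fun y => ∑ I, u (ψ y) I • (lr (jc ψ y) *ᵥ ev I) from
      funext fun y => mulVec_eq _ _]
    exact ContDiffAt.sum fun I _ =>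
      ((contDiffAt_pi.1 hu I).comp z h).smul (lr_cd (jc_smooth h) I)
  nat := nat

theorem k1b (_ : F1a) (_ : F1b) (_ : K1a) : K1b := k1b'

end Vale.Agent.P281Z.Hg
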