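import Vale.Agent.P281Z.Hg.S3

/-!
# P281, Hodge block: pull-back of forms (rows PB1 and PBc)
-/

open scoped Manifold ContDiff Topology Matrix
open Filter
open Vale.Agent.P272.K Vale.Agent.P272.K.INT Vale.Agent.P299.IX Vale.Agent.P299.IX.Fock

noncomputable section

namespace Vale.Agent.P281Z.Hg.Pb1H

variable {d d' d'' : ℕ} {M M' M'' : Type} [TopologicalSpace M] [ChartedSpace (Cm d) M]
  [TopologicalSpace M'] [ChartedSpace (Cm d') M'] [TopologicalSpace M'']
  [ChartedSpace (Cm d'') M''] {f : M → M'} {g : M' → M''} {e e₂ : Chart d M} {c c₂ : Chart d' M'}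
  {b : Chart d'' M''} {x : M}

theorem ca (x : M) : At (chartAt (Cm d) x) x := ⟨chart_mem_atlas _ _, mem_chart_source _ _⟩

theorem near (hf : Continuous f) (hx : At e x) (hc : At c (f x)) :
    ∀ᶠ z in 𝓝 (e x), z ∈ e.target ∧ At e (e.symm z) ∧ At c (f (e.symm z)) := by
  have h : Tendsto (fun z => f (e.symm z)) (𝓝 (e x)) (𝓝 (f x)) :=
    (hf.tendsto x).comp (e.tendsto_symm hx.2)
  filter_upwards [e.open_target.mem_nhds (e.map_source hx.2),
    h.eventually (c.open_source.mem_nhds hc.2)] with z a a'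
    using ⟨a, ⟨hx.1, e.map_target a⟩, hc.1, a'⟩

omit [ChartedSpace (Cm d'') M''] in
theorem lc_comp (hf : Continuous f) (hx : At e x) (hc : At c (f x)) :
    (fun z => b (g (f (e.symm z)))) =ᶠ[𝓝 (e x)]
      fun z => b (g (c.symm (c (f (e.symm z))))) := by
  filter_upwards [near hf hx hc] with z hz
  rw [c.left_inv hz.2.2.2]

theorem smo_id [IsManifold 𝓘(ℂ, Cm d) ω M] : Smo d d (id : M → M) :=
  ⟨continuous_id, fun _ _ _ a a' => ((transition_contDiffAt a a').restrict_scalars ℝ).of_le le_top⟩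

theorem smo_comp (hf : Smo d d' f) (hg : Smo d' d'' g) : Smo d d'' (g ∘ f) :=
  ⟨hg.cont.comp hf.cont, fun e b x a a' => by
    refine ContDiffAt.congr_of_eventuallyEq ?_ (lc_comp hf.cont a (ca (d := d') (f x)))
    refine ContDiffAt.comp (g := fun w => b (g ((chartAt (Cm d') (f x)).symm w))) (e x) ?_
      (hf.sm e _ x a (ca (f x)))
    rw [e.left_inv a.2]
    exact hg.sm _ b _ (ca (f x)) a'⟩

/-- the chain rule in charts -/
theorem jc_lc (hk : K1b) (hf : Smo d d' f) (hg : Smo d' d'' g) (hx : At e x) (hc : At c (f x))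
    (hb : At b (g (f x))) : jc (fun z => b (g (f (e.symm z)))) (e x) =
      jc (fun z => c (f (e.symm z))) (e x) * jc (fun w => b (g (c.symm w))) (c (f x)) := by
  have h1 := (hg.sm c b _ hc hb).differentiableAt (by simp)
  have h2 : c (f x) = c (f (e.symm (e x))) := by rw [e.left_inv hx.2]
  rw [h2] at h1 ⊢
  rw [hk.jc_congr (lc_comp hf.cont hx hc)]
  exact hk.jc_comp (φ := fun w => b (g (c.symm w))) ((hf.sm e c x hx hc).differentiableAt
    (by simp)) h1

/-- the value of the pull-back -/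
def pv (f : M → M') (u : SF d' M') (e : Chart d M) (c : Chart d' M') (x : M) : Fo d :=
  lr (jc (fun z => c (f (e.symm z))) (e x)) *ᵥ vl u c (c (f x))

theorem pv_right [IsManifold 𝓘(ℂ, Cm d') ω M'] (ha : F1a) (hk : K1b) (hf : Smo d d' f)
    (u : SF d' M') (hx : At e x) (hc : At c (f x)) (hc₂ : At c₂ (f x)) :
    pv f u e c x = pv f u e c₂ x := by
  have h := jc_lc (g := id) (b := c₂) hk hf smo_id hx hc hc₂
  rw [pv, pv, (vl_isF u).ch c c₂ _ hc hc₂, Matrix.mulVec_mulVec]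
  exact congrArg (· *ᵥ _) ((ha.lr_mul _ _).symm.trans (congrArg lr h.symm))

theorem pv_left [IsManifold 𝓘(ℂ, Cm d) ω M] (ha : F1a) (hk : K1b) (hf : Smo d d' f)
    (u : SF d' M') (hx : At e x) (hx₂ : At e₂ x) (hc : At c (f x)) :
    pv f u e c x = lam (jt e e₂ x) *ᵥ pv f u e₂ c x := by
  have h := jc_lc (f := id) (g := f) (b := c) hk smo_id hf hx hx₂ hc
  rw [pv, pv, Matrix.mulVec_mulVec]
  exact congrArg (· *ᵥ _) ((congrArg lr h).trans (ha.lr_mul _ _))

omit [ChartedSpace (Cm d) M] in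
theorem pv_symm (u : SF d' M') {z : Cm d} (hz : z ∈ e.target) :
    pv f u e c (e.symm z) = pbk (fun z => c (f (e.symm z))) (vl u c) z := by
  rw [pv, e.right_inv hz]
  rfl

theorem vl_sm (u : SF d' M') (hx : At e x) (hc : At c (f x)) :
    ContDiffAt ℝ ∞ (vl u c) (c (f (e.symm (e x)))) := by
  rw [e.left_inv hx.2]
  exact (vl_isF u).sm c _ hc

theorem pb_near {T : SF d' M' → SF d M} (hf : Continuous f) (hT : IsPb f T) (u : SF d' M')
    (hx : At e x) (hc : At c (f x)) :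
    vl (T u) e =ᶠ[𝓝 (e x)] pbk (fun z => c (f (e.symm z))) (vl u c) := by
  filter_upwards [near hf hx hc] with z hz
  rw [← pv_symm u hz.1, pv, ← hT u e c _ hz.2.1 hz.2.2, e.right_inv hz.1]

end Vale.Agent.P281Z.Hg.Pb1H

namespace Vale.Agent.P281Z.Hg

variable (d : ℕ) (M : Type) [TopologicalSpace M] [ChartedSpace (Cm d) M] [T2Space M]
  [CompactSpace M] [IsManifold 𝓘(ℂ, Cm d) ω M] (d' : ℕ) (M' : Type) [TopologicalSpace M']
  [ChartedSpace (Cm d') M'] [T2Space M'] [CompactSpace M'] [IsManifold 𝓘(ℂ, Cm d') ω M']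

open Pb1H in
/-- row PB1 -/
theorem pb1 (ha : F1a) (hb : F1b) (hk : K1a) (hk' : K1b) (hg : G1 d M) : PB1 d M d' M' := by
  intro f hf
  have ext : ∀ u v : SF d M, (∀ e x, At e x → vl u e (e x) = vl v e (e x)) → u = v :=
    fun u v h => hg.ext u v fun x => ⟨_, ca x, h _ x (ca x)⟩
  have h3 : ∀ T : SF d' M' → SF d M, (∀ u x, ∃ e c, At e x ∧ At c (f x) ∧
      vl (T u) e (e x) = pv f u e c x) → IsPb f T := fun T h u e c x hx hc => by
    obtain ⟨e₂, c₂, a1, a2, a3⟩ := h u x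
    rw [(vl_isF (T u)).ch e e₂ x hx a1, a3, ← pv_left ha hk' hf u hx a1 a2]
    exact pv_right ha hk' hf u hx a2 hc
  refine ⟨?_, fun T T' h h' => funext fun u => ext _ _ fun e x hx => ?_, h3,
    fun T X X' hT hX hX' => ⟨fun a => ext _ _ fun e x hx => ?_, fun m a => ext _ _ fun e x hx => ?_,
      fun a => ext _ _ fun e x hx => ?_, fun u hu e x hx => ?_, fun a x h e hx => ?_,
      fun y W' W h' h u => ext _ _ fun e x hx => ?_⟩⟩
  · have h1 : ∀ u : SF d' M', ∃ v : SF d M, ∀ e x, At e x →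
        vl v e (e x) = pv f u e (chartAt (Cm d') (f x)) x := fun u => by
      obtain ⟨v, hv⟩ := hg.mkf (fun e z => pv f u e (chartAt (Cm d') (f (e.symm z))) (e.symm z))
        (fun e x hx => by
          refine (hk'.pbk_smooth (hf.sm e _ x hx (ca (f x)))
            (vl_sm u hx (ca (f x)))).congr_of_eventuallyEq ?_
          filter_upwards [near hf.cont hx (ca (d := d') (f x))] with z hz
          rw [← pv_symm u hz.1]
          exact pv_right ha hk' hf u hz.2.1 (ca _) hz.2.2) fun e e₂ x hx hx₂ => by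
        rw [e.left_inv hx.2, e₂.left_inv hx₂.2]
        exact pv_left ha hk' hf u hx hx₂ (ca _)
      exact ⟨v, fun e x hx => by rw [(hv e x hx).eq_of_nhds, e.left_inv hx.2]⟩
    choose T hT using h1
    refine ⟨⟨⟨T, fun u v => ext _ _ fun e x hx => ?_⟩, fun c u => ext _ _ fun e x hx => ?_⟩,
      h3 T fun u x => ⟨_, _, ca x, ca (f x), hT u _ x (ca x)⟩⟩
    · rw [vl_add, hT _ e x hx, hT _ e x hx, hT _ e x hx, pv, vl_add, Matrix.mulVec_add]
      rfl
    · rw [vl_smul, hT _ e x hx, hT _ e x hx, pv, vl_smul, Matrix.mulVec_smul]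
      rfl
  · rw [h u e _ x hx (ca _), h' u e _ x hx (ca _)]
  · rw [hT _ e _ x hx (ca _), hX'.d a _ _ (ca _), hX.d _ e x hx,
      hk.congr (pb_near hf.cont hT a hx (ca _)),
      hk'.nat (hf.sm e _ x hx (ca _)) (vl_sm a hx (ca _)), pbk, e.left_inv hx.2]
  · rw [hT _ e _ x hx (ca _), hX'.dg m a _ _ (ca _), hX.dg m _ e x hx, hT _ e _ x hx (ca _),
      Matrix.mulVec_mulVec, Matrix.mulVec_mulVec, ha.lr_dg]
  · rw [hT _ e _ x hx (ca _), hX'.cj a _ _ (ca _), hX.cj _ e x hx, hT _ e _ x hx (ca _),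
      hb.cjv_lr, hk'.jc_real ((hf.sm e _ x hx (ca _)).differentiableAt (by simp))]
  · rw [hT _ e _ x hx (ca _), hu _ _ (ca _), ha.lr_ev]
  · rw [hT _ e _ x hx (ca _), h _ (ca _), Matrix.mulVec_zero]
  · rw [hT _ e _ x hx (ca _), h' u _ _ (ca _), h _ e x hx]
    beta_reduce
    rw [hT _ e _ x hx (ca _), hT _ e _ x hx (ca _), Matrix.mulVec_mulVec, Matrix.mulVec_mulVec,
      ha.lr_wg]

set_option linter.unusedSectionVars false in
open Pb1H in
/-- row PBc -/
theorem pbc (ha : F1a) (hk : K1b) : PBc d M d' M' :=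
  ⟨fun u e e' x a a' => (vl_isF u).ch e e' x a a', smo_id, fun _ _ _ _ _ f g hf hg =>
    ⟨smo_comp hf hg, fun T T' h h' u e b x hx hb => by
      have k := jc_lc hk hf hg hx (ca (f x)) hb
      rw [Function.comp_apply, h _ e _ x hx (ca _), h' u _ b _ (ca _) hb, Matrix.mulVec_mulVec,
        ← ha.lr_mul, ← k]
      rfl⟩⟩

end Vale.Agent.P281Z.Hg
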