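import Vale.Agent.P281Z.Hg.S2

/-!
# P281, Hodge block: gradings in an algebra
-/

set_option linter.unusedSectionVars false

noncomputable section

namespace Vale.Agent.P281Z.Hg.Ab0

open Finset

section gd
variable {R : Type} [Ring R] [Algebra ℂ R] {N : ℕ} {P : ℕ → R} {x y z : R} {s t : ℕ}

/-- a grading with degrees in `[0, N]` -/
structure Gd (N : ℕ) (P : ℕ → R) : Prop where
  mul : ∀ j k, P j * P k = if j = k then P k else 0
  sum : ∑ k ∈ range (N + 1), P k = 1
  zero : ∀ k, N < k → P k = 0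

/-- diagonal operators -/
def wt (N : ℕ) (P : ℕ → R) (f : ℕ → ℂ) : R := ∑ m ∈ range (N + 1), f m • P m

/-- operators raising the degree by `s` -/
def Sh (P : ℕ → R) (s : ℕ) (x : R) : Prop := ∀ k, P (k + s) * x = x * P k

theorem Sh.add (hx : Sh P s x) (hy : Sh P s y) : Sh P s (x + y) := fun k => by
  rw [mul_add, add_mul, hx, hy]

theorem Sh.sub (hx : Sh P s x) (hy : Sh P s y) : Sh P s (x - y) := fun k => by
  rw [mul_sub, sub_mul, hx, hy]

theorem Sh.mul (hx : Sh P s x) (hy : Sh P t y) {u : ℕ} (e : u = t + s) : Sh P u (x * y) :=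
  fun k => by rw [e, ← add_assoc, ← mul_assoc, hx, mul_assoc, hy, mul_assoc]

theorem Sh.wt {Q : ℕ → R} (h : ∀ j k, P j * Q k = Q k * P j) (f : ℕ → ℂ) : Sh P 0 (wt N Q f) :=
  fun k => by simp only [Ab0.wt, mul_sum, sum_mul, mul_smul_comm, smul_mul_assoc, add_zero, h]

namespace Gd
variable (h : Gd N P)
include h

theorem ext_r (e : ∀ k, x * P k = y * P k) : x = y := by
  rw [← mul_one x, ← mul_one y, ← h.sum, mul_sum, mul_sum]
  exact sum_congr rfl fun k _ => e k

theorem ext_l (e : ∀ k, P k * x = P k * y) : x = y := by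
  rw [← one_mul x, ← one_mul y, ← h.sum, sum_mul, sum_mul]
  exact sum_congr rfl fun k _ => e k

theorem idem (k : ℕ) : P k * P k = P k := by rw [h.mul, if_pos rfl]

theorem ne {j k : ℕ} (e : j ≠ k) : P j * P k = 0 := by rw [h.mul, if_neg e]

theorem comm (j k : ℕ) : P j * P k = P k * P j := by
  rcases eq_or_ne j k with rfl | e
  · rfl
  · rw [h.ne e, h.ne e.symm]

theorem sum_mul' (F : ℕ → R) (k : ℕ) : (∑ j ∈ range (N + 1), F j * P j) * P k = F k * P k := by
  rw [sum_mul, sum_eq_single k (fun j _ e => by rw [mul_assoc, h.ne e, mul_zero])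
    (fun e => by rw [h.zero k (by simpa using e), mul_zero]), mul_assoc, h.idem]

theorem wt_mul (f : ℕ → ℂ) (k : ℕ) : wt N P f * P k = f k • P k := by
  simpa only [smul_mul_assoc, one_mul, wt] using h.sum_mul' (fun j => f j • 1) k

theorem mul_wt (f : ℕ → ℂ) (k : ℕ) : P k * wt N P f = f k • P k :=
  (Sh.wt h.comm f k).trans (h.wt_mul f k)

theorem low (hx : Sh P s x) {j : ℕ} (hj : j < s) : P j * x = 0 := h.ext_r fun k => by
  rw [mul_assoc, ← hx, ← mul_assoc, h.ne (by omega), zero_mul, zero_mul]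

theorem low' (hx : ∀ k, P k * x = x * P (k + s)) {j : ℕ} (hj : j < s) : x * P j = 0 :=
  h.ext_l fun k => by rw [← mul_assoc, hx, mul_assoc, h.ne (by omega), mul_zero, mul_zero]

theorem wt_id (hx : Sh P s x) :
    wt N P (fun m => m) * x - x * wt N P (fun m => m) = (s : ℂ) • x := h.ext_r fun k => by
  rw [sub_mul, mul_assoc, mul_assoc, h.wt_mul, smul_mul_assoc, mul_smul_comm, ← hx, ← mul_assoc,
    h.wt_mul, smul_mul_assoc, ← sub_smul]
  simp

theorem wt_id' (hx : ∀ k, P k * x = x * P (k + s)) :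
    wt N P (fun m => m) * x - x * wt N P (fun m => m) = -((s : ℂ) • x) := h.ext_l fun k => by
  rw [mul_sub, ← mul_assoc, ← mul_assoc, h.mul_wt, smul_mul_assoc, mul_neg, mul_smul_comm, hx,
    mul_assoc, h.mul_wt, mul_smul_comm, ← sub_smul, ← neg_smul]
  simp

theorem wt_pow (hx : Sh P s x) (c : ℂ) :
    wt N P (fun m => c ^ m) * x = c ^ s • (x * wt N P fun m => c ^ m) := h.ext_r fun k => by
  rw [smul_mul_assoc, mul_assoc, mul_assoc, h.wt_mul, mul_smul_comm, ← hx, ← mul_assoc, h.wt_mul,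
    smul_mul_assoc, smul_smul, pow_add, mul_comm]

theorem nil (hx : Sh P (s + 1) x) : x ^ (N + 1) = 0 := by
  have e : ∀ j, Sh P (j * (s + 1)) (x ^ j) := fun j => by
    induction j with
    | zero => exact fun k => by simp
    | succ j ih => rw [pow_succ']; exact hx.mul ih (by ring)
  exact h.ext_r fun k => by rw [← e, h.zero _ (by nlinarith), zero_mul, zero_mul]

theorem nil' (hx : ∀ k, P k * x = x * P (k + (s + 1))) : x ^ (N + 1) = 0 := by
  have e : ∀ j k, P k * x ^ j = x ^ j * P (k + j * (s + 1)) := fun j => by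
    induction j with
    | zero => exact fun k => by simp
    | succ j ih =>
      intro k
      rw [pow_succ, ← mul_assoc, ih, mul_assoc, hx, ← mul_assoc, add_mul j, one_mul, add_assoc]
  exact h.ext_l fun k => by rw [e, h.zero _ (by nlinarith), mul_zero, mul_zero]

theorem sep {u : ℕ} (hx : Sh P s x) (hy : Sh P t y) (hz : Sh P u z) (e : s ≠ t) (e' : s ≠ u)
    (h0 : x + y + z = 0) : x = 0 := h.ext_r fun k => by
  have k1 := congrArg (fun a => P (k + s) * a * P k) h0
  simp only [mul_add, add_mul, mul_assoc] at k1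
  rwa [← hx, ← hy, ← hz, ← mul_assoc, ← mul_assoc, ← mul_assoc, h.idem, h.ne (by omega),
    h.ne (by omega), zero_mul, zero_mul, add_zero, add_zero, hx, zero_mul, mul_zero,
    ← zero_mul (P k)] at k1

theorem flip {c : ℕ} (hx : wt N P (fun m => m) * x + x * wt N P (fun m => m) = (c : ℂ) • x)
    {j k : ℕ} (e : j + k = c) : P j * x = x * P k := by
  have k0 : ∀ j k : ℕ, j + k ≠ c → P j * x * P k = 0 := fun j k e => by
    have k1 := congrArg (fun a => P j * a * P k) hx
    simp only [mul_add, add_mul] at k1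
    rw [← mul_assoc, h.mul_wt, ← mul_assoc, mul_assoc _ (wt _ _ _), h.wt_mul, mul_smul_comm,
      mul_smul_comm, smul_mul_assoc, smul_mul_assoc, smul_mul_assoc, ← add_smul, ← sub_eq_zero,
      ← sub_smul] at k1
    have k2 : (j : ℂ) + k - c ≠ 0 := sub_ne_zero.2 (by exact_mod_cast e)
    rw [← inv_smul_smul₀ k2 (P j * x * P k), k1, smul_zero]
  refine h.ext_r fun k' => ?_
  rcases eq_or_ne k k' with rfl | e'
  · rw [mul_assoc x, h.idem]
    refine h.ext_l fun j' => ?_
    rcases eq_or_ne j' j with rfl | e''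
    · rw [← mul_assoc, ← mul_assoc, h.idem, mul_assoc]
    · rw [← mul_assoc, ← mul_assoc, h.ne e'', ← mul_assoc, k0 _ _ (by omega), zero_mul, zero_mul]
  · rw [k0 _ _ (by omega), mul_assoc, h.ne e', mul_zero]

end Gd

end gd

variable {S : Type} [AddCommGroup S] [Module ℂ S]

/-- reflection of a grading under a pairing -/
theorem Gd.refl {N : ℕ} {P : ℕ → Module.End ℂ S} (h : Gd N P) {Q : S →ₗ[ℂ] S →ₗ[ℂ] ℂ}
    (hQ : ∀ j k a b, j + k = N → Q (P j a) b = Q a (P k b)) (a b : S) :
    Q (wt N P (fun m => m) a) b = Q a (((N : ℂ) • 1 - wt N P fun m => m) b) := by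
  rw [← h.sum, wt, smul_sum, ← sum_sub_distrib, ← sum_range_reflect _ (N + 1)]
  simp only [LinearMap.sum_apply, map_sum, LinearMap.smul_apply, map_smul, ← sub_smul]
  refine sum_congr rfl fun k hk => ?_
  have e : k ≤ N := Nat.lt_succ_iff.1 (mem_range.1 hk)
  rw [hQ _ k _ _ (by omega), Nat.add_sub_cancel, Nat.cast_sub e]

/-- a grading is orthogonal if its degree operator is self-adjoint -/
theorem Gd.adj {N : ℕ} {P : ℕ → Module.End ℂ S} (h : Gd N P) {B : S →ₛₗ[starRingEnd ℂ] S →ₗ[ℂ] ℂ}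
    (hB : ∀ a b, B a (wt N P (fun m => m) b) = B (wt N P (fun m => m) a) b) (k : ℕ) (a b : S) :
    B a (P k b) = B (P k a) b := by
  have k0 : ∀ j k, j ≠ k → ∀ a b, B (P j a) (P k b) = 0 := fun j k e a b => by
    have k1 := hB (P j a) (P k b)
    rw [← Module.End.mul_apply, ← Module.End.mul_apply (wt _ _ _), h.wt_mul, h.wt_mul,
      LinearMap.smul_apply, LinearMap.smul_apply, map_smul, map_smulₛₗ, map_natCast,
      LinearMap.smul_apply, ← sub_eq_zero, ← sub_smul] at k1
    exact (smul_eq_zero.1 k1).resolve_left (sub_ne_zero.2 (by exact_mod_cast e.symm))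
  have k1 : ∀ a, a = ∑ j ∈ range (N + 1), P j a := fun a => by
    rw [← LinearMap.sum_apply, h.sum, Module.End.one_apply]
  have k2 : k ∉ range (N + 1) → B (P k a) (P k b) = 0 := fun e => by
    simp [h.zero k (by simpa using e)]
  trans B (P k a) (P k b)
  · conv_lhs => rw [k1 a, map_sum, LinearMap.sum_apply]
    exact sum_eq_single k (fun j _ e => k0 j k e a b) k2
  · conv_rhs => rw [k1 b, map_sum]
    exact (sum_eq_single k (fun j _ e => k0 k j e.symm a b) k2).symm

end Vale.Agent.P281Z.Hg.Ab0
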