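import Vale.Agent.P281Z.Hg.S1
import Vale.Agent.P281Z.Hg.Ab0g

/-!
# P281, Hodge block: types and adjoints in an abstract Kähler package
-/

noncomputable section

namespace Vale.Agent.P281Z.Hg

open Finset Ab0

variable {S : Type} [AddCommGroup S] [Module ℂ S] {D : ℕ} {X : Cx S D} {K : KP X}

theorem Cx.OK.zgd (hX : X.OK) : Gd (D + D) X.dg := ⟨hX.dg_mul, hX.dg_sum, hX.dg_zero⟩

namespace KP

/-- the type operator -/
def zNp (K : KP X) : Module.End ℂ S := wt D K.pr fun m => m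

/-- the inner product as a sesquilinear map -/
def zip (K : KP X) : S →ₛₗ[starRingEnd ℂ] S →ₗ[ℂ] ℂ :=
  K.c • (X.Q.compl₂ (K.W * K.C)).comp X.cj

theorem zip_apply (a b : S) : K.zip a b = K.ip a b := rfl

theorem zC_eq : K.C = wt (D + D) X.dg (fun m => Complex.I ^ m) * wt D K.pr fun k => (-1) ^ k := by
  simp only [C, wt, sum_mul_sum, smul_mul_smul_comm]

namespace Alg
variable (h : K.Alg)
include h

theorem zgd : Gd D K.pr := ⟨h.pr_mul, h.pr_sum, h.pr_zero⟩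

theorem zA_pr (k : ℕ) : K.A * K.pr k = K.pr (k + 1) * X.d * K.pr k :=
  h.zgd.sum_mul' (fun j => K.pr (j + 1) * X.d) k

theorem zAb_pr (k : ℕ) : K.Ab * K.pr k = K.pr k * X.d * K.pr k :=
  h.zgd.sum_mul' (fun j => K.pr j * X.d) k

theorem zshA : Sh K.pr 1 K.A := fun k => h.zgd.ext_r fun j => by
  rw [mul_assoc, mul_assoc, h.zA_pr, ← mul_assoc, ← mul_assoc]
  rcases eq_or_ne k j with rfl | e
  · rw [h.zgd.idem, h.zgd.idem, h.zA_pr]
  · rw [h.zgd.ne e, h.zgd.ne (by omega), zero_mul, zero_mul, mul_zero]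

theorem zshAb : Sh K.pr 0 K.Ab := fun k => h.zgd.ext_r fun j => by
  rw [add_zero, mul_assoc, mul_assoc, h.zAb_pr, ← mul_assoc, ← mul_assoc]
  rcases eq_or_ne k j with rfl | e
  · rw [h.zgd.idem, h.zAb_pr]
  · rw [h.zgd.ne e, zero_mul, zero_mul, mul_zero]

theorem zd_eq : X.d = K.A + K.Ab := h.zgd.ext_r fun k => h.zgd.ext_l fun j => by
  rw [add_mul, h.zA_pr, h.zAb_pr, mul_add]
  simp only [← mul_assoc]
  rcases eq_or_ne j k with rfl | e
  · rw [h.zgd.idem, h.zgd.ne (by omega), zero_mul, zero_mul, zero_add]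
  · rw [h.zgd.ne e, zero_mul, zero_mul, add_zero]
    rcases eq_or_ne j (k + 1) with rfl | e'
    · rw [h.zgd.idem]
    · rw [h.dtype j k e e', h.zgd.ne e', zero_mul, zero_mul]

theorem zNpA : K.zNp * X.d - X.d * K.zNp = K.A := by
  have k1 := h.zgd.wt_id h.zshA
  have k2 := h.zgd.wt_id h.zshAb
  rw [Nat.cast_one, one_smul] at k1
  rw [Nat.cast_zero, zero_smul] at k2
  rw [h.zd_eq, mul_add, add_mul, add_sub_add_comm, zNp, k1, k2, add_zero]

theorem zshd (hX : X.OK) (j k : ℕ) : Sh X.dg 1 (K.pr j * X.d * K.pr k) :=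
  Sh.mul (Sh.mul (s := 0) (fun m => (h.pr_dg j m).symm) hX.dg_d rfl) (t := 0)
    (fun m => (h.pr_dg k m).symm) rfl

theorem zdgA (hX : X.OK) : Sh X.dg 1 K.A := fun m => by
  rw [A, mul_sum, sum_mul]
  exact sum_congr rfl fun k _ => h.zshd hX _ _ m

theorem zdgAb (hX : X.OK) : Sh X.dg 1 K.Ab := fun m => by
  rw [Ab, mul_sum, sum_mul]
  exact sum_congr rfl fun k _ => h.zshd hX _ _ m

theorem zC_sh (hX : X.OK) {y : Module.End ℂ S} {s t : ℕ} (h1 : Sh X.dg s y) (h2 : Sh K.pr t y) :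
    K.C * y = (Complex.I ^ s * (-1) ^ t) • (y * K.C) := by
  rw [zC_eq, mul_assoc, h.zgd.wt_pow h2, mul_smul_comm, ← mul_assoc, hX.zgd.wt_pow h1,
    smul_mul_assoc, smul_smul, mul_comm ((-1 : ℂ) ^ t), mul_assoc y]

theorem zsl (hX : X.OK) : SL2 D K.L K.Lm (X.Nd - (D : ℂ) • 1) where
  br := by rw [← neg_sub, h.sl2, neg_sub]
  HL := by
    rw [sub_mul, mul_sub, smul_mul_assoc, mul_smul_comm, one_mul, mul_one, sub_sub_sub_cancel_right]
    exact_mod_cast hX.zgd.wt_id (s := 2) h.dgL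
  HLm := by
    rw [sub_mul, mul_sub, smul_mul_assoc, mul_smul_comm, one_mul, mul_one, sub_sub_sub_cancel_right]
    exact_mod_cast hX.zgd.wt_id' (s := 2) h.dgLm
  nL := hX.zgd.nil (s := 1) h.dgL
  nLm := hX.zgd.nil' (s := 1) h.dgLm

theorem zQA (hX : X.OK) (a b : S) : X.Q (K.A a) b = -X.Q a (K.A b) := by
  have k := h.zgd.refl h.Qpr
  rw [← h.zNpA]
  simp only [LinearMap.sub_apply, Module.End.mul_apply, map_sub, zNp, k, hX.Qd,
    LinearMap.smul_apply, Module.End.one_apply, map_smul]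
  ring

theorem zcjNp (hX : X.OK) (a : S) : X.cj (K.zNp a) = (X.Nd - K.zNp) (X.cj a) := by
  have k1 : a = ∑ j ∈ range (D + 1), ∑ m ∈ range (D + D + 1), K.pr j (X.dg m a) := by
    simp only [← map_sum, ← LinearMap.sum_apply, hX.dg_sum, h.pr_sum, Module.End.one_apply]
  rw [k1]
  simp only [map_sum]
  refine sum_congr rfl fun j _ => sum_congr rfl fun m _ => ?_
  rcases lt_or_ge m j with e | e
  · rw [← Module.End.mul_apply (K.pr j), h.pr_lt j m e]
    simp
  · obtain ⟨k, rfl⟩ := Nat.exists_eq_add_of_le e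
    have k2 : X.Nd * (K.pr k * X.dg (j + k)) = ((j + k : ℕ) : ℂ) • (K.pr k * X.dg (j + k)) := by
      rw [h.pr_dg, ← mul_assoc, ← smul_mul_assoc]
      exact congrArg (· * K.pr k) (hX.zgd.wt_mul _ _)
    rw [← Module.End.mul_apply K.zNp, zNp, h.zgd.wt_mul, LinearMap.smul_apply, map_smulₛₗ, map_natCast,
      h.cjpr, LinearMap.sub_apply, ← Module.End.mul_apply (wt _ _ _), h.zgd.wt_mul,
      ← Module.End.mul_apply (K.pr k), ← Module.End.mul_apply X.Nd, k2]
    simp [add_smul]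

theorem zcjA (hX : X.OK) (a : S) : X.cj (K.A a) = K.Ab (X.cj a) := by
  have k1 : X.Nd * X.d - X.d * X.Nd = X.d := by
    simpa [Cx.Nd, wt] using hX.zgd.wt_id (s := 1) hX.dg_d
  have k2 : K.Ab = (X.Nd - K.zNp) * X.d - X.d * (X.Nd - K.zNp) := by
    rw [sub_mul, mul_sub, sub_sub_sub_comm, k1, h.zNpA, h.zd_eq, add_sub_cancel_left]
  rw [k2, ← h.zNpA]
  simp only [LinearMap.sub_apply (_ * _), Module.End.mul_apply, map_sub X.cj, h.zcjNp hX, hX.cjd]

theorem zWNd (h3 : F2a) (hX : X.OK) : X.Nd * K.W + K.W * X.Nd = ((D + D : ℕ) : ℂ) • K.W := by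
  have k : K.W * _ = -(_ * K.W) := (h3.wy_L (h.zsl hX)).2.2
  rw [sub_mul, mul_sub, smul_mul_assoc, mul_smul_comm, one_mul, mul_one] at k
  rw [Nat.cast_add, add_smul, eq_add_of_sub_eq k]
  abel

theorem zWNp (h3 : F2a) (hX : X.OK) :
    K.W * K.zNp = (((D + D : ℕ) : ℂ) • 1 - X.Nd - ((D : ℂ) • 1 - K.zNp)) * K.W := by
  have k1 : K.zNp * K.L - K.L * K.zNp = _ := h.zgd.wt_id (s := 1) h.prL
  have k2 : K.zNp * K.Lm - K.Lm * K.zNp = _ := h.zgd.wt_id' (s := 1) h.prLm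
  have k3 : X.Nd * K.L - K.L * X.Nd = _ := hX.zgd.wt_id (s := 2) h.dgL
  have k4 : X.Nd * K.Lm - K.Lm * X.Nd = _ := hX.zgd.wt_id' (s := 2) h.dgLm
  have k5 : K.W * _ = _ * K.W := h3.wy_comm D K.L K.Lm K.L K.Lm ((2 : ℂ) • K.zNp - X.Nd)
    (by
      simp only [mul_sub, sub_mul, mul_smul_comm, smul_mul_assoc]
      linear_combination (norm := module) k3 - (2 : ℂ) • k1)
    (by
      simp only [mul_sub, sub_mul, mul_smul_comm, smul_mul_assoc]
      linear_combination (norm := module) k4 - (2 : ℂ) • k2)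
  have k6 := h.zWNd h3 hX
  simp only [mul_sub, sub_mul, mul_smul_comm, smul_mul_assoc, one_mul, Nat.cast_add] at k5 k6 ⊢
  linear_combination (norm := module) (2⁻¹ : ℂ) • k5 + (2⁻¹ : ℂ) • k6

theorem zadj (h3 : F2a) (hX : X.OK) {y y' : Module.End ℂ S} {e : ℂ} (h1 : K.L * y = y * K.L)
    (h2 : Sh X.dg 1 y) (hC : K.C * y = e • (y * K.C)) (hQ : ∀ a b, X.Q (y a) b = -X.Q a (y b))
    (hc : ∀ a, X.cj (y' a) = y (X.cj a)) (a b : S) :
    K.ip a (y b) = K.ip ((star e • (K.Lm * y' - y' * K.Lm)) a) b := by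
  have k : K.W * y = -(_ * K.W) := (h3.wy_y (h.zsl hX) y h1 (by
    rw [sub_mul, mul_sub, smul_mul_assoc, mul_smul_comm, one_mul, mul_one, sub_sub_sub_cancel_right]
    simpa [Cx.Nd, wt] using hX.zgd.wt_id h2)).1
  rw [ip, ip, ← Module.End.mul_apply K.C, hC, LinearMap.smul_apply, map_smul, Module.End.mul_apply,
    ← Module.End.mul_apply K.W y, k]
  simp only [LinearMap.smul_apply, map_smulₛₗ, LinearMap.sub_apply, Module.End.mul_apply, map_sub,
    LinearMap.neg_apply, map_neg, h.cjLm, hc, h.QLm, hQ, starRingEnd_apply, star_star,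
    RingHom.id_apply, smul_eq_mul]
  ring

end Alg

theorem kia (h3 : F2a) {X : Cx S D} {K : KP X} (hX : X.OK) (h : K.Alg) : K.KIa := by
  have dd : K.A * K.A + (K.A * K.Ab + K.Ab * K.A) + K.Ab * K.Ab = 0 := by
    have k : X.d * X.d = 0 := LinearMap.ext hX.dd
    rw [h.zd_eq] at k
    rw [← k]
    noncomm_ring
  have s2 : Sh K.pr 2 (K.A * K.A) := h.zshA.mul h.zshA rfl
  have s1 : Sh K.pr 1 (K.A * K.Ab + K.Ab * K.A) := (h.zshA.mul h.zshAb rfl).add (h.zshAb.mul h.zshA rfl)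
  have s0 : Sh K.pr 0 (K.Ab * K.Ab) := h.zshAb.mul h.zshAb rfl
  have sL : Sh K.pr 1 K.L := h.prL
  have dL : K.L * K.A - K.A * K.L + (K.L * K.Ab - K.Ab * K.L) + 0 = 0 := by
    have k := h.Ld
    rw [h.zd_eq] at k
    rw [add_zero, ← sub_eq_zero.2 k]
    noncomm_ring
  have l2 : Sh K.pr 2 (K.L * K.A - K.A * K.L) := (sL.mul h.zshA rfl).sub (h.zshA.mul sL rfl)
  have l1 : Sh K.pr 1 (K.L * K.Ab - K.Ab * K.L) := (sL.mul h.zshAb rfl).sub (h.zshAb.mul sL rfl)
  have l0 : Sh K.pr 0 0 := fun _ => by simp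
  have LA := sub_eq_zero.1 (h.zgd.sep l2 l1 l0 (by omega) (by omega) dL)
  have LAb := sub_eq_zero.1 (h.zgd.sep l1 l2 l0 (by omega) (by omega) (by rw [add_comm (_ - _), dL]))
  have dA : ∀ a, K.Ab a = X.d a - K.A a := fun a => by rw [h.zd_eq]; simp
  have QAb : ∀ a b, X.Q (K.Ab a) b = -X.Q a (K.Ab b) := fun a b => by
    rw [dA, dA, map_sub, map_sub, LinearMap.sub_apply, hX.Qd, h.zQA hX]
    ring
  have cjAb : ∀ a, X.cj (K.Ab a) = K.A (X.cj a) := fun a => by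
    rw [dA, map_sub, hX.cjd, h.zcjA hX, dA, sub_sub_cancel]
  have adjA : ∀ a b, K.ip a (K.A b) = K.ip (K.As a) b := fun a b => by
    simpa [As] using h.zadj h3 hX LA (h.zdgA hX) (h.zC_sh hX (h.zdgA hX) h.zshA) (h.zQA hX) cjAb a b
  have adjAb : ∀ a b, K.ip a (K.Ab b) = K.ip (K.Abs a) b := fun a b => by
    simpa [Abs] using h.zadj h3 hX LAb (h.zdgAb hX) (h.zC_sh hX (h.zdgAb hX) h.zshAb) QAb (h.zcjA hX) a b
  have CL : K.C * K.L = K.L * K.C := by simpa using h.zC_sh hX (s := 2) h.dgL sL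
  have CP : K.C * K.zNp = K.zNp * K.C := by
    simpa [zNp] using h.zC_sh hX (Sh.wt (fun j k => (h.pr_dg k j).symm) _)
      (Sh.wt h.zgd.comm fun m => m)
  have CD : K.C * X.Nd = X.Nd * K.C := by
    simpa [Cx.Nd, wt] using h.zC_sh hX (Sh.wt hX.zgd.comm _) (Sh.wt (N := D + D) h.pr_dg fun m => m)
  have cD : ∀ a, X.cj (X.Nd a) = X.Nd (X.cj a) := fun a => by
    simp [Cx.Nd, hX.cjdg, map_smulₛₗ]
  have QD : ∀ a b, X.Q (X.Nd a) b = X.Q a ((_ - X.Nd) b) := hX.zgd.refl hX.Qdg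
  have QP : ∀ a b, X.Q (K.zNp a) b = X.Q a ((_ - K.zNp) b) := h.zgd.refl h.Qpr
  exact
    { d_eq := h.zd_eq
      AA := h.zgd.sep s2 s1 s0 (by omega) (by omega) dd
      AbAb := h.zgd.sep s0 s1 s2 (by omega) (by omega) (by rw [← dd]; abel)
      AAb := eq_neg_of_add_eq_zero_left
        (h.zgd.sep s1 s2 s0 (by omega) (by omega) (by rw [← dd]; abel))
      prA := h.zshA
      pr0A := h.zgd.low h.zshA one_pos
      prAb := h.zshAb
      dgA := h.zdgA hX
      dgAb := h.zdgAb hX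
      QA := h.zQA hX
      QAb := QAb
      cjA := h.zcjA hX
      cjAb := cjAb
      LA := LA
      LAb := LAb
      pr0L := h.zgd.low sL one_pos
      dg0L := hX.zgd.low (s := 2) h.dgL two_pos
      dg1L := hX.zgd.low (s := 2) h.dgL one_lt_two
      Lmpr0 := h.zgd.low' h.prLm one_pos
      Lmdg0 := hX.zgd.low' h.dgLm two_pos
      Lmdg1 := hX.zgd.low' h.dgLm one_lt_two
      nL := (h.zsl hX).nL
      nLm := (h.zsl hX).nLm
      HL := by exact_mod_cast hX.zgd.wt_id (s := 2) h.dgL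
      HLm := by exact_mod_cast hX.zgd.wt_id' (s := 2) h.dgLm
      Wdg := fun _ _ e => hX.zgd.flip (h.zWNd h3 hX) e
      ip_add_l := fun a a' b => LinearMap.congr_fun (K.zip.map_add a a') b
      ip_add_r := fun a => (K.zip a).map_add
      ip_smul_l := fun c a b => LinearMap.congr_fun (K.zip.map_smulₛₗ c a) b
      ip_smul_r := fun c a => (K.zip a).map_smul c
      adjA := adjA
      adjAb := adjAb
      adjd := fun a b => by
        rw [h.zd_eq, ds]
        exact ((K.zip a).map_add _ _).trans ((congrArg₂ _ (adjA a b) (adjAb a b)).trans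
          (LinearMap.congr_fun (K.zip.map_add _ _) b).symm)
      adjL := fun a b => by
        have k : K.W * K.L = -(K.Lm * K.W) := (h3.wy_L (h.zsl hX)).1
        rw [ip, ip, ← Module.End.mul_apply K.C, CL, Module.End.mul_apply,
          ← Module.End.mul_apply K.W K.L, k, h.cjLm, h.QLm]
        simp
      adjpr := h.zgd.adj (B := K.zip) fun a b => by
        change K.ip a (K.zNp b) = K.ip (K.zNp a) b
        rw [ip, ip, ← Module.End.mul_apply K.C, CP, Module.End.mul_apply,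
          ← Module.End.mul_apply K.W K.zNp, h.zWNp h3 hX, h.zcjNp hX, LinearMap.sub_apply X.Nd,
          map_sub, LinearMap.sub_apply, QD, QP, ← map_sub]
        rfl
      adjdg := hX.zgd.adj (B := K.zip) fun a b => by
        change K.ip a (X.Nd b) = K.ip (X.Nd a) b
        rw [ip, ip, ← Module.End.mul_apply K.C, CD, Module.End.mul_apply,
          ← Module.End.mul_apply K.W X.Nd, eq_sub_of_add_eq' (h.zWNd h3 hX), cD, QD]
        rfl }

end KP

end Vale.Agent.P281Z.Hg
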