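import Vale.Agent.P281Z.Hg.Ab1a

/-!
# P281, Hodge block: harmonic representatives
-/

open scoped Topology
open Filter

noncomputable section

namespace Vale.Agent.P281Z.Hg.KP

variable {S : Type} [AddCommGroup S] [Module ℂ S] {D : ℕ} {X : Cx S D} {K : KP X}
  {v v' : ℕ → S} {z z' : S}

theorem ds_apply (a : S) : K.ds a = K.As a + K.Abs a := rfl

theorem app {T T' U U' : Module.End ℂ S} (h : T * T' = U * U') (a : S) : T (T' a) = U (U' a) :=
  LinearMap.congr_fun h a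

theorem app0 {T T' : Module.End ℂ S} (h : T * T' = 0) (a : S) : T (T' a) = 0 :=
  LinearMap.congr_fun h a

theorem KIa.d_apply (ha : K.KIa) (a : S) : X.d a = K.A a + K.Ab a := LinearMap.congr_fun ha.d_eq a

/-- operators which preserve harmonic sequences -/
def PH (K : KP X) (T : Module.End ℂ S) : Prop := ∀ v, K.Har v → K.Har fun s => T (v s)

theorem PH.mul {T T' : Module.End ℂ S} (h : K.PH T) (h' : K.PH T') : K.PH (T * T') :=
  fun _ hv => h _ (h' _ hv)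

theorem PH.pow {T : Module.End ℂ S} (h : K.PH T) (k : ℕ) : K.PH (T ^ k) := by
  induction k with
  | zero =>
    exact fun _ hv => hv
  | succ k ih => exact pow_succ T k ▸ ih.mul h

variable (hb : K.KIb)
include hb

theorem KIb.har_add (h : K.Har v) (h' : K.Har v') : K.Har fun s => v s + v' s :=
  ⟨hb.cau_add h.cau h'.cau, (hb.nf_add h.d h'.d).congr fun _ => (map_add _ _ _).symm,
    (hb.nf_add h.ds h'.ds).congr fun _ => (map_add _ _ _).symm⟩

theorem KIb.har_smul (c : ℂ) (h : K.Har v) : K.Har fun s => c • v s :=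
  ⟨hb.cau_smul c h.cau, (hb.nf_smul c h.d).congr fun _ => (map_smul _ _ _).symm,
    (hb.nf_smul c h.ds).congr fun _ => (map_smul _ _ _).symm⟩

theorem KIb.har_const (h : X.d z = 0) (h' : K.ds z = 0) : K.Har fun _ => z :=
  ⟨hb.cau_const z, hb.nf_zero fun _ => h, hb.nf_zero fun _ => h'⟩

theorem KIb.ph_sum {ι : Type} (s : Finset ι) (c : ι → ℂ) {T : ι → Module.End ℂ S}
    (h : ∀ i, K.PH (T i)) : K.PH (∑ i ∈ s, c i • T i) :=
  Finset.sum_induction _ K.PH (fun _ _ a b v hv => hb.har_add (a v hv) (b v hv))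
    (fun _ _ => hb.har_const (map_zero _) (map_zero _)) fun i _ v hv => hb.har_smul _ (h i v hv)

theorem KIb.rep_add (h : K.Rep z v) (h' : K.Rep z' v') : K.Rep (z + z') fun s => v s + v' s :=
  let ⟨y, k⟩ := h.coh
  let ⟨y', k'⟩ := h'.coh
  ⟨hb.har_add h.toHar h'.toHar, by rw [map_add, h.cl, h'.cl, add_zero], fun s => y s + y' s,
    (hb.nf_add k k').congr fun _ => by rw [map_add]; abel⟩

theorem KIb.rep_smul (c : ℂ) (h : K.Rep z v) : K.Rep (c • z) fun s => c • v s :=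
  let ⟨y, k⟩ := h.coh
  ⟨hb.har_smul c h.toHar, by rw [map_smul, h.cl, smul_zero], fun s => c • y s,
    (hb.nf_smul c k).congr fun _ => by rw [map_smul, smul_sub, smul_sub]⟩

theorem KIb.rep_sub (h : K.Rep z v) (h' : K.Rep z' v') : K.Rep (z - z') fun s => v s - v' s := by
  simpa only [neg_one_smul, ← sub_eq_add_neg] using hb.rep_add h (hb.rep_smul (-1) h')

theorem KIb.nA (h : K.Har v) : (K.Null fun s => K.A (v s)) ∧ (K.Null fun s => K.Ab (v s)) ∧
    (K.Null fun s => K.As (v s)) ∧ K.Null fun s => K.Abs (v s) := by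
  have h1 : Tendsto (fun s => K.nrm (X.d (v s)) + K.nrm (K.ds (v s))) atTop (𝓝 0) := by
    simpa using Tendsto.add h.d h.ds
  have h2 : ∀ {a b c d : S}, K.nrm a ^ 2 + K.nrm b ^ 2 = 2 * (K.nrm c ^ 2 + K.nrm d ^ 2) →
      K.nrm c ≤ K.nrm a + K.nrm b ∧ K.nrm d ≤ K.nrm a + K.nrm b := fun {a b c d} e =>
    have := mul_nonneg (hb.nn a) (hb.nn b)
    ⟨le_of_sq_le_sq (by nlinarith) (add_nonneg (hb.nn a) (hb.nn b)),
      le_of_sq_le_sq (by nlinarith) (add_nonneg (hb.nn a) (hb.nn b))⟩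
  exact ⟨hb.nf_le h1 fun _ => (h2 (hb.lapA _)).1, hb.nf_le h1 fun _ => (h2 (hb.lapAb _)).1,
    hb.nf_le h1 fun _ => (h2 (hb.lapA _)).2, hb.nf_le h1 fun _ => (h2 (hb.lapAb _)).2⟩

theorem KIb.bf_d {y : ℕ → S} (hv : K.Cau v) (k : K.Null fun s => v s - z - X.d (y s)) :
    K.Bf fun s => X.d (y s) := by
  simpa using hb.bf_sub (hb.bf_sub (hb.cau_bf hv) (hb.cau_bf (hb.cau_const z)))
    (hb.cau_bf (hb.cau_null k))

variable (h : K.OK) (ha : K.KIa)
include h ha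

theorem KIb.null_of_rep (hv : K.Rep 0 v) : K.Null v := by
  obtain ⟨y, k⟩ := hv.coh
  have h1 := (hb.orth h ha hv.toHar y (hb.bf_d hv.cau k)).add
    (hb.tz' zero_le_one hb.cs' k (hb.cau_bf hv.cau))
  refine hb.nf_sq ?_
  simpa only [← ha.ip_add_l, sub_zero, add_sub_cancel, add_zero, Complex.zero_re, hb.sq,
    Function.comp_def] using (Complex.continuous_re.tendsto _).comp h1

omit h in
theorem KIb.hpr (k : ℕ) : K.PH (K.pr k) := fun v hv => by
  obtain ⟨a1, a2, a3, a4⟩ := hb.nA hv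
  refine ⟨hb.cau_map (hb.bpr k) (map_sub _) hv.cau, (hb.nf_add (hb.nf_map (hb.bpr (k + 1)) a1)
    (hb.nf_map (hb.bpr k) a2)).congr fun s => by
      rw [app (ha.prA k), app (ha.prAb k), ha.d_apply], ?_⟩
  cases k with
  | zero =>
    exact (hb.nf_map (hb.bpr 0) a4).congr fun s => by
      rw [ds_apply, app0 hb.Aspr0, zero_add, app (hb.prAbs 0)]
  | succ k =>
    exact (hb.nf_add (hb.nf_map (hb.bpr k) a3) (hb.nf_map (hb.bpr (k + 1)) a4)).congr
      fun s => by rw [ds_apply, app (hb.prAs k), app (hb.prAbs _)]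

omit ha in
theorem KIb.hdg (k : ℕ) : K.PH (X.dg k) := fun v hv => by
  refine ⟨hb.cau_map (hb.bdg k) (map_sub _) hv.cau, (hb.nf_map (hb.bdg (k + 1)) hv.d).congr
    fun s => app (h.cx.dg_d k) _, ?_⟩
  cases k with
  | zero =>
    exact hb.nf_zero fun s => by rw [ds_apply, app0 hb.Asdg0, app0 hb.Absdg0, add_zero]
  | succ k =>
    exact (hb.nf_map (hb.bdg k) hv.ds).congr fun s => by
      rw [ds_apply, ds_apply, map_add, app (hb.dgAs k), app (hb.dgAbs k)]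

omit ha in
theorem KIb.hL : K.PH K.L := fun v hv => by
  obtain ⟨a1, a2, -, -⟩ := hb.nA hv
  refine ⟨hb.cau_map h.alg.bL (map_sub _) hv.cau, (hb.nf_map h.alg.bL hv.d).congr
    fun s => app h.alg.Ld _, (hb.nf_add (hb.nf_map h.alg.bL hv.ds) (hb.nf_add
      (hb.nf_smul (-Complex.I) a2) (hb.nf_smul Complex.I a1))).congr fun s => ?_⟩
  have e1 : K.As (K.L (v s)) - K.L (K.As (v s)) = (-Complex.I) • K.Ab (v s) :=
    LinearMap.congr_fun hb.AsL (v s)
  have e2 : K.Abs (K.L (v s)) - K.L (K.Abs (v s)) = Complex.I • K.A (v s) :=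
    LinearMap.congr_fun hb.AbsL (v s)
  rw [ds_apply, ds_apply, map_add, ← e1, ← e2]
  abel

theorem KIb.hLm : K.PH K.Lm := fun v hv => by
  obtain ⟨-, -, a3, a4⟩ := hb.nA hv
  refine ⟨hb.cau_map h.alg.bLm (map_sub _) hv.cau, (hb.nf_add (hb.nf_map h.alg.bLm hv.d)
    (hb.nf_sub (hb.nf_smul Complex.I a3) (hb.nf_smul Complex.I a4))).congr fun s => ?_,
    (hb.nf_map h.alg.bLm hv.ds).congr fun s => by
      rw [ds_apply, ds_apply, map_add, app hb.LmAs, app hb.LmAbs]⟩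
  have e1 : K.As (v s) = Complex.I • (K.Lm (K.Ab (v s)) - K.Ab (K.Lm (v s))) := rfl
  have e2 : K.Abs (v s) = (-Complex.I) • (K.Lm (K.A (v s)) - K.A (K.Lm (v s))) := rfl
  rw [e1, e2, ha.d_apply, ha.d_apply, map_add, smul_smul, smul_smul, mul_neg, Complex.I_mul_I]
  module

theorem KIb.hW : K.PH K.W :=
  have h1 := hb.ph_sum (Finset.range (D + D + 2)) (fun k => (k.factorial : ℂ)⁻¹) (hb.hL h).pow
  (h1.mul (hb.ph_sum _ _ (PH.pow fun v hv => by
    simpa using hb.har_smul (-1) (hb.hLm h ha v hv)))).mul h1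

theorem KIb.hC : K.PH K.C :=
  Finset.sum_induction _ K.PH (fun _ _ a b v hv => hb.har_add (a v hv) (b v hv))
    (fun _ _ => hb.har_const (map_zero _) (map_zero _)) fun m _ =>
      hb.ph_sum _ _ fun k => (hb.hdg h m).mul (hb.hpr ha k)

omit ha in
theorem KIb.rcj (hv : K.Rep z v) : K.Rep (X.cj z) fun s => X.cj (v s) :=
  let ⟨y, k⟩ := hv.coh
  ⟨⟨hb.cau_map h.alg.bcj (map_sub _) hv.cau, (hb.nf_map h.alg.bcj hv.d).congr fun _ => h.cx.cjd _,
    (hb.nf_map h.alg.bcj hv.ds).congr fun _ => by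
      rw [ds_apply, ds_apply, map_add, hb.cjAs, hb.cjAbs, add_comm]⟩,
    by rw [← h.cx.cjd, hv.cl, map_zero], fun s => X.cj (y s),
    (hb.nf_map h.alg.bcj k).congr fun _ => by rw [map_sub, map_sub, h.cx.cjd]⟩

omit ha in
theorem KIb.Qlim' (hz : X.d z' = 0) (hv : K.Rep z v) :
    Tendsto (fun s => X.Q z' (v s)) atTop (𝓝 (X.Q z' z)) := by
  obtain ⟨y, k⟩ := hv.coh
  obtain ⟨C, h0, hQ⟩ := hb.bQ
  have h1 : ∀ y, X.Q z' (X.d y) = 0 := fun y => by simpa [hz] using h.cx.Qd z' y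
  simpa [h1] using (hb.tz (B := fun a b => X.Q a b) (u := fun _ => z') h0 hQ
    ⟨_, fun _ => le_rfl⟩ k).add_const (X.Q z' z)

omit ha in
theorem KIb.Qlim (hv : K.Rep z v) (hv' : K.Rep z' v') :
    Tendsto (fun s => X.Q (v s) (v' s)) atTop (𝓝 (X.Q z z')) := by
  obtain ⟨y, k⟩ := hv.coh
  obtain ⟨C, h0, hQ⟩ := hb.bQ
  have h1 := hb.ort (B := fun a b => X.Q a b) h0 hQ (fun _ => map_sub _) (hb.bf_d hv.cau k) hv'.cau
    fun s => by
      simpa only [h.cx.Qd, neg_zero] using (hb.tz (B := fun a b => X.Q a b) (u := fun _ => y s)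
        h0 hQ ⟨_, fun _ => le_rfl⟩ hv'.d).neg
  simpa using ((hb.tz' (B := fun a b => X.Q a b) h0 hQ k (hb.cau_bf hv'.cau)).add h1).add
    (hb.Qlim' h hv.cl hv')

theorem KIb.nul (hv : K.Rep z v) : z ∈ X.Nul ↔ K.Null v := by
  refine ⟨fun hz => hb.nf_sq ?_, fun hn => ⟨hv.cl, fun y hy => ?_⟩⟩
  · have h1 := hb.hW h ha _ (hb.hC h ha _ hv.toHar)
    obtain ⟨w, y, a, b⟩ := h.s1 _ h1.cau h1.d
    have h2 := (hb.Qlim h (hb.rcj h hv) ⟨h1, a, y, b⟩).const_mul K.c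
    rw [← h.cx.cjcj w, h.cx.Qcj, h.cx.Qs, hz.2 _ (by rw [← h.cx.cjd, a, map_zero])] at h2
    simpa [hb.sq, ip, Function.comp_def] using (Complex.continuous_re.tendsto _).comp h2
  · obtain ⟨C, h0, hQ⟩ := hb.bQ
    exact tendsto_nhds_unique (hb.Qlim' h hy hv) (hb.tz (B := fun a b => X.Q a b)
      (u := fun _ => y) h0 hQ ⟨_, fun _ => le_rfl⟩ hn)

theorem KIb.nc (hz : z ∈ X.Nul) : ∃ y : ℕ → S, K.Null fun s => z - X.d (y s) := by
  obtain ⟨v, hv⟩ := hb.ex h ha z hz.1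
  obtain ⟨y, k⟩ := hv.coh
  exact ⟨fun s => -y s, (hb.nf_sub ((hb.nul h ha hv).1 hz) k).congr fun s => by
    rw [map_neg]; abel⟩

omit hb in
theorem KIa.Lm_top {m : ℕ} (h1 : K.pr m z = z) (h2 : X.dg m z = z) : K.Lm z = 0 := by
  rcases m with _ | m
  · rw [← h1, app0 ha.Lmpr0]
  rcases m with _ | m
  · rw [← h2, app0 ha.Lmdg1]
  · rw [← h1, ← app (h.alg.prLm _), ← h2, ← app (h.alg.dgLm _),
      app0 (h.alg.pr_lt _ _ (Nat.lt_succ_self m))]

theorem KIb.top (hz : X.d z = 0) (ht : K.Top z) : K.Rep z fun _ => z := by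
  have h1 : K.A z = 0 := by
    rw [← ht.1, ← app (ha.prA D), h.alg.pr_zero _ (Nat.lt_succ_self D), LinearMap.zero_apply]
  have h2 : K.Ab z = 0 := by rw [← hz, ha.d_apply, h1, zero_add]
  refine ⟨hb.har_const hz ?_, hz, 0, hb.nf_zero fun _ => by simp⟩
  simp [ds_apply, As, Abs, h1, h2, ha.Lm_top h ht.1 ht.2]

omit hb h ha

/-- row AB1 -/
theorem kh (h : K.OK) (ha : K.KIa) (hb : K.KIb) : K.KH where
  ex := hb.ex h ha
  uniq a b := hb.null_of_rep h ha (sub_self (_ : S) ▸ hb.rep_sub a b)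
  congr a b c := let ⟨y, k⟩ := a.coh
    ⟨b, a.cl, y, (hb.nf_sub k c).congr fun _ => by abel⟩
  nul := hb.nul h ha
  ncongr {z z' _} a b :=
    let ⟨y, k⟩ := a.coh
    let ⟨y', k'⟩ := hb.nc h ha b
    ⟨a.toHar, by simpa [a.cl] using b.1, fun s => y s + y' s,
      (hb.nf_add k k').congr fun _ => by rw [map_add]; abel⟩
  back a b := (hb.nul h ha (hb.rep_sub a b)).2 (hb.nf_zero fun _ => sub_self _)
  har a := let ⟨z, y, b, c⟩ := h.s1 _ a.cau a.d
    ⟨z, a, b, y, c⟩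
  zero := ⟨hb.har_const (map_zero _) (map_zero _), map_zero _, 0, hb.nf_zero fun _ => by simp⟩
  add := hb.rep_add
  smul c := hb.rep_smul c
  bdd := hb.cau_bf
  nA := hb.nA
  hpr k := hb.hpr ha k _
  hLm := hb.hLm h ha _
  hW := hb.hW h ha _
  hC := hb.hC h ha _
  rL a := let ⟨y, k⟩ := a.coh
    ⟨hb.hL h _ a.toHar, by rw [← app h.alg.Ld, a.cl, map_zero], fun s => K.L (y s),
      (hb.nf_map h.alg.bL k).congr fun _ => by rw [map_sub, map_sub, app h.alg.Ld]⟩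
  rdg m _ _ a := by
    obtain ⟨y, k⟩ := a.coh
    refine ⟨hb.hdg h m _ a.toHar, by rw [← app (h.cx.dg_d m), a.cl, map_zero], ?_⟩
    cases m with
    | zero =>
      exact ⟨0, (hb.nf_map (hb.bdg 0) k).congr fun _ => by
        simp [app0 h.cx.dg0_d]⟩
    | succ m =>
      exact ⟨fun s => X.dg m (y s), (hb.nf_map (hb.bdg _) k).congr fun _ => by
        rw [map_sub, map_sub, app (h.cx.dg_d m)]⟩
  rcj := hb.rcj h
  Qlim := hb.Qlim h
  Qlim' := hb.Qlim' h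
  orth := hb.orth h ha
  nc _ := hb.nc h ha
  top := hb.top h ha

end Vale.Agent.P281Z.Hg.KP
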