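import Vale.Agent.P281Z.Hg.G1

/-!
# P281, Hodge block: the de Rham complex of a compact complex manifold (row G2)
-/

open scoped Manifold ContDiff ComplexOrder Topology Matrix
open Filter MeasureTheory
open Vale.Agent.P272.K Vale.Agent.P272.K.C2 Vale.Agent.P272.K.INT Vale.Agent.P299.IX
  Vale.Agent.P299.IX.Fock

noncomputable section

namespace Vale.Agent.P281Z.Hg

namespace G2H

open G1H

section alg

variable {n : ℕ}

theorem Bq_add_l (u u' v : Fk n) : Bq (u + u') v = Bq u v + Bq u' v := add_dotProduct _ _ _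

theorem Bq_add_r (u v v' : Fk n) : Bq u (v + v') = Bq u v + Bq u v' := by
  rw [Bq, Matrix.mulVec_add, dotProduct_add]; rfl

theorem Bq_smul_l (c : ℂ) (u v : Fk n) : Bq (c • u) v = c * Bq u v := smul_dotProduct _ _ _

theorem Bq_smul_r (c : ℂ) (u v : Fk n) : Bq u (c • v) = c * Bq u v := by
  rw [Bq, Matrix.mulVec_smul, dotProduct_smul]; rfl

theorem Bq_zero_l (v : Fk n) : Bq 0 v = 0 := zero_dotProduct _

theorem dg_ev : (dg 0 : FM n) *ᵥ ev ∅ = ev ∅ := by rw [dg, dgl_ev]; simp

theorem dg_Lw {d : ℕ} (w : Matrix (Fin d) (Fin d) ℂ) : dg 2 * Lw w = Lw w * dg 0 := by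
  simp only [Lw, Finset.mul_sum, Finset.sum_mul, Matrix.mul_smul, Matrix.smul_mul]
  refine Finset.sum_congr rfl fun j _ => Finset.sum_congr rfl fun k _ => ?_
  rw [← mul_assoc, dg_eps 1, mul_assoc, dg_eps 0, mul_assoc]

theorem par_one {u : Fk n} (h : dg 1 *ᵥ u = u) : par *ᵥ u = (-1 : ℂ) • u := by
  funext I
  have h1 := (dg_mulVec 1 u I).symm.trans (congrFun h I)
  rw [par_mulVec, Pi.smul_apply, smul_eq_mul]
  split_ifs at h1 with h2
  · rw [h2, pow_one]
  · rw [← h1, mul_zero, mul_zero]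

end alg

variable {d : ℕ} {M : Type} [TopologicalSpace M] [ChartedSpace (Cm d) M] {e e' : Chart d M} {x : M}

theorem ext' {u v : SF d M} (h : ∀ e x, At e x → vl u e (e x) = vl v e (e x)) : u = v :=
  G1H.ext u v fun x => ⟨chartAt (Cm d) x, ⟨chart_mem_atlas _ _, mem_chart_source _ _⟩,
    h _ _ ⟨chart_mem_atlas _ _, mem_chart_source _ _⟩⟩

theorem ev_at (h : At e x) {P : Cm d → Prop} (hP : ∀ᶠ y in 𝓝 x, At e y → P (e y)) :
    ∀ᶠ z in 𝓝 (e x), P z := by
  filter_upwards [e.open_target.mem_nhds (e.map_source h.2), ev_src h hP] with z hz h1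
  exact e.right_inv hz ▸ h1 (at_tg h.1 hz)

theorem dif (u : SF d M) (h : At e x) : DifferentiableAt ℝ (vl u e) (e x) :=
  ((vl_isF u).sm e x h).differentiableAt (by simp)

theorem cd_Bq {u v : Cm d → Fo d} {z : Cm d} (hu : ContDiffAt ℝ ∞ u z) (hv : ContDiffAt ℝ ∞ v z) :
    ContDiffAt ℝ ∞ (fun y => Bq (u y) (v y)) z :=
  ContDiffAt.sum (s := Finset.univ) fun I _ => (contDiffAt_pi.1 hu I).mul
    (contDiffAt_pi.1 (cd_mulVec (MC_const hst _) hv) I)

theorem dg_dT (hk : K1a) {A B : Fm d} (h : ∀ c, A * eps c = eps c * B) {u : Cm d → Fo d}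
    {z : Cm d} (hu : DifferentiableAt ℝ u z) : A *ᵥ dT u z = dT (fun y => B *ᵥ u y) z := by
  simp only [dT, Matrix.mulVec_sum, hk.Dv_mul B _ hu, Matrix.mulVec_mulVec, h]

theorem int_dr (hk : K1a) (c : Fin (d + d)) {g : Cm d → ℂ} (hg : ContDiff ℝ ∞ g) {K : Set (Cm d)}
    (hK : IsCompact K) (h0 : ∀ z ∉ K, g z = 0) :
    Integrable (dr c g) ∧ ∀ z ∉ K, dr c g z = 0 := by
  have h1 : ∀ z ∉ K, ∀ v, fderiv ℝ g z v = 0 := fun z hz v => by
    have h2 : g =ᶠ[𝓝 z] fun _ => 0 := mem_of_superset (hK.isClosed.isOpen_compl.mem_nhds hz) h0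
    rw [h2.fderiv_eq]
    simp
  have h2 : Continuous (dr c g) ∧ ∀ z ∉ K, dr c g z = 0 := by
    induction c using Fin.addCases with
    | left j =>
      rw [show dr (Fin.castAdd d j) = dz j from hk.dr_hl j]
      exact ⟨continuous_iff_continuousAt.2 fun z => (contDiffAt_dz (m := 0) hg.contDiffAt
        (by simp)).continuousAt, fun z hz => by simp [dz, h1 z hz]⟩
    | right j =>
      rw [show dr (Fin.natAdd d j) = dzb j from hk.dr_ah j]
      exact ⟨continuous_iff_continuousAt.2 fun z => (contDiffAt_dzb (m := 0) hg.contDiffAt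
        (by simp)).continuousAt, fun z hz => by simp [dzb, h1 z hz]⟩
  exact ⟨h2.1.integrable_of_hasCompactSupport (HasCompactSupport.intro hK h2.2), h2.2⟩

/-- complex densities -/
def DC (F : Rw d M ℂ) : Prop :=
  IsDensity (fun e z => (F e z).re) ∧ IsDensity fun e z => (F e z).im

theorem DC.add {F G : Rw d M ℂ} (hF : DC F) (hG : DC G) : DC fun e z => F e z + G e z :=
  ⟨hF.1.add hG.1, hF.2.add hG.2⟩

theorem DC.star {F : Rw d M ℂ} (hF : DC F) : DC fun e z => star (F e z) :=
  ⟨hF.1, by simpa using hF.2.const_mul (-1)⟩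

variable [T2Space M] [CompactSpace M] [IsManifold 𝓘(ℂ, Cm d) ω M] {F G : Rw d M ℂ}

theorem itg_congr (h : ∀ e x, At e x → F e (e x) = G e (e x)) : itg F = itg G := by
  rw [itg, itg, intX_congr (D' := fun e z => (G e z).re) fun e x hx => by rw [h e x hx],
    intX_congr (D := fun e z => (F e z).im) (D' := fun e z => (G e z).im) fun e x hx => by
      rw [h e x hx]]

theorem itg_add (hF : DC F) (hG : DC G) : itg (fun e z => F e z + G e z) = itg F + itg G := by
  simp only [itg, Complex.add_re, Complex.add_im, intX_add hF.1 hG.1, intX_add hF.2 hG.2]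
  push_cast
  ring

theorem itg_smul (c : ℂ) (hF : DC F) : itg (fun e z => c * F e z) = c * itg F := by
  simp only [itg, Complex.mul_re, Complex.mul_im, intX_const_mul,
    intX_sub (hF.1.const_mul c.re) (hF.2.const_mul c.im),
    intX_add (hF.2.const_mul c.re) (hF.1.const_mul c.im)]
  apply Complex.ext <;> simp

theorem itg_star (F : Rw d M ℂ) : itg (fun e z => star (F e z)) = star (itg F) := by
  have h := intX_const_mul (fun e z => (F e z).im) (-1)
  simp only [neg_one_mul] at h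
  simp [itg, h]

theorem itg_supp (hF : DC F) (he : e ∈ atlas (Cm d) M) {K : Set M} (hK : IsClosed K)
    (hKe : K ⊆ e.source) (h0 : ∀ e' x, At e' x → x ∉ K → F e' (e' x) = 0) {g : Cm d → ℂ}
    (hg : Integrable g) (h1 : ∀ z ∈ e.target, F e z = g z) (h2 : ∀ z ∉ e.target, g z = 0) :
    itg F = ∫ z, g z := by
  rw [itg, intX_of_support hF.1 he hK hKe fun e' x a b => by rw [h0 e' x a b]; rfl,
    intX_of_support hF.2 he hK hKe fun e' x a b => by rw [h0 e' x a b]; rfl,
    setIntegral_congr_fun e.open_target.measurableSet fun z hz => congrArg Complex.re (h1 z hz),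
    setIntegral_congr_fun e.open_target.measurableSet fun z hz => congrArg Complex.im (h1 z hz),
    setIntegral_eq_integral_of_forall_compl_eq_zero fun z hz => by rw [h2 z hz]; rfl,
    setIntegral_eq_integral_of_forall_compl_eq_zero fun z hz => by rw [h2 z hz]; rfl, mul_comm]
  exact integral_re_add_im hg

variable {X : Cx (SF d M) d}

theorem d_ev (hX : RealX X) (u : SF d M) (h : At e x) : vl (X.d u) e =ᶠ[𝓝 (e x)] dT (vl u e) :=
  ev_at h (.of_forall fun y => hX.d u e y)

theorem dloc (hk : K1a) (hX : RealX X) {u : SF d M} (h : ∀ᶠ y in 𝓝 x, u ∈ ZP y) :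
    X.d u ∈ ZP x := fun e he => by
  rw [hX.d u e x he, hk.congr (v := fun _ => 0) (ev_at he (h.mono fun y hy => hy e)), hk.const]

/-- Stokes for forms supported in a chart -/
theorem stokes_loc (hk : K1a) (h : G1 d M) (hX : RealX X) (he : e ∈ atlas (Cm d) M) {K : Set M}
    (hK : IsClosed K) (hKe : K ⊆ e.source) {a : SF d M} (ha : ∀ x, x ∉ K → a ∈ ZP x)
    (b : SF d M) : X.Q (X.d a) b + X.Q a (X.d b) = 0 := by
  have hc : IsCompact (e '' K) := hK.isCompact.image_of_continuousOn (e.continuousOn.mono hKe)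
  have h0 : ∀ z ∉ e '' K, vl a e z = 0 := fun z hz => by
    by_cases h1 : z ∈ e.target
    · exact e.right_inv h1 ▸ ha _ (fun h2 => hz ⟨_, h2, e.right_inv h1⟩) e (at_tg he h1)
    · exact (vl_isF a).off e z fun h2 => h1 h2.2
  have h1 : ∀ c, ∀ z ∉ e '' K, Bq (eps c *ᵥ vl a e z) (vl b e z) = 0 := fun c z hz => by
    rw [h0 z hz, Matrix.mulVec_zero, Bq_zero_l]
  have h2 : ∀ c, ContDiff ℝ ∞ fun z => Bq (eps c *ᵥ vl a e z) (vl b e z) := fun c =>
    contDiff_iff_contDiffAt.2 fun z => by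
      by_cases hz : z ∈ e '' K
      · obtain ⟨y, hy, rfl⟩ := hz
        exact cd_Bq (cd_mulVec (MC_const _ _) ((vl_isF a).sm e y ⟨he, hKe hy⟩))
          ((vl_isF b).sm e y ⟨he, hKe hy⟩)
      · exact contDiffAt_const.congr_of_eventuallyEq
          (mem_of_superset (hc.isClosed.isOpen_compl.mem_nhds hz) (h1 c))
  have h3 := fun c => int_dr hk c (h2 c) hc (h1 c)
  rw [hX.Q, hX.Q, ← itg_add (h.dens _ _) (h.dens _ _), itg_supp (DC.add (h.dens _ _) (h.dens _ _))
    he hK hKe (fun e' x h4 h5 => ?_) (integrable_finsetSum Finset.univ fun c _ => (h3 c).1)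
    (fun z hz => ?_) fun z hz => Finset.sum_eq_zero fun c _ => (h3 c).2 z ?_,
    integral_finsetSum _ fun c _ => (h3 c).1]
  · exact Finset.sum_eq_zero fun c _ => hk.stokes c (h2 c) (HasCompactSupport.intro hc (h1 c))
  · rw [ha x h5 e' h4, dloc hk hX (mem_of_superset (hK.isOpen_compl.mem_nhds h5) ha) e' h4,
      Bq_zero_l, Bq_zero_l, add_zero]
  · rw [← e.right_inv hz, hX.d a e _ (at_tg he hz), hX.d b e _ (at_tg he hz),
      hk.Bq_dT (dif a (at_tg he hz)) (dif b (at_tg he hz))]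
  · rintro ⟨y, hy, rfl⟩
    exact hz (e.map_source (hKe hy))

theorem stokes (hk : K1a) (h : G1 d M) (hX : RealX X) (a b : SF d M) :
    X.Q (X.d a) b = -X.Q a (X.d b) := by
  choose T hT using fun i => h.op _ (h.fn _ ((part d M).smooth i))
  have h1 : a = ∑ i, T i a := ext' fun e x he => by
    simp only [vl_sum, hT _ a e x he, Matrix.smul_mulVec, Matrix.one_mulVec, ← Finset.sum_smul,
      ← Complex.ofReal_sum, (part d M).sum, Complex.ofReal_one, one_smul]
  rw [eq_neg_iff_add_eq_zero, h1]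
  simp only [map_sum, LinearMap.sum_apply, ← Finset.sum_add_distrib]
  refine Finset.sum_eq_zero fun i _ => stokes_loc hk h hX ((part d M).mem i) (isClosed_tsupport _)
    ((part d M).supp i) (fun x hx e he => ?_) b
  simp [hT i a e x he, e.left_inv he.2, image_eq_zero_of_notMem_tsupport hx]

theorem ok (ha : F1a) (hb : F1b) (hk : K1a) (h : G1 d M) (hX : RealX X) : X.OK where
  dd a := ext' fun e x he => by
    rw [hX.d _ e x he, hk.congr (d_ev hX a he), hk.dd ((vl_isF a).sm e x he), vl_zero]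
  Qd := stokes hk h hX
  Qs a b := by
    rw [hX.Q, hX.Q, ← itg_smul _ (h.dens b a)]
    exact itg_congr fun e x _ => ha.Bq_symm _ _
  cjcj a := ext' fun e x he => by rw [hX.cj _ e x he, hX.cj _ e x he, hb.cjv_cjv]
  cjd a := ext' fun e x he => by
    rw [hX.cj _ e x he, hX.d _ e x he, hX.d _ e x he, ← hk.cjv (dif a he)]
    exact hk.congr (ev_at he (.of_forall fun y hy => (hX.cj a e y hy).symm))
  Qcj a b := by
    rw [hX.Q, hX.Q, ← itg_star, ← itg_smul _ (DC.star (h.dens a b))]
    exact itg_congr fun e x he => by rw [hX.cj _ e x he, hX.cj _ e x he, hb.Bq_cjv]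
  dg_mul j k := LinearMap.ext fun a => ext' fun e x he => by
    rw [Module.End.mul_apply, hX.dg j _ e x he, hX.dg k _ e x he, Matrix.mulVec_mulVec, ha.dg_mul]
    split_ifs
    · exact (hX.dg k _ e x he).symm
    · exact Matrix.zero_mulVec _
  dg_sum := LinearMap.ext fun a => ext' fun e x he => by
    simp only [LinearMap.sum_apply, vl_sum, hX.dg _ a e x he, ← Matrix.sum_mulVec, ha.dg_sum,
      Matrix.one_mulVec, Module.End.one_apply]
  dg_zero m hm := LinearMap.ext fun a => ext' fun e x he => by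
    rw [hX.dg m a e x he, ha.dg_zero m hm]
    exact Matrix.zero_mulVec _
  dg_d m := LinearMap.ext fun a => ext' fun e x he => by
    rw [Module.End.mul_apply, Module.End.mul_apply, hX.dg _ _ e x he, hX.d _ e x he, hX.d _ e x he,
      dg_dT hk (dg_eps m) (dif a he)]
    exact hk.congr (ev_at he (.of_forall fun y hy => (hX.dg m a e y hy).symm))
  dg0_d := LinearMap.ext fun a => ext' fun e x he => by
    rw [Module.End.mul_apply, hX.dg _ _ e x he, hX.d _ e x he]
    simp only [dT, Matrix.mulVec_sum, Matrix.mulVec_mulVec, dg_zero_eps, Matrix.zero_mulVec,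
      Finset.sum_const_zero]
    rfl
  Qdg j k a b hjk := by
    rw [hX.Q, hX.Q]
    exact itg_congr fun e x he => by rw [hX.dg _ _ e x he, hX.dg _ _ e x he, ha.Bq_dg _ _ j k hjk]
  cjdg m a := ext' fun e x he => by
    rw [hX.cj _ e x he, hX.dg _ _ e x he, hX.dg _ _ e x he, hX.cj _ e x he, hb.cjv_dg]

theorem exX (hb : F1b) (hk : K1a) (hl : K1b) (h : G1 d M) : ∃ X : Cx (SF d M) d, RealX X := by
  have h1 : ∀ u : SF d M, ∃ v : SF d M, ∀ e x, At e x → vl v e (e x) = dT (vl u e) (e x) :=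
    fun u => (mkf (fun e => dT (vl u e)) (fun e x he => hk.smooth ((vl_isF u).sm e x he))
      fun e e' x he he' => by
        have h2 := hl.nat (u := vl u e') (tr_sm he he')
          (by rw [e.left_inv he.2]; exact (vl_isF u).sm e' x he')
        rw [pbk, e.left_inv he.2] at h2
        refine (hk.congr (ev_at he ?_)).trans h2
        filter_upwards [e'.open_source.mem_nhds he'.2] with y hy h3
        rw [pbk, e.left_inv h3.2]
        exact (vl_isF u).ch e e' y h3 ⟨he'.1, hy⟩).imp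
      fun v hv e x he => hv e he.1 _ (e.map_source he.2)
  choose D hD using h1
  choose P hP using fun m => h.op (fun _ _ => dg m) ⟨fun _ _ _ => MC_const _ _,
    fun _ _ _ _ _ => dg_lam m _⟩
  have h2 : ∀ u : SF d M, IsF fun e z => cjv (vl u e z) := fun u => ⟨fun e x he =>
    cd_mulVec (MC_const _ _) (contDiffAt_pi.2 fun I =>
      contDiffAt_conj (contDiffAt_pi.1 ((vl_isF u).sm e x he) I)), fun e z hz => by
      rw [(vl_isF u).off e z hz, cjv, star_zero, Matrix.mulVec_zero], fun e e' x he he' => by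
      rw [(vl_isF u).ch e e' x he he']
      exact (hb.cjv_lr _ _).trans (congrArg (fun J => lr J *ᵥ _)
        (hl.jc_real ((tr_sm he he').differentiableAt (by simp))))⟩
  refine ⟨⟨⟨⟨D, fun u v => ext' fun e x he => ?_⟩, fun c u => ext' fun e x he => ?_⟩,
    LinearMap.mk₂ ℂ (fun a b => itg fun e z => Bq (vl a e z) (vl b e z)) (fun a a' b => ?_)
      (fun c a b => ?_) (fun a b b' => ?_) fun c a b => ?_,
    ⟨⟨fun u => mkF _ (h2 u), fun u v => vl_inj (funext fun e => funext fun z =>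
      hb.cjv_add (vl u e z) (vl v e z))⟩, fun c u => vl_inj (funext fun e => funext fun z =>
      hb.cjv_smul c (vl u e z))⟩, P⟩, hD, fun _ _ => rfl, fun _ _ _ _ => rfl, hP⟩
  · rw [vl_add, hD _ e x he, hD _ e x he, hD _ e x he]
    exact hk.add (dif u he) (dif v he)
  · rw [vl_smul, hD _ e x he, hD _ e x he]
    exact hk.smul c (dif u he)
  · rw [← itg_add (h.dens a b) (h.dens a' b)]
    exact itg_congr fun e x _ => Bq_add_l _ _ _
  · rw [smul_eq_mul, ← itg_smul c (h.dens a b)]
    exact itg_congr fun e x _ => Bq_smul_l _ _ _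
  · rw [← itg_add (h.dens a b) (h.dens a b')]
    exact itg_congr fun e x _ => Bq_add_r _ _ _
  · rw [smul_eq_mul, ← itg_smul c (h.dens a b)]
    exact itg_congr fun e x _ => Bq_smul_r _ _ _

end G2H

open G2H in
/-- row G2 -/
theorem g2 (ha : F1a) (hb : F1b) (hk : K1a) (hl : K1b) {d : ℕ} {M : Type} [TopologicalSpace M]
    [ChartedSpace (Cm d) M] [T2Space M] [CompactSpace M] [IsManifold 𝓘(ℂ, Cm d) ω M]
    (h : G1 d M) : G2 d M := by
  refine ⟨(exX hb hk hl h).imp fun X hX => ⟨hX, ok ha hb hk h hX⟩, ?_, fun X hX =>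
    ⟨fun u hu => ⟨ext' fun e x he => ?_, ext' fun e x he => ?_⟩,
      fun w u hw hu => ⟨ext' fun e x he => ?_, ext' fun e x he => ?_⟩,
      fun u x => dloc hk hX, fun y T T' hy hT hT' u => ext' fun e x he => ?_⟩⟩
  · rintro ⟨d1, Q1, c1, g1⟩ ⟨d2, Q2, c2, g2⟩ h1 h2
    rw [Cx.mk.injEq]
    exact ⟨LinearMap.ext fun u => ext' fun e x he => (h1.d u e x he).trans (h2.d u e x he).symm,
      LinearMap.ext₂ fun a b => (h1.Q a b).trans (h2.Q a b).symm,
      LinearMap.ext fun u => ext' fun e x he => (h1.cj u e x he).trans (h2.cj u e x he).symm,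
      funext fun m => LinearMap.ext fun u => ext' fun e x he =>
        (h1.dg m u e x he).trans (h2.dg m u e x he).symm⟩
  · rw [hX.d u e x he, hk.congr (v := fun _ => ev ∅) (ev_at he (.of_forall (hu e))), hk.const,
      vl_zero]
  · rw [hX.dg 0 u e x he, hu e x he, dg_ev]
  · rw [hX.d u e x he, hk.congr (v := fun z => Lw (w e z) *ᵥ ev ∅) (ev_at he (.of_forall (hu e))),
      hk.om (hw.smooth e x he) (ev_at he (.of_forall fun y hy => (hw.posDef e y hy).isHermitian))
        (hw.closed e x he), vl_zero]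
  · rw [hX.dg 2 u e x he, hu e x he, Matrix.mulVec_mulVec, dg_Lw, ← Matrix.mulVec_mulVec, dg_ev]
  · have h1 := hX.dg 1 y e x he
    rw [hy] at h1
    rw [hX.d _ e x he, hk.congr (v := fun z => wg (vl y e z) *ᵥ vl u e z)
      (ev_at he (.of_forall (hT u e))), hk.leib (dif y he) (dif u he), par_one h1.symm, ha.wg_smul,
      vl_sub, hT' u e x he, hT _ e x he, ← hX.d y e x he, ← hX.d u e x he, neg_one_smul,
      Matrix.neg_mulVec, sub_eq_add_neg]

end Vale.Agent.P281Z.Hg
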