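import Vale.Agent.P281Z.Hg.S1
import Mathlib.RingTheory.Nilpotent.Exp

/-!
# P281, Hodge block: the Weyl element of an `sl_2` triple
-/

noncomputable section

namespace Vale.Agent.P281Z.Hg

namespace F2aH

open LinearMap

section gen
variable {R : Type*} [Ring R] [Algebra ℂ R] {A B y z u : R} {N K : ℕ}

/-- the rational structure -/
abbrev mq (R : Type*) [Ring R] [Algebra ℂ R] : Module ℚ R := Module.compHom R (algebraMap ℚ ℂ)

theorem ex_eq (h : A ^ N = 0) (hK : N ≤ K) : ex K A = @IsNilpotent.exp R _ (mq R) A := by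
  let := mq R
  rw [IsNilpotent.exp_eq_sum (pow_eq_zero_of_le hK h)]
  refine Finset.sum_congr rfl fun k _ => ?_
  change _ = algebraMap ℚ ℂ (k.factorial : ℚ)⁻¹ • A ^ k
  simp

theorem ex_inv (h : A ^ N = 0) (hK : N ≤ K) : ex K A * ex K (-A) = 1 := by
  let := mq R
  rw [ex_eq h hK, ex_eq (A := -A) (by rw [neg_pow, h, mul_zero]) hK]
  exact IsNilpotent.exp_mul_exp_neg_self ⟨N, h⟩

theorem ex_add (hc : Commute A B) (h : IsNilpotent A) (h' : IsNilpotent B) (m : ℕ) :
    ∃ K, m ≤ K ∧ ex K (A + B) = ex K A * ex K B := by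
  let := mq R
  have e := IsNilpotent.exp_add_of_commute hc h h'
  obtain ⟨c, hc⟩ := hc.isNilpotent_add h h'
  obtain ⟨a, h⟩ := h
  obtain ⟨b, h'⟩ := h'
  refine ⟨a + b + c + m, by omega, ?_⟩
  rw [ex_eq h (by omega), ex_eq h' (by omega), ex_eq hc (by omega), e]

theorem ex_comm (K : ℕ) (h : A * y = y * B) : ex K A * y = y * ex K B := by
  simp only [ex, Finset.sum_mul, Finset.mul_sum, smul_mul_assoc, mul_smul_comm]
  exact Finset.sum_congr rfl fun k _ => congrArg _ (SemiconjBy.pow_right h.symm k).eq.symm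

/-- the commutator -/
def ad (A : R) : Module.End ℂ R := mulLeft ℂ A - mulRight ℂ A

theorem ad_apply (A y : R) : ad A y = A * y - y * A := rfl

theorem ad_nil (h : A ^ N = 0) : IsNilpotent (ad A) :=
  (commute_mulLeft_right A A).isNilpotent_sub ((isNilpotent_mulLeft_iff ℂ A).2 ⟨N, h⟩)
    ((isNilpotent_mulRight_iff ℂ A).2 ⟨N, h⟩)

theorem jac (A B z : R) : ad A (ad B z) = ad B (ad A z) + ad (A * B - B * A) z := by
  simp only [ad_apply]
  noncomm_ring

theorem ad_smul (c : ℂ) (A z : R) : ad (-(c • A)) z = -(c • ad A z) := by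
  simp only [ad_apply, neg_mul, mul_neg, smul_mul_assoc, mul_smul_comm, smul_sub]
  abel

theorem conj2 (h : A ^ N = 0) (hK : N ≤ K) (h1 : A * y - y * A = z) (h2 : A * z - z * A = u)
    (h3 : A * u = u * A) : ex K A * y = (y + z + (2⁻¹ : ℂ) • u) * ex K A := by
  have hc : Commute (mulRight ℂ A) (ad A) :=
    (commute_mulLeft_right A A).symm.sub_right (Commute.refl _)
  obtain ⟨M, hM, e⟩ := ex_add hc ((isNilpotent_mulRight_iff ℂ A).2 ⟨N, h⟩) (ad_nil h) (3 + N)
  have a1 : ex M (mulLeft ℂ A) y = ex M A * y := by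
    simp [ex, Finset.sum_mul]
  have a2 : ∀ x, ex M (mulRight ℂ A) x = x * ex M A := fun x => by
    simp [ex, Finset.mul_sum]
  have a3 : ex M (ad A) y = y + z + (2⁻¹ : ℂ) • u := by
    obtain ⟨m, rfl⟩ := Nat.exists_eq_add_of_le ((Nat.le_add_right 3 N).trans hM)
    have b : ∀ j, (ad A ^ (3 + j)) y = 0 := fun j => by
      rw [add_comm, pow_add, Module.End.mul_apply]
      simp [pow_succ, ad_apply, h1, h2, h3]
    rw [ex, Finset.sum_range_add]
    simp only [LinearMap.add_apply, LinearMap.sum_apply, LinearMap.smul_apply, b]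
    simp [Finset.sum_range_succ, pow_succ, ad_apply, h1, h2]
  rw [ex_eq h hK, ← ex_eq h ((Nat.le_add_left N 3).trans hM), ← a1, ← a2, ← a3,
    ← Module.End.mul_apply, ← e, ad, add_sub_cancel]

theorem conj1 (h : A ^ N = 0) (hK : N ≤ K) (h1 : A * y - y * A = z) (h2 : A * z = z * A) :
    ex K A * y = (y + z) * ex K A := by
  rw [conj2 h hK h1 (sub_eq_zero.2 h2) (by simp), smul_zero, add_zero]

end gen

variable {R : Type} [Ring R] [Algebra ℂ R] {D : ℕ} {L Lm H : R}

theorem adH (S : SL2 D L Lm H) {z : R} {c : ℂ} (h : ad H z = c • z) :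
    ad H (ad Lm z) = (c - 2) • ad Lm z := by
  rw [jac, h, S.HLm, ad_smul, map_smul]
  module

theorem desc (S : SL2 D L Lm H) (y : R) (k : ℕ) (h1 : L * y = y * L)
    (h2 : H * y - y * H = -(((k + 1 : ℕ) : ℂ) • y)) : y = 0 := by
  have a : ∀ j : ℕ, ad H ((ad Lm ^ j) y) = (-((k + 1 + 2 * j : ℕ) : ℂ)) • (ad Lm ^ j) y := by
    intro j
    induction j with
    | zero => exact h2.trans (neg_smul _ _).symm
    | succ j ih =>
      rw [pow_succ', Module.End.mul_apply, adH S ih]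
      congr 1
      push_cast
      ring
  have b : ∀ j : ℕ, ad L ((ad Lm ^ (j + 1)) y) =
      (-(((j + 1) * (k + 1 + j) : ℕ) : ℂ)) • (ad Lm ^ j) y := by
    intro j
    induction j with
    | zero =>
      rw [pow_succ', Module.End.mul_apply, jac, S.br, a]
      simp [ad_apply L, h1]
    | succ j ih =>
      rw [pow_succ', Module.End.mul_apply, jac, S.br, a, ih, map_smul, ← Module.End.mul_apply,
        ← pow_succ', ← add_smul]
      congr 1
      push_cast
      ring
  obtain ⟨m, hm⟩ := ad_nil S.nLm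
  have c : ∀ j : ℕ, (ad Lm ^ j) y = 0 → y = 0 := by
    intro j
    induction j with
    | zero => exact id
    | succ j ih =>
      intro e
      have := b j
      rw [e, map_zero] at this
      exact ih ((smul_eq_zero.1 this.symm).resolve_left
        (neg_ne_zero.2 (Nat.cast_ne_zero.2 (by positivity))))
  exact c m (by rw [hm, LinearMap.zero_apply])

theorem nLm' (S : SL2 D L Lm H) : (-Lm) ^ (D + D + 1) = 0 := by rw [neg_pow, S.nLm, mul_zero]

omit [Algebra ℂ R] in
theorem chain {E F G x x₁ x₂ x₃ : R} (h1 : G * x = x₁ * G) (h2 : F * x₁ = x₂ * F)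
    (h3 : E * x₂ = x₃ * E) : E * F * G * x = x₃ * (E * F * G) := by
  rw [mul_assoc, h1, mul_assoc, ← mul_assoc F, h2, ← mul_assoc, ← mul_assoc, h3]
  simp only [mul_assoc]

theorem wy_y (S : SL2 D L Lm H) (y : R) (h1 : L * y = y * L) (h2 : H * y - y * H = y) :
    wy D L Lm * y = -((Lm * y - y * Lm) * wy D L Lm) ∧
      wy D L Lm * (Lm * y - y * Lm) = y * wy D L Lm ∧
      Lm * (Lm * y - y * Lm) = (Lm * y - y * Lm) * Lm := by
  have a1 : ad L (ad Lm y) = y := by
    rw [jac, S.br, ad_apply L, h1, sub_self, map_zero, zero_add, ad_apply, h2]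
  have a2 := adH S (z := y) (c := 1) (h2.trans (one_smul _ _).symm)
  have a3 : ad Lm (ad Lm y) = 0 := by
    refine desc S _ 2 (sub_eq_zero.1 ?_) ?_
    · rw [← ad_apply, jac, S.br, a1, a2]
      module
    · rw [← ad_apply, adH S a2]
      module
  rw [← ad_apply Lm y]
  have a4 : Lm * ad Lm y = ad Lm y * Lm := sub_eq_zero.1 a3
  have k := Nat.le_succ (D + D + 1)
  have e1 := ex_comm (D + D + 2) h1
  have e2 := conj1 S.nL k a1 h1
  have e3 := ex_comm (A := -Lm) (B := -Lm) (y := ad Lm y) (D + D + 2) (by simp [a4])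
  have e4 := conj1 (y := y) (z := -ad Lm y) (nLm' S) k (by rw [ad_apply]; noncomm_ring)
    (by simp [a4])
  refine ⟨?_, ?_, a4⟩
  · rw [← neg_mul]
    refine chain e1 e4 ?_
    rw [mul_add, mul_neg, e1, e2]
    noncomm_ring
  · refine chain e2 ?_ e1
    rw [mul_add, e3, e4]
    noncomm_ring

theorem wy_L (S : SL2 D L Lm H) : wy D L Lm * L = -(Lm * wy D L Lm) ∧
    wy D L Lm * Lm = -(L * wy D L Lm) ∧ wy D L Lm * H = -(H * wy D L Lm) := by
  have k := Nat.le_succ (D + D + 1)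
  have b1 : L * H - H * L = -((2 : ℂ) • L) := by rw [← S.HL, neg_sub]
  have b2 : L * -((2 : ℂ) • L) = -((2 : ℂ) • L) * L := by simp
  have b3 : -Lm * H - H * -Lm = -((2 : ℂ) • Lm) := by rw [← S.HLm]; noncomm_ring
  have b4 : -Lm * -((2 : ℂ) • Lm) = -((2 : ℂ) • Lm) * -Lm := by simp
  have e1 := ex_comm (A := L) (B := L) (y := L) (D + D + 2) rfl
  have e2 := conj1 S.nL k b1 b2
  have e3 := conj2 S.nL k S.br b1 b2
  have f1 := ex_comm (A := -Lm) (B := -Lm) (y := Lm) (D + D + 2) (by simp)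
  have f2 := conj1 (nLm' S) k b3 b4
  have f3 := conj2 (y := L) (nLm' S) k (by rw [← S.br]; noncomm_ring) b3 b4
  have s : ∀ x : R, (2⁻¹ : ℂ) • -((2 : ℂ) • x) = -x := fun x => by module
  rw [s] at e3 f3
  have c1 : wy D L Lm * L = -(Lm * wy D L Lm) := by
    rw [← neg_mul]
    refine chain e1 f3 ?_
    rw [mul_add, mul_add, mul_neg, e1, e2, e3, two_smul]
    noncomm_ring
  have c2 : wy D L Lm * Lm = -(L * wy D L Lm) := by
    rw [← neg_mul]
    refine chain (x₂ := -L) e3 ?_ (by rw [mul_neg, e1, neg_mul])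
    rw [mul_add, mul_add, mul_neg, f1, f2, f3, two_smul]
    noncomm_ring
  refine ⟨c1, c2, ?_⟩
  rw [← S.br, mul_sub, ← mul_assoc, ← mul_assoc, c1, c2, neg_mul, neg_mul, mul_assoc, mul_assoc,
    c1, c2]
  noncomm_ring

theorem wy_inv' (h : L ^ (D + D + 1) = 0) (h' : (-Lm) ^ (D + D + 1) = 0) :
    wy D L Lm * wy D (-L) (-Lm) = 1 := by
  have k := Nat.le_succ (D + D + 1)
  have e := ex_inv h k
  have f := ex_inv h' k
  simp only [wy, mul_assoc]
  rw [← mul_assoc (ex _ L) (ex _ (-L)), e, one_mul, ← mul_assoc (ex _ (-Lm)), f, one_mul, e]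

end F2aH

open F2aH in
theorem f2a : F2a where
  ex_comm K _ _ _ h := ex_comm K h
  wy_comm D L Lm L' Lm' y h h' := by
    have e := ex_comm (D + D + 2) h
    have f := ex_comm (A := -Lm) (B := -Lm') (y := y) (D + D + 2) (by simp [h'])
    rw [wy, wy, mul_assoc, e, mul_assoc, ← mul_assoc _ y, f, ← mul_assoc, ← mul_assoc, e]
    simp only [mul_assoc]
  desc := desc
  wy_y := wy_y
  wy_L := wy_L
  wy_inv {R} _ _ {D L Lm H} S := ⟨wy_inv' S.nL (nLm' S), by
    simpa only [neg_neg] using wy_inv' (D := D) (L := -L) (Lm := -Lm)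
      (by rw [neg_pow, S.nL, mul_zero]) (by rw [neg_neg, S.nLm])⟩
  uniq {R} _ _ {D L Lm Lm' H} S S' := sub_eq_zero.1 (desc S _ 1 (by
    rw [mul_sub, sub_mul, sub_eq_iff_eq_add.1 S.br, sub_eq_iff_eq_add.1 S'.br]
    abel) (by
    rw [mul_sub, sub_mul, sub_eq_iff_eq_add.1 S.HLm, sub_eq_iff_eq_add.1 S'.HLm]
    push_cast
    module))

end Vale.Agent.P281Z.Hg
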