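import Vale.Agent.P281Z.Hg.F2bA

/-!
# P281, Hodge block: the Lefschetz operators and the metric at a point (row F2b)
-/

open scoped ContDiff ComplexOrder Topology Matrix
open Vale.Agent.P272.K Vale.Agent.P272.K.C2 Vale.Agent.P299.IX Vale.Agent.P299.IX.Fock

noncomputable section

namespace Vale.Agent.P281Z.Hg

namespace F2bH

variable {d : ℕ}

theorem epsV_split (v : Fin (d + d) → ℂ) :
    epsV v = ∑ j, v (hl j) • eps (hl j) + ∑ j, v (ah j) • eps (ah j) := sum_split _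

theorem iotV_split (v : Fin (d + d) → ℂ) :
    iotV v = ∑ j, v (hl j) • iot (hl j) + ∑ j, v (ah j) • iot (ah j) := sum_split _

theorem sum4 {α M : Type} [Fintype α] [AddCommMonoid M] (f : α → α → α → α → M) :
    ∑ j, ∑ k, ∑ a, ∑ b, f j k a b = ∑ a, ∑ b, ∑ k, ∑ j, f j k a b := by
  simp only [← Finset.sum_product', Finset.univ_product_univ]
  exact Fintype.sum_equiv ⟨fun x => (x.2.2.1, x.2.2.2, x.2.1, x.1),
    fun x => (x.2.2.2, x.2.2.1, x.1, x.2.1), fun _ => rfl, fun _ => rfl⟩ _ _ fun x => rfl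

variable (h2 : F1b) (A B w : Matrix (Fin d) (Fin d) ℂ)
include h2

theorem col_h (j : Fin d) : (epsV fun p => blk A B p (hl j)) = ∑ a, A a j • eps (hl a) := by
  simp [epsV_split, h2.blk_hh, h2.blk_ah]

theorem col_a (j : Fin d) : (epsV fun p => blk A B p (ah j)) = ∑ a, B a j • eps (ah a) := by
  simp [epsV_split, h2.blk_aa, h2.blk_ha]

theorem row_h (j : Fin d) : (iotV fun p => blk A B (hl j) p) = ∑ a, A j a • iot (hl a) := by
  simp [iotV_split, h2.blk_hh, h2.blk_ha]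

theorem row_a (j : Fin d) : (iotV fun p => blk A B (ah j) p) = ∑ a, B j a • iot (ah a) := by
  simp [iotV_split, h2.blk_aa, h2.blk_ah]

theorem L_blk : lam (blk A B) * Lw w = Lw (A * w * Bᵀ) * lam (blk A B) := by
  have h : ∀ j k, lam (blk A B) * ((Complex.I * w j k) • (eps (hl j) * eps (ah k))) =
      ∑ a, ∑ b, ((Complex.I * (A a j * w j k * B b k)) • (eps (hl a) * eps (ah b))) *
        lam (blk A B) := by
    intro j k
    rw [Matrix.mul_smul, ← Matrix.mul_assoc, lam_eps_col, Matrix.mul_assoc, lam_eps_col,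
      col_h h2, col_a h2, ← Matrix.mul_assoc, Finset.sum_mul_sum]
    simp only [Finset.sum_mul, Finset.smul_sum, Matrix.smul_mul, Matrix.mul_smul, smul_smul]
    refine Finset.sum_congr rfl fun a _ => Finset.sum_congr rfl fun b _ => ?_
    congr 1
    ring
  simp only [Lw, Finset.mul_sum, Finset.sum_mul, h, Matrix.mul_apply, Matrix.transpose_apply,
    Finset.sum_smul]
  exact sum4 _

theorem Lm_blk (hA : IsUnit A.det) (hB : IsUnit B.det) :
    lam (blk A B) * Lam w = Lam (A * w * Bᵀ) * lam (blk A B) := by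
  have hi : w⁻¹ = Bᵀ * ((A * w * Bᵀ)⁻¹ * A) := by
    rw [Matrix.mul_inv_rev, Matrix.mul_inv_rev, Matrix.mul_assoc, Matrix.mul_assoc,
      Matrix.nonsing_inv_mul _ hA, Matrix.mul_one, ← Matrix.mul_assoc,
      Matrix.mul_nonsing_inv _ (by rwa [Matrix.det_transpose]), Matrix.one_mul]
  generalize hu : (A * w * Bᵀ)⁻¹ = u at hi
  have h : ∀ a b, ((-Complex.I * u b a) • (iot (ah b) * iot (hl a))) * lam (blk A B) =
      ∑ j, ∑ k, lam (blk A B) * ((-Complex.I * (B b k * (u b a * A a j))) •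
        (iot (ah k) * iot (hl j))) := by
    intro j k
    rw [Matrix.smul_mul, Matrix.mul_assoc, iot_lam_row, ← Matrix.mul_assoc, iot_lam_row,
      row_h h2, row_a h2, Matrix.mul_assoc, Finset.sum_mul_sum, Finset.sum_comm]
    simp only [Finset.mul_sum, Finset.smul_sum, Matrix.smul_mul, Matrix.mul_smul, smul_smul]
    refine Finset.sum_congr rfl fun a _ => Finset.sum_congr rfl fun b _ => ?_
    congr 1
    ring
  simp only [Lam, hu, hi, Finset.mul_sum, Finset.sum_mul, h, Matrix.mul_apply,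
    Matrix.transpose_apply, Finset.sum_smul]
  exact (sum4 _).symm

theorem sw_h (j : Fin d) : lam (swm d) * eps (hl j) = eps (ah j) * lam (swm d) := by
  rw [lam_eps_col, ← epsV_single]
  congr 2
  ext p
  rw [h2.swm_hl, Pi.single_apply]

theorem sw_a (j : Fin d) : lam (swm d) * eps (ah j) = eps (hl j) * lam (swm d) := by
  rw [lam_eps_col, ← epsV_single]
  congr 2
  ext p
  rw [h2.swm_ah, Pi.single_apply]

theorem sw_tr : (lam (swm d))ᵀ = lam (swm d) := by rw [lam_transpose, h2.swm_tr]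

theorem sw_ih (j : Fin d) : iot (hl j) * lam (swm d) = lam (swm d) * iot (ah j) := by
  have h := congrArg Matrix.transpose (sw_h h2 j)
  rwa [Matrix.transpose_mul, Matrix.transpose_mul, sw_tr h2] at h

theorem sw_ia (j : Fin d) : iot (ah j) * lam (swm d) = lam (swm d) * iot (hl j) := by
  have h := congrArg Matrix.transpose (sw_a h2 j)
  rwa [Matrix.transpose_mul, Matrix.transpose_mul, sw_tr h2] at h

theorem cjv_sum {α : Type} (s : Finset α) (f : α → Fo d) :
    cjv (∑ i ∈ s, f i) = ∑ i ∈ s, cjv (f i) :=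
  map_sum (AddMonoidHom.mk' (cjv (d := d)) h2.cjv_add) f s

theorem cjv_L (u : Fo d) (hw : w.IsHermitian) : cjv (Lw w *ᵥ u) = Lw w *ᵥ cjv u := by
  simp only [Lw, Matrix.sum_mulVec, cjv_sum h2, Matrix.smul_mulVec, h2.cjv_smul,
    ← Matrix.mulVec_mulVec, h2.cjv_hl, h2.cjv_ah]
  rw [Finset.sum_comm]
  refine Finset.sum_congr rfl fun j _ => Finset.sum_congr rfl fun k _ => ?_
  rw [Matrix.mulVec_mulVec, eps_eps, Matrix.neg_mulVec, ← Matrix.mulVec_mulVec, star_mul',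
    hw.apply, smul_neg, ← neg_smul]
  simp

theorem cjv_Lm (u : Fo d) (hw : w.IsHermitian) : cjv (Lam w *ᵥ u) = Lam w *ᵥ cjv u := by
  simp only [Lam, Matrix.sum_mulVec, cjv_sum h2, Matrix.smul_mulVec, h2.cjv_smul,
    ← Matrix.mulVec_mulVec, h2.cjv_ihl, h2.cjv_iah]
  rw [Finset.sum_comm]
  refine Finset.sum_congr rfl fun j _ => Finset.sum_congr rfl fun k _ => ?_
  rw [Matrix.mulVec_mulVec, iot_iot, Matrix.neg_mulVec, ← Matrix.mulVec_mulVec, star_mul',
    hw.inv.apply, smul_neg, ← neg_smul]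
  simp

theorem G_pos (hw : w.PosDef) : (Gm w).PosDef := by
  refine Matrix.PosDef.smul (lam_posDef ?_) hw.det_pos
  have h := hw.inv
  open scoped MatrixOrder in
  obtain ⟨a, ha⟩ := CStarAlgebra.nonneg_iff_eq_star_mul_self.mp h.posSemidef.nonneg
  have h3 : blk w⁻¹ w⁻¹ᵀ = (blk a aᴴᵀ)ᴴ * blk a aᴴᵀ := by
    rw [h2.blk_ct, h2.blk_mul, ha, Matrix.star_eq_conjTranspose, Matrix.transpose_mul]
    congr 2
    ext i j
    simp
  refine Matrix.PosSemidef.posDef_iff_isUnit ?_ |>.2 ?_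
  · rw [h3]
    exact Matrix.posSemidef_conjTranspose_mul_self _
  · have h4 := (Matrix.isUnit_iff_isUnit_det _).1 h.isUnit
    rw [Matrix.isUnit_iff_isUnit_det, h2.blk_det, Matrix.det_transpose]
    exact h4.mul h4

omit h2

theorem Cw_h (j : Fin d) : Cw d * eps (hl j) = -Complex.I • (eps (hl j) * Cw d) := by
  refine ext_mulVec fun a => ?_
  ext I
  rw [Matrix.smul_mulVec, Pi.smul_apply, ← Matrix.mulVec_mulVec, ← Matrix.mulVec_mulVec, Cw,
    Matrix.mulVec_diagonal, eps_mulVec, eps_mulVec, Matrix.mulVec_diagonal]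
  split_ifs with h
  · have h1 : tp I = tp (I.erase (hl j)) + 1 := by
      rw [tp, tp, Finset.filter_erase, Finset.card_erase_add_one]
      exact Finset.mem_filter.2 ⟨h, j.isLt⟩
    rw [h1, ← Finset.card_erase_add_one h, Finset.card_erase_add_one h,
      ← Finset.card_erase_add_one h, smul_eq_mul]
    ring
  · simp

theorem Cw_a (j : Fin d) : Cw d * eps (ah j) = Complex.I • (eps (ah j) * Cw d) := by
  refine ext_mulVec fun a => ?_
  ext I
  rw [Matrix.smul_mulVec, Pi.smul_apply, ← Matrix.mulVec_mulVec, ← Matrix.mulVec_mulVec, Cw,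
    Matrix.mulVec_diagonal, eps_mulVec, eps_mulVec, Matrix.mulVec_diagonal]
  split_ifs with h
  · have h1 : tp I = tp (I.erase (ah j)) := by
      rw [tp, tp, Finset.filter_erase, Finset.erase_eq_of_notMem]
      intro h'
      have h3 := (Finset.mem_filter.1 h').2
      simp [ah] at h3
    rw [h1, ← Finset.card_erase_add_one h, smul_eq_mul]
    ring
  · simp

theorem Cw_ev : Cw d *ᵥ ev ∅ = ev ∅ := by
  ext I
  rw [Cw, Matrix.mulVec_diagonal]
  by_cases h : I = ∅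
  · subst h
    simp [tp]
  · simp [ev, h]

theorem vac {n : ℕ} {x : Fk n} (h : ∀ c, iot c *ᵥ x = 0) : x = x ∅ • ev ∅ := by
  ext I
  by_cases hI : I = ∅
  · subst hI
    simp [ev]
  · obtain ⟨l, hl⟩ := Finset.nonempty_iff_ne_empty.2 hI
    have h1 := eps_iot_mulVec l x I
    rw [← Matrix.mulVec_mulVec, h, if_pos hl] at h1
    rw [← h1]
    simp [ev, hI]

theorem lam_empty {n : ℕ} (J : Matrix (Fin n) (Fin n) ℂ) (x : Fk n) : (lam J *ᵥ x) ∅ = x ∅ := by
  simp [Matrix.mulVec, dotProduct, lam_apply_empty]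

theorem L_hst : (Lw w)ᵀ * hst = -(hst * Lw w) := by
  simp only [Lw, Matrix.transpose_sum, Matrix.transpose_smul, Matrix.transpose_mul, eps_transpose,
    Finset.mul_sum, Finset.sum_mul, ← Finset.sum_neg_distrib]
  refine Finset.sum_congr rfl fun j _ => Finset.sum_congr rfl fun k _ => ?_
  rw [Matrix.smul_mul, Matrix.mul_smul, Matrix.mul_assoc, ← hst_eps, ← Matrix.mul_assoc,
    ← hst_eps, Matrix.mul_assoc, eps_eps, Matrix.mul_neg, smul_neg]

theorem Lm_hst : (Lam w)ᵀ * hst = -(hst * Lam w) := by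
  simp only [Lam, Matrix.transpose_sum, Matrix.transpose_smul, Matrix.transpose_mul, iot_transpose,
    Finset.mul_sum, Finset.sum_mul, ← Finset.sum_neg_distrib]
  refine Finset.sum_congr rfl fun j _ => Finset.sum_congr rfl fun k _ => ?_
  rw [Matrix.smul_mul, Matrix.mul_smul, Matrix.mul_assoc, ← hst_iot, ← Matrix.mul_assoc,
    ← hst_iot, Matrix.mul_assoc, iot_iot, Matrix.mul_neg, smul_neg]

theorem Bq_mul {n : ℕ} (M : FM n) (u v : Fk n) : Bq (M *ᵥ u) v = u ⬝ᵥ ((Mᵀ * hst) *ᵥ v) := by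
  rw [Bq, ← Matrix.mulVec_mulVec, Matrix.dotProduct_mulVec u, Matrix.vecMul_transpose]

theorem Bq_anti {n : ℕ} {M : FM n} (h : Mᵀ * hst = -(hst * M)) (u v : Fk n) :
    Bq (M *ᵥ u) v = -Bq u (M *ᵥ v) := by
  rw [Bq_mul, h, Matrix.neg_mulVec, dotProduct_neg, Bq, Matrix.mulVec_mulVec]

variable {w}
variable (h3 : F2a) (hw : IsUnit w.det)
include h2 h3 hw

theorem G_eps (c : Fin (d + d)) :
    G0 w * eps c = (epsV fun p => blk w⁻¹ w⁻¹ᵀ p c) * G0 w := by
  have h := (h3.wy_y (sl2 w hw) (eps c) (eps_L w c) (H_eps c)).1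
  rw [G0, Matrix.mul_assoc]
  obtain ⟨j, rfl⟩ | ⟨j, rfl⟩ := cases_c c
  · rw [Cw_h, Matrix.mul_smul, ← Matrix.mul_assoc, Matrix.mul_assoc _ _ (eps _), h, Lm_eh,
      col_h h2]
    simp only [Finset.sum_mul, Finset.mul_sum, Matrix.smul_mul, Matrix.mul_smul, Finset.smul_sum,
      smul_smul, ← Finset.sum_neg_distrib, ← neg_smul]
    refine Finset.sum_congr rfl fun k _ => ?_
    rw [← Matrix.mul_assoc, Matrix.mul_assoc _ hst, hst_iot, ← Matrix.mul_assoc, sw_a h2]
    simp only [Matrix.mul_assoc]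
    congr 1
    linear_combination (-w⁻¹ k j) * Complex.I_mul_I
  · rw [Cw_a, Matrix.mul_smul, ← Matrix.mul_assoc, Matrix.mul_assoc _ _ (eps _), h, Lm_ea,
      col_a h2]
    simp only [Finset.sum_mul, Finset.mul_sum, Matrix.smul_mul, Matrix.mul_smul, Finset.smul_sum,
      smul_smul, ← Finset.sum_neg_distrib, ← neg_smul]
    refine Finset.sum_congr rfl fun k _ => ?_
    rw [← Matrix.mul_assoc, Matrix.mul_assoc _ hst, hst_iot, ← Matrix.mul_assoc, sw_h h2]
    simp only [Matrix.mul_assoc, Matrix.transpose_apply]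
    congr 1
    linear_combination (-w⁻¹ j k) * Complex.I_mul_I

omit h2 in
theorem eps_W (c : Fin (d + d)) : eps c *ᵥ (wy d (Lw w) (Lam w) *ᵥ ev ∅) = 0 := by
  rw [Matrix.mulVec_mulVec, ← (h3.wy_y (sl2 w hw) (eps c) (eps_L w c) (H_eps c)).2.1,
    ← Matrix.mulVec_mulVec]
  obtain ⟨j, rfl⟩ | ⟨j, rfl⟩ := cases_c c
  · rw [Lm_eh]
    simp only [Matrix.sum_mulVec, Matrix.smul_mulVec, iot_ev_empty, smul_zero,
      Finset.sum_const_zero, Matrix.mulVec_zero]
  · rw [Lm_ea]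
    simp only [Matrix.sum_mulVec, Matrix.smul_mulVec, iot_ev_empty, smul_zero,
      Finset.sum_const_zero, Matrix.mulVec_zero]

omit h2 h3 hw in
theorem G_ev : G0 w *ᵥ ev ∅ = lam (swm d) *ᵥ (hst *ᵥ (wy d (Lw w) (Lam w) *ᵥ ev ∅)) := by
  simp only [G0, ← Matrix.mulVec_mulVec, Cw_ev]

theorem G_lam : G0 w = G0 w ∅ ∅ • lam (blk w⁻¹ w⁻¹ᵀ) := by
  refine ext_eps ?_ (G_eps h2 h3 hw) fun l => ?_
  · rw [Matrix.smul_mulVec, lam_ev_empty, ← mulVec_ev (G0 w)]
    refine vac fun c => ?_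
    rw [G_ev, Matrix.mulVec_mulVec]
    obtain ⟨j, rfl⟩ | ⟨j, rfl⟩ := cases_c c
    · rw [sw_ih h2, ← Matrix.mulVec_mulVec, ← hst_eps_mulVec, eps_W h3 hw]
      simp
    · rw [sw_ia h2, ← Matrix.mulVec_mulVec, ← hst_eps_mulVec, eps_W h3 hw]
      simp
  · rw [Matrix.smul_mul, Matrix.mul_smul, lam_eps_col]

theorem G_00 : G0 w ∅ ∅ = w.det * G0 (1 : Matrix (Fin d) (Fin d) ℂ) ∅ ∅ := by
  have h1 : IsUnit (1 : Matrix (Fin d) (Fin d) ℂ).det := by simp
  have hL := L_blk h2 w 1 1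
  have hM := Lm_blk h2 w 1 1 hw h1
  rw [Matrix.transpose_one, Matrix.mul_one, Matrix.mul_one] at hL hM
  have h4 := h3.wy_comm d _ _ _ _ _ hL.symm hM.symm
  have h5 : blk w 1 * (blk w⁻¹ᵀ 1)ᵀ = 1 := by
    rw [h2.blk_tr, h2.blk_mul, Matrix.transpose_transpose, Matrix.mul_nonsing_inv _ hw,
      Matrix.transpose_one, Matrix.mul_one, h2.blk_one]
  rw [← mulVec_ev (G0 w), ← mulVec_ev (G0 1), G_ev, G_ev, lam_empty, lam_empty, ← lam_ev_empty (blk w 1),
    Matrix.mulVec_mulVec (M := wy _ _ _), h4, ← Matrix.mulVec_mulVec, Matrix.mulVec_mulVec,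
    hst_lam h5, Matrix.smul_mulVec, ← Matrix.mulVec_mulVec, Pi.smul_apply, lam_empty, h2.blk_det,
    Matrix.det_one, mul_one, smul_eq_mul, lam_ev_empty]

theorem G_ne : G0 w ∅ ∅ ≠ 0 := by
  intro h
  have h4 := G_ev (w := w)
  rw [G_lam h2 h3 hw, h, zero_smul, Matrix.zero_mulVec] at h4
  have h5 := congrArg (lam (swm d) *ᵥ ·) h4
  simp only [Matrix.mulVec_zero] at h5
  rw [Matrix.mulVec_mulVec, ← lam_mul, h2.swm_sq, lam_one, Matrix.one_mulVec] at h5
  have h6 : wy d (Lw w) (Lam w) *ᵥ ev ∅ = 0 :=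
    hst_mulVec_injective (by simpa using h5.symm)
  have h7 := congrArg (· *ᵥ ev ∅) (h3.wy_inv (sl2 w hw)).2
  simp only [← Matrix.mulVec_mulVec, h6, Matrix.mulVec_zero, Matrix.one_mulVec] at h7
  simpa [ev] using congrFun h7 ∅

end F2bH

open F2bH

/-- row F2b -/
theorem f2b (h1 : F1a) (h2 : F1b) (h3 : F2a) : F2b where
  sl2 := sl2
  pm_L := fun w k => by
    simp only [Lw, Finset.mul_sum, Finset.sum_mul]
    refine Finset.sum_congr rfl fun a _ => Finset.sum_congr rfl fun b _ => ?_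
    rw [Matrix.mul_smul, Matrix.smul_mul, ← Matrix.mul_assoc, h2.pm_hl, Matrix.mul_assoc, h2.pm_ah,
      Matrix.mul_assoc]
  dg_L := fun w m => by
    rw [dg, dgl_L, dg]
    simp
  pm_Lm := fun w k => by
    simp only [Lam, Finset.mul_sum, Finset.sum_mul]
    refine Finset.sum_congr rfl fun a _ => Finset.sum_congr rfl fun b _ => ?_
    rw [Matrix.mul_smul, Matrix.smul_mul, ← Matrix.mul_assoc, h2.pm_iah, Matrix.mul_assoc,
      h2.pm_ihl, Matrix.mul_assoc]
  dg_Lm := fun w m => by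
    rw [dg, dg, ← dgl_Lm]
    simp
  Bq_L := fun w => Bq_anti (L_hst w)
  Bq_Lm := fun w => Bq_anti (Lm_hst w)
  cjv_L := cjv_L h2
  cjv_Lm := cjv_Lm h2
  L_wg := fun {d} w => by
    have h : ∀ {α : Type} (s : Finset α) (f : α → Fo d), wg (∑ i ∈ s, f i) = ∑ i ∈ s, wg (f i) :=
      fun s f => map_sum (AddMonoidHom.mk' (wg (n := d + d)) h1.wg_add) f s
    simp only [Lw, Matrix.sum_mulVec, h, Matrix.smul_mulVec, h1.wg_smul, ← Matrix.mulVec_mulVec,
      h1.wg_eps, h1.wg_ev, Matrix.mul_one]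
  L_blk := fun A w => L_blk h2 A _ w
  Lm_blk := fun A w hA _ => Lm_blk h2 A _ w hA (by
    rw [← Matrix.det_transpose]
    exact Matrix.det_conjTranspose A ▸ hA.star)
  cc_ne := fun d => inv_ne_zero (G_ne h2 h3 (by simp))
  G_eq := fun w hw => by
    have hu := (Matrix.isUnit_iff_isUnit_det _).1 hw.isUnit
    rw [G_lam h2 h3 hu, G_00 h2 h3 hu, smul_smul, cc, Gm, mul_left_comm,
      inv_mul_cancel₀ (G_ne h2 h3 (by simp)), mul_one]
  G_Bq := fun w u v => by
    rw [cjv, Bq_mul, sw_tr h2, G0]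
    simp only [Matrix.mulVec_mulVec, Matrix.mul_assoc]
  G_pos := G_pos h2
  G_Hd := fun w hw => by
    rw [Gm, Matrix.smul_apply, ← mulVec_ev (lam _), h2.blk_Hd, ← Matrix.det_nonsing_inv_mul_det w hw]
    simp [ev, mul_comm]

end Vale.Agent.P281Z.Hg
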