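import Vale.Agent.P281Z.Hg.G2

/-!
# P281, Hodge block: orientation preserving diffeomorphisms (row PB2)
-/

open scoped Manifold ContDiff ComplexOrder Topology Matrix
open Filter MeasureTheory Set
open Vale.Agent.P272.K Vale.Agent.P272.K.C2 Vale.Agent.P272.K.INT Vale.Agent.P299.IX
  Vale.Agent.P299.IX.Fock

noncomputable section

namespace Vale.Agent.P281Z.Hg

namespace Pb2H

open G1H G2H

variable {d : ℕ} {M M' : Type} [TopologicalSpace M] [TopologicalSpace M']

/-- change of variables between two charts -/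
theorem chg {e c : Chart d M} {D D' : Cm d → ℝ} {f : M → ℝ}
    (hd : ∀ x ∈ e.source, x ∈ c.source → DifferentiableAt ℝ (fun z => c (e.symm z)) (e x) ∧
      D (e x) = |(fderiv ℝ (fun z => c (e.symm z)) (e x)).det| * D' (c x))
    (h1 : ∀ x ∉ e.source, f x = 0) (h2 : ∀ x ∉ c.source, f x = 0) :
    ∫ z in e.target, f (e.symm z) * D z = ∫ z in c.target, f (c.symm z) * D' z := by
  have h3 : ∀ z ∈ (e.symm ≫ₕ c).source, DifferentiableAt ℝ (e.symm ≫ₕ c) z ∧
      D z = |(fderiv ℝ (e.symm ≫ₕ c) z).det| * D' (c (e.symm z)) := fun z hz => by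
    have h := hd _ (e.map_target hz.1) hz.2
    rwa [e.right_inv hz.1] at h
  rw [setIntegral_eq_of_subset_of_forall_sdiff_eq_zero (s := (e.symm ≫ₕ c).source)
      e.open_target.measurableSet inter_subset_left fun z hz => by
        rw [h2 (e.symm z) fun h => hz.2 ⟨hz.1, h⟩, zero_mul],
    setIntegral_eq_of_subset_of_forall_sdiff_eq_zero (s := (e.symm ≫ₕ c).target)
      c.open_target.measurableSet inter_subset_left fun z hz => by
        rw [h1 (c.symm z) fun h => hz.2 ⟨hz.1, h⟩, zero_mul],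
    ← (e.symm ≫ₕ c).image_source_eq_target,
    integral_image_eq_integral_abs_det_fderiv_smul volume (e.symm ≫ₕ c).open_source.measurableSet
      (fun z hz => (h3 z hz).1.hasFDerivAt.hasFDerivWithinAt) (e.symm ≫ₕ c).injOn]
  refine setIntegral_congr_fun (e.symm ≫ₕ c).open_source.measurableSet fun z hz => ?_
  show _ = _ * (f (c.symm (c (e.symm z))) * D' (c (e.symm z)))
  rw [c.left_inv (x := e.symm z) hz.2, (h3 z hz).2]
  ring

theorem jc_chain (hl : K1b) {a b c : ℕ} {ψ : Cm a → Cm b} {θ : Cm b → Cm c} {χ : Cm a → Cm c}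
    {z : Cm a} {w : Cm b} (h1 : ContDiffAt ℝ ∞ ψ z) (h2 : ContDiffAt ℝ ∞ θ w) (hw : ψ z = w)
    (h : ∀ᶠ y in 𝓝 z, χ y = θ (ψ y)) : jc χ z = jc ψ z * jc θ w := by
  subst hw
  rw [hl.jc_congr h, hl.jc_comp (h1.differentiableAt (by simp)) (h2.differentiableAt (by simp))]

variable [ChartedSpace (Cm d) M] [ChartedSpace (Cm d) M']

theorem pb_inv (hl : K1b) {f : M → M'} {g : M' → M} (hf : Smo d d f) (hg : Smo d d g)
    (h : ∀ x, g (f x) = x) {T : SF d M' → SF d M} {T' : SF d M → SF d M'} (hT : IsPb f T)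
    (hT' : IsPb g T') (u : SF d M) : T (T' u) = u := ext' fun e x he => by
  have h1 : At (chartAt (Cm d) (f x)) (f x) := ⟨chart_mem_atlas _ _, mem_chart_source _ _⟩
  have h2 : At e (g (f x)) := (h x).symm ▸ he
  have h3 := jc_chain hl (χ := fun z => e (e.symm z)) (hf.sm e _ x he h1) (hg.sm _ e _ h1 h2)
    (by rw [e.left_inv he.2]) ((ev_src he (hf.cont.continuousAt.eventually_mem
      ((chartAt (Cm d) (f x)).open_source.mem_nhds h1.2))).mono fun z hz => by
        rw [(chartAt (Cm d) (f x)).left_inv hz, h])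
  rw [hT _ e _ x he h1, hT' u _ e _ h1 h2, h, Matrix.mulVec_mulVec]
  exact (congrArg (· *ᵥ _) ((lam_mul _ _).symm.trans ((congrArg lam (h3.symm.trans
    (jt_self hl he))).trans lam_one))).trans (Matrix.one_mulVec _)

variable [IsManifold 𝓘(ℂ, Cm d) ω M] [IsManifold 𝓘(ℂ, Cm d) ω M']

theorem det_pos (hl : K1b) {f : M → M'} (hf : Smo d d f) (ho : Ori d f) {e : Chart d M}
    {e' : Chart d M'} {x : M} (he : At e x) (he' : At e' (f x)) :
    0 < (fderiv ℝ (fun z => e' (f (e.symm z))) (e x)).det := by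
  obtain ⟨c, c', hc, hc', h0⟩ := ho x
  have h1 := jc_chain hl (χ := fun z => e' (f (e.symm z))) (tr_sm he hc) (hf.sm c e' x hc he')
    (by rw [e.left_inv he.2]) ((ev_src he (c.open_source.mem_nhds hc.2)).mono fun z hz => by
      rw [c.left_inv hz])
  have h2 := jc_chain hl (χ := fun z => e' (f (c.symm z))) (hf.sm c c' x hc hc') (tr_sm hc' he')
    (by rw [c.left_inv hc.2]) ((ev_src hc (hf.cont.continuousAt.eventually_mem
      (c'.open_source.mem_nhds hc'.2))).mono fun z hz => by rw [c'.left_inv hz])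
  have h3 := congrArg Matrix.det (h1.trans (congrArg _ h2))
  have h4 := (jt_unit hl he hc).ne_zero
  have h5 := (jt_unit hl hc' he').ne_zero
  rw [Matrix.det_mul, Matrix.det_mul, hl.jc_det ((hf.sm e e' x he he').differentiableAt (by simp)),
    hl.jc_det ((hf.sm c c' x hc hc').differentiableAt (by simp)), ← jt, ← jt] at h3
  rw [jt_det hl he hc] at h3 h4
  rw [jt_det hl hc' he'] at h3 h5
  rw [Complex.ofReal_injective (h3.trans (by rw [← Complex.ofReal_mul, ← Complex.ofReal_mul]))]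
  exact mul_pos ((sq_nonneg _).lt_of_ne' (Complex.ofReal_ne_zero.1 h4))
    (mul_pos h0 ((sq_nonneg _).lt_of_ne' (Complex.ofReal_ne_zero.1 h5)))

variable [T2Space M] [CompactSpace M] [T2Space M'] [CompactSpace M']

theorem intX_pull {φ : M ≃ₜ M'} (hφ : Smo d d φ) {D : Rw d M ℝ} {D' : Rw d M' ℝ}
    (hD : IsDensity D) (hD' : IsDensity D') (h : ∀ e e' x, At e x → At e' (φ x) →
      D e (e x) = |(fderiv ℝ (fun z => e' (φ (e.symm z))) (e x)).det| * D' e' (e' (φ x))) :
    intX D = intX D' := by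
  set P := part d M
  set P' := part d M'
  have k1 : ∀ i, ∫ z in (P.e i).target, P.ρ i ((P.e i).symm z) * D (P.e i) z =
      ∑ j, ∫ z in (P.e i).target,
        (P.ρ i ((P.e i).symm z) * P'.ρ j (φ ((P.e i).symm z))) * D (P.e i) z := fun i => by
    rw [← integral_finsetSum _ fun j _ => integrableOn_dens hD (P.mem i)
      (f := fun x => P.ρ i x * P'.ρ j (φ x)) ((P.cont i).mul ((P'.cont j).comp φ.continuous))
      (tsupport_mul_subset_left'.trans (P.supp i))]
    simp only [← Finset.sum_mul, ← Finset.mul_sum, P'.sum, mul_one]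
  have k2 : ∀ j, ∫ z in (P'.e j).target, P'.ρ j ((P'.e j).symm z) * D' (P'.e j) z =
      ∑ i, ∫ z in (P'.e j).target,
        (P.ρ i (φ.symm ((P'.e j).symm z)) * P'.ρ j ((P'.e j).symm z)) * D' (P'.e j) z := fun j => by
    rw [← integral_finsetSum _ fun i _ => integrableOn_dens hD' (P'.mem j)
      (f := fun y => P.ρ i (φ.symm y) * P'.ρ j y)
      (((P.cont i).comp φ.symm.continuous).mul (P'.cont j))
      (tsupport_mul_subset_right'.trans (P'.supp j))]
    simp only [← Finset.sum_mul, P.sum, one_mul]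
  refine (Finset.sum_congr rfl fun i _ => k1 i).trans (Finset.sum_comm.trans
    (Finset.sum_congr rfl fun j _ => ((k2 j).trans (Finset.sum_congr rfl fun i _ => ?_)).symm))
  refine ((chg (c := φ.transOpenPartialHomeomorph (P'.e j)) (D' := D' (P'.e j))
    (f := fun x => P.ρ i x * P'.ρ j (φ x)) (fun x a b => ⟨(hφ.sm _ _ x ⟨P.mem i, a⟩
      ⟨P'.mem j, b⟩).differentiableAt (by simp), h _ _ x ⟨P.mem i, a⟩ ⟨P'.mem j, b⟩⟩)
    (fun x hx => ?_) fun x hx => ?_).trans ?_).symm
  · rw [image_eq_zero_of_notMem_tsupport fun k => hx (P.supp i k), zero_mul]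
  · rw [image_eq_zero_of_notMem_tsupport (x := φ x) fun k => hx (P'.supp j k), mul_zero]
  · refine setIntegral_congr_fun (P'.e j).open_target.measurableSet fun z _ => ?_
    show P.ρ i (φ.symm _) * P'.ρ j (φ (φ.symm _)) * _ = _
    rw [φ.apply_symm_apply]
    rfl

end Pb2H

open G2H Pb2H in
/-- row PB2 -/
theorem pb2 (ha : F1a) (hl : K1b) {d : ℕ} {M M' : Type} [TopologicalSpace M]
    [ChartedSpace (Cm d) M] [T2Space M] [CompactSpace M] [IsManifold 𝓘(ℂ, Cm d) ω M]
    [TopologicalSpace M'] [ChartedSpace (Cm d) M'] [T2Space M'] [CompactSpace M']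
    [IsManifold 𝓘(ℂ, Cm d) ω M'] (h : G1 d M) (h' : G1 d M') (p : PB1 d M d M')
    (p' : PB1 d M' d M) : PB2 d M M' := by
  intro φ X X' h1 h2 ho hX hX'
  obtain ⟨⟨T, hT⟩, -, -, h3⟩ := p φ h1
  obtain ⟨⟨T', hT'⟩, -⟩ := p' φ.symm h2
  obtain ⟨a1, a2, a3, -⟩ := h3 T X X' hT hX hX'
  refine ⟨⟨T, T', pb_inv hl h2 h1 φ.apply_symm_apply hT' hT,
    pb_inv hl h1 h2 φ.symm_apply_apply hT hT'⟩, hT, hT', a1, fun a b => ?_, a3, a2⟩
  have k : ∀ e e' x, At e x → At e' (φ x) → Bq (vl (T a) e (e x)) (vl (T b) e (e x)) =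
      (|(fderiv ℝ (fun z => e' (φ (e.symm z))) (e x)).det| : ℝ) *
        Bq (vl a e' (e' (φ x))) (vl b e' (e' (φ x))) := fun e e' x he he' => by
    have k1 := det_pos hl h1 ho he he'
    have k2 := hl.jc_det ((h1.sm e e' x he he').differentiableAt (by simp))
    rw [hT a e e' x he he', hT b e e' x he he', abs_of_pos k1, ← k2]
    exact ha.Bq_lam _ _ _ (k2 ▸ (Complex.ofReal_ne_zero.2 k1.ne').isUnit)
  show X.Q (T a) (T b) = _
  rw [hX.Q, hX'.Q, itg, itg, intX_pull h1 (h.dens _ _).1 (h'.dens a b).1 fun e e' x he he' => by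
    rw [k e e' x he he', Complex.re_ofReal_mul], intX_pull h1 (h.dens _ _).2 (h'.dens a b).2
      fun e e' x he he' => by rw [k e e' x he he', Complex.im_ofReal_mul]]

end Vale.Agent.P281Z.Hg
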