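import Vale.Agent.P281Z.Hg.S4
import Mathlib.Topology.Algebra.Module.FiniteDimensionBilinear

/-!
# P281, Hodge block, row PO1: the formula of Cartan for the integrand of the cone operator
-/

open scoped ContDiff Topology Matrix
open Filter MeasureTheory Set
open Vale.Agent.P272.K Vale.Agent.P299.IX Vale.Agent.P299.IX.Fock

noncomputable section

namespace Vale.Agent.P281Z.Hg

namespace Po1

variable {d : ℕ}

theorem cx_add (v w : Cm d) : cx (v + w) = cx v + cx w := by
  funext l
  refine Fin.addCases (fun j => ?_) (fun j => ?_) l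
  · simp only [cx, Fin.addCases_left, Pi.add_apply]
  · simp only [cx, Fin.addCases_right, Pi.add_apply, star_add]

theorem cx_smul (r : ℝ) (v : Cm d) : cx (r • v) = (r : ℂ) • cx v := by
  funext l
  refine Fin.addCases (fun j => ?_) (fun j => ?_) l
  · simp only [cx, Fin.addCases_left, Pi.smul_apply, Complex.real_smul, smul_eq_mul]
  · simp only [cx, Fin.addCases_right, Pi.smul_apply, Complex.real_smul, smul_eq_mul, star_mul',
      Complex.star_def, Complex.conj_ofReal]

/-- the derivative `dr c` is a combination of two directional derivatives -/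
theorem rep (c : Fin (d + d)) : ∃ (a b : ℂ) (v w : Cm d),
    (∀ (g : Cm d → ℂ) z, dr c g z = a * fderiv ℝ g z v + b * fderiv ℝ g z w) ∧
      a • cx v + b • cx w = Pi.single c 1 := by
  refine Fin.addCases (fun j => ?_) (fun j => ?_) c
  · refine ⟨1 / 2, -Complex.I / 2, Pi.single j 1, Pi.single j Complex.I, fun g z => ?_, ?_⟩
    · simp only [dr, Fin.addCases_left, dz]
      ring
    · funext l
      refine Fin.addCases (fun i => ?_) (fun i => ?_) l
      · simp only [cx, Fin.addCases_left, Pi.add_apply, Pi.smul_apply, smul_eq_mul,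
          Pi.single_apply, Fin.castAdd_inj]
        split_ifs
        · linear_combination (-1 / 2 : ℂ) * Complex.I_mul_I
        · ring
      · have hne : Fin.natAdd d i ≠ Fin.castAdd d j := by
          intro h
          have h1 := congrArg Fin.val h
          simp only [Fin.val_natAdd, Fin.val_castAdd] at h1
          omega
        simp only [cx, Fin.addCases_right, Pi.add_apply, Pi.smul_apply, smul_eq_mul,
          Pi.single_apply, if_neg hne]
        split_ifs
        · rw [star_one, Complex.star_def, Complex.conj_I]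
          linear_combination (1 / 2 : ℂ) * Complex.I_mul_I
        · rw [star_zero]
          ring
  · refine ⟨1 / 2, Complex.I / 2, Pi.single j 1, Pi.single j Complex.I, fun g z => ?_, ?_⟩
    · simp only [dr, Fin.addCases_right, dzb]
      ring
    · funext l
      refine Fin.addCases (fun i => ?_) (fun i => ?_) l
      · have hne : Fin.castAdd d i ≠ Fin.natAdd d j := by
          intro h
          have h1 := congrArg Fin.val h
          simp only [Fin.val_natAdd, Fin.val_castAdd] at h1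
          omega
        simp only [cx, Fin.addCases_left, Pi.add_apply, Pi.smul_apply, smul_eq_mul,
          Pi.single_apply, if_neg hne]
        split_ifs
        · linear_combination (1 / 2 : ℂ) * Complex.I_mul_I
        · ring
      · simp only [cx, Fin.addCases_right, Pi.add_apply, Pi.smul_apply, smul_eq_mul,
          Pi.single_apply, Fin.natAdd_inj]
        split_ifs
        · rw [star_one, Complex.star_def, Complex.conj_I]
          linear_combination (-1 / 2 : ℂ) * Complex.I_mul_I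
        · rw [star_zero]
          ring

theorem Dv_rep {c : Fin (d + d)} {a b : ℂ} {v w : Cm d}
    (h : ∀ (g : Cm d → ℂ) z, dr c g z = a * fderiv ℝ g z v + b * fderiv ℝ g z w)
    {u : Cm d → Fo d} {z : Cm d} {A : Cm d →L[ℝ] Fo d} (hu : HasFDerivAt u A z) :
    Dv c u z = a • A v + b • A w := by
  funext I
  have h1 : HasFDerivAt (fun y => u y I) _ z := hasFDerivAt_pi'.1 hu I
  rw [Dv, h, h1.fderiv]
  rfl

/-- a matrix as a real continuous linear map -/
def mv (A : Fm d) : Fo d →L[ℝ] Fo d :=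
  LinearMap.toContinuousLinearMap ((Matrix.mulVecLin A).restrictScalars ℝ)

theorem mv_apply (A : Fm d) (a : Fo d) : mv A a = A *ᵥ a := rfl

/-- `dT` is a linear function of the derivative -/
theorem exL (d : ℕ) : ∃ L : (Cm d →L[ℝ] Fo d) →L[ℝ] Fo d, ∀ (u : Cm d → Fo d) z A,
    HasFDerivAt u A z → dT u z = L A := by
  choose a b v w h _ using fun c : Fin (d + d) => rep c
  refine ⟨∑ c, (mv (eps c)).comp (a c • ContinuousLinearMap.apply ℝ (Fo d) (v c) +
    b c • ContinuousLinearMap.apply ℝ (Fo d) (w c)), fun u z A hu => ?_⟩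
  rw [sum_apply, dT]
  refine Finset.sum_congr rfl fun c _ => ?_
  rw [Dv_rep (h c) hu]
  rfl

/-- contraction as a real bilinear map -/
def bl (d : ℕ) : Cm d →L[ℝ] Fo d →L[ℝ] Fo d :=
  (LinearMap.mk₂ ℝ (fun (v : Cm d) (a : Fo d) => iotV (cx v) *ᵥ a)
    (fun v w a => by rw [cx_add, iotV_add, Matrix.add_mulVec])
    (fun r v a => by rw [cx_smul, iotV_smul, Matrix.smul_mulVec, Complex.coe_smul])
    (fun v a b => by rw [Matrix.mulVec_add])
    (fun r v a => by rw [← Complex.coe_smul, Matrix.mulVec_smul,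
      Complex.coe_smul])).toContinuousBilinearMap

theorem bl_apply (v : Cm d) (a : Fo d) : bl d v a = iotV (cx v) *ᵥ a := rfl

/-- the integrand -/
def ig (u : Cm d → Fo d) (y z : Cm d) (s : ℝ) : Fo d :=
  dgl (fun m => (s : ℂ) ^ m) *ᵥ (iotV (cx (z - y)) *ᵥ u (y + s • (z - y)))

theorem cone_eq (β : Cm d → ℝ) (u : Cm d → Fo d) (z : Cm d) :
    cone β u z = ∫ y, β y • ∫ s in (0 : ℝ)..1, ig u y z s := rfl

theorem ig_cd {n : WithTop ℕ∞} {u : Cm d → Fo d} (hu : ContDiff ℝ n u) {E : Type}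
    [NormedAddCommGroup E] [NormedSpace ℝ E] {y z : E → Cm d} {s : E → ℝ} (hy : ContDiff ℝ n y)
    (hz : ContDiff ℝ n z) (hs : ContDiff ℝ n s) :
    ContDiff ℝ n fun q => ig u (y q) (z q) (s q) := by
  have h1 : ContDiff ℝ n fun q => z q - y q := hz.sub hy
  have h2 : ContDiff ℝ n fun q => u (y q + s q • (z q - y q)) := hu.comp (hy.add (hs.smul h1))
  have h3 : ContDiff ℝ n fun q => bl d (z q - y q) (u (y q + s q • (z q - y q))) :=
    ((bl d).contDiff.comp h1).clm_apply h2
  refine contDiff_pi.2 fun I => ?_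
  simp only [ig, dgl_mulVec]
  exact ((Complex.ofRealCLM.contDiff.comp hs).pow I.card).mul (contDiff_pi.1 h3 I)

theorem sum_eps_iot (s : ℂ) (a : Fo d) :
    ∑ c, eps c *ᵥ (dgl (fun m => s ^ m) *ᵥ (iot c *ᵥ a)) =
      dgl (fun m => (m : ℂ) * s ^ (m - 1)) *ᵥ a := by
  have h1 : ∀ c : Fin (d + d), eps c *ᵥ (dgl (fun m => s ^ m) *ᵥ (iot c *ᵥ a)) =
      (eps c * iot c) *ᵥ (dgl (fun m => s ^ (m - 1)) *ᵥ a) := by
    intro c
    have h2 := dgl_iot (n := d + d) (fun m => s ^ (m - 1)) c
    simp only [Nat.add_sub_cancel] at h2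
    rw [Matrix.mulVec_mulVec, Matrix.mulVec_mulVec, Matrix.mulVec_mulVec, Matrix.mul_assoc, h2,
      Matrix.mul_assoc]
  funext I
  rw [Finset.sum_apply]
  simp only [h1, eps_iot_mulVec, dgl_mulVec]
  rw [Finset.sum_ite_mem, Finset.univ_inter, Finset.sum_const, nsmul_eq_mul, mul_assoc]

theorem dgl_iotV_eps (s : ℂ) (ξ : Fin (d + d) → ℂ) (c : Fin (d + d)) (a : Fo d) :
    dgl (fun m => s ^ m) *ᵥ (iotV ξ *ᵥ (eps c *ᵥ a)) =
      ξ c • (dgl (fun m => s ^ m) *ᵥ a) -
        eps c *ᵥ (dgl (fun m => s ^ m) *ᵥ (iotV ξ *ᵥ (s • a))) := by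
  have h1 : iotV ξ *ᵥ (eps c *ᵥ a) = ξ c • a - eps c *ᵥ (iotV ξ *ᵥ a) := by
    rw [eq_sub_iff_add_eq, Matrix.mulVec_mulVec, Matrix.mulVec_mulVec, ← Matrix.add_mulVec,
      iotV_eps, Matrix.smul_mulVec, Matrix.one_mulVec]
  have h2 : ∀ b : Fo d, dgl (fun m => s ^ (m + 1)) *ᵥ b = dgl (fun m => s ^ m) *ᵥ (s • b) := by
    intro b
    funext I
    simp only [dgl_mulVec, Pi.smul_apply, smul_eq_mul]
    ring
  rw [h1, Matrix.mulVec_sub, Matrix.mulVec_smul, Matrix.mulVec_mulVec (iotV ξ *ᵥ a), dgl_eps,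
    ← Matrix.mulVec_mulVec, h2, Matrix.mulVec_smul (iotV ξ)]

/-- the formula of Cartan for the integrand -/
theorem cartan (hK : K1a) {u : Cm d → Fo d} (hu : Differentiable ℝ u) (y z : Cm d) (s : ℝ) :
    dT (fun z' => ig u y z' s) z + ig (dT u) y z s =
      dgl (fun m => (m : ℂ) * (s : ℂ) ^ (m - 1)) *ᵥ u (y + s • (z - y)) +
        dgl (fun m => (s : ℂ) ^ m) *ᵥ fderiv ℝ u (y + s • (z - y)) (z - y) := by
  set h := y + s • (z - y) with hh
  have h1 : HasFDerivAt (fun z' : Cm d => z' - y) (ContinuousLinearMap.id ℝ (Cm d)) z :=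
    (hasFDerivAt_id z).sub_const y
  have h2 : HasFDerivAt (fun z' : Cm d => u (y + s • (z' - y)))
      ((fderiv ℝ u h).comp (s • ContinuousLinearMap.id ℝ (Cm d))) z :=
    (hu h).hasFDerivAt.comp z ((h1.const_smul s).const_add y)
  obtain ⟨A, h3, hA⟩ : ∃ A : Cm d →L[ℝ] Fo d, HasFDerivAt (fun z' => ig u y z' s) A z ∧ ∀ v,
      A v = dgl (fun m => (s : ℂ) ^ m) *ᵥ (iotV (cx (z - y)) *ᵥ ((s : ℂ) • fderiv ℝ u h v) +
        iotV (cx v) *ᵥ u h) := by
    refine ⟨_, (mv (dgl fun m => (s : ℂ) ^ m)).hasFDerivAt.comp z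
      ((bl d).hasFDerivAt_of_bilinear h1 h2), fun v => ?_⟩
    rw [Complex.coe_smul, ← map_smul]
    rfl
  have h4 : ∀ c, Dv c (fun z' => ig u y z' s) z = dgl (fun m => (s : ℂ) ^ m) *ᵥ (iot c *ᵥ u h) +
      dgl (fun m => (s : ℂ) ^ m) *ᵥ (iotV (cx (z - y)) *ᵥ ((s : ℂ) • Dv c u h)) := by
    intro c
    obtain ⟨a, b, v, w, e1, e2⟩ := rep c
    rw [Dv_rep e1 h3, Dv_rep e1 (hu h).hasFDerivAt, ← iotV_single, ← e2, hA, hA]
    simp only [iotV_add, iotV_smul, Matrix.add_mulVec, Matrix.smul_mulVec, Matrix.mulVec_add,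
      Matrix.mulVec_smul, smul_add]
    module
  have h5 : fderiv ℝ u h (z - y) = ∑ c, cx (z - y) c • Dv c u h := by
    funext I
    have e1 : HasFDerivAt (fun y => u y I) _ h := hasFDerivAt_pi'.1 (hu h).hasFDerivAt I
    have e2 := hK.fd (z - y) e1.differentiableAt
    rw [e1.fderiv] at e2
    rw [Finset.sum_apply]
    exact e2
  rw [dT, ig, ← hh, dT, h5, ← sum_eps_iot, Matrix.mulVec_sum, Matrix.mulVec_sum,
    Matrix.mulVec_sum, ← Finset.sum_add_distrib, ← Finset.sum_add_distrib]
  refine Finset.sum_congr rfl fun c _ => ?_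
  rw [h4, dgl_iotV_eps, Matrix.mulVec_add, Matrix.mulVec_smul _ (cx (z - y) c)]
  abel

theorem ftc {u : Cm d → Fo d} (hu : ContDiff ℝ ∞ u) (y z : Cm d) :
    ∫ s in (0 : ℝ)..1, (dgl (fun m => (m : ℂ) * (s : ℂ) ^ (m - 1)) *ᵥ u (y + s • (z - y)) +
      dgl (fun m => (s : ℂ) ^ m) *ᵥ fderiv ℝ u (y + s • (z - y)) (z - y)) =
      u z - u y ∅ • ev ∅ := by
  have hl : Continuous fun s : ℝ => y + s • (z - y) := by fun_prop
  have hc1 : Continuous fun s : ℝ => u (y + s • (z - y)) := hu.continuous.comp hl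
  have hc2 : Continuous fun s : ℝ => fderiv ℝ u (y + s • (z - y)) (z - y) :=
    ((hu.continuous_fderiv (by norm_num)).comp hl).clm_apply continuous_const
  rw [intervalIntegral.integral_eq_sub_of_hasDerivAt
    (f := fun s : ℝ => dgl (fun m => (s : ℂ) ^ m) *ᵥ u (y + s • (z - y)))]
  · funext I
    simp only [Pi.sub_apply, dgl_mulVec, Complex.ofReal_one, one_pow, one_mul, one_smul,
      add_sub_cancel, Complex.ofReal_zero, zero_smul, add_zero, Pi.smul_apply, smul_eq_mul, ev,
      Pi.single_apply]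
    by_cases hI : I = ∅
    · subst hI
      simp
    · rw [if_neg hI, zero_pow (Finset.card_ne_zero.2 (Finset.nonempty_iff_ne_empty.2 hI))]
      ring
  · intro s _
    refine hasDerivAt_pi.2 fun I => ?_
    have e1 : HasDerivAt (fun s : ℝ => y + s • (z - y)) (z - y) s := by
      simpa using ((hasDerivAt_id s).smul_const (z - y)).const_add y
    have e2 := ((hu.differentiable (by norm_num)) (y + s • (z - y))).hasFDerivAt.comp_hasDerivAt
      s e1
    have e3 := hasDerivAt_pi.1 e2 I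
    have e4 := (hasDerivAt_pow I.card (s : ℂ)).comp_ofReal
    simp only [Pi.add_apply, dgl_mulVec]
    exact e4.mul e3
  · refine Continuous.intervalIntegrable (continuous_pi fun I => ?_) _ _
    simp only [Pi.add_apply, dgl_mulVec]
    exact ((continuous_const.mul (Complex.continuous_ofReal.pow _)).mul
      ((continuous_apply I).comp hc1)).add
      ((Complex.continuous_ofReal.pow _).mul ((continuous_apply I).comp hc2))

end Po1

end Vale.Agent.P281Z.Hg
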