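import Vale.Agent.P281Z.Hg.DL

/-!
# P281, Hodge block: statements of the abstract rows
-/

open scoped ComplexOrder Topology Matrix
open Filter

noncomputable section

namespace Vale.Agent.P281Z.Hg

variable {S : Type} [AddCommGroup S] [Module ℂ S] {D : ℕ}

namespace KP

variable {X : Cx S D} (K : KP X)

/-- row AB0a: types, adjoints (from `X.OK`, `K.Alg`) -/
structure KIa : Prop where
  d_eq : X.d = K.A + K.Ab
  AA : K.A * K.A = 0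
  AbAb : K.Ab * K.Ab = 0
  AAb : K.A * K.Ab = -(K.Ab * K.A)
  prA : ∀ k, K.pr (k + 1) * K.A = K.A * K.pr k
  pr0A : K.pr 0 * K.A = 0
  prAb : ∀ k, K.pr k * K.Ab = K.Ab * K.pr k
  dgA : ∀ m, X.dg (m + 1) * K.A = K.A * X.dg m
  dgAb : ∀ m, X.dg (m + 1) * K.Ab = K.Ab * X.dg m
  QA : ∀ a b, X.Q (K.A a) b = -X.Q a (K.A b)
  QAb : ∀ a b, X.Q (K.Ab a) b = -X.Q a (K.Ab b)
  cjA : ∀ a, X.cj (K.A a) = K.Ab (X.cj a)
  cjAb : ∀ a, X.cj (K.Ab a) = K.A (X.cj a)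
  LA : K.L * K.A = K.A * K.L
  LAb : K.L * K.Ab = K.Ab * K.L
  pr0L : K.pr 0 * K.L = 0
  dg0L : X.dg 0 * K.L = 0
  dg1L : X.dg 1 * K.L = 0
  Lmpr0 : K.Lm * K.pr 0 = 0
  Lmdg0 : K.Lm * X.dg 0 = 0
  Lmdg1 : K.Lm * X.dg 1 = 0
  nL : K.L ^ (D + D + 1) = 0
  nLm : K.Lm ^ (D + D + 1) = 0
  HL : X.Nd * K.L - K.L * X.Nd = (2 : ℂ) • K.L
  HLm : X.Nd * K.Lm - K.Lm * X.Nd = -((2 : ℂ) • K.Lm)
  Wdg : ∀ j k, j + k = D + D → X.dg j * K.W = K.W * X.dg k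
  ip_add_l : ∀ a a' b, K.ip (a + a') b = K.ip a b + K.ip a' b
  ip_add_r : ∀ a b b', K.ip a (b + b') = K.ip a b + K.ip a b'
  ip_smul_l : ∀ (c : ℂ) a b, K.ip (c • a) b = star c * K.ip a b
  ip_smul_r : ∀ (c : ℂ) a b, K.ip a (c • b) = c * K.ip a b
  adjA : ∀ a b, K.ip a (K.A b) = K.ip (K.As a) b
  adjAb : ∀ a b, K.ip a (K.Ab b) = K.ip (K.Abs a) b
  adjd : ∀ a b, K.ip a (X.d b) = K.ip (K.ds a) b
  adjL : ∀ a b, K.ip a (K.L b) = K.ip (K.Lm a) b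
  adjpr : ∀ k a b, K.ip a (K.pr k b) = K.ip (K.pr k a) b
  adjdg : ∀ m a b, K.ip a (X.dg m b) = K.ip (X.dg m a) b

/-- row AB0b: norms and the Kähler identities (from `X.OK`, `K.Alg`, `K.KIa`) -/
structure KIb : Prop where
  nn : ∀ a, 0 ≤ K.nrm a
  sq : ∀ a, K.nrm a ^ 2 = (K.ip a a).re
  tri : ∀ a b, K.nrm (a + b) ≤ K.nrm a + K.nrm b
  smul : ∀ (c : ℂ) a, K.nrm (c • a) = ‖c‖ * K.nrm a
  cs : ∀ a b, ‖K.ip a b‖ ≤ K.nrm a * K.nrm b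
  prb : ∀ k a, K.nrm (K.pr k a) ≤ K.nrm a
  dgb : ∀ m a, K.nrm (X.dg m a) ≤ K.nrm a
  bW : K.Bdd K.W
  bC : K.Bdd K.C
  bQ : ∃ C : ℝ, 0 ≤ C ∧ ∀ a b, ‖X.Q a b‖ ≤ C * K.nrm a * K.nrm b
  AsL : K.As * K.L - K.L * K.As = (-Complex.I) • K.Ab
  AbsL : K.Abs * K.L - K.L * K.Abs = Complex.I • K.A
  LmAs : K.Lm * K.As = K.As * K.Lm
  LmAbs : K.Lm * K.Abs = K.Abs * K.Lm
  prAs : ∀ k, K.pr k * K.As = K.As * K.pr (k + 1)
  Aspr0 : K.As * K.pr 0 = 0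
  prAbs : ∀ k, K.pr k * K.Abs = K.Abs * K.pr k
  dgAs : ∀ m, X.dg m * K.As = K.As * X.dg (m + 1)
  dgAbs : ∀ m, X.dg m * K.Abs = K.Abs * X.dg (m + 1)
  Asdg0 : K.As * X.dg 0 = 0
  Absdg0 : K.Abs * X.dg 0 = 0
  cjAs : ∀ a, X.cj (K.As a) = K.Abs (X.cj a)
  cjAbs : ∀ a, X.cj (K.Abs a) = K.As (X.cj a)
  dir : ∀ a, K.nrm ((X.d + K.ds) a) ^ 2 = K.nrm (X.d a) ^ 2 + K.nrm (K.ds a) ^ 2
  lapA : ∀ a, K.nrm (X.d a) ^ 2 + K.nrm (K.ds a) ^ 2 =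
    2 * (K.nrm (K.A a) ^ 2 + K.nrm (K.As a) ^ 2)
  lapAb : ∀ a, K.nrm (X.d a) ^ 2 + K.nrm (K.ds a) ^ 2 =
    2 * (K.nrm (K.Ab a) ^ 2 + K.nrm (K.Abs a) ^ 2)

/-- row AB1: harmonic representatives (from `K.OK`, `K.KIa`, `K.KIb`) -/
structure KH : Prop where
  ex : ∀ z, X.d z = 0 → ∃ v, K.Rep z v
  uniq : ∀ {z v v'}, K.Rep z v → K.Rep z v' → K.Null fun s => v s - v' s
  congr : ∀ {z v v'}, K.Rep z v → K.Har v' → (K.Null fun s => v s - v' s) → K.Rep z v'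
  nul : ∀ {z v}, K.Rep z v → (z ∈ X.Nul ↔ K.Null v)
  ncongr : ∀ {z z' v}, K.Rep z v → z - z' ∈ X.Nul → K.Rep z' v
  back : ∀ {z z' v}, K.Rep z v → K.Rep z' v → z - z' ∈ X.Nul
  har : ∀ {v}, K.Har v → ∃ z, K.Rep z v
  zero : K.Rep 0 fun _ => 0
  add : ∀ {z z' v v'}, K.Rep z v → K.Rep z' v' → K.Rep (z + z') fun s => v s + v' s
  smul : ∀ (c : ℂ) {z v}, K.Rep z v → K.Rep (c • z) fun s => c • v s
  bdd : ∀ {v}, K.Cau v → ∃ C : ℝ, ∀ s, K.nrm (v s) ≤ C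
  nA : ∀ {v}, K.Har v → (K.Null fun s => K.A (v s)) ∧ (K.Null fun s => K.Ab (v s)) ∧
    (K.Null fun s => K.As (v s)) ∧ K.Null fun s => K.Abs (v s)
  hpr : ∀ k {v}, K.Har v → K.Har fun s => K.pr k (v s)
  hLm : ∀ {v}, K.Har v → K.Har fun s => K.Lm (v s)
  hW : ∀ {v}, K.Har v → K.Har fun s => K.W (v s)
  hC : ∀ {v}, K.Har v → K.Har fun s => K.C (v s)
  rL : ∀ {z v}, K.Rep z v → K.Rep (K.L z) fun s => K.L (v s)
  rdg : ∀ m {z v}, K.Rep z v → K.Rep (X.dg m z) fun s => X.dg m (v s)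
  rcj : ∀ {z v}, K.Rep z v → K.Rep (X.cj z) fun s => X.cj (v s)
  Qlim : ∀ {z z' v v'}, K.Rep z v → K.Rep z' v' →
    Tendsto (fun s => X.Q (v s) (v' s)) atTop (𝓝 (X.Q z z'))
  Qlim' : ∀ {z z' v}, X.d z' = 0 → K.Rep z v → Tendsto (fun s => X.Q z' (v s)) atTop (𝓝 (X.Q z' z))
  orth : ∀ {v}, K.Har v → ∀ y : ℕ → S, (∃ C : ℝ, ∀ s, K.nrm (X.d (y s)) ≤ C) →
    Tendsto (fun s => K.ip (X.d (y s)) (v s)) atTop (𝓝 0)
  nc : ∀ z ∈ X.Nul, ∃ y : ℕ → S, K.Null fun s => z - X.d (y s)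
  top : ∀ {σ}, X.d σ = 0 → K.Top σ → K.Rep σ fun _ => σ

/-- row AB2: the Hodge structure in the middle degree (from `K.OK`, `KIa`, `KIb`, `KH`) -/
structure KM : Prop where
  ex : ∀ {n : ℕ} {b : Fin n → S}, X.Bas D b → ∃ Pr Qm, K.IsPr b Pr ∧ K.IsQ b Qm
  uPr : ∀ {n : ℕ} {b : Fin n → S} {Pr Pr'}, X.Bas D b → K.IsPr b Pr → K.IsPr b Pr' → Pr = Pr'
  uQ : ∀ {n : ℕ} {b : Fin n → S} {Qm Qm'}, X.Bas D b → K.IsQ b Qm → K.IsQ b Qm' → Qm = Qm'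
  pg : ∀ {n : ℕ} {b : Fin n → S} {T : Type} {Pr : ℕ → T → Mt n} {t : T} {Qm}, X.Bas D b →
    K.IsPr b (fun k => Pr k t) → K.IsQ b Qm → PG D Qm Pr t
  top : ∀ {n : ℕ} {b : Fin n → S} {Pr} {σ} {v : Fin n → ℂ}, X.Bas D b → K.IsPr b Pr →
    X.d σ = 0 → K.Top σ → σ - ∑ i, v i • b i ∈ X.Nul → Pr D *ᵥ v = v
  onto : ∀ {n : ℕ} {b : Fin n → S} {Pr} {v : Fin n → ℂ}, X.Bas D b → K.IsPr b Pr →
    Pr D *ᵥ v = v → ∃ σ, X.d σ = 0 ∧ K.Top σ ∧ σ - ∑ i, v i • b i ∈ X.Nul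
  ip : ∀ {n : ℕ} {b : Fin n → S} {Qm} {σ σ'} {v v' : Fin n → ℂ}, X.Bas D b → K.IsQ b Qm →
    X.d σ = 0 → K.Top σ → X.d σ' = 0 → K.Top σ' → σ - ∑ i, v i • b i ∈ X.Nul →
    σ' - ∑ i, v' i • b i ∈ X.Nul → K.ip σ σ' = star v ⬝ᵥ (Qm *ᵥ v')

end KP

/-- all abstract consequences for all packages -/
def ABall : Prop := ∀ (S : Type) [AddCommGroup S] [Module ℂ S] (D : ℕ) (X : Cx S D) (K : KP X),
  K.OK → K.KIa ∧ K.KIb ∧ K.KH ∧ K.KM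

/-- row FLAT: the polarisation depends only on the Kähler class -/
def FLAT : Prop := ∀ (S : Type) [AddCommGroup S] [Module ℂ S] (D : ℕ) (X : Cx S D) (K K' : KP X)
  (n : ℕ) (b : Fin n → S) (Qm Qm' : Mt n), K.OK → K'.OK → K.c = K'.c →
  (∀ z, X.d z = 0 → K.L z - K'.L z ∈ X.Nul) → (∀ i, X.d (b i) = 0) → K.IsQ b Qm → K'.IsQ b Qm' →
  Qm = Qm'

/-- row TR: transport along isomorphisms -/
structure TR : Prop where
  ok : ∀ {S S' : Type} [AddCommGroup S] [Module ℂ S] [AddCommGroup S'] [Module ℂ S'] {D : ℕ}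
    {X : Cx S D} {X' : Cx S' D} {T : S' ≃ₗ[ℂ] S} {K : KP X'}, X'.Iso X T → K.OK → (K.tr X T).OK
  ip : ∀ {S S' : Type} [AddCommGroup S] [Module ℂ S] [AddCommGroup S'] [Module ℂ S'] {D : ℕ}
    {X : Cx S D} {X' : Cx S' D} {T : S' ≃ₗ[ℂ] S} (K : KP X'), X'.Iso X T → ∀ a b,
    (K.tr X T).ip (T a) (T b) = K.ip a b
  top : ∀ {S S' : Type} [AddCommGroup S] [Module ℂ S] [AddCommGroup S'] [Module ℂ S'] {D : ℕ}
    {X : Cx S D} {X' : Cx S' D} {T : S' ≃ₗ[ℂ] S} (K : KP X'), X'.Iso X T → ∀ a,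
    (K.tr X T).Top (T a) ↔ K.Top a
  nul : ∀ {S S' : Type} [AddCommGroup S] [Module ℂ S] [AddCommGroup S'] [Module ℂ S'] {D : ℕ}
    {X : Cx S D} {X' : Cx S' D} {T : S' ≃ₗ[ℂ] S}, X'.Iso X T → ∀ a, T a ∈ X.Nul ↔ a ∈ X'.Nul
  rank : ∀ {S S' : Type} [AddCommGroup S] [Module ℂ S] [AddCommGroup S'] [Module ℂ S'] {D : ℕ}
    {X : Cx S D} {X' : Cx S' D} {T : S' ≃ₗ[ℂ] S} {m n n' : ℕ} {b : Fin n → S} {b' : Fin n' → S'},
    X'.Iso X T → X.Bas m b → X'.Bas m b' → n = n'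
  chg : ∀ {S S' S'' : Type} [AddCommGroup S] [Module ℂ S] [AddCommGroup S'] [Module ℂ S']
    [AddCommGroup S''] [Module ℂ S''] {D : ℕ} {X : Cx S D} {X' : Cx S' D} {X'' : Cx S'' D}
    {T : S'' ≃ₗ[ℂ] S} {T' : S'' ≃ₗ[ℂ] S'} {K : KP X''} {n : ℕ} {b : Fin n → S} {b' : Fin n → S'}
    {g : Mt n} {Pr Pr' : ℕ → Mt n} {Qm Qm' : Mt n}, X''.Iso X T → X''.Iso X' T' → K.OK →
    X.Bas D b → X'.Bas D b' → (∀ j, T (T'.symm (b' j)) - ∑ i, g i j • b i ∈ X.Nul) →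
    (K.tr X T).IsPr b Pr → (K.tr X' T').IsPr b' Pr' → (K.tr X T).IsQ b Qm →
    (K.tr X' T').IsQ b' Qm' → (∀ k, Pr k * g = g * Pr' k) ∧ Qm' = gᴴ * Qm * g
  gram : ∀ {S : Type} [AddCommGroup S] [Module ℂ S] {D : ℕ} {X : Cx S D} {n : ℕ} {b : Fin n → S},
    X.OK → X.Bas D b → IsUnit (Matrix.of fun i j => X.Q (b i) (b j) : Mt n).det

/-- row FA: first order behaviour of the Hodge projectors -/
def FA : Prop := ∀ (S : Type) [AddCommGroup S] [Module ℂ S] (D : ℕ) (X : Cx S D) (p : ℕ)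
  (K : (Fin p → ℂ) → KP X) (t0 : Fin p → ℂ) (n : ℕ) (b : Fin n → S)
  (Pr : ℕ → (Fin p → ℂ) → Mt n), FamH K t0 → X.Bas D b → (K t0).IsPr b (fun k => Pr k t0) →
  (∀ᶠ t in 𝓝 t0, (K t).IsPr b fun k => Pr k t) → Ctr D Pr t0

/-- row PVS: smoothness and transversality -/
def PVS : Prop := ∀ (p n w : ℕ) (Q : Mt n) (Pr : ℕ → (Fin p → ℂ) → Mt n) (O : Set (Fin p → ℂ)),
  IsOpen O → (∀ t ∈ O, PG w Q Pr t ∧ Ctr w Pr t) → ∀ t ∈ O, PVAt w Q Pr t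

/-- row VT1: algebra of list cochains -/
structure VT1 : Prop where
  add : ∀ {M A : Type} [AddCommGroup A] (a b : List M → A) l, dl (a + b) l = dl a l + dl b l
  map : ∀ {M A B : Type} [AddCommGroup A] [AddCommGroup B] (φ : A →+ B) (a : List M → A) l,
    dl (fun l' => φ (a l')) l = φ (dl a l)
  dldl : ∀ {M A : Type} [AddCommGroup A] (a : List M → A) l, dl (dl a) l = 0
  comap : ∀ {M M' A : Type} [AddCommGroup A] (f : M → M') (a : List M' → A) (l : List M),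
    dl (fun l' => a (l'.map f)) l = dl a (l.map f)
  mem : ∀ {M A : Type} [AddCommGroup A] (B : AddSubgroup A) (a : List M → A) (l : List M),
    (∀ l', l'.Sublist l → l'.length + 1 = l.length → a l' ∈ B) → dl a l ∈ B
  nrm : ∀ {M A : Type} [AddCommGroup A] (ν : A → ℝ) (a : List M → A) (l : List M) (C : ℝ),
    ν 0 = 0 → (∀ u v, ν (u - v) ≤ ν u + ν v) →
    (∀ l', l'.Sublist l → l'.length + 1 = l.length → ν (a l') ≤ C) → ν (dl a l) ≤ l.length * C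
  prism : ∀ {M M' A : Type} [AddCommGroup A] (f g : M → M') (a : List M' → A),
    ∃ b : List M → A, b [] = 0 ∧ ∀ l : List M, l ≠ [] →
      (∀ l' : List M', l'.length = l.length + 1 → (∀ y ∈ l', ∃ x ∈ l, y = f x ∨ y = g x) →
        dl a l' = 0) → a (l.map g) - a (l.map f) = dl b l

/-- row VT2 -/
def VT2 : Prop := ∀ (M : Type) [MetricSpace M] [CompactSpace M], ULC M → ∀ m, REF M m

/-- row VT3 -/
def VT3 : Prop := ∀ (M : Type) [MetricSpace M] [CompactSpace M] (m : ℕ), REF M m → PER M m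

/-- row ZR -/
def ZR : Prop := ∀ (S : Type) [AddCommGroup S] [Module ℂ S] (D : ℕ) (X : Cx S D) (M : Type)
  [MetricSpace M] (E : LC M X), E.OK → ∀ m, E.R1 m ∧ E.U2 m

/-- row ZI -/
def ZI : Prop := ∀ (S : Type) [AddCommGroup S] [Module ℂ S] (D : ℕ) (X : Cx S D) (M : Type)
  [MetricSpace M] (E : LC M X), E.OK → ∀ m, E.I1 m ∧ E.U1 m

/-- row ZS -/
def ZS : Prop := ∀ (S : Type) [AddCommGroup S] [Module ℂ S] (D : ℕ) (X : Cx S D) (M : Type)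
  [MetricSpace M] (E : LC M X), E.OK → E.S1

/-- row LT -/
def LT : Prop := ∀ (S : Type) [AddCommGroup S] [Module ℂ S] (D : ℕ) (X : Cx S D) (M : Type)
  [MetricSpace M] (E : LC M X) (m : ℕ), E.OK → E.NC → PER M m →
  ∃ (n : ℕ) (b : Fin n → S), E.LB m b

/-- row CM: pull-backs preserve integral forms, close maps have cohomologous pull-backs -/
structure CM : Prop where
  int : ∀ {S S' : Type} [AddCommGroup S] [Module ℂ S] [AddCommGroup S'] [Module ℂ S'] {D D' : ℕ}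
    {X : Cx S D} {X' : Cx S' D'} {M M' : Type} [MetricSpace M] [CompactSpace M] [MetricSpace M']
    {E : LC M X} {E' : LC M' X'} {f : M → M'} {T : S' →ₗ[ℂ] S}, E.Mor E' f T →
    ∀ m u, E'.IsInt m u → E.IsInt m (T u)
  close : ∀ {S' : Type} [AddCommGroup S'] [Module ℂ S'] {D' : ℕ} {X' : Cx S' D'} {M' : Type}
    [MetricSpace M'] (E' : LC M' X') (m : ℕ), E'.OK → ∃ ε : ℝ, 0 < ε ∧
    ∀ {S : Type} [AddCommGroup S] [Module ℂ S] {D : ℕ} {X : Cx S D} {M : Type} [MetricSpace M]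
      [CompactSpace M] {E : LC M X} {f g : M → M'} {T T' : S' →ₗ[ℂ] S}, E.OK → E.Mor E' f T →
      E.Mor E' g T' → (∀ x, dist (f x) (g x) < ε) → ∀ u, X'.Cl m u → ∃ y, T u - T' u = X.d y

end Vale.Agent.P281Z.Hg
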