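import Vale.Agent.P281Z.Hg.S1
import Vale.Agent.P281Z.Hg.S2
import Mathlib.Analysis.InnerProductSpace.Defs

/-!
# P281, Hodge block: norms and the Kähler identities
-/

open Complex

noncomputable section

namespace Vale.Agent.P281Z.Hg

namespace Ab0b

variable {S : Type} [AddCommGroup S] [Module ℂ S] {D : ℕ} {X : Cx S D} {K : KP X}
  {T T' U U' : Module.End ℂ S}

/-- `T'` is the adjoint of `T` -/
def Adj (K : KP X) (T T' : Module.End ℂ S) : Prop := ∀ a b, K.ip a (T b) = K.ip (T' a) b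

/-- bounded linear operators -/
def Bd (K : KP X) (T : Module.End ℂ S) : Prop := K.Bdd T

theorem Adj.mul (h1 : Adj K T T') (h2 : Adj K U U') : Adj K (T * U) (U' * T') :=
  fun a b => (h1 a _).trans (h2 _ b)

theorem Adj.symm (h : K.Alg) (h1 : Adj K T T') : Adj K T' T := fun a b => by
  rw [h.herm, ← h1, ← h.herm]

section
variable (ha : K.KIa)
include ha

theorem ip_sub_l (a a' b : S) : K.ip (a - a') b = K.ip a b - K.ip a' b := by
  rw [eq_sub_iff_add_eq, ← ha.ip_add_l, sub_add_cancel]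

theorem ip_sub_r (a b b' : S) : K.ip a (b - b') = K.ip a b - K.ip a b' := by
  rw [eq_sub_iff_add_eq, ← ha.ip_add_r, sub_add_cancel]

theorem ip_zero_r (a : S) : K.ip a 0 = 0 := by simpa using ip_sub_r ha a 0 0

theorem ip_zero_l (a : S) : K.ip 0 a = 0 := by simpa using ip_sub_l ha 0 0 a

theorem Adj.sub (h1 : Adj K T T') (h2 : Adj K U U') : Adj K (T - U) (T' - U') := fun a b => by
  rw [LinearMap.sub_apply, LinearMap.sub_apply, ip_sub_l ha, ip_sub_r ha, h1, h2]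

theorem Adj.smul (c : ℂ) (h1 : Adj K T T') : Adj K (c • T) (star c • T') := fun a b => by
  rw [LinearMap.smul_apply, LinearMap.smul_apply, ha.ip_smul_l, ha.ip_smul_r, h1, star_star]

theorem adj_zero : Adj K 0 0 := fun a b => by
  rw [LinearMap.zero_apply, LinearMap.zero_apply, ip_zero_r ha, ip_zero_l ha]

theorem Adj.uniq (h : K.Alg) (h1 : Adj K T T') (h2 : Adj K U U') (e : T = U) : T' = U' := by
  subst e
  ext a
  refine sub_eq_zero.1 (h.defn _ ?_)
  rw [ip_sub_l ha, ← h1, ← h2, sub_self]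

end

section
variable (h : K.Alg) (ha : K.KIa)
include h

theorem sq (a : S) : K.nrm a ^ 2 = (K.ip a a).re := Real.sq_sqrt (h.pos a)

include ha

theorem cs (a b : S) : ‖K.ip a b‖ ≤ K.nrm a * K.nrm b := by
  let c : PreInnerProductSpace.Core ℂ S :=
    { inner := K.ip
      conj_inner_symm := fun x y => (h.herm x y).symm
      re_inner_nonneg := h.pos
      add_left := ha.ip_add_l
      smul_left := fun x y r => ha.ip_smul_l r x y }
  have h1 : ‖K.ip a b‖ * ‖K.ip b a‖ ≤ (K.ip a a).re * (K.ip b b).re :=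
    InnerProductSpace.Core.inner_mul_inner_self_le (c := c) a b
  rw [h.herm b a, norm_star, ← sq h, ← sq h, ← mul_pow, ← pow_two] at h1
  exact (pow_le_pow_iff_left₀ (norm_nonneg _)
    (mul_nonneg (Real.sqrt_nonneg _) (Real.sqrt_nonneg _)) two_ne_zero).1 h1

theorem sq_add (a b : S) : K.nrm (a + b) ^ 2 = K.nrm a ^ 2 + 2 * (K.ip b a).re + K.nrm b ^ 2 := by
  rw [sq h, sq h, sq h, ha.ip_add_l, ha.ip_add_r, ha.ip_add_r, h.herm a b]
  simp
  ring

theorem tri (a b : S) : K.nrm (a + b) ≤ K.nrm a + K.nrm b := by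
  refine (pow_le_pow_iff_left₀ (Real.sqrt_nonneg _)
    (add_nonneg (Real.sqrt_nonneg _) (Real.sqrt_nonneg _)) two_ne_zero).1 ?_
  have h1 := (re_le_norm _).trans (cs h ha b a)
  have h2 := sq_add h ha a b
  change K.nrm (a + b) ^ 2 ≤ (K.nrm a + K.nrm b) ^ 2
  nlinarith

omit h in
theorem nsmul (c : ℂ) (a : S) : K.nrm (c • a) = ‖c‖ * K.nrm a := by
  rw [KP.nrm, ha.ip_smul_l, ha.ip_smul_r, ← mul_assoc, star_def, conj_mul', ← ofReal_pow,
    re_ofReal_mul, Real.sqrt_mul (sq_nonneg _), Real.sqrt_sq (norm_nonneg _), KP.nrm]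

theorem proj (h1 : Adj K T T) (h2 : T * T = T) (a : S) : K.nrm (T a) ≤ K.nrm a := by
  have h3 := (re_le_norm _).trans (cs h ha a (T a))
  have h4 : K.nrm (T a) ^ 2 = (K.ip a (T a)).re := by
    rw [sq h, ← h1, ← Module.End.mul_apply, h2]
  have n1 : 0 ≤ K.nrm a := Real.sqrt_nonneg _
  have n2 : 0 ≤ K.nrm (T a) := Real.sqrt_nonneg _
  nlinarith

theorem b_add (h1 : Bd K T) (h2 : Bd K U) : Bd K (T + U) := by
  obtain ⟨C, c0, h1⟩ := h1
  obtain ⟨C', c0', h2⟩ := h2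
  exact ⟨C + C', add_nonneg c0 c0', fun a => (tri h ha _ _).trans (by linarith [h1 a, h2 a])⟩

omit h in
theorem b_smul (c : ℂ) (h1 : Bd K T) : Bd K (c • T) := by
  obtain ⟨C, c0, h1⟩ := h1
  refine ⟨‖c‖ * C, mul_nonneg (norm_nonneg _) c0, fun a => ?_⟩
  rw [LinearMap.smul_apply, nsmul ha, mul_assoc]
  exact mul_le_mul_of_nonneg_left (h1 a) (norm_nonneg _)

omit h ha in
theorem b_mul (h1 : Bd K T) (h2 : Bd K U) : Bd K (T * U) := by
  obtain ⟨C, c0, h1⟩ := h1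
  obtain ⟨C', c0', h2⟩ := h2
  refine ⟨C * C', mul_nonneg c0 c0', fun a => (h1 _).trans ?_⟩
  rw [mul_assoc]
  exact mul_le_mul_of_nonneg_left (h2 a) c0

omit h ha in
theorem b_one : Bd K 1 := ⟨1, zero_le_one, fun _ => (one_mul _).ge⟩

omit h ha in
theorem b_pow (h1 : Bd K T) (k : ℕ) : Bd K (T ^ k) := by
  induction k with
  | zero => exact b_one
  | succ k ih => exact pow_succ T k ▸ b_mul ih h1

omit h in
theorem b_neg (h1 : Bd K T) : Bd K (-T) := neg_one_smul ℂ T ▸ b_smul ha (-1) h1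

theorem b_sum {ι : Type} (s : Finset ι) {f : ι → Module.End ℂ S} (h1 : ∀ i, Bd K (f i)) :
    Bd K (∑ i ∈ s, f i) := by
  classical
  induction s using Finset.induction_on with
  | empty => simpa using b_smul ha 0 b_one
  | insert i s hi ih =>
    rw [Finset.sum_insert hi]
    exact b_add h ha (h1 i) ih

theorem b_wy (h1 : Bd K T) (h2 : Bd K U) : Bd K (wy D T U) := by
  have e : ∀ {V : Module.End ℂ S}, Bd K V → Bd K (ex (D + D + 2) V) := fun hV =>
    b_sum h ha _ fun k => b_smul ha _ (b_pow hV k)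
  exact b_mul (b_mul (e h1) (e (b_neg ha h2))) (e h1)

theorem prb (k : ℕ) (a : S) : K.nrm (K.pr k a) ≤ K.nrm a :=
  proj h ha (ha.adjpr k) (by rw [h.pr_mul, if_pos rfl]) a

theorem dgb (hX : X.OK) (m : ℕ) (a : S) : K.nrm (X.dg m a) ≤ K.nrm a :=
  proj h ha (ha.adjdg m) (by rw [hX.dg_mul, if_pos rfl]) a

theorem b_diag (hX : X.OK) (c : ℕ → ℕ → ℂ) : Bd K (∑ m ∈ Finset.range (D + D + 1),
    ∑ k ∈ Finset.range (D + 1), c m k • (X.dg m * K.pr k)) :=
  b_sum h ha _ fun m => b_sum h ha _ fun k => b_smul ha _ (b_mul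
    ⟨1, zero_le_one, fun a => (dgb h ha hX m a).trans (one_mul _).ge⟩
    ⟨1, zero_le_one, fun a => (prb h ha k a).trans (one_mul _).ge⟩)

omit ha in
theorem C_inv (hX : X.OK) : K.C * ∑ m ∈ Finset.range (D + D + 1), ∑ k ∈ Finset.range (D + 1),
    (I ^ m * (-1) ^ k)⁻¹ • (X.dg m * K.pr k) = 1 := by
  have e : ∀ m ∈ Finset.range (D + D + 1), ∀ k ∈ Finset.range (D + 1),
      K.C * (X.dg m * K.pr k) = (I ^ m * (-1) ^ k) • (X.dg m * K.pr k) := fun m hm k hk => by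
    have e1 : ∀ m' k', X.dg m' * K.pr k' * (X.dg m * K.pr k) =
        if k' = k then if m' = m then X.dg m * K.pr k else 0 else 0 := fun m' k' => by
      rw [mul_assoc, ← mul_assoc (K.pr k'), h.pr_dg, mul_assoc, ← mul_assoc, hX.dg_mul, h.pr_mul]
      split_ifs <;> simp
    simp only [KP.C, Finset.sum_mul, smul_mul_assoc, e1, smul_ite, smul_zero, Finset.sum_ite_eq',
      hm, hk, if_true]
  rw [Finset.mul_sum, ← mul_one (1 : Module.End ℂ S)]
  nth_rw 1 [← hX.dg_sum, ← h.pr_sum]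
  rw [Finset.sum_mul_sum]
  refine Finset.sum_congr rfl fun m hm => ?_
  rw [Finset.mul_sum]
  refine Finset.sum_congr rfl fun k hk => ?_
  rw [mul_smul_comm, e m hm k hk, smul_smul, inv_mul_cancel₀ (by simp), one_smul]

theorem bQ (h3 : F2a) (hX : X.OK) :
    ∃ C : ℝ, 0 ≤ C ∧ ∀ a b, ‖X.Q a b‖ ≤ C * K.nrm a * K.nrm b := by
  have s2 : SL2 D K.L K.Lm (X.Nd - (D : ℂ) • 1) := ⟨by rw [← neg_sub, h.sl2, neg_sub],
    by rw [← ha.HL, sub_mul, mul_sub, smul_mul_assoc, mul_smul_comm, one_mul, mul_one]; abel,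
    by rw [← ha.HLm, sub_mul, mul_sub, smul_mul_assoc, mul_smul_comm, one_mul, mul_one]; abel,
    ha.nL, ha.nLm⟩
  obtain ⟨U, ⟨C, c0, h1⟩, e⟩ : ∃ U, Bd K U ∧ K.W * (K.C * U) = 1 :=
    ⟨_, b_mul (b_diag h ha hX fun m k => (I ^ m * (-1) ^ k)⁻¹)
      (b_wy h ha (b_neg ha h.bL) (b_neg ha h.bLm)), by
        rw [← mul_assoc K.C, C_inv h hX, one_mul, KP.W, (h3.wy_inv s2).1]⟩
  obtain ⟨C', c0', h2⟩ := h.bcj
  refine ⟨‖K.c⁻¹‖ * C' * C, by positivity, fun a b => ?_⟩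
  have e1 : X.Q a b = K.c⁻¹ * K.ip (X.cj a) (U b) := by
    rw [KP.ip, hX.cjcj, inv_mul_cancel_left₀ h.c0]
    exact congrArg (X.Q a) (LinearMap.congr_fun e b).symm
  rw [e1, norm_mul]
  refine (mul_le_mul_of_nonneg_left ((cs h ha _ _).trans (mul_le_mul (h2 a) (h1 b)
    (Real.sqrt_nonneg _) (mul_nonneg c0' (Real.sqrt_nonneg _)))) (norm_nonneg _)).trans_eq ?_
  ring

theorem lap {A B : Module.End ℂ S} (h1 : Adj K A B) (a : S) :
    K.nrm (A a) ^ 2 + K.nrm (B a) ^ 2 = (K.ip a ((B * A + A * B) a)).re := by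
  rw [sq h, sq h, LinearMap.add_apply, ha.ip_add_r, add_re, Module.End.mul_apply,
    Module.End.mul_apply, h1.symm h a, h1 a]

end

theorem ring1 {R : Type} [Ring R] {A L : R} (h : A * A = 0) :
    (L * A - A * L) * A + A * (L * A - A * L) = 0 := by
  have : (L * A - A * L) * A + A * (L * A - A * L) = L * (A * A) - A * A * L := by noncomm_ring
  rw [this, h, mul_zero, zero_mul, sub_zero]

theorem ring2 {R : Type} [Ring R] {A B L : R} (h : A * B = -(B * A)) :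
    (L * B - B * L) * A + A * (L * B - B * L) = -((L * A - A * L) * B + B * (L * A - A * L)) := by
  have : (L * B - B * L) * A + A * (L * B - B * L) + ((L * A - A * L) * B + B * (L * A - A * L)) =
      L * (A * B + B * A) - (A * B + B * A) * L := by noncomm_ring
  rw [h, neg_add_cancel, mul_zero, zero_mul, sub_zero] at this
  exact eq_neg_of_add_eq_zero_left this

end Ab0b

open Ab0b in
theorem KP.kib {S : Type} [AddCommGroup S] [Module ℂ S] {D : ℕ} {X : Cx S D} {K : KP X}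
    (h3 : F2a) (hX : X.OK) (h : K.Alg) (ha : K.KIa) : K.KIb := by
  have aA : Adj K K.A K.As := ha.adjA
  have aAb : Adj K K.Ab K.Abs := ha.adjAb
  have ad : Adj K X.d K.ds := ha.adjd
  have aL : Adj K K.L K.Lm := ha.adjL
  have ap : ∀ k, Adj K (K.pr k) (K.pr k) := ha.adjpr
  have ag : ∀ k, Adj K (X.dg k) (X.dg k) := ha.adjdg
  have z0 : ∀ j k, X.dg 0 * (K.pr j * X.d * K.pr k) = 0 := fun j k => by
    rw [← mul_assoc, ← mul_assoc, ← h.pr_dg, mul_assoc (K.pr j), hX.dg0_d, mul_zero, zero_mul]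
  have l1 : K.Abs * K.A + K.A * K.Abs = 0 := by
    rw [KP.Abs, smul_mul_assoc, mul_smul_comm, ← smul_add, ring1 ha.AA, smul_zero]
  have l2 : K.As * K.Ab + K.Ab * K.As = 0 := by
    rw [KP.As, smul_mul_assoc, mul_smul_comm, ← smul_add, ring1 ha.AbAb, smul_zero]
  have l3 : K.As * K.A + K.A * K.As = K.Abs * K.Ab + K.Ab * K.Abs := by
    rw [KP.As, KP.Abs, smul_mul_assoc, mul_smul_comm, ← smul_add, smul_mul_assoc, mul_smul_comm,
      ← smul_add, ring2 ha.AAb, smul_neg, neg_smul]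
  have l4 : K.ds * X.d + X.d * K.ds =
      (K.As * K.A + K.A * K.As) + (K.Abs * K.Ab + K.Ab * K.Abs) := by
    rw [← add_zero (_ + _ + (_ + _)), ← add_zero 0]
    nth_rw 1 [← l1]
    rw [← l2, KP.ds, ha.d_eq]
    noncomm_ring
  have l5 : ∀ a, K.nrm (X.d a) ^ 2 + K.nrm (K.ds a) ^ 2 =
      2 * (K.nrm (K.A a) ^ 2 + K.nrm (K.As a) ^ 2) := fun a => by
    rw [lap h ha ad, lap h ha aA, l4, ← l3, LinearMap.add_apply, ha.ip_add_r, add_re, two_mul]
  refine ⟨fun a => Real.sqrt_nonneg _, sq h, tri h ha, nsmul ha, cs h ha, prb h ha, dgb h ha hX,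
    b_wy h ha h.bL h.bLm, b_diag h ha hX _, bQ h ha h3 hX,
    (((aL.symm h).mul aA).sub ha (aA.mul (aL.symm h))).uniq ha h
      (by simpa using (aAb.symm h).smul ha I) ?_,
    (((aL.symm h).mul aAb).sub ha (aAb.mul (aL.symm h))).uniq ha h
      (by simpa using (aA.symm h).smul ha (-I)) ?_,
    (aA.mul aL).uniq ha h (aL.mul aA) ha.LA.symm, (aAb.mul aL).uniq ha h (aL.mul aAb) ha.LAb.symm,
    fun k => (aA.mul (ap k)).uniq ha h ((ap _).mul aA) (ha.prA k).symm,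
    ((ap 0).mul aA).uniq ha h (adj_zero ha) ha.pr0A,
    fun k => (aAb.mul (ap k)).uniq ha h ((ap _).mul aAb) (ha.prAb k).symm,
    fun m => (aA.mul (ag m)).uniq ha h ((ag _).mul aA) (ha.dgA m).symm,
    fun m => (aAb.mul (ag m)).uniq ha h ((ag _).mul aAb) (ha.dgAb m).symm,
    ((ag 0).mul aA).uniq ha h (adj_zero ha) (by simp [KP.A, Finset.mul_sum, z0]),
    ((ag 0).mul aAb).uniq ha h (adj_zero ha) (by simp [KP.Ab, Finset.mul_sum, z0]),
    fun a => by simp [KP.As, KP.Abs, h.cjLm, ha.cjAb],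
    fun a => by simp [KP.As, KP.Abs, h.cjLm, ha.cjA], fun a => ?_, l5, fun a => ?_⟩
  · rw [KP.Abs, smul_smul]
    simp
  · rw [KP.As, ← neg_smul, smul_smul]
    simp
  · rw [LinearMap.add_apply, sq_add h ha, ← ad, hX.dd, ip_zero_r ha]
    simp
  · rw [l5, lap h ha aA, lap h ha aAb, l3]

end Vale.Agent.P281Z.Hg
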