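import Vale.Agent.P281Z.Hg.S2

/-!
# P281, Hodge block: null sequences, Cauchy sequences, the minimising sequence
-/

open scoped Topology
open Filter

noncomputable section

namespace Vale.Agent.P281Z.Hg.KP

variable {S : Type} [AddCommGroup S] [Module ℂ S] {D : ℕ} {X : Cx S D} {K : KP X}

/-- the family tends to zero along the filter -/
def Nf (K : KP X) {ι : Type} (l : Filter ι) (u : ι → S) : Prop :=
  Tendsto (fun s => K.nrm (u s)) l (𝓝 0)

/-- bounded families -/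
def Bf (K : KP X) {ι : Type} (u : ι → S) : Prop := ∃ C : ℝ, ∀ s, K.nrm (u s) ≤ C

section nf

variable {ι : Type} {l : Filter ι} {u v : ι → S}

theorem Nf.congr (h : K.Nf l u) (e : ∀ s, u s = v s) : K.Nf l v := funext e ▸ h

variable (hb : K.KIb)
include hb

theorem KIb.zero : K.nrm 0 = 0 := by simpa using hb.smul 0 0

theorem KIb.neg (a : S) : K.nrm (-a) = K.nrm a := by simpa using hb.smul (-1) a

theorem KIb.sub (a b : S) : K.nrm (a - b) ≤ K.nrm a + K.nrm b := by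
  rw [sub_eq_add_neg, ← hb.neg b]
  exact hb.tri _ _

theorem KIb.nf_le {f : ι → ℝ} (hf : Tendsto f l (𝓝 0)) (h : ∀ s, K.nrm (u s) ≤ f s) : K.Nf l u :=
  squeeze_zero (fun _ => hb.nn _) h hf

theorem KIb.nf_zero (h : ∀ s, u s = 0) : K.Nf l u :=
  hb.nf_le tendsto_const_nhds fun s => by rw [h, hb.zero]

theorem KIb.nf_add (hu : K.Nf l u) (hv : K.Nf l v) : K.Nf l fun s => u s + v s :=
  hb.nf_le (by simpa using Tendsto.add hu hv) fun _ => hb.tri _ _

theorem KIb.nf_sub (hu : K.Nf l u) (hv : K.Nf l v) : K.Nf l fun s => u s - v s :=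
  hb.nf_le (by simpa using Tendsto.add hu hv) fun _ => hb.sub _ _

theorem KIb.nf_smul (c : ℂ) (hu : K.Nf l u) : K.Nf l fun s => c • u s :=
  hb.nf_le (by simpa using Tendsto.const_mul ‖c‖ hu) fun _ => (hb.smul _ _).le

theorem KIb.nf_neg (hu : K.Nf l u) : K.Nf l fun s => -u s :=
  hb.nf_le hu fun _ => (hb.neg _).le

theorem KIb.nf_map {T : S → S} (hT : K.Bdd T) (hu : K.Nf l u) : K.Nf l fun s => T (u s) :=
  hT.elim fun C hC => hb.nf_le (by simpa using Tendsto.const_mul C hu) fun _ => hC.2 _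

theorem KIb.nf_sq (h : Tendsto (fun s => K.nrm (u s) ^ 2) l (𝓝 0)) : K.Nf l u := by
  simpa only [Real.sqrt_sq (hb.nn _), Real.sqrt_zero, Nf] using h.sqrt

theorem KIb.bpr (k : ℕ) : K.Bdd (K.pr k) := ⟨1, zero_le_one, fun a => by simpa using hb.prb k a⟩

theorem KIb.bdg (k : ℕ) : K.Bdd (X.dg k) := ⟨1, zero_le_one, fun a => by simpa using hb.dgb k a⟩

theorem KIb.bf_sub (hu : K.Bf u) (hv : K.Bf v) : K.Bf fun s => u s - v s :=
  let ⟨C, h⟩ := hu
  let ⟨C', h'⟩ := hv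
  ⟨C + C', fun s => (hb.sub _ _).trans (add_le_add (h s) (h' s))⟩

theorem KIb.tz {B : S → S → ℂ} {C : ℝ} (h0 : 0 ≤ C) (hB : ∀ a b, ‖B a b‖ ≤ C * K.nrm a * K.nrm b)
    (hu : K.Bf u) (hv : K.Nf l v) : Tendsto (fun s => B (u s) (v s)) l (𝓝 0) := by
  obtain ⟨M, hM⟩ := hu
  refine squeeze_zero_norm (fun s => (hB _ _).trans (mul_le_mul_of_nonneg_right
    (mul_le_mul_of_nonneg_left (hM s) h0) (hb.nn _))) ?_
  simpa using Tendsto.const_mul (C * M) hv

theorem KIb.tz' {B : S → S → ℂ} {C : ℝ} (h0 : 0 ≤ C) (hB : ∀ a b, ‖B a b‖ ≤ C * K.nrm a * K.nrm b)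
    (hu : K.Nf l u) (hv : K.Bf v) : Tendsto (fun s => B (u s) (v s)) l (𝓝 0) :=
  hb.tz (B := fun a b => B b a) h0 (fun a b => by rw [mul_right_comm]; exact hB b a) hv hu

theorem KIb.cs' (a b : S) : ‖K.ip a b‖ ≤ 1 * K.nrm a * K.nrm b := by simpa using hb.cs a b

end nf

variable {u v : ℕ → S} (hb : K.KIb)
include hb

theorem KIb.cau_iff : K.Cau u ↔ K.Nf atTop fun p : ℕ × ℕ => u p.1 - u p.2 := by
  simp only [Nf, Metric.tendsto_atTop, dist_zero_right, Real.norm_of_nonneg (hb.nn _)]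
  exact forall₂_congr fun ε _ => ⟨fun ⟨N, h⟩ => ⟨(N, N), fun p hp => h _ hp.1 _ hp.2⟩,
    fun ⟨N, h⟩ => ⟨max N.1 N.2, fun r hr s hs =>
      h (r, s) ⟨le_of_max_le_left hr, le_of_max_le_right hs⟩⟩⟩

theorem KIb.cau_add (hu : K.Cau u) (hv : K.Cau v) : K.Cau fun s => u s + v s :=
  hb.cau_iff.2 ((hb.nf_add (hb.cau_iff.1 hu) (hb.cau_iff.1 hv)).congr fun _ => by abel)

theorem KIb.cau_map {T : S → S} (hT : K.Bdd T) (h : ∀ a b, T (a - b) = T a - T b) (hu : K.Cau u) :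
    K.Cau fun s => T (u s) :=
  hb.cau_iff.2 ((hb.nf_map hT (hb.cau_iff.1 hu)).congr fun _ => h _ _)

theorem KIb.cau_smul (c : ℂ) (hu : K.Cau u) : K.Cau fun s => c • u s :=
  hb.cau_iff.2 ((hb.nf_smul c (hb.cau_iff.1 hu)).congr fun _ => smul_sub _ _ _)

theorem KIb.cau_null (hu : K.Null u) : K.Cau u :=
  hb.cau_iff.2 (prod_atTop_atTop_eq (α := ℕ) (β := ℕ) ▸ hb.nf_sub
    (Tendsto.comp (g := fun s => K.nrm (u s)) hu tendsto_fst)
    (Tendsto.comp (g := fun s => K.nrm (u s)) hu tendsto_snd))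

theorem KIb.cau_const (a : S) : K.Cau fun _ => a := hb.cau_iff.2 (hb.nf_zero fun _ => sub_self a)

theorem KIb.cau_bf (hu : K.Cau u) : K.Bf u := by
  obtain ⟨N, h⟩ := hu 1 one_pos
  refine ⟨∑ r ∈ Finset.range (N + 1), K.nrm (u r) + 1, fun s => ?_⟩
  have h1 : ∀ r ≤ N, K.nrm (u r) ≤ ∑ r ∈ Finset.range (N + 1), K.nrm (u r) := fun r hr =>
    Finset.single_le_sum (f := fun r => K.nrm (u r)) (fun _ _ => hb.nn _)
      (Finset.mem_range_succ_iff.2 hr)
  rcases le_total s N with e | e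
  · linarith [h1 s e]
  · have := hb.tri (u s - u N) (u N)
    rw [sub_add_cancel] at this
    linarith [h s e N le_rfl, h1 N le_rfl]

/-- weak convergence is uniform on bounded sets -/
theorem KIb.ort {B : S → S → ℂ} {C : ℝ} (h0 : 0 ≤ C) (hB : ∀ a b, ‖B a b‖ ≤ C * K.nrm a * K.nrm b)
    (hs : ∀ a b b', B a (b - b') = B a b - B a b') (hu : K.Bf u) (hv : K.Cau v)
    (h : ∀ s, Tendsto (fun r => B (u s) (v r)) atTop (𝓝 0)) :
    Tendsto (fun s => B (u s) (v s)) atTop (𝓝 0) := by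
  have h1 := hb.tz (l := atTop) (u := fun p : ℕ × ℕ => u p.1) h0 hB (hu.imp fun _ h p => h p.1)
    (hb.cau_iff.1 hv)
  simp only [Metric.tendsto_atTop, dist_zero_right] at h1 ⊢
  intro ε hε
  obtain ⟨N, hN⟩ := h1 (ε / 2) (half_pos hε)
  refine ⟨N.1, fun s hs' => lt_of_le_of_lt ?_ (half_lt_self hε)⟩
  have h2 := ((tendsto_const_nhds (x := B (u s) (v s))).sub (h s)).norm
  rw [sub_zero] at h2
  refine le_of_tendsto h2 (eventually_atTop.2 ⟨N.2, fun r hr => ?_⟩)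
  rw [← hs]
  exact (hN (s, r) ⟨hs', hr⟩).le

variable (h : K.OK) (ha : K.KIa)
include h ha

omit h hb in
theorem KIa.ip_sub_r (a b b' : S) : K.ip a (b - b') = K.ip a b - K.ip a b' := by
  rw [eq_sub_iff_add_eq, ← ha.ip_add_r, sub_add_cancel]

omit h hb in
theorem KIa.ip_zero_r (a : S) : K.ip a 0 = 0 := by simpa using ha.ip_smul_r 0 a 0

theorem KIb.sq_add (a b : S) :
    K.nrm (a + b) ^ 2 = K.nrm a ^ 2 + 2 * (K.ip a b).re + K.nrm b ^ 2 := by
  simp only [hb.sq, ha.ip_add_l, ha.ip_add_r, h.alg.herm b a, Complex.add_re, Complex.star_def,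
    Complex.conj_re]
  ring

theorem KIb.orth (hv : K.Har v) (y : ℕ → S) (hy : K.Bf fun s => X.d (y s)) :
    Tendsto (fun s => K.ip (X.d (y s)) (v s)) atTop (𝓝 0) :=
  hb.ort zero_le_one hb.cs' ha.ip_sub_r hy hv.cau fun s => by
    simp only [fun r => h.alg.herm (X.d (y s)) (v r), ha.adjd, ← h.alg.herm]
    exact hb.tz zero_le_one hb.cs' ⟨_, fun _ => le_rfl⟩ hv.ds

theorem KIb.ex (z : S) (hz : X.d z = 0) : ∃ v, K.Rep z v := by
  set m := ⨅ y, K.nrm (z - X.d y) ^ 2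
  have h1 : ∀ y, m ≤ K.nrm (z - X.d y) ^ 2 := fun y =>
    ciInf_le ⟨0, by rintro _ ⟨y, rfl⟩; positivity⟩ y
  choose y hy using fun s : ℕ => exists_lt_of_ciInf_lt
    (lt_add_of_pos_right m (Nat.one_div_pos_of_nat (α := ℝ) (n := s)))
  have t0 := tendsto_one_div_add_atTop_nhds_zero_nat (𝕜 := ℝ)
  have h2 : K.Cau fun s => z - X.d (y s) := by
    refine hb.cau_iff.2 (hb.nf_sq (squeeze_zero (fun _ => sq_nonneg _) (fun p => ?_)
      (g := fun p : ℕ × ℕ => 2 * (1 / ((p.1 : ℝ) + 1)) + 2 * (1 / ((p.2 : ℝ) + 1))) ?_))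
    · have e1 := hb.sq_add h ha (z - X.d (y p.1)) (z - X.d (y p.2))
      have e2 := hb.sq_add h ha (z - X.d (y p.1)) ((-1 : ℂ) • (z - X.d (y p.2)))
      have e3 := h1 ((1 / 2 : ℂ) • (y p.1 + y p.2))
      have e4 : z - X.d (y p.1) + (z - X.d (y p.2)) =
          (2 : ℂ) • (z - X.d ((1 / 2 : ℂ) • (y p.1 + y p.2))) := by
        rw [map_smul, map_add]
        module
      rw [e4, hb.smul] at e1
      rw [ha.ip_smul_r, neg_one_smul, hb.neg, ← sub_eq_add_neg] at e2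
      simp only [Complex.norm_ofNat, neg_one_mul, Complex.neg_re] at e1 e2
      linarith [hy p.1, hy p.2]
    · rw [← prod_atTop_atTop_eq]
      simpa using ((t0.const_mul 2).comp tendsto_fst).add ((t0.const_mul 2).comp tendsto_snd)
  have h3 : ∀ w, Tendsto (fun s => K.ip (X.d w) (z - X.d (y s))) atTop (𝓝 0) := fun w => by
    set N := K.nrm (X.d w) ^ 2 + 1 with hN
    have N0 : 0 < N := by positivity
    refine tendsto_zero_iff_norm_tendsto_zero.2 ?_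
    have : Tendsto (fun s => ‖K.ip (X.d w) (z - X.d (y s))‖ ^ 2) atTop (𝓝 0) := by
      refine squeeze_zero (fun _ => sq_nonneg _) (fun s => ?_) (by simpa using t0.const_mul N)
      set p := K.ip (X.d w) (z - X.d (y s))
      have e1 := hb.sq_add h ha ((-(N⁻¹ : ℝ) * p) • X.d w) (z - X.d (y s))
      have e2 := h1 (y s + ((N⁻¹ : ℝ) * p) • w)
      have e3 : z - X.d (y s + ((N⁻¹ : ℝ) * p) • w) =
          (-(N⁻¹ : ℝ) * p) • X.d w + (z - X.d (y s)) := by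
        rw [map_add, map_smul]
        module
      have e4 : (star (-(N⁻¹ : ℝ) * p) * p).re = -(N⁻¹ * ‖p‖ ^ 2) := by
        simp only [Complex.sq_norm, Complex.normSq_apply, Complex.star_def, map_mul, map_neg,
          Complex.conj_ofReal, Complex.mul_re, Complex.mul_im, Complex.neg_re, Complex.neg_im,
          Complex.ofReal_re, Complex.ofReal_im, Complex.conj_re, Complex.conj_im]
        ring
      rw [hb.smul, ha.ip_smul_l, e4, norm_mul, norm_neg, Complex.norm_real,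
        Real.norm_of_nonneg (inv_pos.2 N0).le, ← e3, mul_pow, show K.nrm (X.d w) ^ 2 = N - 1 by
          rw [hN]; ring] at e1
      have e5 : (N⁻¹ * ‖p‖) ^ 2 * N = N⁻¹ * ‖p‖ ^ 2 := by field_simp
      rw [← inv_mul_le_iff₀ N0]
      have := hy s
      rw [one_div] at this
      nlinarith [sq_nonneg (N⁻¹ * ‖p‖)]
    simpa using this.sqrt
  obtain ⟨v, k1, k2⟩ := h.ws _ h2 fun w => by
    simp only [LinearMap.add_apply, ha.ip_add_l, ← ha.adjd, map_sub, hz, h.cx.dd, sub_zero,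
      ha.ip_zero_r, add_zero]
    exact h3 w
  have k3 : ∀ a b c : ℝ, 0 ≤ a → a ^ 2 = b ^ 2 + c ^ 2 → b ≤ a ∧ c ≤ a := fun a b c a0 e =>
    ⟨le_of_sq_le_sq (by nlinarith) a0, le_of_sq_le_sq (by nlinarith) a0⟩
  exact ⟨v, ⟨by simpa using hb.cau_add h2 (hb.cau_null (hb.nf_neg k1)),
    hb.nf_le k2 fun s => (k3 _ _ _ (hb.nn _) (hb.dir _)).1,
    hb.nf_le k2 fun s => (k3 _ _ _ (hb.nn _) (hb.dir _)).2⟩, hz, fun s => -y s,
    (hb.nf_neg k1).congr fun s => by rw [map_neg]; abel⟩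

end Vale.Agent.P281Z.Hg.KP
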