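import Vale.Agent.P281Z.Hg.Ab1

/-!
# P281, Hodge block, row AB2: the Hodge structure in the middle degree
-/

open scoped ComplexOrder Topology Matrix
open Filter

noncomputable section

namespace Vale.Agent.P281Z.Hg.KP

variable {S : Type} [AddCommGroup S] [Module ℂ S] {D : ℕ} {X : Cx S D} {K : KP X} {n : ℕ}
  {b : Fin n → S}

namespace Ab2

/-- the matrix `A` describes the operator `T` on harmonic representatives -/
def Mat (K : KP X) (b : Fin n → S) (A : Mt n) (T : Module.End ℂ S) : Prop :=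
  ∀ (c : Fin n → ℂ) v, K.Rep (∑ i, c i • b i) v →
    K.Rep (∑ i, (A *ᵥ c) i • b i) fun s => T (v s)

theorem single (b : Fin n → S) (j : Fin n) : ∑ i, (Pi.single j 1 : Fin n → ℂ) i • b i = b j := by
  simp [Pi.single_apply]

theorem Mat.mul {A B : Mt n} {T U : Module.End ℂ S} (h1 : Mat K b A T) (h2 : Mat K b B U) :
    Mat K b (A * B) (T * U) := fun c v hv => by
  rw [← Matrix.mulVec_mulVec]
  exact h1 _ _ (h2 c v hv)

theorem Mat.one : Mat K b 1 1 := fun c v hv => by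
  rw [Matrix.one_mulVec]
  exact hv

theorem bil {A B : Mt n} (h : ∀ c c' : Fin n → ℂ, star c ⬝ᵥ (A *ᵥ c') = star c ⬝ᵥ (B *ᵥ c')) :
    A = B := by
  ext i j
  simpa [Matrix.mulVec_single_one, ← Pi.single_star] using h (Pi.single i 1) (Pi.single j 1)

theorem sgP {R : Type} [Ring R] [Algebra ℂ R] {P : ℕ → R} {w : ℕ}
    (orth : ∀ j k, P j * P k = if j = k then P k else 0) (e : ℕ → ℂ) {j : ℕ} (hj : j ≤ w) :
    (∑ k ∈ Finset.range (w + 1), e k • P k) * P j = e j • P j ∧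
      P j * (∑ k ∈ Finset.range (w + 1), e k • P k) = e j • P j := by
  rw [Finset.sum_mul, Finset.mul_sum]
  simp only [smul_mul_assoc, mul_smul_comm, orth, smul_ite, smul_zero, Finset.sum_ite_eq',
    Finset.sum_ite_eq, Finset.mem_range, Nat.lt_succ_of_le hj, if_true, and_self]

variable (hh : K.KH)
include hh

theorem rep_sum {ι : Type} (s : Finset ι) {z : ι → S} {v : ι → ℕ → S} (c : ι → ℂ)
    (h : ∀ i, K.Rep (z i) (v i)) : K.Rep (∑ i ∈ s, c i • z i) fun r => ∑ i ∈ s, c i • v i r := by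
  classical
  induction s using Finset.induction_on with
  | empty => simpa using hh.zero
  | insert a s ha ih =>
    simp only [Finset.sum_insert ha]
    exact hh.add (hh.smul _ (h a)) ih

theorem coef (hB : X.Bas D b) {c c' : Fin n → ℂ} {v : ℕ → S} (h1 : K.Rep (∑ i, c i • b i) v)
    (h2 : K.Rep (∑ i, c' i • b i) v) : c = c' := by
  have h := hh.back h1 h2
  rw [← Finset.sum_sub_distrib] at h
  simp only [← sub_smul] at h
  exact sub_eq_zero.1 (hB.ind (c - c') h)

theorem exv (hB : X.Bas D b) (c : Fin n → ℂ) : ∃ v, K.Rep (∑ i, c i • b i) v :=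
  hh.ex _ (by simp [(hB.cl _).1])

theorem Mat.uniq (hB : X.Bas D b) {A B : Mt n} {T : Module.End ℂ S} (h1 : Mat K b A T)
    (h2 : Mat K b B T) : A = B := by
  refine Matrix.ext_of_mulVec_single fun j => ?_
  obtain ⟨v, hv⟩ := exv hh hB (Pi.single j 1)
  exact coef hh hB (h1 _ v hv) (h2 _ v hv)

theorem Mat.sum {A : ℕ → Mt n} {T : ℕ → Module.End ℂ S} (s : Finset ℕ) (e : ℕ → ℂ)
    (h : ∀ k, Mat K b (A k) (T k)) : Mat K b (∑ k ∈ s, e k • A k) (∑ k ∈ s, e k • T k) := by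
  intro c v hv
  have h1 := rep_sum hh s e fun k => h k c v hv
  have e1 : ∑ i, ((∑ k ∈ s, e k • A k) *ᵥ c) i • b i =
      ∑ k ∈ s, e k • ∑ i, (A k *ᵥ c) i • b i := by
    simp only [Matrix.sum_mulVec, Matrix.smul_mulVec, Finset.sum_apply, Pi.smul_apply,
      Finset.sum_smul, Finset.smul_sum, smul_assoc]
    exact Finset.sum_comm
  rw [e1]
  simpa only [LinearMap.sum_apply, LinearMap.smul_apply] using h1

theorem Mat.zero : Mat K b 0 0 := by
  simpa using Mat.sum hh (b := b) (A := fun _ => 1) ∅ 0 fun _ => Mat.one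

variable (hb : K.KIb)
include hb

theorem rep_op {T : Module.End ℂ S} (hT : K.Bdd T) {z y : S} {v v' : ℕ → S} (h1 : K.Rep z v)
    (h2 : K.Rep z v') (h3 : K.Rep y fun s => T (v s)) (h4 : K.Har fun s => T (v' s)) :
    K.Rep y fun s => T (v' s) :=
  hh.congr h3 h4 ((hb.nf_map hT (hh.uniq h1 h2)).congr fun _ => map_sub T _ _)

omit hb in
theorem rdg {z : S} {v : ℕ → S} (h : K.Rep z v) (hz : X.dg D z = z) :
    K.Null fun s => X.dg D (v s) - v s :=
  hh.uniq (hz ▸ hh.rdg D h) h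

omit hh hb in
theorem dgb (hB : X.Bas D b) (c : Fin n → ℂ) : X.dg D (∑ i, c i • b i) = ∑ i, c i • b i := by
  simp [(hB.cl _).2]

theorem mat_pr (hB : X.Bas D b) {Pr : ℕ → Mt n} (h : K.IsPr b Pr) (k : ℕ) :
    Mat K b (Pr k) (K.pr k) := by
  intro c v hv
  choose u hu using fun j => hh.ex (b j) (hB.cl j).1
  have h1 := rep_sum hh Finset.univ c fun j => h k j (u j) (hu j)
  have e1 : ∑ i, (Pr k *ᵥ c) i • b i = ∑ j, c j • ∑ i, Pr k i j • b i := by
    simp only [Matrix.mulVec, dotProduct, Finset.sum_smul, Finset.smul_sum, smul_smul, mul_comm]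
    exact Finset.sum_comm
  rw [e1]
  refine rep_op hh hb (hb.bpr k) (rep_sum hh Finset.univ c hu) hv ?_ (hh.hpr k hv.toHar)
  simpa only [map_sum, map_smul] using h1

variable (h : K.OK)
include h

theorem qlim (hB : X.Bas D b) {Qm : Mt n} (hQ : K.IsQ b Qm) {c c' : Fin n → ℂ} {u v : ℕ → S}
    (hu : K.Rep (∑ i, c i • b i) u) (hv : K.Rep (∑ i, c' i • b i) v) :
    Tendsto (fun s => K.c * (Complex.I ^ D * (-1) ^ D) * X.Q (X.cj (u s)) (K.W (v s))) atTop
      (𝓝 (star c ⬝ᵥ (Qm *ᵥ c'))) := by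
  choose w hw using fun j => hh.ex (b j) (hB.cl j).1
  choose z hz using fun j => hh.har (hh.hW (hw j).toHar)
  have e : ∀ i j, Qm i j = K.c * (Complex.I ^ D * (-1) ^ D) * X.Q (X.cj (b i)) (z j) := fun i j =>
    tendsto_nhds_unique (hQ i j _ (hw j))
      ((hh.Qlim' (by rw [← h.cx.cjd, (hB.cl i).1, map_zero]) (hz j)).const_mul _)
  have h1 : K.Rep (∑ j, c' j • z j) fun s => K.W (v s) := by
    refine rep_op hh hb hb.bW (rep_sum hh Finset.univ c' hw) hv ?_ (hh.hW hv.toHar)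
    simpa only [map_sum, map_smul] using rep_sum hh Finset.univ c' hz
  have h2 := (hh.Qlim (hh.rcj hu) h1).const_mul (K.c * (Complex.I ^ D * (-1) ^ D))
  refine h2.trans_eq (congrArg nhds ?_)
  simp only [map_sum, map_smul, LinearMap.map_smulₛₗ, LinearMap.sum_apply, LinearMap.smul_apply,
    smul_eq_mul, dotProduct, Matrix.mulVec, e, Finset.mul_sum, Pi.star_apply]
  rw [Finset.sum_comm]
  refine Finset.sum_congr rfl fun i _ => Finset.sum_congr rfl fun j _ => ?_
  rw [starRingEnd_apply]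
  ring

omit hh hb in
theorem Cdg (a : S) : K.C (X.dg D a) = (Complex.I ^ D * (-1) ^ D : ℂ) •
    (∑ k ∈ Finset.range (D + 1), (-1 : ℂ) ^ (D - k) • K.pr k) (X.dg D a) := by
  have e : ∀ m k, (X.dg m * K.pr k) (X.dg D a) = if m = D then K.pr k (X.dg D a) else 0 := by
    intro m k
    rw [← h.alg.pr_dg, Module.End.mul_apply, ← Module.End.mul_apply (X.dg m), h.cx.dg_mul]
    split_ifs
    · rfl
    · rw [LinearMap.zero_apply, map_zero]
  unfold KP.C
  simp only [LinearMap.sum_apply, LinearMap.smul_apply, e, Finset.smul_sum, smul_smul]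
  rw [Finset.sum_eq_single D (fun m _ hm => by simp [hm]) (fun hD => absurd (by simp) hD)]
  refine Finset.sum_congr rfl fun k hk => ?_
  rw [if_pos rfl, mul_assoc, ← pow_add]
  have : D + (D - k) = k + 2 * (D - k) := by
    have := Finset.mem_range.1 hk
    omega
  rw [this, pow_add, pow_mul, neg_one_sq, one_pow, mul_one]

theorem iplim (ha : K.KIa) (hB : X.Bas D b) {T : Type} {Pr : ℕ → T → Mt n} {t : T} {Qm : Mt n}
    (hP : K.IsPr b fun k => Pr k t) (hQ : K.IsQ b Qm) {c c' : Fin n → ℂ} {u v : ℕ → S}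
    (hu : K.Rep (∑ i, c i • b i) u) (hv : K.Rep (∑ i, c' i • b i) v) :
    Tendsto (fun s => K.ip (u s) (v s)) atTop (𝓝 (star c ⬝ᵥ ((Qm * Sg D Pr t) *ᵥ c'))) := by
  have h1 := qlim hh hb h hB hQ hu (Mat.sum hh (Finset.range (D + 1)) (fun k => (-1) ^ (D - k))
    (mat_pr hh hb hB hP) c' _ (dgb hB c' ▸ hh.rdg D hv))
  have h2 := hb.tz zero_le_one hb.cs' (hb.cau_bf hu.cau) (rdg hh hv (dgb hB c'))
  have h3 := h1.sub h2
  rw [sub_zero, Matrix.mulVec_mulVec] at h3
  refine h3.congr fun s => ?_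
  rw [ha.ip_sub_r, KP.ip, Cdg h, map_smul, map_smul, smul_eq_mul]
  ring

omit h in
theorem top (hB : X.Bas D b) {Pr : ℕ → Mt n} {σ : S} {v : Fin n → ℂ} (hP : K.IsPr b Pr)
    (h1 : X.d σ = 0) (h2 : K.Top σ) (h3 : σ - ∑ i, v i • b i ∈ X.Nul) : Pr D *ᵥ v = v := by
  have r := hh.ncongr (hh.top h1 h2) h3
  have r2 := mat_pr hh hb hB hP D v _ r
  rw [h2.1] at r2
  exact coef hh hB r2 r

theorem ex (hB : X.Bas D b) : ∃ Pr Qm, K.IsPr b Pr ∧ K.IsQ b Qm := by
  choose w hw using fun j => hh.ex (b j) (hB.cl j).1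
  have A : ∀ k j, ∃ c : Fin n → ℂ, K.Rep (∑ i, c i • b i) fun s => K.pr k (w j s) := by
    intro k j
    obtain ⟨z, hz⟩ := hh.har (hh.hpr k (hw j).toHar)
    have r : K.Rep (X.dg D z) fun s => K.pr k (w j s) :=
      hh.congr (hh.rdg D hz) hz.toHar ((hb.nf_map (hb.bpr k)
        (rdg hh (hw j) (hB.cl j).2)).congr fun s => by
          rw [map_sub, ← Module.End.mul_apply, h.alg.pr_dg, Module.End.mul_apply])
    obtain ⟨c, hc⟩ := hB.span (X.dg D z)
      ⟨r.cl, by rw [← Module.End.mul_apply, h.cx.dg_mul, if_pos rfl]⟩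
    exact ⟨c, hh.ncongr r hc⟩
  choose c hc using A
  choose z hz using fun j => hh.har (hh.hW (hw j).toHar)
  refine ⟨fun k => Matrix.of fun i j => c k j i,
    Matrix.of fun i j => K.c * (Complex.I ^ D * (-1) ^ D) * X.Q (X.cj (b i)) (z j),
    fun k j v hv => rep_op hh hb (hb.bpr k) (hw j) hv (hc k j) (hh.hpr k hv.toHar),
    fun i j v hv => (hh.Qlim' (by rw [← h.cx.cjd, (hB.cl i).1, map_zero])
      (rep_op hh hb hb.bW (hw j) hv (hz j) (hh.hW hv.toHar))).const_mul _⟩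

theorem pg (ha : K.KIa) (hB : X.Bas D b) {T : Type} {Pr : ℕ → T → Mt n} {t : T} {Qm : Mt n}
    (hP : K.IsPr b fun k => Pr k t) (hQ : K.IsQ b Qm) : PG D Qm Pr t := by
  have M := mat_pr hh hb hB hP
  choose V hV using exv hh hB
  have L := fun c c' => iplim hh hb h ha hB hP hQ (hV c) (hV c')
  have orth : ∀ j k, Pr j t * Pr k t = if j = k then Pr k t else 0 := by
    intro j k
    have m := (M j).mul (M k)
    rw [h.alg.pr_mul] at m
    split_ifs at m ⊢
    · exact m.uniq hh hB (M k)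
    · exact m.uniq hh hB (Mat.zero hh)
  have sum : ∑ k ∈ Finset.range (D + 1), Pr k t = 1 := by
    have m := Mat.sum hh (Finset.range (D + 1)) (fun _ => 1) M
    simp only [one_smul, h.alg.pr_sum] at m
    exact m.uniq hh hB Mat.one
  have zero : ∀ k, D < k → Pr k t = 0 := fun k hk =>
    (h.alg.pr_zero k hk ▸ M k).uniq hh hB (Mat.zero hh)
  have hst : ∀ c c', star c ⬝ᵥ ((Qm * Sg D Pr t) *ᵥ c') =
      star (star c' ⬝ᵥ ((Qm * Sg D Pr t) *ᵥ c)) := fun c c' =>
    tendsto_nhds_unique (L c c') ((L c' c).star.congr fun s => (h.alg.herm _ _).symm)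
  have hH : (Qm * Sg D Pr t).IsHermitian := bil fun c c' => by
    rw [hst, Matrix.star_dotProduct, Matrix.star_mulVec, Matrix.conjTranspose_conjTranspose,
      Matrix.dotProduct_mulVec]
  have hA : ∀ k, (Pr k t)ᴴ * (Qm * Sg D Pr t) = Qm * Sg D Pr t * Pr k t := fun k =>
    bil fun c c' => by
      have l1 := iplim hh hb h ha hB hP hQ (M k c _ (hV c)) (hV c')
      have l2 := iplim hh hb h ha hB hP hQ (hV c) (M k c' _ (hV c'))
      rw [← Matrix.mulVec_mulVec, ← Matrix.mulVec_mulVec c' _ (Pr k t), Matrix.dotProduct_mulVec,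
        ← Matrix.star_mulVec]
      exact tendsto_nhds_unique l1 (l2.congr fun s => ha.adjpr _ _ _)
  have cm : ∀ k, Sg D Pr t * Pr k t = Pr k t * Sg D Pr t := fun k => by
    rcases le_or_gt k D with hk | hk
    · have := sgP orth (fun k => (-1 : ℂ) ^ (D - k)) hk
      exact this.1.trans this.2.symm
    · rw [zero k hk, mul_zero, zero_mul]
  have sq : Sg D Pr t * Sg D Pr t = 1 := by
    nth_rewrite 2 [Sg]
    rw [Finset.mul_sum, ← sum]
    refine Finset.sum_congr rfl fun k hk => ?_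
    rw [mul_smul_comm, Sg, (sgP orth _ (Nat.le_of_lt_succ (Finset.mem_range.1 hk))).1, smul_smul,
      ← mul_pow, neg_mul_neg, one_mul, one_pow, one_smul]
  have eQ : Qm = Qm * Sg D Pr t * Sg D Pr t := by rw [mul_assoc, sq, mul_one]
  have adj : ∀ k, (Pr k t)ᴴ * Qm = Qm * Pr k t := fun k => by
    rw [eQ, ← mul_assoc, hA, mul_assoc _ (Pr k t), ← cm, ← mul_assoc]
  refine ⟨orth, sum, zero, ?_, adj, Matrix.PosDef.of_dotProduct_mulVec_pos hH fun c hc => ?_⟩
  · have e : (Sg D Pr t)ᴴ * Qm = Qm * Sg D Pr t := by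
      unfold Sg
      rw [Matrix.conjTranspose_sum, Finset.sum_mul, Finset.mul_sum]
      refine Finset.sum_congr rfl fun k _ => ?_
      rw [Matrix.conjTranspose_smul, smul_mul_assoc, adj, mul_smul_comm, star_pow, star_neg,
        star_one]
    have e2 := congrArg Matrix.conjTranspose eQ
    rw [Matrix.conjTranspose_mul, hH.eq, ← mul_assoc, e, ← eQ] at e2
    exact e2
  · have l := (Complex.continuous_re.tendsto _).comp (L c c)
    have l0 := ge_of_tendsto' l fun s => h.alg.pos _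
    refine Complex.pos_iff.2 ⟨lt_of_le_of_ne l0 fun e => hc (hB.ind c ?_), ?_⟩
    · rw [← e] at l
      exact (hh.nul (hV c)).2 (hb.nf_sq (l.congr fun s => (hb.sq _).symm))
    · exact (Complex.conj_eq_iff_im.1 (hst c c).symm).symm

end Ab2

open Ab2

/-- **row AB2** -/
theorem km (h : K.OK) (ha : K.KIa) (hb : K.KIb) (hh : K.KH) : K.KM where
  ex hB := Ab2.ex hh hb h hB
  uPr hB h1 h2 := funext fun k => (mat_pr hh hb hB h1 k).uniq hh hB (mat_pr hh hb hB h2 k)
  uQ hB h1 h2 := by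
    ext i j
    obtain ⟨v, hv⟩ := hh.ex _ (hB.cl j).1
    exact tendsto_nhds_unique (h1 i j v hv) (h2 i j v hv)
  pg hB h1 h2 := Ab2.pg hh hb h ha hB h1 h2
  top hB h1 h2 h3 h4 := Ab2.top hh hb hB h1 h2 h3 h4
  onto := by
    intro n b Pr v hB hP hv
    obtain ⟨u, hu⟩ := exv hh hB v
    have r := mat_pr hh hb hB hP D v u hu
    rw [hv] at r
    have r2 := dgb hB v ▸ hh.rdg D r
    obtain ⟨σ, h1, h2, h3⟩ := h.hol _ r2.cau r2.d fun s => ⟨by
      rw [← Module.End.mul_apply, h.alg.pr_dg, Module.End.mul_apply,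
        ← Module.End.mul_apply (K.pr D), h.alg.pr_mul, if_pos rfl], by
      rw [← Module.End.mul_apply, h.cx.dg_mul, if_pos rfl]⟩
    exact ⟨σ, h1, h2, hh.back (hh.top h1 h2) (hh.congr r2 (hh.top h1 h2).toHar h3)⟩
  ip := by
    intro n b Qm σ σ' v v' hB hQ h1 h2 h3 h4 h5 h6
    refine tendsto_nhds_unique tendsto_const_nhds ((qlim hh hb h hB hQ
      (hh.ncongr (hh.top h1 h2) h5) (hh.ncongr (hh.top h3 h4) h6)).congr fun _ => ?_)
    have e := Cdg h σ'
    have e2 := LinearMap.congr_fun (sgP h.alg.pr_mul (fun k => (-1 : ℂ) ^ (D - k)) (le_refl D)).1 σ'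
    rw [Module.End.mul_apply, LinearMap.smul_apply, h4.1, Nat.sub_self, pow_zero, one_smul] at e2
    rw [h4.2, e2] at e
    rw [KP.ip, e, map_smul, map_smul, smul_eq_mul]
    ring

end Vale.Agent.P281Z.Hg.KP

namespace Vale.Agent.P281Z.Hg

/-- all abstract consequences, from the rows AB0a and AB0b -/
theorem abAll_of
    (kia : ∀ (S : Type) [AddCommGroup S] [Module ℂ S] (D : ℕ) (X : Cx S D) (K : KP X),
      X.OK → K.Alg → K.KIa)
    (kib : ∀ (S : Type) [AddCommGroup S] [Module ℂ S] (D : ℕ) (X : Cx S D) (K : KP X),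
      X.OK → K.Alg → K.KIa → K.KIb) : ABall := by
  intro S _ _ D X K h
  have a := kia S D X K h.cx h.alg
  have b := kib S D X K h.cx h.alg a
  exact ⟨a, b, KP.kh h a b, KP.km h a b (KP.kh h a b)⟩

end Vale.Agent.P281Z.Hg
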