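import Vale.Agent.P281Z.Hg.G2

/-!
# P281, Hodge block: the Kähler package and the `L²` bounds (rows G3, G4b)
-/

open scoped Manifold ContDiff ComplexOrder Topology Matrix
open Filter MeasureTheory
open Vale.Agent.P272.K Vale.Agent.P272.K.C2 Vale.Agent.P272.K.INT Vale.Agent.P299.IX
  Vale.Agent.P299.IX.Fock

noncomputable section

namespace Vale.Agent.P281Z.Hg

namespace G3H

open G1H G2H

theorem norm_mv {ι κ : Type} [Fintype ι] [Fintype κ] (A : Matrix ι κ ℂ) (u : κ → ℂ) :
    ‖A *ᵥ u‖ ≤ (∑ i, ∑ j, ‖A i j‖) * ‖u‖ := by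
  refine (pi_norm_le_iff_of_nonneg (by positivity)).2 fun i => (norm_sum_le _ _).trans ?_
  refine le_trans ?_ (mul_le_mul_of_nonneg_right (Finset.single_le_sum
    (f := fun i => ∑ j, ‖A i j‖) (fun i _ => by positivity) (Finset.mem_univ i)) (norm_nonneg u))
  rw [Finset.sum_mul]
  exact Finset.sum_le_sum fun j _ => (norm_mul_le _ _).trans
    (mul_le_mul_of_nonneg_left (norm_le_pi_norm u j) (norm_nonneg _))

theorem par_two {n : ℕ} {u : Fk n} (h : dg 2 *ᵥ u = u) : par *ᵥ u = u := by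
  funext I
  have h1 := (dg_mulVec 2 u I).symm.trans (congrFun h I)
  rw [par_mulVec]
  split_ifs at h1 with h2
  · rw [h2, neg_one_sq, one_mul]
  · rw [← h1, mul_zero]

variable {d : ℕ}

theorem mc_Lam {w : Cm d → Matrix (Fin d) (Fin d) ℂ} {z : Cm d} (hw : MC ∞ w z)
    (h0 : (w z).det ≠ 0) : MC ∞ (fun y => Lam (w y)) z := fun I J => by
  simp only [Lam, Matrix.sum_apply, Matrix.smul_apply, smul_eq_mul]
  exact ContDiffAt.sum fun j _ => ContDiffAt.sum fun k _ =>
    (contDiffAt_const.mul (hw.inv h0 k j)).mul contDiffAt_const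

theorem pm_eps_pm (hb : F1b) {j k : ℕ} (h1 : j ≠ k) (h2 : j ≠ k + 1) (c : Fin (d + d)) :
    pm d j * (eps c * pm d k) = 0 := by
  rw [← mul_assoc]
  induction c using Fin.addCases with
  | left l =>
    rcases j with _ | j
    · exact (congrArg (· * pm d k) (hb.pm0_hl d l)).trans (zero_mul _)
    · refine (congrArg (· * pm d k) (hb.pm_hl d j l)).trans ?_
      rw [mul_assoc, hb.pm_mul, if_neg fun h => h2 (congrArg (· + 1) h), mul_zero]
  | right l =>
    refine (congrArg (· * pm d k) (hb.pm_ah d j l)).trans ?_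
    rw [mul_assoc, hb.pm_mul, if_neg h1, mul_zero]

variable {M : Type} [TopologicalSpace M] [ChartedSpace (Cm d) M] {e : Chart d M}
  {F F' : Rw d M (Fm d)} {T T' : Module.End ℂ (SF d M)}

theorem op_ext (h : IsOp F T) (h' : IsOp F' T') (hF : ∀ e x, At e x → F e (e x) = F' e (e x)) :
    T = T' :=
  LinearMap.ext fun u => ext' fun e x he => by rw [h u e x he, h' u e x he, hF e x he]

theorem op_mul (h : IsOp F T) (h' : IsOp F' T') : IsOp (fun e z => F e z * F' e z) ⇑(T * T') :=
  fun u e x he => by rw [Module.End.mul_apply, h _ e x he, h' u e x he, Matrix.mulVec_mulVec]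

theorem op_zero : IsOp (fun _ _ => 0) (0 : Module.End ℂ (SF d M)) :=
  fun _ _ _ _ => (Matrix.zero_mulVec _).symm

theorem op_one : IsOp (fun _ _ => 1) (1 : Module.End ℂ (SF d M)) :=
  fun _ _ _ _ => (Matrix.one_mulVec _).symm

theorem op_sub (h : IsOp F T) (h' : IsOp F' T') : IsOp (fun e z => F e z - F' e z) ⇑(T - T') :=
  fun u e x he => by rw [LinearMap.sub_apply, vl_sub, h u e x he, h' u e x he, Matrix.sub_mulVec]

theorem op_smul (c : ℂ) (h : IsOp F T) : IsOp (fun e z => c • F e z) ⇑(c • T) :=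
  fun u e x he => by rw [LinearMap.smul_apply, vl_smul, h u e x he, Matrix.smul_mulVec]

theorem op_sum {ι : Type} (s : Finset ι) {F : ι → Rw d M (Fm d)} {T : ι → Module.End ℂ (SF d M)}
    (h : ∀ i, IsOp (F i) (T i)) : IsOp (fun e z => ∑ i ∈ s, F i e z) ⇑(∑ i ∈ s, T i) :=
  fun u e x he => by simp only [LinearMap.sum_apply, vl_sum, h _ u e x he, Matrix.sum_mulVec]

theorem cont_vl (u : SF d M) (he : e ∈ atlas (Cm d) M) {K : Set M} (hs : K ⊆ e.source) :
    ContinuousOn (fun z => ‖vl u e z‖ ^ 2) (e '' K) := by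
  rintro _ ⟨x, hx, rfl⟩
  exact (((vl_isF u).sm e x ⟨he, hs hx⟩).continuousAt.norm.pow 2).continuousWithinAt

theorem int_vl (u : SF d M) (he : e ∈ atlas (Cm d) M) {K : Set M} (hK : IsCompact K)
    (hs : K ⊆ e.source) : IntegrableOn (fun z => ‖vl u e z‖ ^ 2) (e '' K) :=
  (cont_vl u he hs).integrableOn_compact (hK.image_of_continuousOn (e.continuousOn.mono hs))

theorem eq_zero [T2Space M] [CompactSpace M] {nrm : SF d M → ℝ} (h : IsL2 nrm) {u : SF d M}
    (hu : nrm u = 0) : u = 0 := ext' fun e x he => by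
  obtain ⟨K, hK, h1, h2⟩ := exists_compact_subset e.open_source he.2
  obtain ⟨C, -, hC⟩ := h.res e he.1 K hK h2
  have h3 := hC u
  rw [hu, zero_pow two_ne_zero, mul_zero] at h3
  have h4 := (setIntegral_eq_zero_iff_of_nonneg_ae (.of_forall fun z => sq_nonneg _)
    (int_vl u he.1 hK h2)).1 (le_antisymm h3 (integral_nonneg fun z => sq_nonneg _))
  have h5 := Measure.eqOn_open_of_ae_eq (ae_restrict_of_ae_restrict_of_subset interior_subset h4)
    isOpen_interior ((cont_vl u he.1 h2).mono interior_subset) continuousOn_const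
    (mem_interior_iff_mem_nhds.2 (e.image_mem_nhds he.2 (mem_interior_iff_mem_nhds.1 h1)))
  exact norm_eq_zero.1 (pow_eq_zero_iff two_ne_zero |>.1 h5)

end G3H

open G1H G2H G3H

variable (d : ℕ) (M : Type) [TopologicalSpace M] [ChartedSpace (Cm d) M] [T2Space M]
  [CompactSpace M] [IsManifold 𝓘(ℂ, Cm d) ω M]

/-- row G4b -/
theorem g4b : G4b d M := by
  intro nrm h h0
  have h1 : ∀ (N : ℕ) (e : Fin N → Chart d M) (K : Fin N → Set M), (∀ i, e i ∈ atlas (Cm d) M) →
      (∀ i, IsCompact (K i)) → (∀ i, K i ⊆ (e i).source) → (∀ x, ∃ i, x ∈ K i) →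
      ∃ C : ℝ, 0 ≤ C ∧ ∀ (u v : SF d M) (ε : ℝ), 0 ≤ ε →
        (∀ i, ∀ x ∈ K i, ‖vl v (e i) (e i x)‖ ≤ ε * ‖vl u (e i) (e i x)‖) →
        nrm v ≤ C * ε * nrm u := by
    intro N e K he hK hs hc
    obtain ⟨C, hC, h1⟩ := h.cov N e K he hK hs hc
    choose B hB h2 using fun i => h.res (e i) (he i) (K i) (hK i) (hs i)
    have hS : 0 ≤ C * ∑ i, B i := mul_nonneg hC (Finset.sum_nonneg fun i _ => hB i)
    refine ⟨Real.sqrt (C * ∑ i, B i), Real.sqrt_nonneg _, fun u v ε hε hv => ?_⟩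
    refine (sq_le_sq₀ (h0 v) (mul_nonneg (mul_nonneg (Real.sqrt_nonneg _) hε) (h0 u))).1
      ((h1 v).trans ?_)
    rw [mul_pow, mul_pow, Real.sq_sqrt hS, mul_assoc, mul_assoc, Finset.sum_mul]
    refine mul_le_mul_of_nonneg_left (Finset.sum_le_sum fun i _ => ?_) hC
    refine (setIntegral_mono_on (int_vl v (he i) (hK i) (hs i))
      ((int_vl u (he i) (hK i) (hs i)).const_mul (ε ^ 2))
      ((hK i).image_of_continuousOn ((e i).continuousOn.mono (hs i))).measurableSet ?_).trans ?_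
    · rintro _ ⟨x, hx, rfl⟩
      rw [← mul_pow]
      exact pow_le_pow_left₀ (norm_nonneg _) (hv i x hx) 2
    · rw [integral_const_mul, mul_left_comm]
      exact mul_le_mul_of_nonneg_left (h2 i u) (sq_nonneg ε)
  have h3 : ∃ (N : ℕ) (e : Fin N → Chart d M) (K : Fin N → Set M), (∀ i, e i ∈ atlas (Cm d) M) ∧
      (∀ i, IsCompact (K i)) ∧ (∀ i, K i ⊆ (e i).source) ∧ ∀ x, ∃ i, x ∈ K i :=
    ⟨_, (part d M).e, fun i => tsupport ((part d M).ρ i), (part d M).mem,
      fun i => (isClosed_tsupport _).isCompact, (part d M).supp, fun x =>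
      (Finset.exists_ne_zero_of_sum_ne_zero (((part d M).sum x).trans_ne one_ne_zero)).imp
        fun _ hi => subset_tsupport _ hi.2⟩
  refine ⟨h1, fun F T hF hT => ?_, h3⟩
  obtain ⟨N, e, K, he, hK, hs, hc⟩ := h3
  obtain ⟨C, hC, h2⟩ := h1 N e K he hK hs hc
  choose B hB using fun i => (hK i).exists_bound_of_continuousOn
    (f := fun x => ∑ I, ∑ J, ‖F (e i) (e i x) I J‖) fun x hx =>
      (tendsto_finsetSum _ fun I _ => tendsto_finsetSum _ fun J _ =>
        ((hF _ x ⟨he i, hs i hx⟩ I J).comp ((e i).continuousAt (hs i hx))).norm).mono_left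
        nhdsWithin_le_nhds
  have hS : 0 ≤ ∑ i, |B i| := Finset.sum_nonneg fun i _ => abs_nonneg _
  refine ⟨C * ∑ i, |B i|, mul_nonneg hC hS, fun u => h2 u _ _ hS fun i x hx => ?_⟩
  rw [hT u _ x ⟨he i, hs i hx⟩]
  exact (norm_mv _ _).trans (mul_le_mul_of_nonneg_right ((((le_abs_self _).trans (hB i x hx)).trans
    (le_abs_self _)).trans (Finset.single_le_sum (f := fun i => |B i|) (fun i _ => abs_nonneg _)
      (Finset.mem_univ i))) (norm_nonneg _))

variable {d M}

/-- row G3 -/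
theorem g3 (ha : F1a) (hb : F1b) (hf : F2b) (hk : K1a) (g1 : G1 d M) (g2 : G2 d M)
    (g4 : G4 d M) : G3 d M := by
  intro X w hX _ hw
  have hdet : ∀ e x, At e x → (w e (e x)).det ≠ 0 := fun e x h => (hw.posDef e x h).det_pos.ne'
  have hL : ∀ e x, At e x → MC ∞ (fun z => Lw (w e z)) (e x) := fun e x h =>
    mc_Lw (hw.smooth e x h)
  have hLm : ∀ e x, At e x → MC ∞ (fun z => Lam (w e z)) (e x) := fun e x h =>
    mc_Lam (hw.smooth e x h) (hdet e x h)
  refine ⟨?_, fun K hK h2 => ?_⟩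
  · choose P hP using fun k => g1.op (fun _ _ => pm d k) ⟨fun _ _ _ => MC_const _ _,
      fun e e' x h h' => by rw [g1.jt_eq e e' x h h', hb.pm_blk]⟩
    obtain ⟨L, hL⟩ := g1.op (fun e z => Lw (w e z)) ⟨hL, fun e e' x h h' => by
      rw [g1.jt_eq e e' x h h', hf.L_blk, hw.change e e' x h h']
      rfl⟩
    obtain ⟨Lm, hLm⟩ := g1.op (fun e z => Lam (w e z)) ⟨hLm, fun e e' x h h' => by
      have h1 := hdet e x h
      rw [hw.change e e' x h h', Matrix.det_mul, Matrix.det_mul] at h1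
      rw [g1.jt_eq e e' x h h', hf.Lm_blk _ _ (left_ne_zero_of_mul (left_ne_zero_of_mul h1)).isUnit
        (hdet e' x h').isUnit, hw.change e e' x h h']
      rfl⟩
    exact ⟨⟨P, L, Lm, cc d⟩, hP, hL, hLm, rfl⟩
  obtain ⟨hip, -, -⟩ := g4 X w K hX hw hK
  obtain ⟨b1, b2, N, c, Kc, b3, b4, b5, b6⟩ := g4b d M K.nrm h2 fun _ => Real.sqrt_nonneg _
  exact
    { pr_mul := fun j k => by
        split_ifs with h
        · exact op_ext (op_mul (hK.pr j) (hK.pr k)) (hK.pr k) fun _ _ _ => by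
            rw [hb.pm_mul, if_pos h]
        · exact op_ext (op_mul (hK.pr j) (hK.pr k)) op_zero fun _ _ _ => by
            rw [hb.pm_mul, if_neg h]
      pr_sum := op_ext (op_sum _ hK.pr) op_one fun _ _ _ => hb.pm_sum d
      pr_zero := fun k h => op_ext (hK.pr k) op_zero fun _ _ _ => hb.pm_zero d k h
      pr_dg := fun k m => op_ext (op_mul (hK.pr k) (hX.dg m)) (op_mul (hX.dg m) (hK.pr k))
        fun _ _ _ => hb.pm_dg d k m
      Qpr := fun j k a b h => by
        rw [hX.Q, hX.Q]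
        exact itg_congr fun e x he => by
          rw [hK.pr _ _ e x he, hK.pr _ _ e x he, hb.Bq_pm _ _ j k h]
      cjpr := fun j k a => ext' fun e x he => by
        rw [hX.cj _ e x he, hK.pr _ _ e x he, hX.dg _ _ e x he, hK.pr _ _ e x he, hX.dg _ _ e x he,
          hX.cj _ e x he, hb.cjv_pm]
      pr_lt := fun k m h => op_ext (op_mul (hK.pr k) (hX.dg m)) op_zero
        fun _ _ _ => hb.pm_lt d k m h
      dtype := fun j k h1 h2 => LinearMap.ext fun a => ext' fun e x he => by
        rw [Module.End.mul_apply, Module.End.mul_apply, hK.pr _ _ e x he, hX.d _ e x he,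
          hk.congr (u := vl (K.pr k a) e) (v := fun z => pm d k *ᵥ vl a e z)
            (ev_at he (.of_forall (hK.pr k a e)))]
        simp only [dT, Matrix.mulVec_sum, hk.Dv_mul _ _ (dif a he), Matrix.mulVec_mulVec,
          pm_eps_pm hb h1 h2, Matrix.zero_mulVec, Finset.sum_const_zero]
        rfl
      Ld := LinearMap.ext fun a => ext' fun e x he => by
        obtain ⟨u, hu⟩ := g1.om w hw
        obtain ⟨c1, c2⟩ := (g2.2.2 X hX).2.1 w u hw hu
        have h1 := hX.dg 2 u e x he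
        rw [c2] at h1
        have h3 : wg (0 : Fo d) = 0 := by rw [← zero_smul ℂ (0 : Fo d), ha.wg_smul, zero_smul]
        rw [Module.End.mul_apply, Module.End.mul_apply, hK.L _ e x he, hX.d _ e x he,
          hX.d _ e x he, hk.congr (u := vl (K.L a) e) (v := fun z => wg (vl u e z) *ᵥ vl a e z)
            (ev_at he (.of_forall fun y hy => by
              beta_reduce
              rw [hK.L a e y hy, hu e y hy, ← hf.L_wg])),
          hk.leib (dif u he) (dif a he), par_two h1.symm, ← hX.d u e x he, c1, vl_zero, h3,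
          Matrix.zero_mulVec, zero_add, hu e x he, ← hf.L_wg]
      prL := fun k => op_ext (op_mul (hK.pr _) hK.L) (op_mul hK.L (hK.pr k))
        fun _ _ _ => hf.pm_L _ k
      dgL := fun m => op_ext (op_mul (hX.dg _) hK.L) (op_mul hK.L (hX.dg m))
        fun _ _ _ => hf.dg_L _ m
      prLm := fun k => op_ext (op_mul (hK.pr k) hK.Lm) (op_mul hK.Lm (hK.pr _))
        fun _ _ _ => hf.pm_Lm _ k
      dgLm := fun m => op_ext (op_mul (hX.dg m) hK.Lm) (op_mul hK.Lm (hX.dg _))
        fun _ _ _ => hf.dg_Lm _ m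
      sl2 := op_ext (op_sub (op_mul hK.Lm hK.L) (op_mul hK.L hK.Lm))
        (op_sub (op_smul _ op_one) (op_sum _ fun m => op_smul _ (hX.dg m))) fun e x he => by
          rw [← neg_sub, (hf.sl2 _ (hdet e x he).isUnit).br, Hw, neg_sub]
      QL := fun a b => by
        rw [hX.Q, hX.Q, ← neg_one_mul, ← itg_smul _ (g1.dens _ _)]
        exact itg_congr fun e x he => by rw [hK.L _ e x he, hK.L _ e x he, hf.Bq_L, neg_one_mul]
      QLm := fun a b => by
        rw [hX.Q, hX.Q, ← neg_one_mul, ← itg_smul _ (g1.dens _ _)]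
        exact itg_congr fun e x he => by rw [hK.Lm _ e x he, hK.Lm _ e x he, hf.Bq_Lm, neg_one_mul]
      cjL := fun a => ext' fun e x he => by
        rw [hX.cj _ e x he, hK.L _ e x he, hK.L _ e x he, hX.cj _ e x he,
          hf.cjv_L _ _ (hw.posDef e x he).isHermitian]
      cjLm := fun a => ext' fun e x he => by
        rw [hX.cj _ e x he, hK.Lm _ e x he, hK.Lm _ e x he, hX.cj _ e x he,
          hf.cjv_Lm _ _ (hw.posDef e x he).isHermitian]
      herm := fun a b => by
        rw [hip, hip, ← itg_star]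
        exact itg_congr fun e x he => by
          rw [← Matrix.star_dotProduct, Matrix.star_mulVec, Matrix.dotProduct_mulVec,
            (hf.G_pos _ (hw.posDef e x he)).isHermitian.eq]
      pos := fun a => by
        have h1 := intX_nonneg (D := fun e z => (star (vl a e z) ⬝ᵥ (Gm (w e z) *ᵥ vl a e z)).re)
          fun e x he => (hf.G_pos _ (hw.posDef e x he)).posSemidef.re_dotProduct_nonneg _
        rw [hip, itg]
        simpa using h1
      defn := fun a h => eq_zero h2 (by rw [KP.nrm, h, Complex.zero_re, Real.sqrt_zero])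
      bL := b2 _ _ (fun e x he I J => (hL e x he I J).continuousAt) hK.L
      bLm := b2 _ _ (fun e x he I J => (hLm e x he I J).continuousAt) hK.Lm
      bcj := by
        obtain ⟨C, hC, h1⟩ := b1 N c Kc b3 b4 b5 b6
        refine ⟨C * ∑ I, ∑ J, ‖lam (swm d) I J‖, by positivity, fun a =>
          h1 a _ _ (by positivity) fun i x hx => ?_⟩
        rw [hX.cj a _ x ⟨b3 i, b5 i hx⟩, ← norm_star (vl a _ _)]
        exact norm_mv _ _
      c0 := hK.c ▸ hf.cc_ne d }

end Vale.Agent.P281Z.Hg
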