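import Vale.Agent.P281Z.Hg.AllA
import Vale.Agent.P281Z.Hg.G3

/-!
# P281, Hodge block: the polarised variation of Hodge structure of a Kaehler family
-/

open scoped Manifold ContDiff
open Vale.Agent.P272.K

namespace Vale.Agent.P281Z.Hg

theorem g3T (d : ℕ) (M : Type) [TopologicalSpace M] [ChartedSpace (Cm d) M] [T2Space M]
    [CompactSpace M] [IsManifold 𝓘(ℂ, Cm d) ω M] : G3 d M :=
  g3 f1a f1b f2bT k1aT (g1T d M) (g2T d M) (g4T d M)

/-- all rows -/
theorem rows : Rows := rows_of g3T fun d M _ _ _ _ _ => g4b d M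

/-- **the Hodge block** -/
theorem hodge : HODGE := hodge_of rows

end Vale.Agent.P281Z.Hg
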