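import Vale.Agent.P281Z.Hg.Vt1

/-!
# P281, Hodge block: pull-backs and close maps (row CM)
-/

open scoped Topology
open Filter

noncomputable section

namespace Vale.Agent.P281Z.Hg

namespace CmH

variable {S S' : Type} [AddCommGroup S] [Module ℂ S] [AddCommGroup S'] [Module ℂ S'] {D D' : ℕ}
  {X : Cx S D} {X' : Cx S' D'} {M M' : Type} [MetricSpace M] [MetricSpace M']
  {E : LC M X} {E' : LC M' X'} {f : M → M'} {T : S' →ₗ[ℂ] S} {ε η : ℝ} {m : ℕ}

theorem pull (h : E.Mor E' f T) (hf : ∀ x y, dist x y < η → dist (f x) (f y) < ε) {u : S'}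
    {a : List M' → ℂ} (k : E'.Zg ε m u a) : E.Zg η m (T u) fun l => a (l.map f) := by
  obtain ⟨γ, rfl, k⟩ := k
  have h1 : ∀ {l : List M} {v : S'}, E'.Van ε (l.map f) v → E.Van η l (T v) := fun hv z hz =>
    h.Z _ z (hv _ (List.forall_mem_map.2 fun x hx => hf _ _ (hz x hx)))
  have h2 : ∀ l, dl (fun l : List M => T (γ (l.map f))) l = T (dl γ (l.map f)) := fun l =>
    (vt1.map T.toAddMonoidHom _ l).trans (congrArg T (vt1.comap f γ l))
  refine ⟨fun l => T (γ (l.map f)), rfl, fun l j e => ?_, fun l e => ?_, fun l e => ?_⟩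
  · rw [← h.dg, k.deg _ j (by rwa [List.length_map])]
  · rw [h2, ← h.d, ← map_sub]
    exact h1 (k.mid _ (by rwa [List.length_map]))
  · rw [h2, ← h.one, ← map_smul, ← map_sub]
    exact h1 (k.fin _ (by rwa [List.length_map]))

theorem zg_sub {u v : S} {a b : List M → ℂ} (h : E.Zg ε m u a) (k : E.Zg ε m v b) :
    E.Zg ε m (u - v) fun l => a l - b l := by
  obtain ⟨γ, rfl, h⟩ := h
  obtain ⟨γ', rfl, k⟩ := k
  refine ⟨fun l => γ l - γ' l, rfl, fun l j e => ?_, fun l e z hz => ?_, fun l e z hz => ?_⟩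
  · rw [map_sub, h.deg l j e, k.deg l j e]
  · rw [Vt1H.dl_sub, map_sub, sub_sub_sub_comm]
    exact sub_mem (h.mid l e z hz) (k.mid l e z hz)
  · rw [Vt1H.dl_sub, sub_smul, sub_sub_sub_comm]
    exact sub_mem (h.fin l e z hz) (k.fin l e z hz)

theorem coc (ok : E.OK) {u : S} {a : List M → ℂ} (h : E.Zg ε m u a) : Coc ε m a := by
  obtain ⟨γ, -, h⟩ := h
  intro l e hl
  have h1 : IsOpen {y | Nr ε l y} := by
    simp only [Nr, Set.ofPred_forall]
    exact l.finite_toSet.isOpen_biInter fun x _ => isOpen_lt (by fun_prop) continuous_const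
  obtain ⟨C, -, hC⟩ := ok.ev _ h1 hl
  have h2 := hC (dl a l) 0 fun y hy => by
    have := vt1.mem (E.Z y).toAddSubgroup (fun l => dl γ l - a l • E.one) l fun l' k1 k2 =>
      h.fin l' (by omega) y fun x hx => hy x (k1.subset hx)
    rw [Vt1H.dl_sub, vt1.dldl, zero_sub] at this
    rw [sub_zero, ← LinearMap.toSpanSingleton_apply ℂ S, ← LinearMap.toAddMonoidHom_coe, ← vt1.map]
    exact neg_mem_iff.1 this
  have h3 := ok.smul 0 0
  rw [zero_smul, norm_zero, zero_mul] at h3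
  rwa [h3, mul_zero, norm_le_zero_iff] at h2

theorem unif [CompactSpace M] (hf : Continuous f) (hε : 0 < ε) :
    ∃ η > 0, ∀ x y, dist x y < η → dist (f x) (f y) < ε :=
  (Metric.uniformContinuous_iff.1 (CompactSpace.uniformContinuous_of_continuous hf) ε hε).imp
    fun _ k => ⟨k.1, fun _ _ e => k.2 e⟩

end CmH

open CmH in
/-- **CM** -/
theorem cm_of (hr : ZR) (hi : ZI) : CM where
  int h m u := fun ⟨_, hε, a, k⟩ =>
    (unif h.cont hε).elim fun η e => ⟨η, e.1, fun l => a (l.map _), pull h e.2 k⟩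
  close E' m ok' := by
    obtain ⟨ε, hε, A, -, -, hA⟩ := (hr _ _ _ _ E' ok' m).1
    refine ⟨ε / 2, half_pos hε, fun {S _ _ D X M _ _ E f g T T'} ok hf hg hd u hu => ?_⟩
    obtain ⟨η, h1, h2⟩ := unif hf.cont hε
    obtain ⟨η', h3, h4⟩ := unif hg.cont (half_pos hε)
    have h5 := fun x y (e : dist x y < min η η') => h2 x y (e.trans_le (min_le_left _ _))
    have h6 := fun x y (e : dist x y < min η η') => h4 x y (e.trans_le (min_le_right _ _))
    obtain ⟨b, b0, hb⟩ := vt1.prism g f fun l => A l u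
    refine (hi _ _ _ _ E ok m).2 _ _ _ (lt_min h1 h3) (zg_sub (pull hf h5 (hA u hu))
      (pull hg (fun x y e => (h6 x y e).trans (half_lt_self hε)) (hA u hu)))
      ⟨b, b0, fun l e ⟨z, hz⟩ => hb l (List.ne_nil_of_length_eq_add_one e) fun l' k1 k2 =>
        coc ok' (hA u hu) l' (by omega) ⟨f z, fun y hy => ?_⟩⟩
    obtain ⟨x, hx, rfl | rfl⟩ := k2 y hy
    · linarith [dist_triangle_right (g x) (f z) (g z), h6 _ _ (hz x hx), hd z]
    · exact h5 _ _ (hz x hx)

end Vale.Agent.P281Z.Hg
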