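import Vale.Agent.P281Z.Hg.Vt1

/-!
# P281, Hodge block: cocycles come from forms, coboundaries from exact forms (row ZI)
-/

open scoped Topology
open Filter

noncomputable section

namespace Vale.Agent.P281Z.Hg

namespace ZiH

variable {S : Type} [AddCommGroup S] [Module ℂ S] {D : ℕ} {X : Cx S D} {M : Type}

omit [Module ℂ S] in
theorem dl_congr {a b : List M → S} {l : List M}
    (h : ∀ l', l'.length + 1 = l.length → a l' = b l') : dl a l = dl b l := by
  induction l generalizing a b with
  | nil => rfl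
  | cons x l ih => rw [dl, dl, h l rfl, ih fun l' e => h (x :: l') (by simp [e])]

theorem dl_lin (T : Module.End ℂ S) (a : List M → S) (l : List M) :
    dl (fun l' => T (a l')) l = T (dl a l) := vt1.map T.toAddMonoidHom a l

theorem dl_one (u : S) (a : List M → ℂ) (l : List M) :
    dl (fun l' => a l' • u) l = dl a l • u := vt1.map ((smulAddHom ℂ S).flip u) a l

/-- the homotopy operator of a partition of unity -/
def hh {N : ℕ} (x : Fin N → M) (ρ : Fin N → Module.End ℂ S) (g : List M → S) (l : List M) : S :=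
  ∑ i, ρ i (g (x i :: l))

theorem dl_hh {N : ℕ} (x : Fin N → M) (ρ : Fin N → Module.End ℂ S) (g : List M → S)
    (l : List M) : dl (hh x ρ g) l = ∑ i, ρ i (dl (fun l' => g (x i :: l')) l) := by
  have := map_sum (AddMonoidHom.mk' (fun a : List M → S => dl a l) fun a b => vt1.add a b l)
    (fun i l' => ρ i (g (x i :: l'))) Finset.univ
  simp only [AddMonoidHom.mk'_apply, dl_lin] at this
  rw [← this]
  exact congrArg (dl · l) (funext fun l' => by rw [Finset.sum_apply, hh])

theorem hom {N : ℕ} (x : Fin N → M) {ρ : Fin N → Module.End ℂ S} (h : ∑ i, ρ i = 1)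
    (g : List M → S) (l : List M) : g l - dl (hh x ρ g) l = hh x ρ (dl g) l := by
  have e : g l = ∑ i, ρ i (g l) := by rw [← LinearMap.sum_apply, h, Module.End.one_apply]
  simp only [dl_hh, hh, dl, map_sub, Finset.sum_sub_distrib, ← e]

variable [MetricSpace M] {E : LC M X} {ε : ℝ} {l : List M}

theorem van_d (h : E.OK) {u : S} (a : E.Van ε l u) : E.Van ε l (X.d u) := fun z hz => by
  have : ∀ᶠ y in 𝓝 z, ∀ x ∈ {x | x ∈ l}, dist x y < ε :=
    (eventually_all_finite (List.finite_toSet l)).2 fun x hx =>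
      (continuous_const.dist continuous_id).continuousAt.eventually_lt continuousAt_const (hz x hx)
  exact h.dloc u z (this.mono fun y hy => a y hy)

theorem van_hh {N : ℕ} {x : Fin N → M} {ρ : Fin N → Module.End ℂ S}
    (h : ∀ i u y, u ∈ E.Z y ∨ ε ≤ dist (x i) y → ρ i u ∈ E.Z y) {g : List M → S}
    (a : ∀ i, E.Van ε (x i :: l) (g (x i :: l))) : E.Van ε l (hh x ρ g l) := fun z hz =>
  Submodule.sum_mem _ fun i _ => h i _ z ((lt_or_ge _ _).imp_left fun k =>
    a i z (List.forall_mem_cons.2 ⟨k, hz⟩))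

theorem i1 (h : E.OK) (m : ℕ) : E.I1 m := by
  intro ε a hε ha
  obtain ⟨N, x, ρ, -, -, h1, h2, h3, -⟩ := h.pu ε hε
  let c : ℕ → List M → S := fun j =>
    Nat.rec (fun l => a l • E.one) (fun _ c l => X.d (hh x ρ c l)) j
  have hd : ∀ j g, (∀ l, X.dg j (g l) = g l) → ∀ l, X.dg j (hh x ρ g l) = hh x ρ g l :=
    fun j g k l => by
      rw [hh, map_sum]
      refine Finset.sum_congr rfl fun i _ => ?_
      rw [← Module.End.mul_apply, ← h3, Module.End.mul_apply, k]
  have A : ∀ j l, X.dg j (c j l) = c j l := fun j => by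
    induction j with
    | zero => exact fun l => (map_smul _ _ _).trans (congrArg _ h.dg_one)
    | succ j ih =>
      exact fun l => (LinearMap.congr_fun (h.cx.dg_d j) _).trans (congrArg X.d (hd j _ ih l))
  have A' : ∀ j l, X.d (c j l) = 0 := fun j l => by
    cases j with
    | zero => exact (map_smul _ _ _).trans (by rw [h.d_one, smul_zero])
    | succ j => exact h.cx.dd _
  have C : ∀ j, (∀ l, l.length + j = m + 2 → E.Van ε l (dl (c j) l)) →
      ∀ l, l.length + j = m + 1 → E.Van ε l (c j l - dl (hh x ρ (c j)) l) := fun j k l hl => by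
    rw [hom x h1]
    exact van_hh h2 fun i => k _ (by rw [List.length_cons]; omega)
  have B : ∀ j l, l.length + j = m + 2 → E.Van ε l (dl (c j) l) := fun j => by
    induction j with
    | zero =>
      intro l hl z hz
      rw [show dl (c 0) l = dl a l • E.one from dl_one _ a l, ha l hl ⟨z, hz⟩, zero_smul]
      exact zero_mem _
    | succ j ih =>
      intro l hl z hz
      have := van_d h (C j ih l (by omega)) z hz
      rw [map_sub, A', zero_sub, neg_mem_iff, ← dl_lin] at this
      exact this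
  refine ⟨_, fun l => hh x ρ (c (m - l.length)) l, rfl, fun l j e => ?_, fun l e => ?_,
    fun l e z hz => ?_⟩
  · rw [show m - l.length = j by omega]
    exact hd j _ (A j) l
  · rw [dl_congr (b := hh x ρ (c (m - l.length + 1))) fun l' e' => by
      rw [show m - l'.length = m - l.length + 1 by omega]]
    exact C (m - l.length + 1) (B _) l (by omega)
  · rw [dl_congr (b := hh x ρ (c 0)) fun l' e' => by rw [show m - l'.length = 0 by omega],
      ← neg_mem_iff, neg_sub]
    exact C 0 (B 0) l e z hz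

theorem u1 (h : E.OK) (m : ℕ) : E.U1 m := by
  rintro ε _ a hε ⟨γ, rfl, hγ⟩ ⟨b, b0, hb⟩
  obtain ⟨N, x, ρ, -, -, h1, h2, -⟩ := h.pu ε hε
  have Q : ∀ k j, j + k = m → ∃ e : List M → S, (∀ l, X.d (e l) = 0) ∧ (∃ β, e [] = X.d β) ∧
      ∀ l, l.length = j + 1 → E.Van ε l (dl (fun l' => γ l' - e l') l) := fun k => by
    induction k with
    | zero =>
      rintro j rfl
      refine ⟨fun l => b l • E.one, fun l => by rw [map_smul, h.d_one, smul_zero],
        ⟨0, by simp [b0]⟩, fun l hl z hz => ?_⟩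
      rw [Vt1H.dl_sub, dl_one, ← hb l hl ⟨z, hz⟩]
      exact hγ.fin l hl z hz
    | succ k ih =>
      intro j hj
      obtain ⟨e, e1, -, e3⟩ := ih (j + 1) (by omega)
      refine ⟨fun l => X.d (hh x ρ (fun l' => γ l' - e l') l), fun l => h.cx.dd _, ⟨_, rfl⟩,
        fun l hl z hz => ?_⟩
      have a1 := van_d h (van_hh h2 (l := l) fun i => e3 (x i :: l) (by simp [hl])) z hz
      rw [← hom x h1, map_sub, map_sub, e1, sub_zero] at a1
      have a2 := sub_mem a1 (hγ.mid l (by omega) z hz)
      rw [sub_sub_sub_cancel_left] at a2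
      rwa [Vt1H.dl_sub, dl_lin]
  obtain ⟨e, -, ⟨β, hβ⟩, e3⟩ := Q m 0 (zero_add m)
  have a1 := van_hh h2 (l := []) fun i => e3 [x i] rfl
  rw [← hom x h1, dl, sub_zero] at a1
  exact ⟨β, hβ ▸ sub_eq_zero.1 (h.sep _ fun z => a1 z fun _ k => nomatch k)⟩

end ZiH

/-- row ZI -/
theorem zi' : ZI := fun _ _ _ _ _ _ _ _ h m => ⟨ZiH.i1 h m, ZiH.u1 h m⟩

theorem zi (_ : VT1) : ZI := zi'

end Vale.Agent.P281Z.Hg
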