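import Vale.Agent.P281Z.Hg.Zs

/-!
# P281, Hodge block, row ZR: the de Rham map
-/

open scoped Topology
open Filter

noncomputable section

namespace Vale.Agent.P281Z.Hg

namespace Zr

open Zs

variable {S : Type} [AddCommGroup S] [Module ℂ S] {D : ℕ} {X : Cx S D} {M : Type} [MetricSpace M]
  {E : LC M X}

variable (E) in
/-- the forms which vanish near `l` -/
def VN (ε : ℝ) (l : List M) : AddSubgroup S where
  carrier := {u | E.Van ε l u}
  zero_mem' _ _ := zero_mem _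
  add_mem' a b z c := add_mem (a z c) (b z c)
  neg_mem' a z c := neg_mem (a z c)

theorem vn_mono {ε η : ℝ} (h : η ≤ ε) {l : List M} {u : S} (a : u ∈ VN E ε l) : u ∈ VN E η l :=
  fun z b => a z (Ns_mono h l b)

theorem vn_dl (hv : VT1) {ε : ℝ} {l : List M} {γ : List M → S}
    (h : ∀ l' : List M, l'.length + 1 = l.length → γ l' ∈ VN E ε l') : dl γ l ∈ VN E ε l :=
  hv.mem _ γ l fun l' a b z c => h l' b z (Ns_sub a c)

theorem vn_d (h : E.OK) {ε : ℝ} {l : List M} {u : S} (a : u ∈ VN E ε l) : X.d u ∈ VN E ε l :=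
  fun _ c => h.dloc _ _ (mem_of_superset ((open_Ns ε l).mem_nhds c) a)

theorem nrm_zero (h : E.OK) : E.nrm 0 = 0 := by simpa using h.smul 0 0

theorem vn_one (h : E.OK) {ε : ℝ} {l : List M} (hl : Sm ε l) {c : ℂ} (a : c • E.one ∈ VN E ε l) :
    c = 0 := by
  obtain ⟨C, -, hC⟩ := h.ev _ (open_Ns ε l) hl
  simpa [nrm_zero h] using hC c 0 fun y hy => (sub_zero (c • E.one)).symm ▸ a y hy

omit [MetricSpace M] in
theorem map_dl (hv : VT1) (T : Module.End ℂ S) (γ : List M → S) (l : List M) :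
    T (dl γ l) = dl (fun l => T (γ l)) l := (hv.map T.toAddMonoidHom γ l).symm

omit [MetricSpace M] in
theorem dl_one (hv : VT1) (u : S) (a : List M → ℂ) (l : List M) :
    dl (fun l => a l • u) l = dl a l • u :=
  hv.map (LinearMap.toSpanSingleton ℂ S u).toAddMonoidHom a l

omit [MetricSpace M] in
theorem dl_app (hv : VT1) (G : List M → Module.End ℂ S) (l : List M) (u : S) :
    dl G l u = dl (fun l => G l u) l :=
  (hv.map (LinearMap.applyₗ (R := ℂ) u).toAddMonoidHom G l).symm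

omit [MetricSpace M] in
theorem deg_dl (hv : VT1) {T : Module.End ℂ S} {l : List M} {γ : List M → S}
    (h : ∀ l' : List M, l'.length + 1 = l.length → T (γ l') = γ l') : T (dl γ l) = dl γ l :=
  (map_dl hv T γ l).trans (dl_congr hv h)

/-- local homotopy operators, from the scale `ε` to the scale `η` -/
structure Ho (E : LC M X) (ε η : ℝ) (P : M → Module.End ℂ S) (μ : M → S →ₗ[ℂ] ℂ) (C : ℝ) :
    Prop where
  pos : 0 < η
  le : η ≤ ε
  nn : 0 ≤ C
  deg : ∀ x i w, X.dg (i + 1) w = w → X.dg i (P x w) = P x w ∧ μ x w = 0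
  deg0 : ∀ x w, X.dg 0 w = w → P x w = 0
  bP : ∀ x u, E.nrm (P x u) ≤ C * E.nrm u
  bμ : ∀ x u, ‖μ x u‖ ≤ C * E.nrm u
  key : ∀ x l w, X.d w ∈ VN E ε (x :: l) → X.d (P x w) - w + μ x w • E.one ∈ VN E η (x :: l)

theorem exists_ho (h : E.OK) {ε : ℝ} (hε : 0 < ε) : ∃ η P μ C, Ho E ε η P μ C := by
  obtain ⟨δ, hδ, P, μ, C, h0, h1, h2, h3, h4, h5, h6⟩ := h.po (ε / 2) (by positivity)
  refine ⟨min δ (ε / 4), P, μ, C, by positivity, (min_le_right _ _).trans (by linarith), h0,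
    fun x i w e => ⟨(LinearMap.congr_fun (h3 x i) w).trans (congrArg (P x) e), ?_⟩,
    fun x w e => ?_, h5, h6, fun x l w a z hz => ?_⟩
  · have k := LinearMap.congr_fun (h.cx.dg_mul 0 (i + 1)) w
    rw [if_neg (by omega), Module.End.mul_apply, e, LinearMap.zero_apply] at k
    rw [← h4, k, map_zero]
  · have k : P x * X.dg 0 = 0 := by
      rw [← one_mul (P x), ← h.cx.dg_sum, Finset.sum_mul, Finset.sum_mul]
      refine Finset.sum_eq_zero fun i _ => ?_
      rw [h3, mul_assoc, h.cx.dg_mul, if_neg (by omega), mul_zero]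
    rw [← e]
    exact LinearMap.congr_fun k _
  · have k := h2 x w z ((hz x List.mem_cons_self).trans_le (min_le_left _ _))
    rwa [(h1 x (X.d w) fun y hy => a y fun x' hx' => ?_).1, add_zero] at k
    have b1 := (hz x' hx').trans_le (min_le_right _ _)
    have b2 := (hz x List.mem_cons_self).trans_le (min_le_right _ _)
    have b3 := dist_triangle4 x' z x y
    rw [dist_comm] at b2
    linarith

/-- the operators of the zigzag, up to the length `j` -/
structure Up (E : LC M X) (m j : ℕ) (ε C : ℝ) (G : List M → Module.End ℂ S) : Prop where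
  pos : 0 < ε
  nn : 0 ≤ C
  nil : G [] = 1
  bd : ∀ l u, l.length ≤ j → E.nrm (G l u) ≤ C * E.nrm u
  deg : ∀ l i u, X.Cl m u → l.length ≤ j → l.length + i = m → X.dg i (G l u) = G l u
  mid : ∀ l u, X.Cl m u → l.length ≤ j → X.d (G l u) - dl G l u ∈ VN E ε l

variable {m j : ℕ} {ε C : ℝ} {G : List M → Module.End ℂ S}

theorem Up.dl (hv : VT1) (h : E.OK) (H : Up E m j ε C G) {l : List M} (hl : l.length = j + 1)
    (u : S) : E.nrm (dl G l u) ≤ (j + 1) * C * E.nrm u ∧ (X.Cl m u →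
      (∀ i, j + i = m → X.dg i (dl G l u) = dl G l u) ∧ X.d (dl G l u) ∈ VN E ε l) := by
  rw [dl_app hv]
  refine ⟨?_, fun hu => ⟨fun i hi => deg_dl hv fun l' e => H.deg l' i u hu (by omega) (by omega),
    ?_⟩⟩
  · have k := hv.nrm E.nrm (fun l => G l u) l (C * E.nrm u) (nrm_zero h) (fun a b => by
      simpa [sub_eq_add_neg, show E.nrm (-b) = E.nrm b by simpa using h.smul (-1) b]
        using h.tri a (-b)) fun l' _ e => H.bd l' u (by omega)
    rwa [hl, Nat.cast_succ, ← mul_assoc] at k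
  · rw [map_dl hv, ← sub_zero (Hg.dl _ _), ← hv.dldl (fun l => G l u) l, ← dl_sub hv]
    exact vn_dl hv fun l' e => dl_app hv G l' u ▸ H.mid l' u hu (by omega)

theorem Up.succ (hv : VT1) (h : E.OK) (H : Up E m j ε C G) (hj : j < m) :
    ∃ η C' G', Up E m (j + 1) η C' G' := by
  obtain ⟨η, P, μ, C', K⟩ := exists_ho h H.pos
  let G' : List M → Module.End ℂ S := fun l => match l with
    | [] => G []
    | x :: l => if l.length = j then P x * Hg.dl G (x :: l) else G (x :: l)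
  have e1 : ∀ l, l.length ≤ j → G' l = G l := by
    rintro (_ | ⟨x, l⟩) hl
    · rfl
    · exact if_neg (by rw [List.length_cons] at hl; omega)
  have e2 : ∀ x l, (x :: l).length = j + 1 → G' (x :: l) = P x * Hg.dl G (x :: l) :=
    fun x l hl => if_pos (Nat.succ_injective hl)
  have e3 : ∀ l, l.length ≤ j + 1 → Hg.dl G' l = Hg.dl G l := fun l hl =>
    dl_congr hv fun l' e => e1 l' (by omega)
  have cs : ∀ l : List M, l.length ≤ j + 1 →
      l.length ≤ j ∨ ∃ x l', (x :: l').length = j + 1 ∧ l = x :: l' := by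
    rintro (_ | ⟨x, l⟩) hl
    · exact .inl (Nat.zero_le _)
    · exact hl.lt_or_eq.imp Nat.le_of_lt_succ fun c => ⟨x, l, c, rfl⟩
  have h0 : 0 ≤ C' * ((j + 1) * C) := mul_nonneg K.nn (mul_nonneg (by positivity) H.nn)
  refine ⟨η, C + C' * ((j + 1) * C), G', K.pos, add_nonneg H.nn h0, H.nil, fun l u hl => ?_,
    fun l i u hu hl hi => ?_, fun l u hu hl => ?_⟩
  · rw [add_mul]
    obtain c | ⟨x, l, c, rfl⟩ := cs l hl
    · exact e1 l c ▸ (H.bd l u c).trans (le_add_of_nonneg_right (mul_nonneg h0 (h.nn u)))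
    · rw [e2 x l c, mul_assoc C']
      exact ((K.bP x _).trans (mul_le_mul_of_nonneg_left (H.dl hv h c u).1 K.nn)).trans
        (le_add_of_nonneg_left (mul_nonneg H.nn (h.nn u)))
  · obtain c | ⟨x, l, c, rfl⟩ := cs l hl
    · exact e1 l c ▸ H.deg l i u hu c hi
    · exact e2 x l c ▸ (K.deg x i _ (((H.dl hv h c u).2 hu).1 (i + 1) (by omega))).1
  · rw [e3 l hl]
    obtain c | ⟨x, l, c, rfl⟩ := cs l hl
    · exact e1 l c ▸ vn_mono K.le (H.mid l u hu c)
    · obtain ⟨i, hi⟩ := Nat.exists_eq_add_of_lt hj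
      have k := K.key x l _ ((H.dl hv h c u).2 hu).2
      rw [(K.deg x i _ (((H.dl hv h c u).2 hu).1 (i + 1) (by omega))).2, zero_smul, add_zero] at k
      exact e2 x l c ▸ k

theorem exists_up (hv : VT1) (h : E.OK) (m j : ℕ) (hj : j ≤ m) : ∃ ε C G, Up E m j ε C G := by
  induction j with
  | zero =>
    refine ⟨1, 1, fun _ => 1, one_pos, zero_le_one, rfl, fun _ _ _ => (one_mul _).ge,
      fun l i u hu a b => ?_, fun l u hu a => ?_⟩
    · rw [show i = m by omega]
      exact hu.2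
    · rw [List.length_eq_zero_iff.1 (Nat.le_zero.1 a)]
      exact sub_mem (hu.1.symm ▸ zero_mem _ : X.d u ∈ _) (zero_mem _)
  | succ j ih =>
    obtain ⟨ε, C, G, H⟩ := ih (by omega)
    exact H.succ hv h hj

theorem r1 (hv : VT1) (h : E.OK) (m : ℕ) : E.R1 m := by
  obtain ⟨ε, C, G, H⟩ := exists_up hv h m m le_rfl
  obtain ⟨η, P, μ, C', K⟩ := exists_ho h H.pos
  refine ⟨η, K.pos, fun l => match l with
    | [] => 0
    | x :: l => (μ x).comp (dl G (x :: l)), C' * ((m + 1) * C), ?_, fun u hu =>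
      ⟨fun l => G l u, LinearMap.congr_fun H.nil u, fun l j e => H.deg l j u hu (by omega) e,
        fun l e => dl_app hv G l u ▸ vn_mono K.le (H.mid l u hu e), ?_⟩⟩
  · rintro (_ | ⟨x, l⟩) u hl
    · exact absurd hl (by simp)
    · rw [mul_assoc C']
      exact (K.bμ x _).trans (mul_le_mul_of_nonneg_left (H.dl hv h hl u).1 K.nn)
  · rintro (_ | ⟨x, l⟩) hl
    · exact absurd hl (by simp)
    · have k := neg_mem (K.key x l _ ((H.dl hv h hl u).2 hu).2)
      rw [K.deg0 x _ (((H.dl hv h hl u).2 hu).1 0 rfl), map_zero, zero_sub, neg_add_rev, neg_neg,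
        neg_add_eq_sub] at k
      exact dl_app hv G _ u ▸ k

theorem cob (hv : VT1) (h : E.OK) {η : ℝ} (hη : η ≤ ε) {γ c : List M → S} {a b : List M → ℂ}
    (hγ : E.Zz ε m γ a) (hb : b [] = 0)
    (hc : ∀ l, l.length = m → γ l - dl c l - b l • E.one ∈ VN E η l) : Cob η m a := by
  refine ⟨b, hb, fun l hl hs => sub_eq_zero.1 (vn_one h hs ?_)⟩
  have k := sub_mem (vn_dl hv (l := l) fun l' e => hc l' (by omega)) (vn_mono hη (hγ.fin l hl))
  rwa [dl_sub hv, dl_sub hv, hv.dldl, sub_zero, dl_one hv, sub_sub_sub_cancel_left,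
    ← sub_smul] at k

theorem closed (hv : VT1) {η : ℝ} (hη : η ≤ ε) {γ c c' : List M → S} {a : List M → ℂ}
    (hγ : E.Zz ε m γ a) {l : List M} (hl : l.length ≤ m)
    (hc : ∀ l' : List M, l'.length + 1 = l.length → γ l' - X.d (c l') - dl c' l' ∈ VN E η l') :
    X.d (γ l - dl c l) ∈ VN E η l := by
  have k := add_mem (vn_mono hη (hγ.mid l hl)) (vn_dl hv hc)
  rwa [dl_sub hv, dl_sub hv, hv.dldl, sub_zero, sub_add_sub_cancel, ← map_dl hv, ← map_sub] at k

theorem lev (hv : VT1) (h : E.OK) (hε : 0 < ε) (n j : ℕ) (hj : j ≤ n) :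
    ∃ η, 0 < η ∧ η ≤ ε ∧ ∀ β γ a, γ [] = X.d β → E.Zz ε (n + 1) γ a → ∃ c c' : List M → S,
      ∀ l, l.length = j → (∀ i, j + i = n → X.dg i (c l) = c l) ∧
        γ l - X.d (c l) - dl c' l ∈ VN E η l := by
  induction j with
  | zero =>
    refine ⟨ε, hε, le_rfl, fun β γ a e hγ => ⟨fun _ => X.dg n β, 0, fun l hl => ⟨fun i hi => ?_,
      ?_⟩⟩⟩
    · rw [show i = n by omega]
      exact LinearMap.congr_fun ((h.cx.dg_mul n n).trans (if_pos rfl)) β
    · have k : X.d (X.dg n β) = X.dg (n + 1) (X.d β) := (LinearMap.congr_fun (h.cx.dg_d n) β).symm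
      rw [List.length_eq_zero_iff.1 hl, k, ← e, hγ.deg [] _ (zero_add _), sub_self]
      exact sub_mem (zero_mem _) (zero_mem _)
  | succ j ih =>
    obtain ⟨η, h1, h2, h3⟩ := ih (by omega)
    obtain ⟨η', P, μ, C', K⟩ := exists_ho h h1
    refine ⟨η', K.pos, K.le.trans h2, fun β γ a e hγ => ?_⟩
    obtain ⟨c, c', hc⟩ := h3 β γ a e hγ
    refine ⟨fun l => match l with
      | [] => 0
      | x :: l => P x (γ (x :: l) - dl c (x :: l)), c, ?_⟩
    rintro (_ | ⟨x, l⟩) hl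
    · exact absurd hl (by simp)
    have k1 : ∀ i, j + 1 + i = n →
        X.dg (i + 1) (γ (x :: l) - dl c (x :: l)) = γ (x :: l) - dl c (x :: l) := fun i hi => by
      rw [map_sub, hγ.deg _ _ (by omega),
        deg_dl hv fun l' e => (hc l' (by omega)).1 (i + 1) (by omega)]
    obtain ⟨i, hi⟩ := Nat.exists_eq_add_of_le hj
    have k2 := neg_mem (K.key x l _ (closed hv h2 hγ (by omega) fun l' e => (hc l' (by omega)).2))
    rw [(K.deg x i _ (k1 i hi.symm)).2, zero_smul, add_zero, neg_sub, sub_right_comm] at k2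
    exact ⟨fun i hi => (K.deg x i _ (k1 i hi)).1, k2⟩

theorem u2 (hv : VT1) (h : E.OK) (m : ℕ) : E.U2 m := by
  intro ε hε
  rcases m with _ | n
  · refine ⟨ε, hε, fun β a ⟨γ, e, hγ⟩ => cob hv h le_rfl hγ (c := 0) (b := 0) rfl fun l hl => ?_⟩
    have k : X.dg 0 (X.d β) = 0 := LinearMap.congr_fun h.cx.dg0_d β
    rw [List.length_eq_zero_iff.1 hl, ← hγ.deg [] 0 rfl, e, k]
    exact sub_mem (sub_mem (zero_mem _) (zero_mem _)) (by simp)
  obtain ⟨η, h1, h2, h3⟩ := lev hv h hε n n le_rfl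
  obtain ⟨η', P, μ, C', K⟩ := exists_ho h h1
  refine ⟨η', K.pos, fun β a ⟨γ, e, hγ⟩ => ?_⟩
  obtain ⟨c, c', hc⟩ := h3 β γ a e hγ
  refine cob hv h (K.le.trans h2) hγ (c := c) (b := fun l => match l with
    | [] => 0
    | x :: l => μ x (γ (x :: l) - dl c (x :: l))) rfl ?_
  rintro (_ | ⟨x, l⟩) hl
  · exact absurd hl (by simp)
  have k1 : X.dg 0 (γ (x :: l) - dl c (x :: l)) = γ (x :: l) - dl c (x :: l) := by
    rw [map_sub, hγ.deg _ _ (by omega), deg_dl hv fun l' e => (hc l' (by omega)).1 0 rfl]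
  have k2 := neg_mem (K.key x l _ (closed hv h2 hγ hl.le fun l' e => (hc l' (by omega)).2))
  rwa [K.deg0 x _ k1, map_zero, zero_sub, neg_add_rev, neg_neg, neg_add_eq_sub] at k2

end Zr

/-- row ZR -/
theorem zr (hv : VT1) : ZR := fun _ _ _ _ _ _ _ _ h m => ⟨Zr.r1 hv h m, Zr.u2 hv h m⟩

end Vale.Agent.P281Z.Hg
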