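import Vale.Agent.P281Z.Hg.S5
import Vale.Agent.P281Z.Hg.Cm
import Vale.Agent.P281Z.Hg.Zr
import Vale.Agent.P281Z.Hg.Zi

/-!
# P281, Hodge block, row CL2: close maps and forms which are closed near the images
-/

open scoped Topology
open Filter

noncomputable section

namespace Vale.Agent.P281Z.Hg

namespace Cl2

open Zs Zr

variable {S : Type} [AddCommGroup S] [Module ℂ S] {D : ℕ} {X : Cx S D} {M : Type} [MetricSpace M]
  {E : LC M X}

/-- a zigzag over the lists with points in `A`, up to the length `j` -/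
structure Up (E : LC M X) (A : Set M) (m j : ℕ) (ε : ℝ) (γ : List M → S) : Prop where
  deg : ∀ l i, l.length ≤ j → l.length + i = m → X.dg i (γ l) = γ l
  mid : ∀ l l₁ : List M, l.Sublist l₁ → l₁ ≠ [] → (∀ x ∈ l₁, x ∈ A) → l.length ≤ j →
    X.d (γ l) - dl γ l ∈ VN E ε l₁

variable {A : Set M} {m j : ℕ} {ε : ℝ} {γ : List M → S}

theorem Up.dg (H : Up E A m j ε γ) {l : List M} (hl : l.length = j + 1) {i : ℕ} (hi : j + i = m) :
    X.dg i (dl γ l) = dl γ l := deg_dl vt1 fun l' e => H.deg l' i (by omega) (by omega)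

theorem Up.d (H : Up E A m j ε γ) {l : List M} (hl : l.length = j + 1) (hA : ∀ x ∈ l, x ∈ A) :
    X.d (dl γ l) ∈ VN E ε l := by
  rw [map_dl vt1, ← sub_zero (dl _ _), ← vt1.dldl γ l, ← dl_sub vt1]
  exact vt1.mem _ _ l fun l' a e =>
    H.mid l' l a (List.ne_nil_of_length_eq_add_one hl) hA (by omega)

theorem Up.succ {η C : ℝ} {P : M → Module.End ℂ S} {μ : M → S →ₗ[ℂ] ℂ} (K : Ho E ε η P μ C)
    (H : Up E A m j ε γ) (hj : j < m) : ∃ γ', γ' [] = γ [] ∧ Up E A m (j + 1) η γ' := by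
  let γ' : List M → S := fun l => match l with
    | [] => γ []
    | x :: l => if l.length = j then P x (dl γ (x :: l)) else γ (x :: l)
  have e1 : ∀ l, l.length ≤ j → γ' l = γ l := by
    rintro (_ | ⟨x, l⟩) hl
    · rfl
    · exact if_neg (by rw [List.length_cons] at hl; omega)
  have e2 : ∀ x l, (x :: l).length = j + 1 → γ' (x :: l) = P x (dl γ (x :: l)) :=
    fun x l hl => if_pos (Nat.succ_injective hl)
  have cs : ∀ l : List M, l.length ≤ j + 1 →
      l.length ≤ j ∨ ∃ x l', (x :: l').length = j + 1 ∧ l = x :: l' := by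
    rintro (_ | ⟨x, l⟩) hl
    · exact .inl (Nat.zero_le _)
    · exact hl.lt_or_eq.imp Nat.le_of_lt_succ fun c => ⟨x, l, c, rfl⟩
  refine ⟨γ', rfl, fun l i hl hi => ?_, fun l l₁ a b hA hl => ?_⟩
  · obtain c | ⟨x, l, c, rfl⟩ := cs l hl
    · exact e1 l c ▸ H.deg l i c hi
    · exact e2 x l c ▸ (K.deg x i _ (H.dg c (by omega))).1
  · rw [show dl γ' l = dl γ l from dl_congr vt1 fun l' e => e1 l' (by omega)]
    obtain c | ⟨x, l, c, rfl⟩ := cs l hl
    · exact e1 l c ▸ vn_mono K.le (H.mid l l₁ a b hA c)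
    · obtain ⟨i, hi⟩ := Nat.exists_eq_add_of_lt hj
      have k := K.key x l _ (H.d c fun y hy => hA y (a.subset hy))
      rw [(K.deg x i _ (H.dg c (by omega))).2, zero_smul, add_zero] at k
      exact e2 x l c ▸ fun z hz => k z (Ns_sub a hz)

theorem exists_up (h : E.OK) (m : ℕ) (hε : 0 < ε) (j : ℕ) (hj : j ≤ m) :
    ∃ η, 0 < η ∧ ∀ (A : Set M) u, X.dg m u = u → (∀ x ∈ A, ∀ y, dist x y < ε → X.d u ∈ E.Z y) →
      ∃ γ, γ [] = u ∧ Up E A m j η γ := by
  induction j with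
  | zero =>
    refine ⟨ε, hε, fun A u hu hA => ⟨fun _ => u, rfl, fun l i a b => ?_, fun l l₁ _ b c a => ?_⟩⟩
    · rwa [show i = m by omega]
    · obtain ⟨x, hx⟩ := List.exists_mem_of_ne_nil _ b
      rw [List.length_eq_zero_iff.1 (Nat.le_zero.1 a)]
      exact sub_mem (fun z hz => hA x (c x hx) z (hz x hx)) (zero_mem _)
  | succ j ih =>
    obtain ⟨η, h1, h2⟩ := ih (by omega)
    obtain ⟨η', P, μ, C, K⟩ := exists_ho h h1
    refine ⟨η', K.pos, fun A u hu hA => ?_⟩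
    obtain ⟨γ, rfl, H⟩ := h2 A u hu hA
    exact H.succ K hj

theorem exists_zz (h : E.OK) (m : ℕ) (hε : 0 < ε) :
    ∃ η, 0 < η ∧ ∀ (A : Set M) u, X.dg m u = u → (∀ x ∈ A, ∀ y, dist x y < ε → X.d u ∈ E.Z y) →
      ∃ (γ : List M → S) (a : List M → ℂ), γ [] = u ∧ Up E A m m η γ ∧
        ∀ l, l.length = m + 1 → (∀ x ∈ l, x ∈ A) → dl γ l - a l • E.one ∈ VN E η l := by
  obtain ⟨η, h1, h2⟩ := exists_up h m hε m le_rfl
  obtain ⟨η', P, μ, C, K⟩ := exists_ho h h1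
  refine ⟨η', K.pos, fun A u hu hA => ?_⟩
  obtain ⟨γ, e, H⟩ := h2 A u hu hA
  refine ⟨γ, fun l => match l with
    | [] => 0
    | x :: l => μ x (dl γ (x :: l)), e,
    ⟨H.deg, fun l l₁ a b c d => vn_mono K.le (H.mid l l₁ a b c d)⟩, ?_⟩
  rintro (_ | ⟨x, l⟩) hl hA
  · exact absurd hl (by simp)
  · have k := neg_mem (K.key x l _ (H.d hl hA))
    rwa [K.deg0 x _ (H.dg hl rfl), map_zero, zero_sub, neg_add_rev, neg_neg, neg_add_eq_sub] at k

theorem pull {S' : Type} [AddCommGroup S'] [Module ℂ S'] {D' : ℕ} {X' : Cx S' D'} {M' : Type}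
    [MetricSpace M'] {E' : LC M' X'} {f : M' → M} {T : S →ₗ[ℂ] S'} {η : ℝ} (h : E'.Mor E f T)
    (hε : 0 < ε) (hf : ∀ x y, dist x y < η → dist (f x) (f y) < ε)
    {a : List M → ℂ} (H : Up E A m m ε γ) (hA : ∀ x, f x ∈ A)
    (k : ∀ l, l.length = m + 1 → (∀ x ∈ l, x ∈ A) → dl γ l - a l • E.one ∈ VN E ε l) :
    E'.Zg η m (T (γ [])) fun l => a (l.map f) := by
  have h2 : ∀ l, dl (fun l : List M' => T (γ (l.map f))) l = T (dl γ (l.map f)) := fun l =>
    (vt1.map T.toAddMonoidHom _ l).trans (congrArg T (vt1.comap f γ l))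
  have h3 : ∀ {l : List M'} {z}, Nr η l z → Nr ε (l.map f) (f z) := fun hz =>
    List.forall_mem_map.2 fun x hx => hf _ _ (hz x hx)
  refine ⟨fun l => T (γ (l.map f)), rfl, fun l j e => ?_, fun l e z hz => ?_, fun l e z hz => ?_⟩
  · rw [← h.dg, H.deg _ j (by rw [List.length_map]; omega) (by rwa [List.length_map])]
  · rw [h2, ← h.d, ← map_sub]
    exact h.Z _ z (H.mid _ ((z :: l).map f) (List.sublist_cons_self _ _) (List.cons_ne_nil _ _)
      (List.forall_mem_map.2 fun x _ => hA x) (by rwa [List.length_map]) _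
      (List.forall_mem_cons.2 ⟨by rwa [dist_self], h3 hz⟩))
  · rw [h2, ← h.one, ← map_smul, ← map_sub]
    exact h.Z _ z (k _ (by rwa [List.length_map]) (List.forall_mem_map.2 fun x _ => hA x) _ (h3 hz))

end Cl2

open Cl2 Zs Zr CmH in
/-- row CL2 -/
theorem cl2 : CL2 := by
  intro S' _ _ D' X' M' _ E' m ok' ε0 h0
  obtain ⟨ε, hε, hz⟩ := exists_zz ok' m (half_pos h0)
  refine ⟨min (ε / 2) (ε0 / 2), by positivity,
    fun {S _ _ D X M _ _ E f g T T'} ok hf hg hd u hu hc => ?_⟩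
  obtain ⟨γ, a, rfl, H, k⟩ := hz {x | ∀ y, dist x y < ε0 / 2 → X'.d u ∈ E'.Z y} u hu fun _ hx => hx
  have a1 : ∀ x y, dist (f x) y < ε0 / 2 → X'.d (γ []) ∈ E'.Z y := fun x y e => hc x y (by
    linarith [dist_triangle_left (g x) y (f x), (hd x).trans_le (min_le_right _ _)])
  have a2 : ∀ x y, dist (g x) y < ε0 / 2 → X'.d (γ []) ∈ E'.Z y := fun x y e =>
    hc x y (e.trans (half_lt_self h0))
  obtain ⟨η, h1, h2⟩ := unif hf.cont hε
  obtain ⟨η', h3, h4⟩ := unif hg.cont (half_pos hε)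
  have h5 := fun x y (e : dist x y < min η η') => h2 x y (e.trans_le (min_le_left _ _))
  have h6 := fun x y (e : dist x y < min η η') => h4 x y (e.trans_le (min_le_right _ _))
  obtain ⟨b, b0, hb⟩ := vt1.prism g f a
  refine (zi' _ _ _ _ E ok m).2 _ _ _ (lt_min h1 h3) (zg_sub (Cl2.pull hf hε h5 H a1 k)
    (Cl2.pull hg hε (fun x y e => (h6 x y e).trans (half_lt_self hε)) H a2 k))
    ⟨b, b0, fun l e ⟨z, hz⟩ => hb l (List.ne_nil_of_length_eq_add_one e) fun l' k1 k2 =>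
      vn_one ok' (ε := ε) (l := l') ⟨f z, fun y hy => ?_⟩ ?_⟩
  · obtain ⟨x, hx, rfl | rfl⟩ := k2 y hy
    · linarith [dist_triangle_right (g x) (f z) (g z), h6 _ _ (hz x hx),
        (hd z).trans_le (min_le_left _ _)]
    · exact h5 _ _ (hz x hx)
  · have := vt1.mem (VN E' ε l') (fun l => dl γ l - a l • E'.one) l' fun l₀ c1 c2 w hw =>
      k l₀ (by omega) (fun y hy => by
        obtain ⟨x, -, rfl | rfl⟩ := k2 y (c1.subset hy)
        exacts [a2 x, a1 x]) w (Ns_sub c1 hw)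
    rwa [dl_sub vt1, vt1.dldl, zero_sub, neg_mem_iff, dl_one vt1] at this

end Vale.Agent.P281Z.Hg
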