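import Vale.Agent.P281Z.Hg.S5
import Vale.Agent.P272.K.INT.Part

/-!
# P281, Hodge block: cutting off a closed form (row CUT)
-/

open scoped Manifold ContDiff ComplexOrder Topology Matrix
open Filter Set
open Vale.Agent.P272.K Vale.Agent.P272.K.C2 Vale.Agent.P272.K.INT Vale.Agent.P299.IX
  Vale.Agent.P299.IX.Fock

noncomputable section

namespace Vale.Agent.P281Z.Hg

/-- row CUT -/
theorem cut {p d : ℕ} {X Y : Type} [TopologicalSpace X] [ChartedSpace (Cm (p + d)) X]
    [TopologicalSpace Y] [ChartedSpace (Cm p) Y] [T2Space X] [CompactSpace X]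
    [IsManifold 𝓘(ℂ, Cm (p + d)) ω X] [T2Space Y] (hk : K1a) (g1 : G1 (p + d) X) :
    CUT p d X Y := by
  intro f V Γ t Xt hf hX hV ht hΓ
  have := isManifold_real (p + d) X
  obtain ⟨ρ, h0, h1, -⟩ := exists_contMDiffMap_zero_one_nhds_of_isClosed 𝓘(ℝ, Cm (p + d)) (n := ⊤)
    (hV.preimage hf).isClosed_compl (isClosed_singleton (x := t).preimage hf)
    (disjoint_left.2 fun x h (h' : f x = t) => h (show f x ∈ V from h' ▸ ht))
  have hρ : SmoothFn (n := p + d) ρ := smoothFn_of_contMDiff ρ.contMDiff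
  have h2 : ∀ x, f x ∉ V → ∀ᶠ y in 𝓝 x, ρ y = 0 := fun x hx =>
    h0.filter_mono (nhds_le_nhdsSet hx)
  obtain ⟨G, hG⟩ := g1.mkf (fun e z => (ρ (e.symm z) : ℂ) • Γ e z) (fun e x he => by
      by_cases hx : f x ∈ V
      · exact (Complex.ofRealCLM.contDiff.contDiffAt.comp _ (hρ e x he)).smul (hΓ.sm e x he hx)
      · refine (contDiffAt_const (c := 0)).congr_of_eventuallyEq ?_
        filter_upwards [(e.tendsto_symm he.2).eventually (h2 x hx)] with z hz
        rw [hz, Complex.ofReal_zero, zero_smul])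
    fun e e' x he he' => by
      rw [e.left_inv he.2, e'.left_inv he'.2, Matrix.mulVec_smul]
      by_cases hx : f x ∈ V
      · rw [hΓ.ch e e' x he he' hx]
      · rw [(h2 x hx).self_of_nhds, Complex.ofReal_zero, zero_smul, zero_smul]
  have h3 : ∀ e x, At e x → f x ∉ f '' (interior {y | ρ y = 1})ᶜ → vl G e =ᶠ[𝓝 (e x)] Γ e := by
    intro e x he hx
    filter_upwards [hG e x he, (e.tendsto_symm he.2).eventually (mem_interior_iff_mem_nhds.1
      (of_not_not fun h => hx (mem_image_of_mem f h)))] with z k1 (k2 : ρ _ = 1)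
    rw [k1, k2, Complex.ofReal_one, one_smul]
  refine ⟨G, V \ f '' (interior {y | ρ y = 1})ᶜ,
    hV.sdiff (hf.isClosedMap _ isOpen_interior.isClosed_compl), ⟨ht, ?_⟩, sdiff_subset,
    fun e x he hx => (h3 e x he hx.2).self_of_nhds, g1.ext _ _ fun x => ?_, fun x hx e he => ?_⟩
  · rintro ⟨x, hx, h⟩
    exact hx (mem_interior_iff_mem_nhds.2 (h1.filter_mono (nhds_le_nhdsSet (s := f ⁻¹' {t}) h)))
  · have he : At (chartAt (Cm (p + d)) x) x := ⟨chart_mem_atlas _ _, mem_chart_source _ _⟩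
    refine ⟨_, he, ?_⟩
    rw [hX.dg d G _ x he, (hG _ x he).self_of_nhds]
    simp only [Matrix.mulVec_smul, (chartAt _ x).left_inv he.2]
    by_cases hx : f x ∈ V
    · rw [hΓ.deg _ x he hx]
    · rw [(h2 x hx).self_of_nhds, Complex.ofReal_zero, zero_smul, zero_smul]
  · rw [hX.d G e x he, hk.congr (h3 e x he hx.2), hΓ.cl e x he hx.1]

end Vale.Agent.P281Z.Hg
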