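import Vale.Agent.P281Z.Hg.Trf
import Vale.Agent.P299.H954.Holo

/-!
# P281, Hodge block: holomorphic forms of top degree on a fibre (row TOPF)
-/

open scoped Manifold ContDiff ComplexOrder Topology Matrix
open Filter MeasureTheory
open Vale.Agent.P272.K Vale.Agent.P272.K.C2 Vale.Agent.P272.K.INT Vale.Agent.P299.IX
  Vale.Agent.P299.IX.Fock

noncomputable section

namespace Vale.Agent.P281Z.Hg

namespace Mdp

variable {p d : ℕ} {X Y : Type} [TopologicalSpace X] [ChartedSpace (Cm (p + d)) X]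
  [TopologicalSpace Y] [ChartedSpace (Cm p) Y] {f : X → Y} {y : Y}

theorem jac_sl (B : Fib p d f y) {q q' : PC p d X Y} {e e' : Chart d B.F} (hq : IsPC f q)
    (hs : Sl y B.j q e) (hs' : Sl y B.j q' e') {x : B.F} (hx : x ∈ e.source)
    (hx' : x ∈ e'.source) : (jacM e e' x).det = fdet q q' (B.j x) := by
  rw [fdet, (q_j B hq hs hx).2]
  refine congrArg Matrix.det (Matrix.ext fun a i => dz_congr i ?_)
  filter_upwards [e.open_target.mem_nhds (e.map_source hx),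
    (tend_symm e hx).eventually (e'.open_source.mem_nhds hx')] with z k1 k2
  rw [hs'.val _ k2, j_symm B hq hs k1]

theorem lam_jt (hb : F1b) (B : Fib p d f y) (g1 : G1 d B.F) {q q' : PC p d X Y}
    {e e' : Chart d B.F} (hq : IsPC f q) (hs : Sl y B.j q e) (hs' : Sl y B.j q' e') {x : B.F}
    (hx : At e x) (hx' : At e' x) (c : ℂ) :
    lam (jt e e' x) *ᵥ (c • ev (Hd d)) = (fdet q q' (B.j x) * c) • ev (Hd d) := by
  rw [g1.jt_eq e e' x hx hx', Matrix.mulVec_smul, hb.blk_Hd, Matrix.det_transpose,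
    jac_sl B hq hs hs' hx.2 hx'.2, smul_smul, mul_comm]

theorem ev_self {n : ℕ} (I : FI n) : ev I I = 1 := Pi.single_eq_same _ _

theorem dT_top (hk : K1a) {g : Cm d → ℂ} {u : Cm d → Fo d} {z : Cm d}
    (hg : DifferentiableAt ℝ g z) (hu : u =ᶠ[𝓝 z] fun z' => g z' • ev (Hd d)) :
    dT u z = epsV (fun c => dr c g z) *ᵥ ev (Hd d) := by
  rw [hk.congr hu, hk.fun_mul hg (differentiableAt_const _), hk.const, smul_zero, add_zero]

theorem epsV_Hd (hb : F1b) {v : Fin (d + d) → ℂ} :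
    epsV v *ᵥ ev (Hd d) = 0 ↔ ∀ j, v (ah j) = 0 := by
  refine ⟨fun h j => ?_, fun h => ?_⟩
  · have h1 := congrArg (fun A : Fm d => (A *ᵥ ev (Hd d)) (Hd d)) (iot_epsV (ah j) v)
    simp only [Matrix.add_mulVec, ← Matrix.mulVec_mulVec, h, hb.iot_Hd, Matrix.mulVec_zero,
      Matrix.smul_mulVec, Matrix.one_mulVec, add_zero, Pi.zero_apply, Pi.smul_apply, ev_self,
      smul_eq_mul, mul_one] at h1
    exact h1.symm
  · rw [epsV, Matrix.sum_mulVec, Fin.sum_univ_add, Finset.sum_eq_zero, Finset.sum_eq_zero, add_zero]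
    · intro j _
      rw [Matrix.smul_mulVec, show v (Fin.natAdd d j) = 0 from h j, zero_smul]
    · intro j _
      rw [Matrix.smul_mulVec, show eps (Fin.castAdd d j) *ᵥ ev (Hd d) = 0 from hb.eps_Hd j,
        smul_zero]

theorem ev_at {M : Type} [TopologicalSpace M] [ChartedSpace (Cm d) M] {e : Chart d M} {x : M}
    (hx : At e x) {Q : Cm d → Prop} (h : ∀ x', At e x' → Q (e x')) : ∀ᶠ z in 𝓝 (e x), Q z := by
  filter_upwards [e.open_target.mem_nhds (e.map_source hx.2)] with z hz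
  have h1 := h (e.symm z) ⟨hx.1, e.map_target hz⟩
  rwa [e.right_inv hz] at h1

theorem pt_of {q : PC p d X Y} (hq : IsPC f q) {x : X} (hx : x ∈ q.2.source)
    (hy : f x = y) : y ∈ q.1.source ∧ q.2 x = (q.1 y, (q.2 x).2) := by
  obtain ⟨h1, h2⟩ := hq.2.fst x hx
  rw [hy] at h1 h2
  exact ⟨h1, Prod.ext h2 rfl⟩

end Mdp

open Mdp

variable (p d : ℕ) (X Y : Type) [TopologicalSpace X] [ChartedSpace (Cm (p + d)) X]
  [TopologicalSpace Y] [ChartedSpace (Cm p) Y]

/-- row TOPF -/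
theorem topf (hb : F1b) (hf : F2b) (hk : K1a)
    (hg1 : ∀ (M : Type) [TopologicalSpace M] [ChartedSpace (Cm d) M] [T2Space M] [CompactSpace M]
      [IsManifold 𝓘(ℂ, Cm d) ω M], G1 d M)
    (hg4 : ∀ (M : Type) [TopologicalSpace M] [ChartedSpace (Cm d) M] [T2Space M] [CompactSpace M]
      [IsManifold 𝓘(ℂ, Cm d) ω M], G4 d M) : TOPF p d X Y := by
  intro w f y B n P _
  have g1 := hg1 B.F
  have han : ∀ {σ : PC p d X Y → Cm d → ℂ}, FibHol f y σ → ∀ {q : PC p d X Y} {e : Chart d B.F}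
      {x}, IsPC f q → Sl y B.j q e → x ∈ e.source →
      AnalyticAt ℂ (σ q) (e x) := by
    intro σ hσ q e x hq hs hx
    rw [hs.val x hx]
    exact hσ.hol q _ hq (q_j B hq hs hx).1 (fj B x)
  have hch : ∀ {σ : PC p d X Y → Cm d → ℂ}, FibHol f y σ → ∀ {q q' : PC p d X Y}
      {e e' : Chart d B.F} {x}, IsPC f q → IsPC f q' → Sl y B.j q e →
      Sl y B.j q' e' → At e x → At e' x →
      σ q (e x) • ev (Hd d) = lam (jt e e' x) *ᵥ (σ q' (e' x) • ev (Hd d)) := by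
    intro σ hσ q q' e e' x hq hq' hs hs' hx hx'
    rw [lam_jt hb B g1 hq hs hs' hx hx', hs.val x hx.2, hs'.val x hx'.2,
      hσ.ch q q' _ hq hq' (q_j B hq hs hx.2).1 (q_j B hq' hs' hx'.2).1 (fj B x)]
  refine ⟨fun σ hσ => ?_, fun σ u u' hu hu' => ?_, fun σ σ' u u' c hu hu' q e x hq hx hs => ?_,
    fun σ σ' c hσ hσ' => ⟨fun q x hq hx hy => ?_, fun q q' x hq hq' hx hx' hy => ?_⟩,
    fun σ u hσ hu => ?_, fun u hd ht => ?_, fun σ σ' u u' _ _ hu hu' N q ρ hq hy hρ hsp hs1 => ?_,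
    fun V s hV hs => ⟨fun q x hq hx hy => ?_, fun q q' x hq hq' hx hx' hy => ?_⟩⟩
  · have h1 : ∀ e : Chart d B.F, ∃ g : Cm d → ℂ, e ∈ atlas (Cm d) B.F →
        ∃ q, IsPC f q ∧ Sl y B.j q e ∧ g = σ q := by
      intro e
      by_cases he : e ∈ atlas (Cm d) B.F
      · obtain ⟨q, hq, hs⟩ := B.ch1 e he
        exact ⟨σ q, fun _ => ⟨q, hq, hs, rfl⟩⟩
      · exact ⟨0, fun h => (he h).elim⟩
    choose g hg using h1
    obtain ⟨v, hv⟩ := g1.mkf (fun e z => g e z • ev (Hd d)) (fun e x hx => by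
      obtain ⟨q, hq, hs, h2⟩ := hg e hx.1
      rw [h2]
      exact (P299.H954.contDiffAt_of_analyticAt (han hσ hq hs hx.2)).smul_const _)
      (fun e e' x hx hx' => by
        obtain ⟨q, hq, hs, h2⟩ := hg e hx.1
        obtain ⟨q', hq', hs', h2'⟩ := hg e' hx'.1
        rw [h2, h2']
        exact hch hσ hq hq' hs hs' hx hx')
    refine ⟨v, fun q e x hq hx hs => ?_⟩
    obtain ⟨q', hq', hs', h2'⟩ := hg e hx.1
    rw [(vl_isF v).ch e e x hx hx, (hv e x hx).self_of_nhds, h2']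
    exact (hch hσ hq hq' hs hs' hx hx).symm
  · refine g1.ext u u' fun x => ?_
    obtain ⟨e, he⟩ := ex_at (n := d) x
    obtain ⟨q, hq, hs⟩ := B.ch1 e he.1
    exact ⟨e, he, by rw [hu q e x hq he hs, hu' q e x hq he hs]⟩
  · rw [vl_add, vl_smul, hu q e x hq hx hs, hu' q e x hq hx hs, smul_smul, ← add_smul]
    rfl
  · exact (hσ.hol q x hq hx hy).add ((hσ'.hol q x hq hx hy).const_smul (c := c))
  · show σ q _ + c * σ' q _ = _ * (σ q' _ + c * σ' q' _)
    rw [hσ.ch q q' x hq hq' hx hx' hy, hσ'.ch q q' x hq hq' hx hx' hy]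
    ring
  · have h1 : ∀ x, ∃ (e : Chart d B.F) (q : PC p d X Y), At e x ∧ IsPC f q ∧ Sl y B.j q e := by
      intro x
      obtain ⟨e, he⟩ := ex_at (n := d) x
      obtain ⟨q, hq, hs⟩ := B.ch1 e he.1
      exact ⟨e, q, he, hq, hs⟩
    have h2 : ∀ (e : Chart d B.F) (q : PC p d X Y) x, At e x → IsPC f q → Sl y B.j q e →
        pm d d *ᵥ vl u e (e x) = vl u e (e x) ∧ dg d *ᵥ vl u e (e x) = vl u e (e x) := by
      intro e q x he hq hs
      rw [hb.top, hu q e x hq he hs, Pi.smul_apply, ev_self, smul_eq_mul, mul_one]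
    refine ⟨g1.ext _ _ fun x => ?_, g1.ext _ _ fun x => ?_, g1.ext _ _ fun x => ?_⟩
    · obtain ⟨e, q, he, hq, hs⟩ := h1 x
      have h3 := (han hσ hq hs he.2).differentiableAt
      refine ⟨e, he, ?_⟩
      rw [P.rx.d u e x he, dT_top hk (h3.restrictScalars ℝ)
        (ev_at he fun x' hx' => hu q e x' hq hx' hs), vl_zero, epsV_Hd hb]
      intro j
      rw [hk.dr_ah]
      exact dzb_of_holo h3 j
    · obtain ⟨e, q, he, hq, hs⟩ := h1 x
      exact ⟨e, he, by rw [P.rk.pr d u e x he, (h2 e q x he hq hs).1]⟩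
    · obtain ⟨e, q, he, hq, hs⟩ := h1 x
      exact ⟨e, he, by rw [P.rx.dg d u e x he, (h2 e q x he hq hs).2]⟩
  · have h1 : ∀ q : PC p d X Y, ∃ g : Cm d → ℂ, IsPC f q → y ∈ q.1.source →
        ∃ e ∈ atlas (Cm d) B.F, Sl y B.j q e ∧ g = fun z => vl u e z (Hd d) := by
      intro q
      by_cases H : IsPC f q ∧ y ∈ q.1.source
      · obtain ⟨e, he, hs⟩ := B.ch2 q H.1 H.2
        exact ⟨_, fun _ _ => ⟨e, he, hs, rfl⟩⟩
      · exact ⟨0, fun k1 k2 => (H ⟨k1, k2⟩).elim⟩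
    choose σ hσ using h1
    have h2 : ∀ e x, At e x → vl u e (e x) = vl u e (e x) (Hd d) • ev (Hd d) := by
      intro e x he
      rw [← hb.top, ← P.rk.pr d u e x he, ← P.rx.dg d u e x he, ht.1, ht.2]
      exact ⟨rfl, rfl⟩
    have h3 : ∀ e x, At e x → DifferentiableAt ℝ (fun z => vl u e z (Hd d)) (e x) := fun e x he =>
      differentiableAt_pi.1 (((vl_isF u).sm e x he).differentiableAt (by simp)) _
    have h4 : ∀ (q : PC p d X Y) x, IsPC f q → x ∈ q.2.source → ∀ m, B.j m = x →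
        ∃ e : Chart d B.F, At e m ∧ Sl y B.j q e ∧
        (q.2 x).2 = e m ∧ σ q = fun z => vl u e z (Hd d) := by
      intro q x hq hx m hm
      obtain ⟨e, he, hs, h5⟩ := hσ q hq (pt_of hq hx (by rw [← hm, fj B])).1
      have h6 : m ∈ e.source := sl_mem B hs (by rw [hm]; exact hx)
      exact ⟨e, ⟨he, h6⟩, hs, by rw [hs.val m h6, hm], h5⟩
    refine ⟨σ, ⟨fun q x hq hx hy => ?_, fun q q' x hq hq' hx hx' hy => ?_⟩,
      fun q e x hq he hs => ?_⟩
    · obtain ⟨m, hm⟩ := ex_j B hy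
      obtain ⟨e, he, -, h5, h6⟩ := h4 q x hq hx m hm
      rw [h5, h6]
      refine P299.H954.analyticAt_of_dzb (ev_at he fun x' hx' => ⟨h3 e x' hx', fun l => ?_⟩)
      have h7 := P.rx.d u e x' hx'
      rw [hd, vl_zero, dT_top hk (h3 e x' hx') (ev_at hx' (h2 e))] at h7
      have h8 := (epsV_Hd hb).1 h7.symm l
      rwa [hk.dr_ah] at h8
    · obtain ⟨m, hm⟩ := ex_j B hy
      obtain ⟨e, he, hs, h5, h6⟩ := h4 q x hq hx m hm
      obtain ⟨e', he', hs', h5', h6'⟩ := h4 q' x hq' hx' m hm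
      rw [h5, h6, h5', h6']
      show vl u e (e m) (Hd d) = _ * vl u e' (e' m) (Hd d)
      rw [(vl_isF u).ch e e' m he he', h2 e' m he', lam_jt hb B g1 hq hs hs' he he', hm]
      simp only [Pi.smul_apply, ev_self, smul_eq_mul, mul_one]
    · obtain ⟨e', he', hs', h5, h6⟩ := h4 q _ hq (q_j B hq hs he.2).1 x rfl
      have h7 : σ q (e x) = vl u e' (e' x) (Hd d) := by rw [hs.val x he.2, h5, h6]
      have h8 := h2 e' x he'
      rw [h7, (vl_isF u).ch e e' x he he', ← h8]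
      generalize vl u e' (e' x) (Hd d) = c at h8
      have h9 := (vl_isF u).ch e' e' x he' he'
      rw [h8, lam_jt hb B g1 hq hs' hs' he' he'] at h9
      rw [h8, lam_jt hb B g1 hq hs hs' he he', ← h9]
  · choose e he hs using fun i => B.ch2 (q i) (hq i) (hy i)
    obtain ⟨k1, k2, -⟩ := hg4 B.F P.Xc P.wF P.K P.rx P.kah P.rk
    rw [k1, g1.itg_eq _ (k2 u u').1 (k2 u u').2 N e (fun i m => ρ i (B.j m)) he
      (fun i => (hρ i).comp B.emb.continuous) (fun i m hm => sl_mem B (hs i) (hsp i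
        (B.emb.continuous.closure_preimage_subset (Function.support (ρ i)) hm)))
      (fun m => hs1 _ (fj B m))]
    refine Finset.sum_congr rfl fun i _ => ?_
    rw [← (hs i).tgt]
    refine setIntegral_congr_fun (e i).open_target.measurableSet fun z hz => ?_
    have h1 : At (e i) ((e i).symm z) := ⟨he i, (e i).map_target hz⟩
    have h2 := hu (q i) (e i) _ (hq i) h1 (hs i)
    have h3 := hu' (q i) (e i) _ (hq i) h1 (hs i)
    have h4 := hf.G_Hd _ ((Matrix.isUnit_iff_isUnit_det _).1 (P.kah.posDef (e i) _ h1).isUnit)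
    rw [(e i).right_inv hz] at h2 h3 h4
    show (ρ i _ : ℂ) * (star (σ (q i) z) * σ' (q i) z) = (ρ i _ : ℂ) * (star (vl u (e i) z) ⬝ᵥ
      (Gm (P.wF (e i) z) *ᵥ vl u' (e i) z))
    rw [j_symm B (hq i) (hs i) hz, h2, h3, star_smul, smul_dotProduct, Matrix.mulVec_smul,
      dotProduct_smul, ev, Pi.star_single, star_one, single_one_dotProduct, ← ev, mulVec_ev, h4,
      smul_eq_mul, smul_eq_mul, mul_one]
  · have h1 := hs.hol q x hq hx (by rw [hy]; exact hV)
    rw [(pt_of hq hx hy).2] at h1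
    exact AnalyticAt.comp (g := s q) (f := fun z : Cm d => (q.1 y, z)) h1
      (analyticAt_const.prod analyticAt_id)
  · show s q (q.1 y, _) = _ * s q' (q'.1 y, _)
    rw [← (pt_of hq hx hy).2, ← (pt_of hq' hx' hy).2]
    exact hs.ch q q' x hq hq' hx hx' (by rw [hy]; exact hV)

end Vale.Agent.P281Z.Hg
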