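import Vale.Agent.P281Z.Hg.S5
import Vale.Agent.P281Z.Hg.Topf

/-!
# P281, Hodge block: smooth forms on a fibre (row FF)
-/

open scoped Manifold ContDiff ComplexOrder Topology Matrix
open Filter MeasureTheory
open Vale.Agent.P272.K Vale.Agent.P272.K.C2 Vale.Agent.P272.K.INT Vale.Agent.P299.IX
  Vale.Agent.P299.IX.Fock

noncomputable section

namespace Vale.Agent.P281Z.Hg

open Mdp

namespace Ffp

variable {p d : ℕ} {X Y : Type} [TopologicalSpace X] [ChartedSpace (Cm (p + d)) X]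
  [TopologicalSpace Y] [ChartedSpace (Cm p) Y] {f : X → Y} {y : Y}

theorem jt_sl (k1 : K1b) (B : Fib p d f y) {q q' : PC p d X Y} {e e' : Chart d B.F}
    (hq : IsPC f q) (hs : Sl y B.j q e) (hs' : Sl y B.j q' e') {x : B.F} (hx : x ∈ e.source)
    (hx' : x ∈ e'.source) : jt e e' x =
      jc (fun z => (q'.2 (q.2.symm ((q.2 (B.j x)).1, z))).2) (q.2 (B.j x)).2 := by
  rw [jt, (q_j B hq hs hx).2]
  refine k1.jc_congr ?_
  filter_upwards [e.open_target.mem_nhds (e.map_source hx),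
    (tend_symm e hx).eventually (e'.open_source.mem_nhds hx')] with z h1 h2
  rw [hs'.val _ h2, j_symm B hq hs h1]

theorem up (B : Fib p d f y) (x : B.F) :
    ∃ (e : Chart d B.F) (q : PC p d X Y), At e x ∧ IsPC f q ∧ Sl y B.j q e := by
  obtain ⟨e, he⟩ := ex_at (n := d) x
  obtain ⟨q, hq, hs⟩ := B.ch1 e he.1
  exact ⟨e, q, he, hq, hs⟩

theorem down (B : Fib p d f y) {q : PC p d X Y} (hq : IsPC f q) {m : B.F}
    (hm : B.j m ∈ q.2.source) :
    ∃ e : Chart d B.F, At e m ∧ Sl y B.j q e ∧ (q.2 (B.j m)).2 = e m := by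
  obtain ⟨e, he, hs⟩ := B.ch2 q hq (pt_of hq hm (fj B m)).1
  exact ⟨e, ⟨he, sl_mem B hs hm⟩, hs, (hs.val m (sl_mem B hs hm)).symm⟩

theorem near {B : Fib p d f y} {γ : PC p d X Y → Cm d → Fo d} {u : SF d B.F} (hu : B.IsF γ u)
    {q : PC p d X Y} {e : Chart d B.F} {x : B.F} (hq : IsPC f q) (he : At e x)
    (hs : Sl y B.j q e) : vl u e =ᶠ[𝓝 (e x)] γ q :=
  ev_at he fun x' hx' => hu q e x' hq hx' hs

theorem jc_j (k1 : K1b) (B : Fib p d f y) {q : PC p d X Y} {e : Chart d B.F} (hq : IsPC f q)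
    (hs : Sl y B.j q e) {x : B.F} (hx : x ∈ e.source) (c : Chart (p + d) X) :
    jc (fun z => c (B.j (e.symm z))) (e x) = jc (fun z => c (q.2.symm (q.1 y, z))) (e x) := by
  refine k1.jc_congr ?_
  filter_upwards [e.open_target.mem_nhds (e.map_source hx)] with z hz
  rw [j_symm B hq hs hz]

theorem top_c (hb : F1b) (c : ℂ) :
    pm d d *ᵥ (c • ev (Hd d)) = c • ev (Hd d) ∧ dg d *ᵥ (c • ev (Hd d)) = c • ev (Hd d) := by
  rw [hb.top, Pi.smul_apply, ev_self, smul_eq_mul, mul_one]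

theorem pm_top (hb : F1b) {v : Fo d} (hv : dg d *ᵥ v = v) :
    pm d d *ᵥ v = v (Hd d) • ev (Hd d) := by
  have h1 : pm d d *ᵥ v = (pm d d *ᵥ v) (Hd d) • ev (Hd d) := by
    rw [← hb.top, Matrix.mulVec_mulVec, Matrix.mulVec_mulVec, hb.pm_mul, if_pos rfl, ← hb.pm_dg,
      ← Matrix.mulVec_mulVec, hv]
    exact ⟨rfl, rfl⟩
  have h2 := congrFun (top_c (d := d) hb 1).1 (Hd d)
  rw [one_smul, pm, Matrix.mulVec_diagonal, ev_self, mul_one] at h2
  have h3 : (pm d d *ᵥ v) (Hd d) = v (Hd d) := by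
    rw [pm, Matrix.mulVec_diagonal, h2, one_mul]
  rw [h1, h3]

end Ffp

open Ffp

variable (p d : ℕ) (X Y : Type) [TopologicalSpace X] [ChartedSpace (Cm (p + d)) X]
  [TopologicalSpace Y] [ChartedSpace (Cm p) Y]

/-- row FF -/
theorem ff (hb : F1b) (hf : F2b) (hk : K1a) (k1 : K1b) (hA : ABall)
    (hg1 : ∀ (M : Type) [TopologicalSpace M] [ChartedSpace (Cm d) M] [T2Space M] [CompactSpace M]
      [IsManifold 𝓘(ℂ, Cm d) ω M], G1 d M)
    (hg4 : ∀ (M : Type) [TopologicalSpace M] [ChartedSpace (Cm d) M] [T2Space M] [CompactSpace M]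
      [IsManifold 𝓘(ℂ, Cm d) ω M], G4 d M) : FF p d X Y := by
  intro w f y B n P
  have g1 := hg1 B.F
  refine ⟨fun γ hγ => ?_, fun u => ?_, fun γ u hu => ⟨fun h => ⟨g1.ext _ _ fun x => ?_,
    g1.ext _ _ fun x => ?_⟩, fun h => ⟨⟨fun q x hq hx hy => ?_, fun q q' x hq hq' hx hx' hy => ?_⟩,
    fun q x hq hx hy => ?_, fun q x hq hx hy => ?_⟩⟩,
    fun γ γ' u u' hu hu' h => g1.ext _ _ fun x => ?_,
    fun γ β u v hu hv h => g1.ext _ _ fun x => ?_,
    fun ρ r σ γ u u' hr hu hu' hd N q ψ hq hy hψ hsp hs1 => ?_,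
    fun Γ G T γ hG hT => ⟨fun h q e x hq he hs => ?_, fun h q c x hq hx hy hc => ?_⟩⟩
  · have hch : ∀ {q q' : PC p d X Y} {e e' : Chart d B.F} {x}, IsPC f q → IsPC f q' →
        Sl y B.j q e → Sl y B.j q' e' → At e x → At e' x →
        γ q (e x) = lam (jt e e' x) *ᵥ γ q' (e' x) := by
      intro q q' e e' x hq hq' hs hs' hx hx'
      rw [jt_sl k1 B hq hs hs' hx.2 hx'.2, hs.val x hx.2, hs'.val x hx'.2]
      exact hγ.ch q q' _ hq hq' (q_j B hq hs hx.2).1 (q_j B hq' hs' hx'.2).1 (fj B x)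
    have h1 : ∀ e : Chart d B.F, ∃ g : Cm d → Fo d, e ∈ atlas (Cm d) B.F →
        ∃ q, IsPC f q ∧ Sl y B.j q e ∧ g = γ q := by
      intro e
      by_cases he : e ∈ atlas (Cm d) B.F
      · obtain ⟨q, hq, hs⟩ := B.ch1 e he
        exact ⟨γ q, fun _ => ⟨q, hq, hs, rfl⟩⟩
      · exact ⟨0, fun h => (he h).elim⟩
    choose g hg using h1
    obtain ⟨v, hv⟩ := g1.mkf g (fun e x hx => by
      obtain ⟨q, hq, hs, h2⟩ := hg e hx.1
      rw [h2, hs.val x hx.2]
      exact hγ.sm q _ hq (q_j B hq hs hx.2).1 (fj B x))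
      (fun e e' x hx hx' => by
        obtain ⟨q, hq, hs, h2⟩ := hg e hx.1
        obtain ⟨q', hq', hs', h2'⟩ := hg e' hx'.1
        rw [h2, h2']
        exact hch hq hq' hs hs' hx hx')
    refine ⟨v, fun q e x hq hx hs => ?_⟩
    obtain ⟨q', hq', hs', h2'⟩ := hg e hx.1
    rw [(vl_isF v).ch e e x hx hx, (hv e x hx).self_of_nhds, h2']
    exact (hch hq hq' hs hs' hx hx).symm
  · have h1 : ∀ q : PC p d X Y, ∃ g : Cm d → Fo d, IsPC f q → y ∈ q.1.source →
        ∃ e ∈ atlas (Cm d) B.F, Sl y B.j q e ∧ g = vl u e := by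
      intro q
      by_cases H : IsPC f q ∧ y ∈ q.1.source
      · obtain ⟨e, he, hs⟩ := B.ch2 q H.1 H.2
        exact ⟨_, fun _ _ => ⟨e, he, hs, rfl⟩⟩
      · exact ⟨0, fun h1 h2 => (H ⟨h1, h2⟩).elim⟩
    choose γ hγ using h1
    refine ⟨γ, fun q e x hq he hs => ?_⟩
    obtain ⟨e', h2, hs', h3⟩ := hγ q hq hs.mem
    have he' : At e' x := ⟨h2, sl_mem B hs' (q_j B hq hs he.2).1⟩
    have h4 : e x = e' x := by rw [hs.val x he.2, hs'.val x he'.2]
    rw [(vl_isF u).ch e e' x he he', jt_sl k1 B hq hs hs' he.2 he'.2,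
      ← jt_sl k1 B hq hs' hs' he'.2 he'.2, ← (vl_isF u).ch e' e' x he' he', h3, h4]
  · obtain ⟨e, q, he, hq, hs⟩ := up B x
    refine ⟨e, he, ?_⟩
    rw [P.rx.d u e x he, hk.congr (near hu hq he hs), vl_zero, hs.val x he.2]
    exact h.cl q _ hq (q_j B hq hs he.2).1 (fj B x)
  · obtain ⟨e, q, he, hq, hs⟩ := up B x
    refine ⟨e, he, ?_⟩
    rw [P.rx.dg d u e x he, hu q e x hq he hs, hs.val x he.2]
    exact h.deg q _ hq (q_j B hq hs he.2).1 (fj B x)
  · obtain ⟨m, rfl⟩ := ex_j B hy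
    obtain ⟨e, he, hs, h1⟩ := down B hq hx
    rw [h1]
    exact ((vl_isF u).sm e m he).congr_of_eventuallyEq (near hu hq he hs).symm
  · obtain ⟨m, rfl⟩ := ex_j B hy
    obtain ⟨e, he, hs, h1⟩ := down B hq hx
    obtain ⟨e', he', hs', h1'⟩ := down B hq' hx'
    rw [← jt_sl k1 B hq hs hs' he.2 he'.2, h1, h1', ← hu q e m hq he hs, ← hu q' e' m hq' he' hs']
    exact (vl_isF u).ch e e' m he he'
  · obtain ⟨m, rfl⟩ := ex_j B hy
    obtain ⟨e, he, hs, h1⟩ := down B hq hx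
    rw [h1, ← hk.congr (near hu hq he hs), ← P.rx.d u e m he, h.1, vl_zero]
  · obtain ⟨m, rfl⟩ := ex_j B hy
    obtain ⟨e, he, hs, h1⟩ := down B hq hx
    rw [h1, ← hu q e m hq he hs, ← P.rx.dg d u e m he, h.2]
  · obtain ⟨e, q, he, hq, hs⟩ := up B x
    refine ⟨e, he, ?_⟩
    rw [hu q e x hq he hs, hu' q e x hq he hs, hs.val x he.2]
    exact h q _ hq (q_j B hq hs he.2).1 (fj B x)
  · obtain ⟨e, q, he, hq, hs⟩ := up B x
    refine ⟨e, he, ?_⟩
    rw [hu q e x hq he hs, P.rx.d v e x he, hk.congr (near hv hq he hs), hs.val x he.2]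
    exact h q _ hq (q_j B hq hs he.2).1 (fj B x)
  · have hru : ∀ (q : PC p d X Y) e x, IsPC f q → At e x → Sl y B.j q e → vl (r u) e (e x) =
        ((ρ (B.j (e.symm (e x))) : ℂ) * σ q (e x)) • ev (Hd d) := by
      intro q e x hq he hs
      rw [hr u e x he, hu q e x hq he hs, Matrix.smul_mulVec, Matrix.one_mulVec, tf, smul_smul]
    have hru' : ∀ (q : PC p d X Y) e x, IsPC f q → At e x → Sl y B.j q e →
        vl (P.K.pr d (r u')) e (e x) =
        ((ρ (B.j (e.symm (e x))) : ℂ) * γ q (e x) (Hd d)) • ev (Hd d) := by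
      intro q e x hq he hs
      have h1 := P.rx.dg d u' e x he
      rw [hd, hu' q e x hq he hs] at h1
      rw [P.rk.pr d _ e x he, hr u' e x he, hu' q e x hq he hs, Matrix.smul_mulVec,
        Matrix.one_mulVec, Matrix.mulVec_smul, pm_top hb h1.symm, smul_smul]
    have h0 : P.K.pr d (r u) = r u := by
      refine g1.ext _ _ fun x => ?_
      obtain ⟨e, q, he, hq, hs⟩ := up B x
      exact ⟨e, he, by rw [P.rk.pr d _ e x he, hru q e x hq he hs, (top_c hb _).1]⟩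
    choose e he hs using fun i => B.ch2 (q i) (hq i) (hy i)
    obtain ⟨k2, k3, -⟩ := hg4 B.F P.Xc P.wF P.K P.rx P.kah P.rk
    rw [← h0, ← (hA _ _ P.Xc P.K P.ok).1.adjpr, k2,
      g1.itg_eq _ (k3 _ _).1 (k3 _ _).2 N e (fun i m => ψ i (B.j m)) he
      (fun i => (hψ i).comp B.emb.continuous) (fun i m hm => sl_mem B (hs i) (hsp i
        (B.emb.continuous.closure_preimage_subset (Function.support (ψ i)) hm)))
      (fun m => hs1 _ (fj B m))]
    refine Finset.sum_congr rfl fun i _ => ?_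
    rw [← (hs i).tgt]
    refine setIntegral_congr_fun (e i).open_target.measurableSet fun z hz => ?_
    have h1 : At (e i) ((e i).symm z) := ⟨he i, (e i).map_target hz⟩
    have h2 := hru (q i) (e i) _ (hq i) h1 (hs i)
    have h3 := hru' (q i) (e i) _ (hq i) h1 (hs i)
    have h4 := hf.G_Hd _ ((Matrix.isUnit_iff_isUnit_det _).1 (P.kah.posDef (e i) _ h1).isUnit)
    rw [(e i).right_inv hz] at h2 h3 h4
    show (ψ i _ : ℂ) * (((ρ _ ^ 2 : ℝ) : ℂ) * (star (σ (q i) z) * γ (q i) z (Hd d))) =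
      (ψ i _ : ℂ) * (star (vl (r u) (e i) z) ⬝ᵥ
        (Gm (P.wF (e i) z) *ᵥ vl (P.K.pr d (r u')) (e i) z))
    rw [j_symm B (hq i) (hs i) hz, h2, h3, star_smul, smul_dotProduct, Matrix.mulVec_smul,
      dotProduct_smul, ev, Pi.star_single, star_one, single_one_dotProduct, ← ev, mulVec_ev, h4,
      smul_eq_mul, smul_eq_mul, mul_one, star_mul', Complex.star_def, Complex.conj_ofReal,
      Complex.ofReal_pow]
    ring
  · obtain ⟨c, hc⟩ := ex_at (n := p + d) (B.j x)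
    rw [hT G e c x he hc, hG c _ hc (fj B x), jc_j k1 B hq hs he.2, hs.val x he.2]
    exact (h q c _ hq (q_j B hq hs he.2).1 (fj B x) hc).symm
  · obtain ⟨m, rfl⟩ := ex_j B hy
    obtain ⟨e, he, hs, h1⟩ := down B hq hx
    rw [h1, ← h q e m hq he hs, hT G e c m he hc, hG c _ hc hy, jc_j k1 B hq hs he.2]

end Vale.Agent.P281Z.Hg
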