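import Vale.Agent.P281Z.Hg.S5

/-!
# P281, Hodge block, row MW: multiplication by a locally constant function
-/

open scoped Manifold ContDiff ComplexOrder Topology Matrix
open Filter
open Vale.Agent.P272.K Vale.Agent.P299.IX Vale.Agent.P299.IX.Fock

noncomputable section

namespace Vale.Agent.P281Z.Hg

/-- **row MW** -/
theorem mw (hk : K1a) {d : ℕ} {M : Type} [TopologicalSpace M] [ChartedSpace (Cm d) M] [T2Space M]
    [CompactSpace M] [IsManifold 𝓘(ℂ, Cm d) ω M] (g1 : G1 d M) (gb : G4b d M) : MW d M := by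
  intro ρ hρ
  have ev : ∀ (e : Chart d M) x, At e x → ∀ᶠ z in 𝓝 (e x), ρ (e.symm z) = ρ x := fun e x h => by
    have := (e.continuousAt_symm (e.map_source h.2)).eventually
      ((IsLocallyConstant.iff_eventually_eq ρ).1 hρ _)
    rwa [e.left_inv h.2] at this
  have hF := g1.fn ρ fun e x h => contDiffAt_const.congr_of_eventuallyEq (ev e x h)
  obtain ⟨r, hr⟩ := g1.op _ hF
  have hr' : ∀ u e x, At e x → vl (r u) e (e x) = (ρ x : ℂ) • vl u e (e x) := fun u e x h => by
    rw [hr u e x h]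
    simp only [e.left_inv h.2, Matrix.smul_mulVec, Matrix.one_mulVec]
  have at' : ∀ x : M, At (chartAt (Cm d) x) x := fun x =>
    ⟨chart_mem_atlas _ _, mem_chart_source _ _⟩
  have cm : ∀ {F : Rw d M (Fm d)} {T : Module.End ℂ (SF d M)}, IsOp F T → r * T = T * r :=
    fun hT => LinearMap.ext fun u => g1.ext _ _ fun x => ⟨_, at' x, by
      rw [Module.End.mul_apply, Module.End.mul_apply, hr' _ _ _ (at' x), hT _ _ _ (at' x),
        hT _ _ _ (at' x), hr' _ _ _ (at' x), Matrix.mulVec_smul]⟩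
  refine ⟨r, hr, fun X w K hX hK h2 => ⟨LinearMap.ext fun u => g1.ext _ _ fun x => ⟨_, at' x, ?_⟩,
    fun m => cm (hX.dg m), fun k => cm (hK.pr k), cm hK.Lm, ?_⟩⟩
  · have h := at' x
    rw [Module.End.mul_apply, Module.End.mul_apply, hr' _ _ _ h, hX.d _ _ _ h, hX.d _ _ _ h,
      ← hk.smul _ (((vl_isF u).sm _ x h).differentiableAt (by simp))]
    refine hk.congr ?_
    filter_upwards [ev _ x h, (chartAt (Cm d) x).open_target.mem_nhds
      ((chartAt (Cm d) x).map_source h.2)] with z h1 h2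
    have := hr' u _ _ ⟨h.1, (chartAt (Cm d) x).map_target h2⟩
    rw [(chartAt (Cm d) x).right_inv h2, h1] at this
    exact this.symm
  · exact (gb K.nrm h2 fun _ => Real.sqrt_nonneg _).2.1 _ r
      (fun e x h I J => (hF.sm e x h I J).continuousAt) hr

end Vale.Agent.P281Z.Hg
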