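import Vale.Agent.P281Z.Hg.Pv5

/-!
# P281, Hodge block: assembly of the weighted output, part 2 (the class map on closed forms)
-/

open scoped Manifold ContDiff Topology Matrix
open Filter
open Vale.Agent.P272.K Vale.Agent.P299.IX Vale.Agent.P299.IX.Fock

set_option linter.unusedSectionVars false

noncomputable section

namespace Vale.Agent.P281Z.Hg

variable {p d : ℕ} {X Y : Type} [MetricSpace X] [ChartedSpace (Cm (p + d)) X]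
  [TopologicalSpace Y] [ChartedSpace (Cm p) Y]
  {w : Rw (p + d) X (Matrix (Fin (p + d)) (Fin (p + d)) ℂ)} {f : X → Y} {U : Set Y} {n : ℕ} {ε : ℝ}
  [CompactSpace X] [IsManifold 𝓘(ℂ, Cm (p + d)) ω X] [T2Space Y] [IsManifold 𝓘(ℂ, Cm p) ω Y]

namespace Dat

variable (Δ : Dat w f U n ε)

theorem ffs (R : Rows2) (t : U) :
    (∀ γ, FibSm f t.1 γ → ∃ u, (Δ.B t).IsF γ u) ∧
    (∀ u, ∃ γ, (Δ.B t).IsF γ u) ∧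
    (∀ γ u, (Δ.B t).IsF γ u → (FibCl f t.1 γ ↔ (Δ.P t).Xc.Cl d u)) ∧
    (∀ γ γ' u u', (Δ.B t).IsF γ u → (Δ.B t).IsF γ' u' → (∀ q x, IsPC f q → x ∈ q.2.source →
      f x = t.1 → γ q (q.2 x).2 = γ' q (q.2 x).2) → u = u') ∧
    (∀ γ β u v, (Δ.B t).IsF γ u → (Δ.B t).IsF β v → (∀ q x, IsPC f q → x ∈ q.2.source →
      f x = t.1 → γ q (q.2 x).2 = dT (β q) (q.2 x).2) → u = (Δ.P t).Xc.d v) ∧
    (∀ (ρ : X → ℝ) (r : SF d (Δ.B t).F → SF d (Δ.B t).F) σ γ u u',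
      IsOp (fun e z => (ρ ((Δ.B t).j (e.symm z)) : ℂ) • (1 : Fm d)) r → (Δ.B t).IsF (tf σ) u →
      (Δ.B t).IsF γ u' → (Δ.P t).Xc.dg d u' = u' →
      FibItg f t.1 (fun q z => ((ρ (q.2.symm (q.1 t.1, z)) ^ 2 : ℝ) : ℂ) *
        (star (σ q z) * γ q z (Hd d))) ((Δ.P t).K.ip (r u) (r u'))) ∧
    ∀ (Γ : Rw (p + d) X (Fo (p + d))) (G : SF (p + d) X) (T : SF (p + d) X → SF d (Δ.B t).F) γ,
      (∀ e x, At e x → f x = t.1 → vl G e (e x) = Γ e (e x)) → IsPb (Δ.B t).j T →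
      (Rst f t.1 Γ γ ↔ (Δ.B t).IsF γ (T G)) :=
  (R.ff p d X Y).1 w f t (Δ.B t) n (Δ.P t)

theorem T_cl (a t : U) (h : t.1 ∈ Δ.N a) {u} (hu : (Δ.P t).Xc.Cl d u) :
    (Δ.P a).Xc.Cl d (Δ.T a t h u) :=
  ⟨by rw [← (Δ.iso a t h).d, hu.1, map_zero], by rw [← (Δ.iso a t h).dg, hu.2]⟩

theorem exists_cf (R : Rows2) (a t : U) (h : t.1 ∈ Δ.N a) {γ} (hγ : FibCl f t.1 γ) :
    ∃ v : Fin n → ℂ, ∀ u, (Δ.B t).IsF γ u →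
      Δ.T a t h u - ∑ i, v i • (Δ.P a).b i ∈ (Δ.P a).Xc.Nul := by
  obtain ⟨u, hu⟩ := (Δ.ffs R t).1 γ hγ.toFibSm
  obtain ⟨v, hv⟩ := (Δ.bas a).span _ (Δ.T_cl a t h (((Δ.ffs R t).2.2.1 γ u hu).1 hγ))
  exact ⟨v, fun u' hu' => (Δ.ffs R t).2.2.2.1 γ γ u u' hu hu' (fun _ _ _ _ _ => rfl) ▸ hv⟩

open Classical in
/-- the class map on closed forms -/
def cf (R : Rows2) (a t : Y) (γ : PC p d X Y → Cm d → Fo d) : Fin n → ℂ :=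
  if h : ∃ ha : a ∈ U, t ∈ Δ.N ⟨a, ha⟩ ∧ FibCl f t γ then
    (Δ.exists_cf R ⟨a, h.1⟩ ⟨t, Δ.sub _ h.2.1⟩ h.2.1 h.2.2).choose else 0

theorem cf_spec (R : Rows2) (a t : U) (h : t.1 ∈ Δ.N a) {γ u} (hγ : FibCl f t.1 γ)
    (hu : (Δ.B t).IsF γ u) :
    Δ.T a t h u - ∑ i, Δ.cf R a t γ i • (Δ.P a).b i ∈ (Δ.P a).Xc.Nul := by
  unfold cf
  rw [dif_pos ⟨a.2, h, hγ⟩]
  exact (Δ.exists_cf R a t h hγ).choose_spec u hu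

include Δ in
theorem tcl (R : Rows2) (hF : Fam p d w f U) (t : U) {σ : PC p d X Y → Cm d → ℂ}
    (hσ : FibHol f t.1 σ) :
    FibCl f t.1 (tf σ) := by
  obtain ⟨u, hu⟩ := (Δ.topf R.toRows hF t).1 σ hσ
  obtain ⟨h1, h2⟩ := (Δ.topf R.toRows hF t).2.2.2.2.1 σ u hσ hu
  exact ((Δ.ffs R t).2.2.1 (tf σ) u hu).2 ⟨h1, h2.2⟩

theorem cf_tf (R : Rows2) (hF : Fam p d w f U) (a t : U) (h : t.1 ∈ Δ.N a) {σ}
    (hσ : FibHol f t.1 σ) : Δ.cf R a t (tf σ) = Δ.cl R.toRows hF a t σ := by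
  obtain ⟨u, hu⟩ := (Δ.topf R.toRows hF t).1 σ hσ
  exact (Δ.bas a).uniq (Δ.cf_spec R a t h (Δ.tcl R hF t hσ) hu) (Δ.cl_spec R.toRows hF a t h hσ hu)

theorem cf_lin (R : Rows2) (a t : U) (h : t.1 ∈ Δ.N a) (c : ℂ) {γ γ'} (hγ : FibCl f t.1 γ)
    (hγ' : FibCl f t.1 γ') : Δ.cf R a t (γ + c • γ') = Δ.cf R a t γ + c • Δ.cf R a t γ' := by
  have H := Δ.ffs R t
  obtain ⟨u, hu⟩ := H.1 γ hγ.toFibSm
  obtain ⟨u', hu'⟩ := H.1 γ' hγ'.toFibSm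
  have h1 : (Δ.B t).IsF (γ + c • γ') (u + c • u') := fun q e x hq hx hs => by
    rw [vl_add, vl_smul, hu q e x hq hx hs, hu' q e x hq hx hs]
    rfl
  obtain ⟨a1, a2⟩ := (H.2.2.1 γ u hu).1 hγ
  obtain ⟨a3, a4⟩ := (H.2.2.1 γ' u' hu').1 hγ'
  have h2 : FibCl f t.1 (γ + c • γ') := (H.2.2.1 _ _ h1).2
    ⟨by rw [map_add, map_smul, a1, a3, smul_zero, add_zero], by rw [map_add, map_smul, a2, a4]⟩
  refine (Δ.bas a).uniq (Δ.cf_spec R a t h h2 h1) ?_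
  have h3 := Submodule.add_mem _ (Δ.cf_spec R a t h hγ hu)
    (Submodule.smul_mem _ c (Δ.cf_spec R a t h hγ' hu'))
  refine (congrArg (· ∈ _) ?_).mp h3
  simp only [map_add, map_smul, Pi.add_apply, Pi.smul_apply, smul_eq_mul, add_smul, mul_smul,
    Finset.sum_add_distrib, smul_sub, Finset.smul_sum]
  abel

theorem cf_ch (R : Rows2) (a b t : U) (ha : t.1 ∈ Δ.N a) (hb : t.1 ∈ Δ.N b) {γ}
    (hγ : FibCl f t.1 γ) : Δ.cf R a t γ = zc (Δ.g R.toRows a b t) *ᵥ Δ.cf R b t γ := by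
  obtain ⟨u, hu⟩ := (Δ.ffs R t).1 γ hγ.toFibSm
  have h1 := nul_map (Δ.Rl a b t ha hb) (Δ.Rl_nul R.toRows a b t ha hb)
    (Δ.g_spec R.toRows a b t ha hb) (Δ.cf_spec R b t hb hγ hu)
  have h2 : Δ.Rl a b t ha hb (Δ.T b t hb u) = Δ.T a t ha u := by
    change Δ.T a t ha ((Δ.T b t hb).symm (Δ.T b t hb _)) = _
    rw [LinearEquiv.symm_apply_apply]
  rw [h2] at h1
  exact (Δ.bas a).uniq (Δ.cf_spec R a t ha hγ hu) h1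

theorem cf_pair (R : Rows2) (hF : Fam p d w f U) (hf : Δ.Flat) {τ : X → ℝ} (W : Δ.Wd τ)
    (hi : Δ.Inv τ) (a t : U) (h : t.1 ∈ Δ.N a) {σ γ} (hσ : FibHol f t.1 σ) (hγ : FibCl f t.1 γ) :
    FibItg f t.1 (fun q z => ((τ (q.2.symm (q.1 t.1, z)) ^ 2 : ℝ) : ℂ) *
      (star (σ q z) * γ q z (Hd d))) (star (Δ.cf R a t (tf σ)) ⬝ᵥ
        (((W.R a)ᴴ * Δ.Q R.toRows a * W.R a) *ᵥ Δ.cf R a t γ)) := by
  have H := Δ.ffs R t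
  obtain ⟨u, hu⟩ := (Δ.topf R.toRows hF t).1 σ hσ
  obtain ⟨u', hu'⟩ := H.1 γ hγ.toFibSm
  obtain ⟨a1, a2⟩ := Δ.T_top R.toRows hF a t h hσ hu
  have a3 := (H.2.2.1 γ u' hu').1 hγ
  have hc := W.com' R hi a t h
  have a4 := hc.cl (m := d) ⟨a1, a2.2⟩
  have a5 := LinearMap.congr_fun (hc.pr d) (Δ.T a t h u)
  simp only [Module.End.mul_apply] at a5
  have h5 := R.wq.ip (Δ.K_ok R.toRows a t h) (Δ.bas a) (Δ.Q_spec R.toRows hf a t h) a4.1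
    ⟨by rw [← a5, a2.1], a4.2⟩ (hc.cl (Δ.T_cl a t h a3))
    (W.map R a (Δ.cf_spec R a t h (Δ.tcl R hF t hσ) hu)) (W.map R a (Δ.cf_spec R a t h hγ hu'))
  rw [← W.T R.toRows hi, ← W.T R.toRows hi] at h5
  have h6 := R.tr.ip (Δ.P t).K (Δ.iso a t h) (W.r t u) (W.r t u')
  rw [← Matrix.mulVec_mulVec, ← Matrix.mulVec_mulVec, Matrix.dotProduct_mulVec,
    ← Matrix.star_mulVec, ← h5]
  exact h6 ▸ H.2.2.2.2.2.1 τ _ σ γ u u' (W.op t) hu hu' a3.2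

/-- restriction of a closed form on the total space -/
theorem exists_cut (R : Rows2) (hF : Fam p d w f U) {V : Set Y} {Γ} (hV : IsOpen V)
    (hΓ : TotCl p d f V Γ) {t : Y} (ht : t ∈ V) :
    ∃ (Xt : Cx (SF (p + d) X) (p + d)) (Et : LC X Xt) (G : SF (p + d) X) (W : Set Y)
      (J : ∀ s : U, SF (p + d) X →ₗ[ℂ] SF d (Δ.B s).F), Et.OK ∧ IsOpen W ∧ t ∈ W ∧ W ⊆ V ∧
      Xt.dg d G = G ∧ (∀ x, f x ∈ W → Xt.d G ∈ Et.Z x) ∧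
      (∀ s : U, s.1 ∈ W → (Δ.P s).Xc.Cl d (J s G) ∧ ∀ γ, Rst f s.1 Γ γ ↔ (Δ.B s).IsF γ (J s G)) ∧
      ∀ (a s : U) (h : s.1 ∈ Δ.N a), (Δ.P a).E.Mor Et ((Δ.B s).j ∘ Δ.φ a s h)
        ((Δ.T a s h).toLinearMap ∘ₗ J s) := by
  obtain ⟨Xt, Kt, Et, h1, -, -, h4, h5, -, -⟩ := R.one (p + d) X w hF.kah
  obtain ⟨G, W, k1, k2, k3, k4, k5, k6⟩ := (R.ff p d X Y).2 f V Γ t Xt hF.hol.continuous h1 hV ht hΓ
  have hj : ∀ s : U, Smo d (p + d) (Δ.B s).j := fun s =>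
    (((R.fam p d X Y).1 w f U hF s s.2).2 (Δ.B s)).1
  choose J hJ using fun s : U => (R.pb1 d (Δ.B s).F (p + d) X _ (hj s)).1
  have k7 : ∀ x, f x ∈ W → Xt.d G ∈ Et.Z x := fun x hx => by
    rw [h4.Z]
    exact k6 x hx
  refine ⟨Xt, Et, G, W, J, h5, k1, k2, k3, k5, k7, fun s hs => ⟨?_, fun γ => ?_⟩, fun a s h => ?_⟩
  · have hm := mor_of R.toRows (Δ.P s).rx h1 (Δ.P s).re h4 (hj s) (hJ s)
    refine ⟨?_, by rw [← hm.dg, k5]⟩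
    rw [← hm.d]
    exact (Δ.P s).eok.sep _ fun x => hm.Z _ x (k7 _ (by rw [(Δ.B s).f_j]; exact hs))
  · exact (Δ.ffs R s).2.2.2.2.2.2 Γ G _ γ (fun e x he hx => k4 e x he (by rw [hx]; exact hs)) (hJ s)
  · obtain ⟨hs, hp⟩ := (R.pbc d (Δ.B a).F d (Δ.B s).F).2.2 (p + d) X _ _ (Δ.sm a s h) (hj s)
    exact mor_of R.toRows (T := (Δ.T a s h).toLinearMap ∘ₗ J s) (Δ.P a).rx h1 (Δ.P a).re h4 hs
      (hp _ _ (Δ.pb a s h) (hJ s))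

include Δ in
theorem rst (R : Rows2) (hF : Fam p d w f U) {V : Set Y} {Γ} (hV : IsOpen V)
    (hΓ : TotCl p d f V Γ) (t : U) (ht : t.1 ∈ V) :
    (∃ γ : PC p d X Y → Cm d → Fo d, Rst f t.1 Γ γ) ∧
      ∀ γ : PC p d X Y → Cm d → Fo d, Rst f t.1 Γ γ → FibCl f t.1 γ := by
  obtain ⟨Xt, Et, G, W, J, -, -, h1, -, -, -, h2, -⟩ := Δ.exists_cut R hF hV hΓ ht
  obtain ⟨h3, h4⟩ := h2 t h1
  obtain ⟨γ, hγ⟩ := (Δ.ffs R t).2.1 (J t G)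
  exact ⟨⟨γ, (h4 γ).2 hγ⟩, fun γ' h => ((Δ.ffs R t).2.2.1 γ' _ ((h4 γ').1 h)).2 h3⟩

theorem cf_flat (R : Rows2) (hF : Fam p d w f U) {V : Set Y} {Γ} (hV : IsOpen V)
    (hΓ : TotCl p d f V Γ) {γ : Y → PC p d X Y → Cm d → Fo d} (hγ : ∀ t ∈ V, Rst f t Γ (γ t))
    (a t : U) (h : t.1 ∈ Δ.N a) (ht : t.1 ∈ V) :
    ∀ᶠ s in 𝓝 t.1, Δ.cf R a s (γ s) = Δ.cf R a t (γ t) := by
  obtain ⟨Xt, Et, G, W, J, ok, hW, h1, hWV, h2, h3, h4, h5⟩ := Δ.exists_cut R hF hV hΓ ht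
  obtain ⟨δ, hδ, h6⟩ := (isCompact_range (Δ.B t).emb.continuous).exists_thickening_subset_open
    (hW.preimage hF.hol.continuous) (by
      rintro _ ⟨m, rfl⟩
      rw [Set.mem_preimage, (Δ.B t).f_j]
      exact h1)
  obtain ⟨η, hη, hc⟩ := R.cl2 Et d ok δ hδ
  filter_upwards [tube (G := fun q : Y × (Δ.B a).F => Δ.Φ a q.1 ((Δ.B a).j q.2))
    (fun m => (Δ.triv a).contAt (Δ.B a) h m) hη, (Δ.triv a).opn.mem_nhds h, hW.mem_nhds h1]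
    with s k1 k2 k3
  let s' : U := ⟨s, Δ.sub a k2⟩
  obtain ⟨y, hy⟩ := hc (Δ.P a).eok (h5 a s' k2) (h5 a t h) (fun x => by
    simp only [Function.comp_apply]
    rw [Δ.φj, Δ.φj]
    exact k1 x) G h2 fun x y hy => h3 y (h6 (Metric.mem_thickening_iff.2
      ⟨_, Set.mem_range_self _, by rw [dist_comm]; exact hy⟩))
  have k4 := Δ.cf_spec R a s' k2 ((Δ.rst R hF hV hΓ s' (hWV k3)).2 _ (hγ s (hWV k3)))
    (((h4 s' k3).2 _).1 (hγ s (hWV k3)))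
  have k5 := (Δ.P a).Xc.Nul.add_mem ((Δ.P a).ok.cx.exact_nul y) (Δ.cf_spec R a t h
    ((Δ.rst R hF hV hΓ t ht).2 _ (hγ t ht)) (((h4 t h1).2 _).1 (hγ t ht)))
  rw [← hy] at k5
  simp only [LinearMap.comp_apply, LinearEquiv.coe_coe, sub_add_sub_cancel] at k5
  exact (Δ.bas a).uniq k4 k5

theorem clMap2 (R : Rows2) (hF : Fam p d w f U) (hf : Δ.Flat) {wt : X → ℝ}
    (h0 : ∀ x, f x ∈ U → 0 < wt x) (W : Δ.Wd fun x => √(wt x)) (hi : Δ.Inv fun x => √(wt x))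
    (hu : ∀ a, IsUnit (W.R a)) : ClMap2 f wt (W.loc R hF hf hi hu) (Δ.cf R) := by
  have C := Δ.clMap R.toRows hF hf
  have hm := fun {a t : Y} (h : t ∈ (W.loc R hF hf hi hu).N a) => Δ.loc_mem R.toRows hF hf h
  have he : ∀ a, ∀ t ∈ (W.loc R hF hf hi hu).N a, ∀ σ, FibHol f t σ →
      Δ.cf R a t (tf σ) = Δ.cl R.toRows hF a t σ := by
    intro a t h σ hσ
    obtain ⟨ha, h1, -⟩ := hm h
    exact Δ.cf_tf R hF ⟨a, ha⟩ ⟨t, Δ.sub _ h1⟩ h1 hσ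
  refine ⟨fun a t h c γ γ' hγ hγ' => ?_, fun a b t h h' γ hγ => ?_, fun a t h γ γ' hγ hγ' e => ?_,
    fun a t h γ β hγ hβ e => ?_, fun t ht σ hσ => Δ.tcl R hF ⟨t, ht⟩ hσ, fun a t h σ hσ => ?_,
    fun a t h v hv => ?_, fun a t h σ γ hσ hγ => ?_, fun V s hV hVU hs => ?_,
    fun V Γ hV hVU hΓ t ht => Δ.rst R hF hV hΓ ⟨t, hVU ht⟩ ht, fun V Γ hV _ hΓ γ hγ a t h ht => ?_⟩
  · obtain ⟨ha, h1, -⟩ := hm h
    exact Δ.cf_lin R ⟨a, ha⟩ ⟨t, Δ.sub _ h1⟩ h1 c hγ hγ'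
  · obtain ⟨ha, h1, -⟩ := hm h
    obtain ⟨hb, h2, -⟩ := hm h'
    have h3 : (W.loc R hF hf hi hu).g a b = Δ.g R.toRows ⟨a, ha⟩ ⟨b, hb⟩ :=
      Δ.loc_g R.toRows hF hf ha hb
    rw [h3]
    exact Δ.cf_ch R ⟨a, ha⟩ ⟨b, hb⟩ ⟨t, Δ.sub _ h1⟩ h1 h2 hγ
  · obtain ⟨ha, h1, -⟩ := hm h
    have H := Δ.ffs R ⟨t, Δ.sub _ h1⟩
    obtain ⟨u, h2⟩ := H.1 γ hγ.toFibSm
    obtain ⟨u', h3⟩ := H.1 γ' hγ'.toFibSm
    have h4 := Δ.cf_spec R ⟨a, ha⟩ ⟨t, Δ.sub _ h1⟩ h1 hγ h2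
    rw [H.2.2.2.1 γ γ' u u' h2 h3 e] at h4
    exact (Δ.bas ⟨a, ha⟩).uniq h4 (Δ.cf_spec R ⟨a, ha⟩ ⟨t, Δ.sub _ h1⟩ h1 hγ' h3)
  · obtain ⟨ha, h1, -⟩ := hm h
    have H := Δ.ffs R ⟨t, Δ.sub _ h1⟩
    obtain ⟨u, h2⟩ := H.1 γ hγ.toFibSm
    obtain ⟨v, h3⟩ := H.1 β hβ
    have h4 := Δ.cf_spec R ⟨a, ha⟩ ⟨t, Δ.sub _ h1⟩ h1 hγ h2
    rw [H.2.2.2.2.1 γ β u v h2 h3 e, (Δ.iso _ _ h1).d] at h4
    refine (Δ.bas ⟨a, ha⟩).uniq h4 ?_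
    simp only [Pi.zero_apply, zero_smul, Finset.sum_const_zero, sub_zero]
    exact (Δ.P ⟨a, ha⟩).ok.cx.exact_nul _
  · rw [he a t h σ hσ]
    exact C.top a t h σ hσ
  · obtain ⟨σ, hσ, h1⟩ := C.onto a t h v hv
    exact ⟨σ, hσ, (he a t h σ hσ).trans h1⟩
  · obtain ⟨ha, h1, h2, -⟩ := hm h
    have h3 : (W.loc R hF hf hi hu).Q a =
        (W.R ⟨a, ha⟩)ᴴ * Δ.Q R.toRows ⟨a, ha⟩ * W.R ⟨a, ha⟩ := by
      rw [← h2, ← W.R'_eq ha]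
      rfl
    rw [h3]
    refine (Δ.cf_pair R hF hf W hi ⟨a, ha⟩ ⟨t, Δ.sub _ h1⟩ h1 hσ hγ).congr fun q z hz => ?_
    rw [Real.sq_sqrt (h0 _ (by rw [hz]; exact Δ.sub _ h1)).le]
  · have h1 := C.hol V s hV hVU hs
    have h2 : (W.loc R hF hf hi hu).Sec V fun a t => Δ.cl R.toRows hF a t (rs s t) :=
      ⟨h1.ch, h1.hol, h1.top⟩
    exact h2.congr hV fun a t h ht =>
      he a t h _ ((Δ.topf R.toRows hF ⟨t, hVU ht⟩).2.2.2.2.2.2.2 V s ht hs)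
  · obtain ⟨ha, h1, -⟩ := hm h
    exact Δ.cf_flat R hF hV hΓ hγ ⟨a, ha⟩ ⟨t, Δ.sub _ h1⟩ h1 ht

end Dat

theorem hodge2_of (R : Rows2) : HODGE2 := by
  intro p d X Y _ _ _ _ _ _ _ _ _ w f U wt hF hU h0 hw
  have : SecondCountableTopology X := ChartedSpace.secondCountable_of_sigmaCompact (Cm (p + d)) X
  let _ : MetricSpace X := TopologicalSpace.metrizableSpaceMetric X
  obtain ⟨ε, hε, h⟩ := exists_flat R.toRows hF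
  obtain ⟨n, ⟨Δ0⟩⟩ := exists_dat R.toRows hF hU hε
  have h1 : ∀ g : ℝ → ℝ, ∀ x, f x ∈ U → ∀ᶠ y in 𝓝 x, g (wt y) = g (wt x) := fun g x hx =>
    (hw x hx).mono fun y hy => congrArg g hy
  obtain ⟨Δ, hi⟩ := Δ0.exists_inv (h1 fun s => √s)
  obtain ⟨W⟩ := Δ.exists_wd R (h1 fun s => √s)
  obtain ⟨W'⟩ := Δ.exists_wd R (h1 fun s => (√s)⁻¹)
  have hu := W.unit W' R fun x hx => mul_inv_cancel₀ (Real.sqrt_pos.2 (h0 x hx)).ne'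
  exact ⟨n, W.loc R hF (h n Δ) hi hu, Δ.cf R, Δ.clMap2 R hF (h n Δ) h0 W hi hu⟩

end Vale.Agent.P281Z.Hg
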