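import Vale.Agent.P281Z.Hg.S2

/-!
# P281, Hodge block: transport along isomorphisms (row TR)
-/

open scoped ComplexOrder Topology Matrix
open Filter

noncomputable section

namespace Vale.Agent.P281Z.Hg

namespace TrH

variable {S S' : Type} [AddCommGroup S] [Module ℂ S] [AddCommGroup S'] [Module ℂ S'] {D : ℕ}
  {X : Cx S D} {X' : Cx S' D} {T : S' ≃ₗ[ℂ] S} {K : KP X'}

/-- conjugation of operators -/
def ph (T : S' ≃ₗ[ℂ] S) : Module.End ℂ S' ≃ₐ[ℂ] Module.End ℂ S := T.conjAlgEquiv ℂ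

theorem ap (A : Module.End ℂ S') (a : S') : ph T A (T a) = T (A a) :=
  congrArg (fun x => T (A x)) (T.symm_apply_apply a)

theorem eq_ph {A : Module.End ℂ S'} {B : Module.End ℂ S} (h : ∀ a, T (A a) = B (T a)) :
    ph T A = B := LinearMap.ext (T.surjective.forall.2 fun a => (ap A a).trans (h a))

theorem e_pr (k : ℕ) : ph T (K.pr k) = (K.tr X T).pr k := rfl
theorem e_L : ph T K.L = (K.tr X T).L := rfl
theorem e_Lm : ph T K.Lm = (K.tr X T).Lm := rfl
theorem a_pr (k : ℕ) (a : S') : (K.tr X T).pr k (T a) = T (K.pr k a) := ap _ a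
theorem a_L (a : S') : (K.tr X T).L (T a) = T (K.L a) := ap _ a
theorem a_Lm (a : S') : (K.tr X T).Lm (T a) = T (K.Lm a) := ap _ a

theorem e_W : ph T K.W = (K.tr X T).W := by
  simp only [KP.W, wy, ex, map_mul, map_sum, map_smul, map_pow, map_neg, e_L (X := X),
    e_Lm (X := X)]

theorem a_W (a : S') : (K.tr X T).W (T a) = T (K.W a) := e_W (X := X) (K := K) ▸ ap _ a

theorem seq (T : S' ≃ₗ[ℂ] S) {ι : Type} (u : ι → S) : ∃ u' : ι → S', u = fun s => T (u' s) :=
  ⟨fun s => T.symm (u s), funext fun _ => (T.apply_symm_apply _).symm⟩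

section iso
variable (h : X'.Iso X T)
include h

theorem e_d : ph T X'.d = X.d := eq_ph h.d
theorem e_dg (m : ℕ) : ph T (X'.dg m) = X.dg m := eq_ph (h.dg m)

theorem e_A : ph T K.A = (K.tr X T).A := by
  simp only [KP.A, map_mul, map_sum, e_d h, e_pr (X := X)]

theorem e_Ab : ph T K.Ab = (K.tr X T).Ab := by
  simp only [KP.Ab, map_mul, map_sum, e_d h, e_pr (X := X)]

theorem e_C : ph T K.C = (K.tr X T).C := by
  simp only [KP.C, map_mul, map_sum, map_smul, e_dg h, e_pr (X := X)]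

theorem e_ds : ph T K.ds = (K.tr X T).ds := by
  simp only [KP.ds, KP.As, KP.Abs, map_add, map_sub, map_mul, map_smul, e_A h, e_Ab h,
    e_Lm (X := X)]

theorem e_Nd : ph T X'.Nd = X.Nd := by simp only [Cx.Nd, map_sum, map_smul, e_dg h]

theorem a_ds (a : S') : (K.tr X T).ds (T a) = T (K.ds a) := e_ds h (K := K) ▸ ap _ a

theorem ip (a b : S') : (K.tr X T).ip (T a) (T b) = K.ip a b := by
  rw [KP.ip, KP.ip, ← e_C h, ap, a_W, ← h.cj, h.Q]
  rfl

theorem nrm (a : S') : (K.tr X T).nrm (T a) = K.nrm a := by rw [KP.nrm, KP.nrm, ip h]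

theorem null (u : ℕ → S') : ((K.tr X T).Null fun s => T (u s)) ↔ K.Null u := by
  simp only [KP.Null, nrm h]

theorem cau (u : ℕ → S') : ((K.tr X T).Cau fun s => T (u s)) ↔ K.Cau u := by
  simp only [KP.Cau, ← map_sub, nrm h]

theorem cl (a : S') : X.d (T a) = 0 ↔ X'.d a = 0 := by rw [← h.d, T.map_eq_zero_iff]

theorem top (a : S') : (K.tr X T).Top (T a) ↔ K.Top a := by
  rw [KP.Top, KP.Top, a_pr, ← h.dg, T.injective.eq_iff, T.injective.eq_iff]

theorem nul (a : S') : T a ∈ X.Nul ↔ a ∈ X'.Nul :=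
  and_congr (cl h a) (T.surjective.forall.trans (forall_congr' fun y => by rw [cl h, h.Q]))

theorem coh (u : ℕ → S') (z : S') :
    (∃ y : ℕ → S, (K.tr X T).Null fun s => T (u s) - T z - X.d (y s)) ↔
      ∃ y : ℕ → S', K.Null fun s => u s - z - X'.d (y s) := by
  refine ⟨fun ⟨y, hy⟩ => ?_, fun ⟨y, hy⟩ => ⟨fun s => T (y s), ?_⟩⟩
  · obtain ⟨y, rfl⟩ := seq T y
    exact ⟨y, by simpa only [← h.d, ← map_sub, null h] using hy⟩
  · simpa only [← h.d, ← map_sub, null h] using hy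

theorem rep (z : S') (v : ℕ → S') : ((K.tr X T).Rep (T z) fun s => T (v s)) ↔ K.Rep z v :=
  ⟨fun r => ⟨⟨(cau h v).1 r.cau, by simpa only [← h.d, null h] using r.d,
    by simpa only [a_ds h, null h] using r.ds⟩, (cl h z).1 r.cl, (coh h v z).1 r.coh⟩,
  fun r => ⟨⟨(cau h v).2 r.cau, by simpa only [← h.d, null h] using r.d,
    by simpa only [a_ds h, null h] using r.ds⟩, (cl h z).2 r.cl, (coh h v z).2 r.coh⟩⟩

theorem bdd {A : S' → S'} {B : S → S} (e : ∀ a, B (T a) = T (A a)) (hA : K.Bdd A) :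
    (K.tr X T).Bdd B :=
  hA.imp fun _ hC => ⟨hC.1, T.surjective.forall.2 fun a => by rw [e, nrm h, nrm h]; exact hC.2 a⟩

theorem cx (o : X'.OK) : X.OK where
  dd := T.surjective.forall.2 fun a => by rw [← h.d, cl h, o.dd]
  Qd := T.surjective.forall₂.2 fun a b => by rw [← h.d, ← h.d, h.Q, h.Q, o.Qd]
  Qs := T.surjective.forall₂.2 fun a b => by rw [h.Q, h.Q, o.Qs]
  cjcj := T.surjective.forall.2 fun a => by rw [← h.cj, ← h.cj, o.cjcj]
  cjd := T.surjective.forall.2 fun a => by rw [← h.d, ← h.cj, ← h.cj, ← h.d, o.cjd]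
  Qcj := T.surjective.forall₂.2 fun a b => by rw [← h.cj, ← h.cj, h.Q, h.Q, o.Qcj]
  dg_mul j k := by
    simpa only [map_mul, apply_ite (ph T), map_zero, e_dg h] using congrArg (ph T) (o.dg_mul j k)
  dg_sum := by simpa only [map_sum, map_one, e_dg h] using congrArg (ph T) o.dg_sum
  dg_zero m hm := by rw [← e_dg h, o.dg_zero m hm, map_zero]
  dg_d m := by simpa only [map_mul, e_dg h, e_d h] using congrArg (ph T) (o.dg_d m)
  dg0_d := by simpa only [map_mul, map_zero, e_dg h, e_d h] using congrArg (ph T) o.dg0_d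
  Qdg j k := T.surjective.forall₂.2 fun a b e => by rw [← h.dg, ← h.dg, h.Q, h.Q, o.Qdg j k a b e]
  cjdg m := T.surjective.forall.2 fun a => by rw [← h.dg, ← h.cj, ← h.cj, ← h.dg, o.cjdg]

theorem alg (o : K.Alg) : (K.tr X T).Alg where
  pr_mul j k := by
    simpa only [map_mul, apply_ite (ph T), map_zero, e_pr (X := X)] using
      congrArg (ph T) (o.pr_mul j k)
  pr_sum := by simpa only [map_sum, map_one, e_pr (X := X)] using congrArg (ph T) o.pr_sum
  pr_zero k hk := by rw [← e_pr, o.pr_zero k hk, map_zero]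
  pr_dg k m := by rw [← e_pr, ← e_dg h, ← map_mul, ← map_mul, o.pr_dg]
  Qpr j k := T.surjective.forall₂.2 fun a b e => by rw [a_pr, a_pr, h.Q, h.Q, o.Qpr j k a b e]
  cjpr j k := T.surjective.forall.2 fun a => by
    rw [← h.dg, a_pr, ← h.cj, ← h.cj, ← h.dg, a_pr, o.cjpr]
  pr_lt k m hm := by rw [← e_pr, ← e_dg h, ← map_mul, o.pr_lt k m hm, map_zero]
  dtype j k a b := by
    rw [← e_pr, ← e_pr, ← e_d h, ← map_mul, ← map_mul, o.dtype j k a b, map_zero]
  Ld := by rw [← e_L, ← e_d h, ← map_mul, ← map_mul, o.Ld]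
  prL k := by rw [← e_L, ← e_pr, ← e_pr, ← map_mul, ← map_mul, o.prL]
  dgL m := by rw [← e_L, ← e_dg h, ← e_dg h, ← map_mul, ← map_mul, o.dgL]
  prLm k := by rw [← e_Lm, ← e_pr, ← e_pr, ← map_mul, ← map_mul, o.prLm]
  dgLm m := by rw [← e_Lm, ← e_dg h, ← e_dg h, ← map_mul, ← map_mul, o.dgLm]
  sl2 := by
    simpa only [map_mul, map_sub, map_smul, map_one, e_L (X := X), e_Lm (X := X), e_Nd h] using
      congrArg (ph T) o.sl2
  QL := T.surjective.forall₂.2 fun a b => by rw [a_L, a_L, h.Q, h.Q, o.QL]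
  QLm := T.surjective.forall₂.2 fun a b => by rw [a_Lm, a_Lm, h.Q, h.Q, o.QLm]
  cjL := T.surjective.forall.2 fun a => by rw [a_L, ← h.cj, ← h.cj, a_L, o.cjL]
  cjLm := T.surjective.forall.2 fun a => by rw [a_Lm, ← h.cj, ← h.cj, a_Lm, o.cjLm]
  herm := T.surjective.forall₂.2 fun a b => by rw [ip h, ip h, o.herm]
  pos := T.surjective.forall.2 fun a => by rw [ip h]; exact o.pos a
  defn := T.surjective.forall.2 fun a e => by rw [o.defn a (ip h a a ▸ e), map_zero]
  bL := bdd h a_L o.bL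
  bLm := bdd h a_Lm o.bLm
  bcj := bdd h (fun a => (h.cj a).symm) o.bcj
  c0 := o.c0

theorem a_dds (a : S') : (X.d + (K.tr X T).ds) (T a) = T ((X'.d + K.ds) a) := by
  rw [← e_d h, ← e_ds h, ← map_add, ap]

theorem ok (o : K.OK) : (K.tr X T).OK := by
  refine ⟨cx h o.cx, alg h o.alg, fun u h1 h2 => ?_, fun u h1 h2 => ?_, fun u h1 h2 h3 => ?_⟩ <;>
    obtain ⟨u, rfl⟩ := seq T u
  · obtain ⟨v, a, b⟩ := o.ws u ((cau h u).1 h1) fun y => by
      simpa only [a_dds h, ip h] using h2 (T y)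
    exact ⟨fun s => T (v s), by simpa only [← map_sub, null h] using a,
      by simpa only [a_dds h, null h] using b⟩
  · obtain ⟨z, y, a, b⟩ := o.s1 u ((cau h u).1 h1) (by simpa only [← h.d, null h] using h2)
    obtain ⟨y', c⟩ := (coh h u z).2 ⟨y, b⟩
    exact ⟨T z, y', (cl h z).2 a, c⟩
  · obtain ⟨σ, a, b, c⟩ := o.hol u ((cau h u).1 h1) (by simpa only [← h.d, null h] using h2)
      fun s => (top h _).1 (h3 s)
    exact ⟨T σ, (cl h σ).2 a, (top h σ).2 b, by simpa only [← map_sub, null h] using c⟩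

theorem bas {m n : ℕ} {b : Fin n → S'} (o : X.Bas m fun i => T (b i)) : X'.Bas m b := by
  have e : ∀ a, X.Cl m (T a) ↔ X'.Cl m a := fun a => by
    rw [Cx.Cl, Cx.Cl, cl h, ← h.dg, T.injective.eq_iff]
  refine ⟨fun i => (e _).1 (o.cl i), fun c hc => o.ind c ?_,
    fun z hz => (o.span (T z) ((e z).2 hz)).imp fun c hc => ?_⟩
  · simpa only [← map_smul, ← map_sum, nul h] using hc
  · simpa only [← map_smul, ← map_sum, ← map_sub, nul h] using hc

theorem isPr {n : ℕ} {b : Fin n → S'} {Pr : ℕ → Mt n} (o : (K.tr X T).IsPr (fun i => T (b i)) Pr) :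
    K.IsPr b Pr := fun k j v r => by
  simpa only [← map_smul, ← map_sum, a_pr, rep h] using o k j _ ((rep h _ v).2 r)

theorem isQ {n : ℕ} {b : Fin n → S'} {Qm : Mt n} (o : (K.tr X T).IsQ (fun i => T (b i)) Qm) :
    K.IsQ b Qm := fun i j v r => by
  have := o i j _ ((rep h _ v).2 r)
  simp only [← h.cj, a_W, h.Q] at this
  exact this

end iso

theorem sum_sum {m n : ℕ} (g : Matrix (Fin m) (Fin n) ℂ) (a : Fin n → ℂ) (c : Fin m → S) :
    ∑ l, a l • ∑ i, g i l • c i = ∑ i, (g *ᵥ a) i • c i := by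
  simp only [Finset.smul_sum, smul_smul, Matrix.mulVec, dotProduct, Finset.sum_smul, mul_comm (a _)]
  exact Finset.sum_comm

theorem comb {m n : ℕ} {g : Matrix (Fin m) (Fin n) ℂ} {b : Fin n → S} {c : Fin m → S}
    (hg : ∀ j, b j - ∑ i, g i j • c i ∈ X.Nul) (a : Fin n → ℂ) :
    ∑ j, a j • b j - ∑ i, (g *ᵥ a) i • c i ∈ X.Nul := by
  rw [← sum_sum, ← Finset.sum_sub_distrib]
  exact Submodule.sum_mem _ fun j _ => smul_sub (a j) (b j) _ ▸ X.Nul.smul_mem _ (hg j)

theorem rank_le {m n n' : ℕ} {b : Fin n → S} {c : Fin n' → S} (hb : X.Bas m b) (hc : X.Bas m c) :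
    n ≤ n' := by
  choose g hg using fun j => hc.span _ (hb.cl j)
  have := LinearMap.finrank_le_finrank_of_injective (f := (Matrix.of fun i j => g j i).mulVecLin)
    ((injective_iff_map_eq_zero _).2 fun a ha => hb.ind a (by
      have e : (Matrix.of fun i j => g j i) *ᵥ a = 0 := ha
      simpa [e] using comb (g := Matrix.of fun i j => g j i) hg a))
  simpa using this

theorem gram {n : ℕ} {b : Fin n → S} (o : X.OK) (hb : X.Bas D b) :
    IsUnit (Matrix.of fun i j => X.Q (b i) (b j) : Mt n).det := by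
  refine (Matrix.isUnit_iff_isUnit_det _).1 (Matrix.mulVec_injective_iff_isUnit.1
    ((injective_iff_map_eq_zero (Matrix.mulVecLin _)).2 fun c hc => hb.ind c ?_))
  have h1 : X.d (∑ i, c i • b i) = 0 := by simp [fun i => (hb.cl i).1]
  have h2 : X.dg D (∑ i, c i • b i) = ∑ i, c i • b i := by simp [fun i => (hb.cl i).2]
  have h3 : ∀ i, X.Q (b i) (∑ i, c i • b i) = 0 := fun i => by
    simpa [Matrix.mulVec, dotProduct, mul_comm] using congrFun hc i
  refine ⟨h1, fun y hy => ?_⟩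
  obtain ⟨a, ha⟩ := hb.span (X.dg D y) ⟨by
    rw [← Module.End.mul_apply, ← o.dg_d, Module.End.mul_apply, hy, map_zero], by
    rw [← Module.End.mul_apply, o.dg_mul, if_pos rfl]⟩
  have h4 := ha.2 _ h1
  generalize ∑ i, c i • b i = z at *
  rw [← h2, ← o.Qdg D D y z rfl, ← sub_add_cancel (X.dg D y) (∑ i, a i • b i), map_add,
    LinearMap.add_apply, o.Qs, h4]
  simp [h3]

theorem rep_sum {K : KP X} (H : K.KH) {n : ℕ} (a : Fin n → ℂ) {z : Fin n → S} {v : Fin n → ℕ → S}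
    (h : ∀ i, K.Rep (z i) (v i)) : K.Rep (∑ i, a i • z i) fun s => ∑ i, a i • v i s := by
  have : ∀ t : Finset (Fin n), K.Rep (∑ i ∈ t, a i • z i) fun s => ∑ i ∈ t, a i • v i s := by
    intro t
    induction t using Finset.induction_on with
    | empty => simpa only [Finset.sum_empty] using H.zero
    | insert i t hi ih => simpa only [Finset.sum_insert hi] using H.add (H.smul (a i) (h i)) ih
  exact this _

theorem chg {K : KP X} (o : X.OK) (H : K.KH) {n : ℕ} {b b' : Fin n → S} {g : Mt n}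
    {Pr Pr' : ℕ → Mt n} {Qm Qm' : Mt n} (hb : X.Bas D b)
    (hg : ∀ j, b' j - ∑ i, g i j • b i ∈ X.Nul) (h1 : K.IsPr b Pr) (h2 : K.IsPr b' Pr')
    (h3 : K.IsQ b Qm) (h4 : K.IsQ b' Qm') :
    (∀ k, Pr k * g = g * Pr' k) ∧ Qm' = gᴴ * Qm * g := by
  choose v hv using fun i => H.ex _ (hb.cl i).1
  have hv' : ∀ j, K.Rep (b' j) fun s => ∑ i, g i j • v i s := fun j =>
    H.ncongr (rep_sum H _ hv) (neg_sub (b' j) _ ▸ X.Nul.neg_mem (hg j))
  refine ⟨fun k => ?_, ?_⟩
  · ext i j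
    have a := h2 k j _ (hv' j)
    have c := rep_sum H (fun i => g i j) fun i => h1 k i _ (hv i)
    simp only [map_sum, map_smul] at a
    have d := X.Nul.sub_mem (comb hg fun l => Pr' k l j) (H.back a c)
    rw [sub_sub_sub_cancel_left, sum_sum, ← Finset.sum_sub_distrib] at d
    simp only [← sub_smul] at d
    exact sub_eq_zero.1 (congrFun (hb.ind _ d) i)
  · ext i j
    obtain ⟨z, hz⟩ := H.har (H.hW (hv' j).toHar)
    have n1 : X.d (X.cj (b' i - ∑ l, g l i • b l)) = 0 := by rw [← o.cjd, (hg i).1, map_zero]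
    have n2 : X.Q (X.cj (b' i - ∑ l, g l i • b l)) z = 0 := by
      rw [← o.cjcj z, o.Qcj, o.Qs, (hg i).2 _ (by rw [← o.cjd, hz.cl, map_zero])]
      simp
    have t1 := (H.Qlim' n1 hz).const_mul (K.c * (Complex.I ^ D * (-1) ^ D))
    have t2 := tendsto_finsetSum Finset.univ fun l _ => (tendsto_finsetSum Finset.univ fun m _ =>
      (h3 m l _ (hv l)).const_mul (star (g m i))).mul_const (g l j)
    have t3 := t1.add t2
    rw [n2, mul_zero, zero_add] at t3
    refine tendsto_nhds_unique (h4 i j _ (hv' j)) (t3.congr fun s => ?_)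
    simp only [map_sub, map_sum, map_smulₛₗ, LinearMap.sub_apply, LinearMap.sum_apply,
      LinearMap.smul_apply, smul_eq_mul, RingHom.id_apply, Finset.mul_sum, Finset.sum_mul, mul_sub,
      RCLike.star_def, Finset.sum_sub_distrib]
    rw [sub_add, sub_eq_self, sub_eq_zero]
    exact Finset.sum_congr rfl fun _ _ => Finset.sum_congr rfl fun _ _ => by ring

end TrH

open TrH in
/-- **TR** -/
theorem tr_of (hA : ABall) : TR where
  ok h o := ok h o
  ip _ h := ip h
  top _ h := top h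
  nul h := nul h
  rank {_ _ _ _ _ _ _ _ _ T _ _ _ b _} h hb hb' := by
    obtain ⟨b, rfl⟩ := seq T b
    exact le_antisymm (rank_le (bas h hb) hb') (rank_le hb' (bas h hb))
  chg {_ _ _ _ _ _ _ _ _ _ _ _ _ T T' K _ b b' g _ _ _ _} h h' o hb _ hg h1 h2 h3 h4 := by
    obtain ⟨b, rfl⟩ := seq T b
    obtain ⟨b', rfl⟩ := seq T' b'
    refine chg o.cx (hA _ _ _ K o).2.2.1 (bas h hb) (fun j => ?_) (isPr h h1) (isPr h' h2)
      (isQ h h3) (isQ h' h4)
    simpa only [T'.symm_apply_apply, ← map_smul, ← map_sum, ← map_sub, nul h] using hg j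
  gram := gram

end Vale.Agent.P281Z.Hg
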