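import Vale.Agent.P281Z.Hg.S5
import Vale.Agent.P281Z.Hg.Ab2
import Vale.Agent.P281Z.Hg.Tr

/-!
# P281, Hodge block: commuting operators, the pairing with a form of top type (row WQ)
-/

open scoped ComplexOrder Topology Matrix
open Filter

noncomputable section

namespace Vale.Agent.P281Z.Hg

namespace WqH

open KP KP.Ab2

variable {S : Type} [AddCommGroup S] [Module ℂ S] {D : ℕ} {X : Cx S D} {K : KP X}
  {r : Module.End ℂ S}

theorem c_ds (h : K.Com r) : Commute r K.ds := by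
  have hd : Commute r X.d := h.d
  have hp : ∀ k, Commute r (K.pr k) := h.pr
  have hL : Commute r K.Lm := h.Lm
  have hA : Commute r K.A := Commute.sum_right _ _ _ fun k _ =>
    ((hp _).mul_right hd).mul_right (hp _)
  have hB : Commute r K.Ab := Commute.sum_right _ _ _ fun k _ =>
    ((hp _).mul_right hd).mul_right (hp _)
  exact (((hL.mul_right hB).sub_right (hB.mul_right hL)).smul_right _).add_right
    (((hL.mul_right hA).sub_right (hA.mul_right hL)).smul_right _)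

theorem rep (hb : K.KIb) (h : K.Com r) {z : S} {v : ℕ → S} (hv : K.Rep z v) :
    K.Rep (r z) fun s => r (v s) := by
  have e : ∀ a, r (X.d a) = X.d (r a) := LinearMap.congr_fun h.d
  obtain ⟨y, hy⟩ := hv.coh
  exact ⟨⟨hb.cau_map h.bdd (map_sub r) hv.cau, (hb.nf_map h.bdd hv.d).congr fun _ => e _,
    (hb.nf_map h.bdd hv.ds).congr fun _ => LinearMap.congr_fun (c_ds h).eq _⟩,
    by rw [← e, hv.cl, map_zero], fun s => r (y s),
    (hb.nf_map h.bdd hy).congr fun _ => by rw [map_sub, map_sub, e]⟩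

theorem ip_lim (ha : K.KIa) (hb : K.KIb) {σ z : S} {u : ℕ → S} (hσ : K.Har fun _ => σ)
    (hu : K.Rep z u) : Tendsto (fun s => K.ip σ (u s)) atTop (𝓝 (K.ip σ z)) := by
  obtain ⟨y, hy⟩ := hu.coh
  have h0 : K.nrm (K.ds σ) = 0 := tendsto_nhds_unique tendsto_const_nhds hσ.ds
  have h1 : ∀ a, K.ip σ (X.d a) = 0 := fun a => by
    have := hb.cs (K.ds σ) a
    rw [h0, zero_mul] at this
    rw [ha.adjd, norm_le_zero_iff.1 this]
  have h2 := (hb.tz zero_le_one hb.cs' (hb.cau_bf hσ.cau) hy).add_const (K.ip σ z)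
  rw [zero_add] at h2
  exact h2.congr fun s => by rw [ha.ip_sub_r, ha.ip_sub_r, h1, sub_zero, sub_add_cancel]

end WqH

open KP KP.Ab2 WqH in
/-- **WQ** -/
theorem wq_of (hA : ABall) (_ : TR) : WQ where
  nul {_ _ _ _ _ K _} o h z hz := by
    obtain ⟨-, hb, hh, -⟩ := hA _ _ _ K o
    obtain ⟨v, hv⟩ := hh.ex z hz.1
    exact (hh.nul (rep hb h hv)).2 (hb.nf_map h.bdd ((hh.nul hv).1 hz))
  pr {_ _ _ _ _ K r _ b Pr R} o h hB hP hR k := by
    obtain ⟨-, hb, hh, -⟩ := hA _ _ _ K o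
    have m : Mat K b R r := fun c v hv => hh.ncongr (rep hb h hv) (by
      simpa only [map_sum, map_smul] using TrH.comb hR c)
    have m1 := (mat_pr hh hb hB hP k).mul m
    rw [← h.pr k] at m1
    exact m1.uniq hh hB (m.mul (mat_pr hh hb hB hP k))
  ip {_ _ _ D _ K _ b Qm σ z v v'} o hB hQ h1 h2 hz h3 h4 := by
    obtain ⟨ha, hb, hh, hm⟩ := hA _ _ _ K o
    obtain ⟨Pr, -, hP, -⟩ := hm.ex hB
    obtain ⟨u, hu⟩ := hh.ex z hz.1
    have g := hm.pg (Pr := fun k (_ : Unit) => Pr k) (t := ()) hB hP hQ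
    have t := hm.top hB hP h1 h2 h3
    have e : ∀ (A : Mt _) c, star v ⬝ᵥ (A *ᵥ c) = star v ⬝ᵥ (((Pr D)ᴴ * A) *ᵥ c) := fun A c => by
      rw [← Matrix.mulVec_mulVec, Matrix.dotProduct_mulVec (star v) (Pr D)ᴴ, ← Matrix.star_mulVec, t]
    have s : Pr D * Sg D (fun k (_ : Unit) => Pr k) () = Pr D := by
      have := (sgP g.orth (fun k => (-1 : ℂ) ^ (D - k)) (le_refl D)).2
      rwa [Nat.sub_self, pow_zero, one_smul] at this
    rw [tendsto_nhds_unique (ip_lim ha hb (hh.top h1 h2).toHar hu) (iplim hh hb o ha hB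
      (Pr := fun k (_ : Unit) => Pr k) (t := ()) hP hQ (hh.ncongr (hh.top h1 h2) h3)
      (hh.ncongr hu h4)), e, e Qm, ← Matrix.mul_assoc, g.adj D, Matrix.mul_assoc, s]
  tr {_ _ _ _ _ _ _ X _ T K r} i h := by
    have e : T.conj r = TrH.ph T r := rfl
    refine ⟨?_, fun m => ?_, fun k => ?_, ?_, TrH.bdd i (TrH.ap r) h.bdd⟩
    · rw [e, ← TrH.e_d i, ← map_mul, ← map_mul, h.d]
    · rw [e, ← TrH.e_dg i, ← map_mul, ← map_mul, h.dg]
    · rw [e, ← TrH.e_pr, ← map_mul, ← map_mul, h.pr]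
    · rw [e, ← TrH.e_Lm, ← map_mul, ← map_mul, h.Lm]
  pg {_ w _ Q R Pr t} g hR h := by
    have s : Sg w Pr t * R = R * Sg w Pr t := by
      rw [Sg, Finset.sum_mul, Finset.mul_sum]
      exact Finset.sum_congr rfl fun k _ => by rw [smul_mul_assoc, h, mul_smul_comm]
    refine ⟨g.orth, g.sum, g.zero, Matrix.isHermitian_conjTranspose_mul_mul R g.herm, fun k => ?_,
      ?_⟩
    · rw [← mul_assoc, ← mul_assoc, ← Matrix.conjTranspose_mul, ← h, Matrix.conjTranspose_mul,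
        mul_assoc Rᴴ, g.adj, mul_assoc, mul_assoc, h, mul_assoc, mul_assoc]
    · rw [mul_assoc, ← s, ← mul_assoc, mul_assoc Rᴴ]
      exact g.pos.conjTranspose_mul_mul_same (Matrix.mulVec_injective_iff_isUnit.2 hR)

end Vale.Agent.P281Z.Hg
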