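import Vale.Agent.P281Z.Hg.All
import Vale.Agent.P281Z.Hg.Pv6
import Vale.Agent.P281Z.Hg.Cl2
import Vale.Agent.P281Z.Hg.Wq
import Vale.Agent.P281Z.Hg.Mw
import Vale.Agent.P281Z.Hg.Ff
import Vale.Agent.P281Z.Hg.Cut

/-!
# P281, Hodge block: the weighted output
-/

open scoped Manifold ContDiff
open Vale.Agent.P272.K

namespace Vale.Agent.P281Z.Hg

/-- all rows of the second part -/
theorem rows2 : Rows2 where
  toRows := rows
  wq := wq_of abAll (tr_of abAll)
  cl2 := cl2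
  mw d M _ _ _ _ _ := mw k1aT (g1T d M) (g4b d M)
  ff p d X Y _ _ _ _ _ _ _ _ _ :=
    ⟨ff p d X Y f1b f2bT k1aT k1b' abAll (g1T d) (g4T d), cut k1aT (g1T (p + d) X)⟩

/-- **the Hodge block, weighted form** -/
theorem hodge2 : HODGE2 := hodge2_of rows2

end Vale.Agent.P281Z.Hg
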