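import Vale.Agent.P281Z.Hg.S3

/-!
# P281, Hodge block: statements of the cone rows and of the family rows
-/

open scoped Manifold ContDiff ComplexOrder Topology Matrix
open Filter MeasureTheory
open Vale.Agent.P272.K Vale.Agent.P299.IX Vale.Agent.P299.IX.Fock

noncomputable section

namespace Vale.Agent.P281Z.Hg

/-- the cone operator averaged over the vertices -/
def cone {d : ℕ} (β : Cm d → ℝ) (u : Cm d → Fo d) (z : Cm d) : Fo d :=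
  ∫ y, β y • ∫ s in (0 : ℝ)..1,
    dgl (fun m => (s : ℂ) ^ m) *ᵥ (iotV (cx (z - y)) *ᵥ u (y + s • (z - y)))

/-- row PO1: the homotopy formula -/
def PO1 : Prop := ∀ (d : ℕ) (β : Cm d → ℝ), ContDiff ℝ ∞ β → HasCompactSupport β → ∫ y, β y = 1 →
  (∀ u : Cm d → Fo d, ContDiff ℝ ∞ u → ContDiff ℝ ∞ (cone β u) ∧ ∀ z,
    dT (cone β u) z + cone β (dT u) z = u z - (∫ y, (β y : ℂ) * u y ∅) • ev ∅) ∧
  (∀ (u v : Cm d → Fo d) (c : ℂ), Continuous u → Continuous v → ∀ z,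
    cone β (fun y => u y + c • v y) z = cone β u z + c • cone β v z) ∧
  (∀ (u : Cm d → Fo d) (j : ℕ), Continuous u → ∀ z,
    dg j *ᵥ cone β u z = cone β (fun y => dg (j + 1) *ᵥ u y) z) ∧
  ∀ (u v : Cm d → Fo d) (B : Set (Cm d)), Convex ℝ B → tsupport β ⊆ B → (∀ y ∈ B, u y = v y) →
    ∀ z ∈ B, cone β u z = cone β v z

/-- row PO2: the `L²` bound -/
def PO2 : Prop := ∀ (d : ℕ) (β : Cm d → ℝ) (z0 : Cm d) (R : ℝ), Continuous β →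
  tsupport β ⊆ Metric.closedBall z0 R → ∃ C : ℝ, 0 ≤ C ∧ ∀ u : Cm d → Fo d, Continuous u →
    ∫ z in Metric.closedBall z0 R, ‖cone β u z‖ ^ 2 ≤
      C * ∫ z in Metric.closedBall z0 R, ‖u z‖ ^ 2 ∧
    ‖∫ y, (β y : ℂ) * u y ∅‖ ^ 2 ≤ C * ∫ z in Metric.closedBall z0 R, ‖u z‖ ^ 2

section
variable (p d : ℕ) (X Y : Type) [TopologicalSpace X] [ChartedSpace (Cm (p + d)) X]
  [TopologicalSpace Y] [ChartedSpace (Cm p) Y] [T2Space X] [CompactSpace X]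
  [IsManifold 𝓘(ℂ, Cm (p + d)) ω X] [T2Space Y] [IsManifold 𝓘(ℂ, Cm p) ω Y]

/-- row FIB: the fibres are compact Kähler manifolds -/
def FIB : Prop := ∀ w (f : X → Y) (U : Set Y), Fam p d w f U → ∀ y ∈ U,
  Nonempty (Fib p d f y) ∧ ∀ B : Fib p d f y, Smo d (p + d) B.j ∧
    (∃ wF, IsKahler wF ∧ IsRes B.j w wF) ∧
    ∀ wF (T : SF (p + d) X → SF d B.F) (u : SF (p + d) X), IsRes B.j w wF → IsPb B.j T →
      IsOm w u → IsOm wF (T u)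

/-- row EHR: Ehresmann's theorem (the fibres may be disconnected) -/
def EHR : Prop := ∀ w (f : X → Y) (U : Set Y), Fam p d w f U → ∀ a ∈ U,
  ∃ (N : Set Y) (r : X → X) (Φ : Y → X → X), N ⊆ U ∧ Triv p d f a N r Φ

/-- row TRF: the diffeomorphisms of the fibres -/
def TRF : Prop := ∀ w (f : X → Y) (U : Set Y) (a : Y) (N : Set Y) (r : X → X) (Φ : Y → X → X),
  Fam p d w f U → N ⊆ U → Triv p d f a N r Φ → ∀ t ∈ N, ∀ (Ba : Fib p d f a) (Bt : Fib p d f t),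
  ∃ φ : Ba.F ≃ₜ Bt.F, (∀ m, Bt.j (φ m) = Φ t (Ba.j m)) ∧ (∀ x, Ba.j (φ.symm x) = r (Bt.j x)) ∧
    Smo d d φ ∧ Smo d d φ.symm ∧ Ori d φ

/-- row TOPF: holomorphic forms of top degree on a fibre -/
def TOPF : Prop := ∀ w (f : X → Y) (y : Y) (B : Fib p d f y) (n : ℕ) (P : Pk w B n),
  Continuous f →
  (∀ σ, FibHol f y σ → ∃ u, B.Is σ u) ∧
  (∀ σ u u', B.Is σ u → B.Is σ u' → u = u') ∧
  (∀ σ σ' u u' (c : ℂ), B.Is σ u → B.Is σ' u' → B.Is (σ + c • σ') (u + c • u')) ∧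
  (∀ (σ σ' : PC p d X Y → Cm d → ℂ) (c : ℂ), FibHol f y σ → FibHol f y σ' →
    FibHol f y (σ + c • σ')) ∧
  (∀ σ u, FibHol f y σ → B.Is σ u → P.Xc.d u = 0 ∧ P.K.Top u) ∧
  (∀ u, P.Xc.d u = 0 → P.K.Top u → ∃ σ, FibHol f y σ ∧ B.Is σ u) ∧
  (∀ σ σ' u u', FibHol f y σ → FibHol f y σ' → B.Is σ u → B.Is σ' u' →
    FibItg f y (fun q z => star (σ q z) * σ' q z) (P.K.ip u u')) ∧
  ∀ (V : Set Y) (s : PC p d X Y → Cm p × Cm d → ℂ), y ∈ V → RelHol f V s → FibHol f y (rs s y)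

/-- row MDL: the transported family in the charts of the central fibre -/
def MDL : Prop := ∀ w (f : X → Y) (U : Set Y) (a : Y) (N : Set Y) (r : X → X) (Φ : Y → X → X)
  (n : ℕ) (Ba : Fib p d f a) (Xa : Cx (SF d Ba.F) d) (B : ∀ t : N, Fib p d f t)
  (P : ∀ t : N, Pk w (B t) n) (φ : ∀ t : N, Ba.F → (B t).F)
  (T : ∀ t : N, SF d (B t).F ≃ₗ[ℂ] SF d Ba.F) (χ : Chart p Y) (K : Cm p → KP Xa),
  Fam p d w f U → N ⊆ U → Triv p d f a N r Φ → (∀ t m, (B t).j (φ t m) = Φ t (Ba.j m)) →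
  (∀ t, IsPb (φ t) (T t)) → At χ a → (∀ s, (K s).c = cc d) →
  (∀ s (h : χ.symm s ∈ N), s ∈ χ.target → K s = (P ⟨χ.symm s, h⟩).K.tr Xa (T ⟨χ.symm s, h⟩)) →
  ∃ φ' wt, Mdl K (χ a) φ' wt ∧ ∀ (V : Set Y) (σ : PC p d X Y → Cm p × Cm d → ℂ)
    (u : Cm p → SF d Ba.F), IsOpen V → a ∈ V → RelHol f V σ →
    (∀ s (h : χ.symm s ∈ N), s ∈ χ.target → χ.symm s ∈ V →
      ∃ u', (B ⟨χ.symm s, h⟩).Is (rs σ (χ.symm s)) u' ∧ u s = T ⟨χ.symm s, h⟩ u') →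
    MdlS (χ a) φ' u

end

end Vale.Agent.P281Z.Hg
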