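import Vale.Agent.P281Z.Hg.EhrA
import Vale.Agent.P281Z.Hg.S4
import Vale.Agent.P281.H152.K.Tot

/-!
# P281, Hodge block: the theorem of Ehresmann
-/

open scoped Manifold ContDiff Topology
open Set Filter TopologicalSpace
open Vale.Agent.P272.K
open Vale.Agent.P281.H152.K (IsProd totCharted totManifold exists_prodChart)

noncomputable section

namespace Vale.Agent.P281Z.Hg.Eh

theorem rsc {E F M N : Type} [NormedAddCommGroup E] [NormedSpace ℂ E] [NormedAddCommGroup F]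
    [NormedSpace ℂ F] [TopologicalSpace M] [ChartedSpace E M] [TopologicalSpace N]
    [ChartedSpace F N] {g : M → N} {x : M} (h : ContMDiffAt 𝓘(ℂ, E) 𝓘(ℂ, F) ω g x) :
    ContMDiffAt 𝓘(ℝ, E) 𝓘(ℝ, F) ∞ g x := by
  rw [contMDiffAt_iff] at h ⊢
  exact ⟨h.1, (h.2.restrict_scalars ℝ).of_le le_top⟩

section
variable {n : ℕ} {X : Type} [TopologicalSpace X] [ChartedSpace (Cm n) X]
  [IsManifold 𝓘(ℂ, Cm n) ω X] {e : Chart n X} {x : X}

theorem sm_ch (he : At e x) : ContMDiffAt 𝓘(ℝ, Cm n) 𝓘(ℝ, Cm n) ∞ e x :=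
  rsc (contMDiffAt_of_mem_maximalAtlas (IsManifold.subset_maximalAtlas he.1) he.2)

theorem sm_symm (he : At e x) : ContMDiffAt 𝓘(ℝ, Cm n) 𝓘(ℝ, Cm n) ∞ e.symm (e x) :=
  rsc (contMDiffAt_symm_of_mem_maximalAtlas (IsManifold.subset_maximalAtlas he.1)
    (e.map_source he.2))

end

end Vale.Agent.P281Z.Hg.Eh

namespace Vale.Agent.P281Z.Hg

open Eh in
/-- row EHR -/
theorem ehr (p d : ℕ) (X Y : Type) [TopologicalSpace X] [ChartedSpace (Cm (p + d)) X]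
    [TopologicalSpace Y] [ChartedSpace (Cm p) Y] [T2Space X] [CompactSpace X]
    [IsManifold 𝓘(ℂ, Cm (p + d)) ω X] [T2Space Y] [IsManifold 𝓘(ℂ, Cm p) ω Y] : EHR p d X Y := by
  classical
  intro w f U hF a ha
  have hf := hF.hol.continuous
  have hχ : At (chartAt (Cm p) a) a := ⟨chart_mem_atlas _ _, mem_chart_source _ _⟩
  set χ := chartAt (Cm p) a
  let O : Opens X := ⟨f ⁻¹' (χ.source ∩ U), (χ.open_source.inter hF.opn).preimage hf⟩
  have hO : ∀ x, x ∈ O ↔ f x ∈ χ.source ∧ f x ∈ U := fun _ => Iff.rfl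
  choose cc c1 c2 using fun x : O => exists_prodChart hF.hol hχ.1 x.2.1 (hF.sub _ x.2.2)
  let : ChartedSpace (Cm p × Cm d) O := totCharted O cc c1
  have : IsManifold 𝓘(ℝ, Cm p × Cm d) ∞ O := totManifold O cc c1 c2
  have : SecondCountableTopology X := ChartedSpace.secondCountable_of_sigmaCompact (Cm (p + d)) X
  have hs : ∀ x y : O, y ∈ (chartAt (Cm p × Cm d) x).source ↔ y.1 ∈ (cc x).source := fun x y =>
    Set.ext_iff.1 ((cc x).subtypeRestr_source ⟨x⟩) y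
  have hv : ∀ x y : O, chartAt (Cm p × Cm d) x y = cc x y := fun _ _ => rfl
  have hP : ∀ x : O, ∀ y ∈ (chartAt (Cm p × Cm d) x).source,
      (chartAt (Cm p × Cm d) x y).1 = χ (f y.1) := fun x y hy => ((c2 x).fst y.1 ((hs x y).1 hy)).2
  have hm : ∀ x, f x = a → x ∈ O := fun x hx => (hO x).2 (hx ▸ ⟨hχ.2, ha⟩)
  have hP0 : ∀ y : O, χ (f y.1) = χ a → f y.1 = a := fun y hy => χ.injOn y.2.1 hχ.2 hy
  obtain ⟨N, r, Φ, n1, n2, h1, h2, h3, h4, h5⟩ := triv (H := Cm d) (t0 := χ a) hP (by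
    rw [Topology.IsEmbedding.subtypeVal.isCompact_iff, show Subtype.val ''
      ((fun y : O => χ (f y.1)) ⁻¹' {χ a}) = f ⁻¹' {a} from Set.ext fun x =>
        ⟨fun ⟨y, b, c⟩ => c ▸ hP0 y b, fun b => ⟨⟨x, hm x b⟩, congrArg χ b, rfl⟩⟩]
    exact (isClosed_singleton.preimage hf).isCompact) fun O' o1 o2 => by
    have k1 : IsClosed (f '' (Subtype.val '' O')ᶜ) := hf.isClosedMap _
      (O.isOpen.isOpenMap_subtype_val _ o1).isClosed_compl
    have k2 : a ∉ f '' (Subtype.val '' O')ᶜ := fun ⟨x, b, c⟩ =>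
      b ⟨⟨x, hm x c⟩, o2 (congrArg χ c), rfl⟩
    filter_upwards [(χ.tendsto_symm hχ.2).eventually (k1.isOpen_compl.mem_nhds k2)] with t ht y hy
    by_contra c
    exact ht ⟨y, fun ⟨z, b, e⟩ => c (Subtype.ext e ▸ b), (χ.left_inv y.2.1).symm.trans
      (congrArg χ.symm hy)⟩
  obtain ⟨x₀, hx₀⟩ := hF.onto a ha
  let l : X → O := fun x => if h : x ∈ O then ⟨x, h⟩ else ⟨x₀, hm x₀ hx₀⟩
  have l1 : ∀ y : O, l y = y := fun y => dif_pos y.2
  have l2 : ∀ x ∈ O, (l x).1 = x := fun x hx => congrArg Subtype.val (l1 ⟨x, hx⟩)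
  have l3 : ∀ m, f m = a → χ (f (l m)) = χ a := fun m b => by rw [l2 m (hm m b), b]
  have s1 : ∀ y : O, ContMDiffAt 𝓘(ℝ, Cm p × Cm d) 𝓘(ℝ, Cm (p + d)) ∞ Subtype.val y := fun y => by
    refine ((rsc ((c2 y).symm_hol.contMDiffAt ((cc y).open_target.mem_nhds ((cc y).map_source
      (c1 y))))).comp y (contMDiffAt_of_mem_maximalAtlas (IsManifold.chart_mem_maximalAtlas y)
        (mem_chart_source _ y))).congr_of_eventuallyEq ?_
    filter_upwards [chart_source_mem_nhds (Cm p × Cm d) y] with z hz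
      using ((cc y).left_inv ((hs y z).1 hz)).symm
  have s2 : ∀ x ∈ O, ContMDiffAt 𝓘(ℝ, Cm (p + d)) 𝓘(ℝ, Cm p × Cm d) ∞ l x := fun x hx => by
    refine ((contMDiffAt_symm_of_mem_maximalAtlas (IsManifold.chart_mem_maximalAtlas ⟨x, hx⟩)
      (mem_chart_target _ (⟨x, hx⟩ : O))).comp x (rsc ((c2 ⟨x, hx⟩).hol.contMDiffAt
        ((cc _).open_source.mem_nhds (c1 _))))).congr_of_eventuallyEq ?_
    filter_upwards [O.isOpen.mem_nhds hx, (cc ⟨x, hx⟩).open_source.mem_nhds (c1 ⟨x, hx⟩)]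
      with z b c using (l1 ⟨z, b⟩).trans
        ((chartAt (Cm p × Cm d) (⟨x, hx⟩ : O)).left_inv ((hs _ ⟨z, b⟩).2 c)).symm
  have s3 : ∀ x, f x ∈ U ∩ (χ.source ∩ χ ⁻¹' N) → ContMDiffAt 𝓘(ℝ, Cm (p + d)) 𝓘(ℝ, Cm (p + d)) ∞
      (fun x => (r (l x)).1) x := fun x hx => (s1 _).comp x ((h4 _ (by
        rw [l2 x ⟨hx.2.1, hx.1⟩]; exact hx.2.2)).comp x (s2 x ⟨hx.2.1, hx.1⟩))
  have s4 : ∀ t ∈ U ∩ (χ.source ∩ χ ⁻¹' N), ∀ m, f m = a → ∃ G : Y × X → X,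
      ContMDiffAt (𝓘(ℝ, Cm p).prod 𝓘(ℝ, Cm (p + d))) 𝓘(ℝ, Cm (p + d)) ∞ G (t, m) ∧
      ∀ᶠ k in 𝓝 (t, m), f k.2 = a → (Φ (χ k.1) (l k.2)).1 = G k := fun t ht m b => by
    obtain ⟨x, k1, -, σ, k2, k3, -⟩ := h5 _ ht.2.2 _ (l3 m b)
    have k4 := (s2 m (hm m b)).comp (I := 𝓘(ℝ, Cm p).prod 𝓘(ℝ, Cm (p + d))) (t, m) contMDiffAt_snd
    have k5 := ((sm_ch ⟨hχ.1, ht.2.1⟩).comp (t, m) contMDiffAt_fst).prodMk_space
      (contDiff_snd.contMDiff.contMDiffAt.comp (t, m) ((contMDiffAt_of_mem_maximalAtlas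
        (IsManifold.chart_mem_maximalAtlas x) k1).comp (t, m) k4))
    refine ⟨_, (s1 _).comp _ (k2.comp (t, m) k5), ?_⟩
    filter_upwards [k5.continuousAt.eventually k3, k4.continuousAt.eventually
      ((chartAt (Cm p × Cm d) x).open_source.mem_nhds k1)] with k e1 e2 e3
    refine congrArg Subtype.val (Eq.trans (congrArg (Φ _) ?_) e1)
    exact ((chartAt (Cm p × Cm d) x).left_inv e2).symm.trans
      (congrArg _ (Prod.ext ((hP x _ e2).trans (l3 _ e3)) rfl))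
  refine ⟨U ∩ (χ.source ∩ χ ⁻¹' N), fun x => (r (l x)).1, fun t m => (Φ (χ t) (l m)).1,
    inter_subset_left, hF.opn.inter (χ.isOpen_inter_preimage n1), ⟨ha, hχ.2, n2⟩,
    fun t ht m b => ?_, fun x hx => ?_, fun m b => ?_, fun x hx => (s3 x hx).continuousAt,
    fun e e' x hx b c => ?_, fun t ht m b => ?_, fun t ht m b q χ' e' k1 k2 k3 k4 => ?_,
    fun t ht m b => ?_⟩
  · obtain ⟨k1, k2⟩ := h1 _ ht.2.2 _ (l3 m b)
    exact ⟨χ.injOn (Φ _ _).2.1 ht.2.1 k1, by rw [l1, k2, l2 m (hm m b)]⟩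
  · obtain ⟨k1, k2⟩ := h2 (l x) (by rw [l2 x ⟨hx.2.1, hx.1⟩]; exact hx.2.2)
    rw [l2 x ⟨hx.2.1, hx.1⟩] at k2
    exact ⟨hP0 _ k1, by rw [l1, k2, l2 x ⟨hx.2.1, hx.1⟩]⟩
  · rw [h3 _ (l3 m b), l2 m (hm m b)]
  · exact contMDiffAt_iff_contDiffAt.1 ((sm_ch c).comp_of_eq ((s3 x hx).comp_of_eq (sm_symm b)
      (e.left_inv b.2)) (congrArg (fun x => (r (l x)).1) (e.left_inv b.2)))
  · obtain ⟨G, k1, k2⟩ := s4 t ht m b
    exact k1.continuousAt.continuousWithinAt.congr_of_eventuallyEq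
      (eventually_nhdsWithin_iff.2 k2) (k2.self_of_nhds b)
  · obtain ⟨G, g1, g2⟩ := s4 t ht m b
    have e1 : (q.1 a, (q.2 m).2) = q.2 m := Prod.ext (b ▸ (k1.2.fst m k2).2.symm) rfl
    have e2 : ContMDiffAt 𝓘(ℝ, Cm p × Cm d) 𝓘(ℝ, Cm p × Cm d) ∞
        (fun k : Cm p × Cm d => (q.1 a, k.2)) (χ' t, (q.2 m).2) :=
      (contDiffAt_const.prodMk contDiffAt_snd).contMDiffAt
    have e3 := ((sm_symm k3).comp_of_eq (x := (χ' t, (q.2 m).2))
      contDiff_fst.contMDiff.contMDiffAt rfl).prodMk ((rsc (k1.2.symm_hol.contMDiffAt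
        (q.2.open_target.mem_nhds (q.2.map_source k2)))).comp_of_eq e2 e1)
    have e4 : (χ'.symm (χ' t), q.2.symm (q.1 a, (q.2 m).2)) = (t, m) := by
      rw [e1, χ'.left_inv k3.2, q.2.left_inv k2]
    refine contMDiffAt_iff_contDiffAt.1 (((sm_ch k4).comp_of_eq (g1.comp_of_eq e3 e4)
      ((congrArg G e4).trans (g2.self_of_nhds b).symm)).congr_of_eventuallyEq ?_)
    filter_upwards [e3.continuousAt.eventually (e4.symm ▸ g2), e2.continuousAt.eventually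
      (q.2.open_target.mem_nhds (e1.symm ▸ q.2.map_source k2))] with k u v
    have e5 := k1.2.fst _ (q.2.map_target v)
    rw [q.2.right_inv v] at e5
    exact congrArg e' (u (q.1.injOn e5.1 (b ▸ (k1.2.fst m k2).1) e5.2.symm))
  · obtain ⟨x, k1, k2, σ, -, k3, k4⟩ := h5 _ ht.2.2 _ (l3 m b)
    have e1 := l2 m (hm m b)
    refine ⟨(χ, cc x), ⟨hχ.1, c2 x⟩, e1 ▸ (hs _ _).1 k1, (hs _ _).1 k2, ?_⟩
    rw [hv, e1] at k3 k4
    refine k4.trans_eq (congrArg _ (EventuallyEq.fderiv_eq ?_))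
    have e2 : (χ a, (cc x m).2) ∈ (chartAt (Cm p × Cm d) x).target := by
      have := (chartAt (Cm p × Cm d) x).map_source k1
      rwa [← Prod.mk.eta (p := chartAt (Cm p × Cm d) x (l m)), hP x _ k1, l3 m b, hv, e1] at this
    filter_upwards [(Continuous.prodMk_right _).continuousAt.eventually k3,
      (Continuous.prodMk_right _).continuousAt.eventually
        ((chartAt (Cm p × Cm d) x).open_target.mem_nhds e2)] with z u v
    rw [← u, ← (cc x).subtypeRestr_symm_apply ⟨x⟩ v]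
    exact congrArg (fun y => (cc x (Φ (χ t) y)).2) (l1 _).symm

end Vale.Agent.P281Z.Hg
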