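import Vale.Agent.P281Z.Hg.S3
import Vale.Agent.P281Z.Hg.K1b

/-!
# P281, Hodge block: continuity of a family of Kaehler packages (row FG1)
-/

set_option linter.unusedSectionVars false

open scoped Manifold ContDiff ComplexOrder Topology Matrix
open Filter
open Vale.Agent.P272.K Vale.Agent.P272.K.C2 Vale.Agent.P299.IX Vale.Agent.P299.IX.Fock

noncomputable section

namespace Vale.Agent.P281Z.Hg

namespace Fg1

theorem wy_mem {R : Type*} [Ring R] [Algebra ℂ R] (S : Subalgebra ℂ R) (D : ℕ) {A B : R}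
    (hA : A ∈ S) (hB : B ∈ S) : wy D A B ∈ S :=
  have h : ∀ A ∈ S, ex (D + D + 2) A ∈ S := fun _ h =>
    S.sum_mem fun k _ => S.smul_mem (S.pow_mem h k) _
  S.mul_mem (S.mul_mem (h _ hA) (h _ (S.neg_mem hB))) (h _ hA)

/-- the sum of the norms of the entries -/
def sn {ι : Type} [Fintype ι] (A : Matrix ι ι ℂ) : ℝ := ∑ I, ∑ J, ‖A I J‖

theorem sn_nonneg {ι : Type} [Fintype ι] (A : Matrix ι ι ℂ) : 0 ≤ sn A :=
  Finset.sum_nonneg fun _ _ => Finset.sum_nonneg fun _ _ => norm_nonneg _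

theorem cont_sn {ι : Type} [Fintype ι] : Continuous (sn : Matrix ι ι ℂ → ℝ) :=
  continuous_finsetSum _ fun I _ => continuous_finsetSum _ fun J _ =>
    (continuous_apply_apply I J).norm

theorem norm_mulVec {ι : Type} [Fintype ι] (A : Matrix ι ι ℂ) (v : ι → ℂ) :
    ‖A *ᵥ v‖ ≤ sn A * ‖v‖ := by
  refine (pi_norm_le_iff_of_nonneg (mul_nonneg (sn_nonneg A) (norm_nonneg v))).2 fun I => ?_
  refine (norm_sum_le _ _).trans ((Finset.sum_le_sum fun J _ => (norm_mul_le _ _).trans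
    (mul_le_mul_of_nonneg_left (norm_le_pi_norm v J) (norm_nonneg _))).trans ?_)
  rw [← Finset.sum_mul]
  exact mul_le_mul_of_nonneg_right (Finset.single_le_sum (f := fun I => ∑ J, ‖A I J‖)
    (fun _ _ => Finset.sum_nonneg fun _ _ => norm_nonneg _) (Finset.mem_univ I)) (norm_nonneg v)

theorem cont_lam {n : ℕ} : Continuous (lam : Matrix (Fin n) (Fin n) ℂ → FM n) :=
  continuous_matrix fun K I => continuous_iff_continuousAt.2 fun J =>
    (k1b'.lr_smooth (E := Fin n → Fin n → ℂ) (J := fun y => y) (z := J)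
      (fun i j => contDiffAt_pi.1 (contDiffAt_pi.1 contDiffAt_id i) j) K I).continuousAt

theorem cont_inv {n : ℕ} {A : Matrix (Fin n) (Fin n) ℂ} (h : A.det ≠ 0) :
    ContinuousAt (fun B : Matrix (Fin n) (Fin n) ℂ => B⁻¹) A :=
  continuousAt_matrix_inv A (by rw [Ring.inverse_eq_inv']; exact continuousAt_inv₀ h)

variable {d p : ℕ}

theorem cont_Lw : Continuous (Lw : Matrix (Fin d) (Fin d) ℂ → Fm d) :=
  continuous_finsetSum _ fun j _ => continuous_finsetSum _ fun k _ =>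
    (continuous_const.mul (continuous_apply_apply j k)).smul continuous_const

theorem cont_Lam {w : Matrix (Fin d) (Fin d) ℂ} (h : w.det ≠ 0) : ContinuousAt Lam w :=
  tendsto_finsetSum _ fun j _ => tendsto_finsetSum _ fun k _ =>
    (continuousAt_const.mul ((continuous_apply_apply k j).continuousAt.comp (cont_inv h))).smul
      continuousAt_const

theorem cont_jc {φ : Cm p → Cm d → Cm d} {q : Cm p × Cm d}
    (h : ContDiffAt ℝ ∞ (fun q : Cm p × Cm d => φ q.1 q.2) q) :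
    ContinuousAt (fun q : Cm p × Cm d => jc (φ q.1) q.2) q := by
  refine continuousAt_pi.2 fun c => continuousAt_pi.2 fun l => ?_
  obtain ⟨L, hL⟩ := Kb.cx_clm l
  obtain ⟨a, b, v, w, e⟩ := Ka.dr_DD c
  have h1 : ContDiffAt ℝ ∞ (Function.uncurry fun (k : Cm p × Cm d) (y : Cm d) => L (φ k.1 y))
      (q, q.2) := L.contDiff.contDiffAt.comp _
    (ContDiffAt.comp (g := fun k : Cm p × Cm d => φ k.1 k.2)
      (f := fun k : (Cm p × Cm d) × Cm d => (k.1.1, k.2)) (q, q.2) h (by fun_prop))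
  have h2 : ContinuousAt (fun k : Cm p × Cm d => fderiv ℝ (fun y => L (φ k.1 y)) k.2) q :=
    (ContDiffAt.fderiv (m := 0) (g := Prod.snd) h1 contDiffAt_snd (by simp)).continuousAt
  simp only [jc, Matrix.of_apply, e, hL, DD]
  exact (continuousAt_const.mul (h2.clm_apply continuousAt_const)).add
    (continuousAt_const.mul (h2.clm_apply continuousAt_const))

variable {M : Type} [TopologicalSpace M] [ChartedSpace (Cm d) M]

variable (d M) in
/-- families of operators which act pointwise by a continuous family of matrices -/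
def Al (t0 : Cm p) : Subalgebra ℂ (Cm p → Module.End ℂ (SF d M)) where
  carrier := {T | ∀ e x, At e x → ∃ F : Cm p × Cm d → Fm d, ContinuousAt F (t0, e x) ∧
    ∀ᶠ q in 𝓝 ((t0, e x) : Cm p × Cm d), ∀ u, vl (T q.1 u) e q.2 = F q *ᵥ vl u e q.2}
  mul_mem' := by
    intro T T' h h' e x hx
    obtain ⟨F, a, b⟩ := h e x hx
    obtain ⟨F', a', b'⟩ := h' e x hx
    refine ⟨fun q => F q * F' q, a.mul a', ?_⟩
    filter_upwards [b, b'] with q c c' u
    rw [← Matrix.mulVec_mulVec, ← c' u, ← c]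
    rfl
  add_mem' := by
    intro T T' h h' e x hx
    obtain ⟨F, a, b⟩ := h e x hx
    obtain ⟨F', a', b'⟩ := h' e x hx
    refine ⟨fun q => F q + F' q, a.add a', ?_⟩
    filter_upwards [b, b'] with q c c' u
    rw [Matrix.add_mulVec, ← c' u, ← c]
    rfl
  algebraMap_mem' c e x _ := ⟨fun _ => c • 1, continuousAt_const, .of_forall fun q u => by
    rw [Matrix.smul_mulVec, Matrix.one_mulVec]
    rfl⟩

variable {t0 : Cm p} {T : Cm p → Module.End ℂ (SF d M)}

theorem small (h : T ∈ Al d M t0) {e : Chart d M} {x : M} (hx : At e x) {ε : ℝ} (hε : 0 < ε) :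
    ∀ᶠ q in 𝓝 ((t0, e x) : Cm p × Cm d), ∀ u,
      ‖vl (T q.1 u - T t0 u) e q.2‖ ≤ ε * ‖vl u e q.2‖ := by
  obtain ⟨F, a, b⟩ := h e x hx
  have h1 : ContinuousAt (fun q : Cm p × Cm d => (t0, q.2)) (t0, e x) := by fun_prop
  have h2 : ContinuousAt (fun q : Cm p × Cm d => sn (F q - F (t0, q.2))) (t0, e x) :=
    cont_sn.continuousAt.comp (a.sub (ContinuousAt.comp (g := F) a h1))
  filter_upwards [b, h1.eventually b, h2.eventually_lt continuousAt_const
    (show _ < ε by simpa [sn] using hε)] with q c c' c'' u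
  rw [vl_sub, c, c' u, ← Matrix.sub_mulVec]
  exact (norm_mulVec _ _).trans (mul_le_mul_of_nonneg_right c''.le (norm_nonneg _))

theorem const_mem {A : Fm d} {T : Module.End ℂ (SF d M)} (h : IsOp (fun _ _ => A) T) :
    (fun _ => T) ∈ Al d M t0 := fun e x hx => ⟨fun _ => A, continuousAt_const, by
  filter_upwards [continuous_snd.continuousAt.eventually
    (e.open_target.mem_nhds (e.map_source hx.2))] with q hq u
  have h1 := h u e (e.symm q.2) ⟨hx.1, e.map_target hq⟩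
  rwa [e.right_inv hq] at h1⟩

variable {X : Cx (SF d M) d} {K : Cm p → KP X} {φ : Chart d M → Cm p → Cm d → Cm d}
  {wt : Chart d M → Cm p → Cm d → Matrix (Fin d) (Fin d) ℂ}

theorem cont_conj (h : Mdl K t0 φ wt) {e : Chart d M} {x : M} (hx : At e x)
    {A : Cm p × Cm d → Fm d} (hA : ContinuousAt A (t0, e x)) :
    ContinuousAt (fun q : Cm p × Cm d => lam (jc (φ e q.1) q.2) * A q * lam (jc (φ e q.1) q.2)⁻¹)
      (t0, e x) := by
  have h1 := cont_jc (h.sm e x hx)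
  have h2 : jc (φ e t0) (e x) = 1 := by
    rw [k1b'.jc_congr (ψ := fun y => y), k1b'.jc_id]
    filter_upwards [e.open_target.mem_nhds (e.map_source hx.2)] with z hz
    have h3 := h.id e (e.symm z) ⟨hx.1, e.map_target hz⟩
    rwa [e.right_inv hz] at h3
  exact ((cont_lam.continuousAt.comp h1).mul hA).mul (cont_lam.continuousAt.comp
    (ContinuousAt.comp (g := fun B : Matrix _ _ ℂ => B⁻¹) (cont_inv (by simp [h2])) h1))

theorem cont_wt (h : Mdl K t0 φ wt) {e : Chart d M} {x : M} (hx : At e x) :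
    ContinuousAt (fun q : Cm p × Cm d => wt e q.1 q.2) (t0, e x) :=
  continuousAt_pi.2 fun i => continuousAt_pi.2 fun j => (h.wsm e x hx i j).continuousAt

theorem pr_mem (h : Mdl K t0 φ wt) (k : ℕ) : (fun t => (K t).pr k) ∈ Al d M t0 := fun e x hx =>
  ⟨_, cont_conj h hx continuousAt_const, (h.pt e x hx).mono fun _ a u => (a.2 u).1 k⟩

theorem L_mem (h : Mdl K t0 φ wt) : (fun t => (K t).L) ∈ Al d M t0 := fun e x hx =>
  ⟨_, cont_conj h hx (cont_Lw.continuousAt.comp (cont_wt h hx)),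
    (h.pt e x hx).mono fun _ a u => (a.2 u).2.1⟩

theorem Lm_mem (h : Mdl K t0 φ wt) : (fun t => (K t).Lm) ∈ Al d M t0 := fun e x hx =>
  ⟨_, cont_conj h hx (ContinuousAt.comp (g := Lam) (cont_Lam (h.wpos e x hx).det_pos.ne')
    (cont_wt h hx)), (h.pt e x hx).mono fun _ a u => (a.2 u).2.2⟩

variable [T2Space M] [CompactSpace M] [IsManifold 𝓘(ℂ, Cm d) ω M]

theorem WC_mem (hX : RealX X) (h : Mdl K t0 φ wt) : (fun t => (K t).W * (K t).C) ∈ Al d M t0 := by
  have h1 := (Al d M t0).mul_mem (wy_mem _ d (L_mem h) (Lm_mem h))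
    ((Al d M t0).sum_mem (t := Finset.range (d + d + 1)) fun m _ =>
      (Al d M t0).sum_mem (t := Finset.range (d + 1)) fun k _ => (Al d M t0).smul_mem
        ((Al d M t0).mul_mem (const_mem (hX.dg m)) (pr_mem h k)) (Complex.I ^ m * (-1) ^ k))
  refine (congrArg (· ∈ Al d M t0) (funext fun t => ?_)).mp h1
  simp only [KP.W, KP.C, wy, ex, Pi.mul_apply, Finset.sum_apply, Pi.smul_apply, Pi.pow_apply,
    Pi.neg_apply]

variable {nrm : SF d M → ℝ}

theorem est (hb : G4b d M) (h2 : IsL2 nrm) (h0 : ∀ u, 0 ≤ nrm u) (h : T ∈ Al d M t0) {ε : ℝ}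
    (hε : 0 < ε) : ∀ᶠ t in 𝓝 t0, ∀ u, nrm (T t u - T t0 u) ≤ ε * nrm u := by
  obtain ⟨b1, -, N, e, K, k1, k2, k3, k4⟩ := hb nrm h2 h0
  obtain ⟨C, c0, hC⟩ := b1 N e K k1 k2 k3 k4
  have hδ : 0 < ε / (C + 1) := by positivity
  filter_upwards [eventually_all.2 fun i => IsCompact.eventually_forall_of_forall_eventually
    ((k2 i).image_of_continuousOn ((e i).continuousOn.mono (k3 i)))
    (P := fun t z => ∀ u, ‖vl (T t u - T t0 u) (e i) z‖ ≤ ε / (C + 1) * ‖vl u (e i) z‖)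
    (by rintro _ ⟨x, hx, rfl⟩; exact small h ⟨k1 i, k3 i hx⟩ hδ)] with t ht u
  refine (hC u _ _ hδ.le fun i x hx => ht i _ ⟨x, hx, rfl⟩ u).trans
    (mul_le_mul_of_nonneg_right ?_ (h0 u))
  rw [mul_div_assoc', div_le_iff₀ (by positivity)]
  nlinarith

theorem cj_bdd (hb : G4b d M) (h2 : IsL2 nrm) (h0 : ∀ u, 0 ≤ nrm u) (hX : RealX X) :
    ∃ C : ℝ, 0 ≤ C ∧ ∀ u, nrm (X.cj u) ≤ C * nrm u := by
  obtain ⟨b1, -, N, e, K, k1, k2, k3, k4⟩ := hb nrm h2 h0
  obtain ⟨C, c0, hC⟩ := b1 N e K k1 k2 k3 k4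
  refine ⟨_, mul_nonneg c0 (sn_nonneg (lam (swm d))), fun u =>
    hC u _ _ (sn_nonneg _) fun i x hx => ?_⟩
  rw [hX.cj u _ x ⟨k1 i, k3 i hx⟩]
  exact (norm_mulVec _ _).trans_eq (by rw [norm_star])

end Fg1

open Fg1 in
/-- row FG1 -/
theorem fg1 {d : ℕ} {M : Type} [TopologicalSpace M] [ChartedSpace (Cm d) M] [T2Space M]
    [CompactSpace M] [IsManifold 𝓘(ℂ, Cm d) ω M] (hb : G4b d M) : FG1 d M := by
  intro p X K t0 φ wt hX h h2 hk
  refine ⟨fun ε hε => ?_, fun k ε hε => est hb h2 hk.nn (pr_mem h k) hε⟩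
  obtain ⟨C, c0, hC⟩ := hk.bQ
  obtain ⟨C', c1, hC'⟩ := cj_bdd hb h2 hk.nn hX
  have h3 : 0 < ‖cc d‖ * C * C' + 1 := by positivity
  filter_upwards [est hb h2 hk.nn (WC_mem hX h) (div_pos hε h3)] with t ht a
  have h4 : (K t).ip a a - (K t0).ip a a =
      cc d * X.Q (X.cj a) (((K t).W * (K t).C) a - ((K t0).W * (K t0).C) a) := by
    rw [map_sub, mul_sub, KP.ip, KP.ip, h.c, h.c]
    rfl
  have h5 := hk.nn a
  rw [← Complex.sub_re, h4, ← hk.sq]
  refine (Complex.abs_re_le_norm _).trans ((norm_mul_le _ _).trans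
    ((mul_le_mul_of_nonneg_left ((hC _ _).trans (mul_le_mul (mul_le_mul_of_nonneg_left (hC' a) c0)
      (ht a) (hk.nn _) (by positivity))) (norm_nonneg _)).trans ?_))
  have h6 : ‖cc d‖ * C * C' * (ε / (‖cc d‖ * C * C' + 1)) ≤ ε := by
    rw [mul_div_assoc', div_le_iff₀ h3]
    nlinarith
  calc _ = ‖cc d‖ * C * C' * (ε / (‖cc d‖ * C * C' + 1)) * (K t0).nrm a ^ 2 := by ring
    _ ≤ _ := mul_le_mul_of_nonneg_right h6 (sq_nonneg _)

end Vale.Agent.P281Z.Hg
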