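import Vale.Agent.P281Z.Hg.Fg2b

/-!
# P281, Hodge block, row FG2: first order expansion of the types
-/

open scoped Manifold ContDiff Topology Matrix
open Filter
open Vale.Agent.P272.K Vale.Agent.P272.K.C2 Vale.Agent.P299.IX Vale.Agent.P299.IX.Fock

noncomputable section

namespace Vale.Agent.P281Z.Hg

variable {d : ℕ} {M : Type} [TopologicalSpace M] [ChartedSpace (Cm d) M]

namespace F2

theorem tgt {e : Chart d M} {x : M} (h : At e x) : ∀ᶠ z in 𝓝 (e x), z ∈ e.target :=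
  e.open_target.mem_nhds (e.map_source h.2)

theorem ev_at {e : Chart d M} {x : M} (h : At e x) {P : Cm d → Prop}
    (hP : ∀ y, At e y → P (e y)) : ∀ᶠ z in 𝓝 (e x), P z :=
  (tgt h).mono fun _ hz => e.right_inv hz ▸ hP _ ⟨h.1, e.map_target hz⟩

theorem op_ev {F : Rw d M (Fm d)} {T : SF d M → SF d M} (hT : IsOp F T) {e : Chart d M} {x : M}
    (h : At e x) : ∀ᶠ z in 𝓝 (e x), ∀ u, vl (T u) e z = F e z *ᵥ vl u e z :=
  ev_at h fun y hy u => hT u e y hy

theorem ev_snd {p : ℕ} {t0 : Cm p} {z : Cm d} {P : Cm d → Prop} (h : ∀ᶠ y in 𝓝 z, P y) :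
    ∀ᶠ q in 𝓝 ((t0, z) : Cm p × Cm d), P q.2 := continuousAt_snd.eventually h

theorem ev_l {p : ℕ} {t0 : Cm p} {z : Cm d} {P : Cm p × Cm d → Prop}
    (h : ∀ᶠ q in 𝓝 (t0, z), P q) : ∀ᶠ t in 𝓝 t0, P (t, z) :=
  (show ContinuousAt (fun t : Cm p => (t, z)) t0 by fun_prop).eventually h

theorem ev_r {p : ℕ} {t0 : Cm p} {z : Cm d} {P : Cm p × Cm d → Prop}
    (h : ∀ᶠ q in 𝓝 (t0, z), P q) : ∀ᶠ y in 𝓝 z, P (t0, y) :=
  (show ContinuousAt (fun y : Cm d => (t0, y)) z by fun_prop).eventually h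

theorem sm_snd {p : ℕ} {t0 : Cm p} {z : Cm d} {A : Cm d → Fm d} (h : SM A z) :
    SM (fun q : Cm p × Cm d => A q.2) (t0, z) := SM.comp (x := (t0, z)) h contDiffAt_snd

omit [ChartedSpace (Cm d) M] in
theorem ev_cpt {p : ℕ} {t0 : Cm p} {e : Chart d M} {K : Set M} (hK : IsCompact K)
    (hs : K ⊆ e.source) (P : Cm p × Cm d → Prop) (h : ∀ x ∈ K, ∀ᶠ q in 𝓝 (t0, e x), P q) :
    ∀ᶠ t in 𝓝 t0, ∀ x ∈ K, P (t, e x) :=
  hK.eventually_forall_of_forall_eventually (P := fun t x => P (t, e x)) fun x hx =>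
    (continuousAt_id.prodMap (e.continuousAt (hs hx)) :
      ContinuousAt (Prod.map id e) (t0, x)).eventually (h x hx)

variable [T2Space M] [CompactSpace M] [IsManifold 𝓘(ℂ, Cm d) ω M]

theorem onto (g1 : G1 d M) {e : Chart d M} {x : M} (h : At e x) (v : Fo d) :
    ∃ u : SF d M, vl u e (e x) = v := by
  obtain ⟨r, hr, hb⟩ := Metric.nhds_basis_closedBall.mem_iff.1 (tgt h)
  let f : ContDiffBump (e x) := ⟨r / 2, r, by positivity, by linarith⟩
  obtain ⟨u, hu, -⟩ := g1.loc e (e.symm '' Metric.closedBall (e x) r) (fun z => f z • v) h.1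
    ((isCompact_closedBall _ _).image_of_continuousOn (e.continuousOn_symm.mono hb))
    (by rintro _ ⟨z, hz, rfl⟩; exact e.map_target (hb hz))
    (f.contDiff.smul contDiff_const).contDiffOn fun z hz hz' => by
      rw [f.zero_of_le_dist (not_lt.1 fun k => hz' ⟨_, ⟨z, k.le, rfl⟩, e.right_inv hz⟩), zero_smul]
  refine ⟨u, ?_⟩
  rw [hu _ (e.map_source h.2), f.one_of_mem_closedBall (Metric.mem_closedBall_self f.rIn_pos.le),
    one_smul]

omit [T2Space M] [CompactSpace M] [IsManifold 𝓘(ℂ, Cm d) ω M] in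
/-- fields vanishing to first order give operators of small norm -/
theorem master (k : K1a) (g4 : G4b d M) {nrm : SF d M → ℝ} (hn : IsL2 nrm) (h0 : ∀ u, 0 ≤ nrm u)
    {p : ℕ} {T : Cm p → SF d M → SF d M} {t0 : Cm p} (G : Chart d M → Cm p × Cm d → Fm d)
    (ha : ∀ e x, At e x → ∀ᶠ q in 𝓝 (t0, e x), ∀ u, vl (T q.1 u) e q.2 = G e q *ᵥ vl u e q.2)
    (hb : ∀ e x, At e x → SM (G e) (t0, e x)) (hc : ∀ e x, At e x → G e (t0, e x) = 0)
    (hd : ∀ e x, At e x → ∀ c, Dr c (fun t => G e (t, e x)) t0 = 0) (ε : ℝ) (hε : 0 < ε) :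
    ∀ᶠ t in 𝓝 t0, ∀ u, nrm (T t u) ≤ ε * ‖t - t0‖ * nrm u := by
  obtain ⟨h1, -, N, e, K, he, hK, hs, hx⟩ := g4 nrm hn h0
  obtain ⟨C, hC, h2⟩ := h1 N e K he hK hs hx
  obtain ⟨A, hA, hG⟩ : ∃ A : ℝ, 0 ≤ A ∧ ∀ (G : Fm d) (δ : ℝ), 0 ≤ δ → (∀ i j, ‖G i j‖ ≤ δ) →
      ∀ u, ‖G *ᵥ u‖ ≤ A * δ * ‖u‖ := ⟨_, Nat.cast_nonneg _, fun _ _ => norm_mulVec⟩
  obtain ⟨δ, hδ, h3⟩ : ∃ δ : ℝ, 0 < δ ∧ C * (A * δ) ≤ ε := by
    refine ⟨ε / (C * A + 1), by positivity, ?_⟩
    rw [← mul_assoc, mul_div_assoc', div_le_iff₀ (by positivity)]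
    nlinarith
  have h4 : ∀ i, ∀ᶠ t in 𝓝 t0, ∀ x ∈ K i, ∀ u, ‖vl (T t u) (e i) (e i x)‖ ≤
      A * (δ * ‖t - t0‖) * ‖vl u (e i) (e i x)‖ := fun i => by
    refine ev_cpt (hK i) (hs i) (fun q => ∀ u, ‖vl (T q.1 u) (e i) q.2‖ ≤
      A * (δ * ‖q.1 - t0‖) * ‖vl u (e i) q.2‖) fun x hxK => ?_
    have a : At (e i) x := ⟨he i, hs i hxK⟩
    have h6 : ∀ᶠ q in 𝓝 (t0, e i x), ∀ I J,
        ‖G (e i) q I J - G (e i) (t0, q.2) I J‖ ≤ δ * ‖q.1 - t0‖ :=
      eventually_all.2 fun I => eventually_all.2 fun J =>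
        tay k (hb _ x a I J) (fun c => congrFun (congrFun (hd _ x a c) I) J) hδ
    filter_upwards [ha _ x a, h6, ev_snd (ev_at a (P := fun z => G (e i) (t0, z) = 0) (hc _))]
      with q q1 q2 q3 u
    rw [q1]
    refine hG _ _ (by positivity) (fun I J => ?_) _
    simpa only [q3, Matrix.zero_apply, sub_zero] using q2 I J
  filter_upwards [eventually_all.2 h4] with t ht u
  refine (h2 u (T t u) _ (by positivity) fun i x hxK => ht i x hxK u).trans
    (mul_le_mul_of_nonneg_right ?_ (h0 u))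
  rw [← mul_assoc _ δ, ← mul_assoc C]
  exact mul_le_mul_of_nonneg_right h3 (norm_nonneg _)

variable {p : ℕ} {X : Cx (SF d M) d} {K : Cm p → KP X} {t0 : Cm p}
  {φ : Chart d M → Cm p → Cm d → Cm d} {wt : Chart d M → Cm p → Cm d → Matrix (Fin d) (Fin d) ℂ}
  (h : Mdl K t0 φ wt) {e e' : Chart d M} {x : M}

include h

omit [T2Space M] [CompactSpace M] [IsManifold 𝓘(ℂ, Cm d) ω M] in
theorem J_one (k : K1b) (a : At e x) : jc (φ e t0) (e x) = 1 :=
  (k.jc_congr (ev_at a (P := fun z => φ e t0 z = z) (h.id e))).trans (k.jc_id _)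

omit [T2Space M] [CompactSpace M] [IsManifold 𝓘(ℂ, Cm d) ω M] in
theorem pr_ev (a : At e x) (m : ℕ) : ∀ᶠ q in 𝓝 ((t0, e x) : Cm p × Cm d), ∀ u,
    vl ((K q.1).pr m u) e q.2 = Rq (φ e) m q *ᵥ vl u e q.2 :=
  (h.pt e x a).mono fun _ k u => (k.2 u).1 m

omit [T2Space M] [CompactSpace M] [IsManifold 𝓘(ℂ, Cm d) ω M] in
theorem R_zero (k : K1b) (a : At e x) (m : ℕ) : Rq (φ e) m (t0, e x) = pm d m := by
  simp [Rq, J_one h k a, lam_one]

omit [T2Space M] [CompactSpace M] [IsManifold 𝓘(ℂ, Cm d) ω M] in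
theorem pr_op (k : K1b) (m : ℕ) : IsOp (fun _ _ => pm d m) ((K t0).pr m) := fun u e x a => by
  rw [(pr_ev h a m).self_of_nhds u, R_zero h k a]

theorem cov_NB (f : F1b) (k : K1b) (g1 : G1 d M) (c : Fin (p + p)) :
    CovF (d := d) (M := M) fun e z => NB (Bm (φ e) t0 c z) := by
  refine ⟨fun e x a => NB_sm (h.sm e x a) c, fun e e' x a a' => ?_⟩
  have h1 : ∀ m, ∀ᶠ t in 𝓝 t0, Rq (φ e) m (t, e x) * lam (jt e e' x) =
      lam (jt e e' x) * Rq (φ e') m (t, e' x) := fun m => by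
    filter_upwards [ev_l (pr_ev h a m), ev_l (pr_ev h a' m)] with t q q'
    refine ext_mulVec fun v => ?_
    obtain ⟨u, rfl⟩ := onto g1 a' v
    rw [← Matrix.mulVec_mulVec, ← Matrix.mulVec_mulVec, ← q', ← (vl_isF u).ch e e' x a a', ← q,
      (vl_isF _).ch e e' x a a']
  rw [NB_eq (h.sm e x a) k (J_one h k a) f, NB_eq (h.sm e' x a') k (J_one h k a') f,
    Finset.sum_mul, Finset.mul_sum]
  refine Finset.sum_congr rfl fun m _ => ?_
  have h2 := Dr_congr c (h1 (m + 1))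
  rw [Dr_mul c (sm_l (R_sm (h.sm e x a) k (J_one h k a) _)) (SM.const _),
    Dr_mul c (SM.const _) (sm_l (R_sm (h.sm e' x a') k (J_one h k a') _)), Dr_const,
    Matrix.mul_zero, Matrix.zero_mul, add_zero, zero_add] at h2
  rw [Matrix.mul_assoc, h2, ← Matrix.mul_assoc, ← Matrix.mul_assoc, g1.jt_eq e e' x a a', f.pm_blk]

theorem cov_ctr (f : F1b) (g1 : G1 d M) (j : Fin p) :
    CovF (d := d) (M := M) fun e z => ctr fun l => xi (φ e) t0 (ah j) z (hl l) := by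
  refine ⟨fun e x a => SM.sum _ fun l => SM.smul (xi_sm (h.sm e x a) _ _) (SM.const _),
    fun e e' x a a' => ?_⟩
  obtain ⟨θ, h1, h2⟩ := h.hol e e' x a a'
  have h3 : DifferentiableAt ℝ (fun t => φ e t (e x)) t0 :=
    (ContDiffAt.comp (f := fun t => (t, e x)) t0 (h.sm e x a) (by fun_prop)).differentiableAt
      (by simp)
  have h4 : ∀ᶠ y in 𝓝 (e x), e' (e.symm y) = θ (t0, y) := by
    filter_upwards [ev_r h2, (e.continuousAt_symm (e.map_source a.2)).eventually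
      (e'.open_source.mem_nhds (by rw [e.left_inv a.2]; exact a'.2)),
      ev_at a (P := fun z => φ e t0 z = z) (h.id e)] with y y1 y2 y3
    exact (h.id e' _ ⟨a'.1, y2⟩).symm.trans (y1.trans (congrArg (fun w => θ (t0, w)) y3))
  rw [g1.jt_eq e e' x a a', ctr_blk f]
  refine congrArg (fun v => _ * ctr v) (funext fun l => ?_)
  simp only [xi, dr_ah, cx_hl]
  rw [dzb_congr (g := fun t => θ (t, φ e t (e x)) l) j ((ev_l h2).mono fun t ht => by
    simp only [e.left_inv a.2] at ht; exact congrFun ht l),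
    xi_ch h1.differentiableAt h3 (h.id e x a)]
  rw [Matrix.mulVec, dotProduct]
  refine Finset.sum_congr rfl fun i _ => ?_
  rw [jacM, Matrix.of_apply, dz_congr i (h4.mono fun y hy => congrFun hy l)]

theorem Ab_eq (f : F1b) (k0 : K1a) (k : K1b) (hX : RealX X) (a : At e x) (u : SF d M) :
    vl ((K t0).Ab u) e (e x) = ∑ c, eps (ah c) *ᵥ Dv (ah c) (vl u e) (e x) := by
  rw [← pm_eps f fun c => Dv c (vl u e) (e x), KP.Ab, LinearMap.sum_apply, vl_sum]
  refine Finset.sum_congr rfl fun m _ => ?_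
  rw [Module.End.mul_apply, Module.End.mul_apply, pr_op h k m _ e x a, hX.d _ e x a,
    k0.congr ((op_ev (pr_op h k m) a).mono fun _ q => q u), dT]
  simp only [k0.Dv_mul _ _ (((vl_isF u).sm e x a).differentiableAt (by simp))]

theorem nu_op (f : F1b) (k0 : K1a) (k : K1b) (hX : RealX X) (c : Fin (p + p))
    {η : Module.End ℂ (SF d M)} (hη : IsOp (fun e z => ctr fun l => xi (φ e) t0 c z (hl l)) η) :
    IsOp (fun e z => NB (Bm (φ e) t0 c z)) ((K t0).Ab * η + η * (K t0).Ab) := fun u e x a => by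
  rw [LinearMap.add_apply, vl_add, Module.End.mul_apply, Module.End.mul_apply, hη _ e x a,
    Ab_eq h f k0 k hX a, Ab_eq h f k0 k hX a, ← dbar_ctr (h.sm e x a) c ((vl_isF u).sm e x a)]
  simp only [Dv_congr _ ((op_ev hη a).mono fun _ q => q u)]

end F2

open F2

/-- row FG2 -/
theorem fg2 [T2Space M] [CompactSpace M] [IsManifold 𝓘(ℂ, Cm d) ω M] (_ : F1a) (f : F1b)
    (k0 : K1a) (k : K1b) (g1 : G1 d M) (g4 : G4b d M) : FG2 d M := by
  intro p X K t0 φ wt hX h hn hb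
  have hR := fun e x (a : At e x) => R_sm (h.sm e x a) k (J_one h k a)
  have hN := fun e x (a : At e x) => NB_sm (h.sm e x a)
  refine ⟨fun j m hjm => ?_, ?_⟩
  · obtain ⟨m, rfl⟩ : ∃ n, m = n + 1 := ⟨m - 1, by omega⟩
    refine master k0 g4 hn hb.nn (T := fun t u => (K t0).pr j ((K t).pr (m + 1) u))
      (fun e q => pm d j * Rq (φ e) (m + 1) q) (fun e x a => ?_)
      (fun e x a => (SM.const _).mul (hR e x a _)) (fun e x a => ?_) fun e x a c => ?_
    · filter_upwards [pr_ev h a (m + 1), ev_snd (op_ev (pr_op h k j) a)] with q q1 q2 u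
      rw [q2, q1, Matrix.mulVec_mulVec]
    · rw [R_zero h k a, f.pm_mul, if_neg (by omega)]
    · rw [Dr_mul c (SM.const _) (sm_l (hR e x a _)), Dr_const, Matrix.zero_mul, zero_add,
        pm_R (h.sm e x a) k (J_one h k a) f (by omega), ← Matrix.mul_assoc, f.pm_mul,
        if_neg (by omega), Matrix.zero_mul]
  choose μ hμ using fun j => g1.op _ (cov_NB h f k g1 (hl j))
  choose η hη using fun j => g1.op _ (cov_ctr h f g1 j)
  have hν := fun j => nu_op h f k0 k hX _ (hη j)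
  have bd := (g4 _ hn hb.nn).2.1
  refine ⟨μ, η, fun j => bd _ _ (fun e x a I J => (hN e x a _ I J).continuousAt) (hμ j),
    fun j => bd _ _ (fun e x a I J => ((cov_ctr h f g1 j).sm e x a I J).continuousAt) (hη j),
    fun j => bd _ _ (fun e x a I J => (hN e x a _ I J).continuousAt) (hν j), fun m => ?_⟩
  have hS : ∀ e x, At e x → SM (fun q : Cm p × Cm d =>
      ∑ c, cx (q.1 - t0) c • (NB (Bm (φ e) t0 c q.2) * pm d (m + 1))) (t0, e x) := fun e x a =>
    SM.sum _ fun c => SM.smul (sm_cx (contDiffAt_fst.sub contDiffAt_const) c)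
      ((sm_snd (hN e x a c)).mul (SM.const _))
  refine master k0 g4 hn hb.nn (T := fun t a => (K t0).pr m ((K t).pr (m + 1) a -
    ∑ j, ((t - t0) j • μ j ((K t0).pr (m + 1) a) +
      star ((t - t0) j) • ((K t0).Ab * η j + η j * (K t0).Ab) ((K t0).pr (m + 1) a))))
    (fun e q => pm d m * (Rq (φ e) (m + 1) q -
      ∑ c, cx (q.1 - t0) c • (NB (Bm (φ e) t0 c q.2) * pm d (m + 1)))) (fun e x a => ?_)
    (fun e x a => (SM.const _).mul ((hR e x a _).sub (hS e x a))) (fun e x a => ?_)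
    fun e x a c => ?_
  · filter_upwards [pr_ev h a (m + 1), ev_snd (op_ev (pr_op h k m) a),
      ev_snd (op_ev (pr_op h k (m + 1)) a), ev_snd (eventually_all.2 fun j => op_ev (hμ j) a),
      ev_snd (eventually_all.2 fun j => op_ev (hν j) a)] with q q1 q2 q3 q4 q5 u
    simp only [q2, vl_sub, q1, vl_sum, vl_add, vl_smul, q4, q5, q3, sum_split, cx_hl, cx_ah,
      ← Matrix.mulVec_mulVec, Matrix.sub_mulVec, Matrix.add_mulVec, Matrix.sum_mulVec,
      Matrix.smul_mulVec, Finset.sum_add_distrib]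
  · have : ∀ c, cx (0 : Cm p) c = 0 := ind (fun j => cx_hl _ j) fun j => by simp [cx_ah]
    simp only [R_zero h k a, sub_self, this, zero_smul, Finset.sum_const_zero, sub_zero, f.pm_mul]
    exact if_neg (by omega)
  · rw [Dr_mul c (SM.const _) (sm_l ((hR e x a _).sub (hS e x a))), Dr_const, Matrix.zero_mul,
      zero_add, Dr_sub c (sm_l (hR e x a _)) (sm_l (hS e x a)), Matrix.mul_sub,
      pm_R (h.sm e x a) k (J_one h k a) f le_rfl]
    dsimp only
    rw [Dr_comb (g := fun c t => cx (t - t0) c) c (sm_cx (contDiffAt_id.sub contDiffAt_const))]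
    simp [dr_cx _ _ k, NB_pm f]

end Vale.Agent.P281Z.Hg
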