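import Vale.Agent.P281Z.Hg.Fg3a

/-!
# P281, Hodge block: periods of holomorphic families of top forms are holomorphic
-/

open scoped Manifold ContDiff Topology Matrix
open Filter MeasureTheory Set
open Vale.Agent.P272.K Vale.Agent.P272.K.C2 Vale.Agent.P299.IX Vale.Agent.P299.IX.Fock
open Vale.Agent.P272.K.INT (part transition_contDiffAt)

noncomputable section

namespace Vale.Agent.P281Z.Hg

namespace Fg3

variable {p d : ℕ} {M : Type} [TopologicalSpace M] [ChartedSpace (Cm d) M]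
  {X : Cx (SF d M) d} {K : Cm p → KP X} {t0 : Cm p} {φ : Chart d M → Cm p → Cm d → Cm d}
  {wt : Chart d M → Cm p → Cm d → Matrix (Fin d) (Fin d) ℂ} {e e' : Chart d M} {x : M}

theorem ev_at (h : At e x) {P : Cm d → Prop} (hP : ∀ x', At e x' → P (e x')) :
    ∀ᶠ y in 𝓝 (e x), P y :=
  mem_of_superset (e.open_target.mem_nhds (e.map_source h.2)) fun y hy => by
    have := hP (e.symm y) ⟨h.1, e.map_target hy⟩
    rwa [e.right_inv hy] at this

theorem id_ev (hM : Mdl K t0 φ wt) (h : At e x) : φ e t0 =ᶠ[𝓝 (e x)] fun y => y :=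
  ev_at h (P := fun y => φ e t0 y = y) fun x' h' => hM.id e x' h'

/-- the vector field of the family -/
def eta (φ : Chart d M → Cm p → Cm d → Cm d) (t0 : Cm p) (j : Fin p) (e : Chart d M) (y : Cm d) :
    Cm d := fun l => dzb j (fun t => φ e t y l) t0

theorem eta_sm (hM : Mdl K t0 φ wt) (h : At e x) (j : Fin p) (l : Fin d) :
    ContDiffAt ℝ ∞ (fun y => eta φ t0 j e y l) (e x) :=
  sm_dzb (f := fun q => φ e q.1 q.2 l) (contDiffAt_pi.1 (hM.sm e x h) l) j

theorem eta_ch (hM : Mdl K t0 φ wt) (h : At e x) (h' : At e' x) (j : Fin p) (a : Fin d) :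
    eta φ t0 j e' (e' x) a = ∑ l, eta φ t0 j e (e x) l * jacM e e' x a l := by
  obtain ⟨θ, h1, h2⟩ := hM.hol e e' x h h'
  have h0 := hM.id e x h
  have e1 : (fun t => φ e' t (e' x) a) =ᶠ[𝓝 t0] fun t => θ (t, φ e t (e x)) a :=
    ((Continuous.prodMk_left (e x)).continuousAt.eventually h2).mono fun t ht => by
      simp only [e.left_inv h.2] at ht
      exact congrFun ht a
  have e2 : (fun y => θ (t0, y) a) =ᶠ[𝓝 (e x)] fun y => e' (e.symm y) a := by
    filter_upwards [(Continuous.prodMk_right t0).continuousAt.eventually h2, id_ev hM h,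
      (e.tendsto_symm h.2).eventually (e'.open_source.mem_nhds h'.2)] with y a1 a2 a3
    rw [hM.id e' _ ⟨h'.1, a3⟩, a2] at a1
    exact congrFun a1.symm a
  have hψ : DifferentiableAt ℝ (fun t => φ e t (e x)) t0 := by
    have := ((hM.sm e x h).comp t0 (f := fun t => (t, e x))
      (contDiffAt_id.prodMk contDiffAt_const)).differentiableAt (by simp)
    exact this
  rw [eta, dzb_congr j e1, dzb_par (f := fun q => θ q a) hψ
    (h0.symm ▸ (analyticAt_pi_iff.1 h1 a).differentiableAt), h0]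
  exact Finset.sum_congr rfl fun l _ => congrArg _ (dz_congr l e2)

theorem ctr_blk (f1 : F1b) {η η' : Cm d} {A B : Matrix (Fin d) (Fin d) ℂ}
    (h : ∀ a, η' a = ∑ l, η l * A l a) : ctr η * lam (blk A B) = lam (blk A B) * ctr η' := by
  simp only [ctr, Finset.sum_mul, Finset.mul_sum, Matrix.smul_mul, Matrix.mul_smul, iot_lam, h,
    Finset.sum_smul, Finset.smul_sum, smul_smul]
  rw [Finset.sum_comm (s := Finset.univ (α := Fin d)) (t := Finset.univ (α := Fin d))]
  refine Finset.sum_congr rfl fun l _ => ?_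
  rw [Fin.sum_univ_add]
  show ∑ a, (η l * blk A B (hl l) (hl a)) • (_ * iot (hl a)) +
    ∑ a, (η l * blk A B (hl l) (ah a)) • (_ * iot (ah a)) = _
  simp only [f1.blk_hh, f1.blk_ha, mul_zero, zero_smul, Finset.sum_const_zero, add_zero]

variable [T2Space M] [CompactSpace M] [IsManifold 𝓘(ℂ, Cm d) ω M]

theorem covF (f1 : F1b) (g1 : G1 d M) (hM : Mdl K t0 φ wt) (j : Fin p) :
    CovF fun e y => ctr (eta φ t0 j e y) where
  sm e x h I J := by
    simp only [ctr, Matrix.sum_apply, Matrix.smul_apply, smul_eq_mul]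
    exact ContDiffAt.sum fun l _ => (eta_sm hM h j l).mul contDiffAt_const
  ch e e' x h h' := by
    rw [g1.jt_eq e e' x h h']
    exact ctr_blk f1 (eta_ch hM h h' j)

variable {s : Cm p → SF d M}

omit [T2Space M] [CompactSpace M] [IsManifold 𝓘(ℂ, Cm d) ω M] in
theorem sm_s (k2 : K1b) (hM : Mdl K t0 φ wt) (hs : MdlS t0 φ s) (h : At e x) (I : FI (d + d)) :
    ContDiffAt ℝ ∞ (fun q : Cm p × Cm d => vl (s q.1) e q.2 I) (t0, e x) := by
  obtain ⟨σ, h1, h2⟩ := hs e x h
  have h3 : ContDiffAt ℝ ∞ σ (t0, φ e t0 (e x)) :=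
    (hM.id e x h).symm ▸ h1.contDiffAt.restrict_scalars ℝ
  refine ((h3.comp (t0, e x) (f := fun q : Cm p × Cm d => (q.1, φ e q.1 q.2))
    (contDiffAt_fst.prodMk (hM.sm e x h))).mul (k2.lr_smooth
      (sm_jc (φ := fun q => φ e q.1 q.2) (hM.sm e x h)) I (Hd d))).congr_of_eventuallyEq
    (h2.mono fun q hq => ?_)
  beta_reduce
  rw [hq, Matrix.mulVec_smul, Pi.smul_apply, mulVec_ev]
  rfl

theorem ex_prim (f1 : F1b) (k1 : K1a) (k2 : K1b) (g1 : G1 d M) (hX : RealX X) (hM : Mdl K t0 φ wt)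
    (hs : MdlS t0 φ s) (j : Fin p) : ∃ Y : SF d M, ∀ e x, At e x → ∀ I,
      dzb j (fun t => vl (s t) e (e x) I) t0 = vl (X.d Y) e (e x) I := by
  obtain ⟨T, hT⟩ := g1.op _ (covF f1 g1 hM j)
  refine ⟨T (s t0), fun e x h I => ?_⟩
  obtain ⟨σ, h1, h2⟩ := hs e x h
  have e1 : (fun t => vl (s t) e (e x) I) =ᶠ[𝓝 t0] fun t =>
      (lam (jc (φ e t) (e x)) *ᵥ (σ (t, φ e t (e x)) • ev (Hd d))) I :=
    ((Continuous.prodMk_left (e x)).continuousAt.eventually h2).mono fun t ht => congrFun ht I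
  have e2 : vl (T (s t0)) e =ᶠ[𝓝 (e x)]
      fun y => ctr (eta φ t0 j e y) *ᵥ (σ (t0, y) • ev (Hd d)) := by
    filter_upwards [(Continuous.prodMk_right t0).continuousAt.eventually h2,
      (id_ev hM h).eventuallyEq_nhds, ev_at h (P := fun y => vl (T (s t0)) e y =
        ctr (eta φ t0 j e y) *ᵥ vl (s t0) e y) fun x' h' => hT _ e x' h'] with y a1 a2 a3
    rw [a3, a1, k2.jc_congr a2, k2.jc_id, lam_one, Matrix.one_mulVec, a2.self_of_nhds]
  rw [dzb_congr j e1, hX.d _ e x h, k1.congr e2]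
  exact cartan f1 k1 k2 (φ := fun q => φ e q.1 q.2) (hM.sm e x h) (id_ev hM h) h1 j I

theorem Q_eq (g1 : G1 d M) (hX : RealX X) (a b : SF d M) : X.Q a b = ∑ i,
    ∫ y in (part d M).e i '' tsupport ((part d M).ρ i), ((part d M).ρ i (((part d M).e i).symm y) : ℂ) *
      Bq (vl a ((part d M).e i) y) (vl b ((part d M).e i) y) := by
  rw [hX.Q, g1.itg_eq _ (g1.dens a b).1 (g1.dens a b).2 _ _ _ (part d M).mem (part d M).cont
    (part d M).supp (part d M).sum]
  refine Finset.sum_congr rfl fun i _ => setIntegral_eq_of_subset_of_forall_sdiff_eq_zero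
    ((part d M).e i).open_target.measurableSet ?_ fun y hy => ?_
  · rintro _ ⟨x, hx, rfl⟩
    exact ((part d M).e i).map_source ((part d M).supp i hx)
  · rw [image_eq_zero_of_notMem_tsupport fun h => hy.2 ⟨_, h, ((part d M).e i).right_inv hy.1⟩,
      Complex.ofReal_zero, zero_mul]

theorem Bq_sum {n : ℕ} (u v : Fk n) : Bq u v = ∑ I, (∑ J, u J * hst J I) * v I := by
  rw [Bq, Matrix.dotProduct_mulVec]
  rfl

end Fg3

open Fg3 in
theorem fg3 {d : ℕ} {M : Type} [TopologicalSpace M] [ChartedSpace (Cm d) M] [T2Space M]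
    [CompactSpace M] [IsManifold 𝓘(ℂ, Cm d) ω M] (f1 : F1b) (k1 : K1a) (k2 : K1b) (g1 : G1 d M) :
    FG3 d M := by
  intro p X K t0 φ wt s hX ok hM hs z hz
  set P := part d M
  have hA : ∀ i, ∀ x ∈ tsupport (P.ρ i), At (P.e i) x := fun i x hx => ⟨P.mem i, P.supp i hx⟩
  have H := fun i => par_int (t0 := t0) (K := P.e i '' tsupport (P.ρ i))
    (f := fun q => Bq (vl z (P.e i) q.2) (vl (s q.1) (P.e i) q.2))
    (ρ := fun y => (P.ρ i ((P.e i).symm y) : ℂ))
    ((isClosed_tsupport _).isCompact.image_of_continuousOn ((P.e i).continuousOn.mono (P.supp i)))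
    (by
      rintro _ ⟨x, hx, rfl⟩
      simp only [Bq_sum]
      refine ContDiffAt.of_le (ContDiffAt.sum fun I _ => (ContDiffAt.sum fun J _ => ?_).mul
        (sm_s k2 hM hs (hA i x hx) I)) (by norm_cast)
      exact ((contDiffAt_pi.1 ((vl_isF z).sm _ x (hA i x hx)) J).comp (t0, P.e i x)
        contDiffAt_snd).mul contDiffAt_const)
    (Complex.continuous_ofReal.comp_continuousOn ((P.cont i).comp_continuousOn
      ((P.e i).continuousOn_symm.mono (by
        rintro _ ⟨x, hx, rfl⟩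
        exact (P.e i).map_source (P.supp i hx)))))
  simp only [Q_eq g1 hX z]
  refine diff_of_dzb (DifferentiableAt.fun_sum fun i _ => (H i).1) fun j => ?_
  obtain ⟨Y, hY⟩ := ex_prim f1 k1 k2 g1 hX hM hs j
  have h0 : X.Q z (X.d Y) = 0 := by
    rw [← neg_eq_zero, ← ok.Qd, hz, map_zero, LinearMap.zero_apply]
  rw [dzb_sum j _ fun i _ => (H i).1, ← h0, Q_eq g1 hX]
  refine Finset.sum_congr rfl fun i _ => ((H i).2 j).trans (setIntegral_congr_fun
    ((isClosed_tsupport _).isCompact.image_of_continuousOn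
      ((P.e i).continuousOn.mono (P.supp i))).measurableSet ?_)
  rintro _ ⟨x, hx, rfl⟩
  have hd : ∀ I, DifferentiableAt ℝ (fun t => vl (s t) (P.e i) (P.e i x) I) t0 := fun I => by
    have := ((sm_s k2 hM hs (hA i x hx) I).comp t0 (f := fun t => (t, P.e i x))
      (contDiffAt_id.prodMk contDiffAt_const)).differentiableAt (by simp)
    exact this
  simp only [Bq_sum]
  rw [dzb_sum j _ fun I _ => (hd I).const_mul _]
  exact congrArg _ (Finset.sum_congr rfl fun I _ => by
    rw [dzb_const_mul j _ (hd I), hY _ x (hA i x hx)])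

end Vale.Agent.P281Z.Hg
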