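import Vale.Agent.P281Z.Hg.S1
import Vale.Agent.P281Z.Hg.S2

/-!
# P281, Hodge block, row FLAT: the polarisation depends only on the Kähler class
-/

open scoped Topology
open Filter

noncomputable section

namespace Vale.Agent.P281Z.Hg

namespace FlatAux

theorem map_wy {R R' : Type} [Ring R] [Algebra ℂ R] [Ring R'] [Algebra ℂ R'] (φ : R →ₐ[ℂ] R')
    (D : ℕ) (L Lm : R) : φ (wy D L Lm) = wy D (φ L) (φ Lm) := by
  simp only [wy, ex, map_mul, map_sum, map_smul, map_pow, map_neg]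

theorem wy_mem {R : Type} [Ring R] [Algebra ℂ R] (G : Subalgebra ℂ R) (D : ℕ) {L Lm : R}
    (h : L ∈ G) (h' : Lm ∈ G) : wy D L Lm ∈ G := by
  have k : ∀ A ∈ G, ex (D + D + 2) A ∈ G := fun A hA =>
    sum_mem fun k _ => G.smul_mem (pow_mem hA k) _
  exact mul_mem (mul_mem (k _ h) (k _ (neg_mem h'))) (k _ h)

variable {S : Type} [AddCommGroup S] [Module ℂ S] {D : ℕ}

/-- the cohomology -/
abbrev Coh (X : Cx S D) : Type := LinearMap.ker X.d ⧸ X.Nul.comap (LinearMap.ker X.d).subtype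

variable {X : Cx S D} {K : KP X}

/-- the class of a closed form -/
abbrev cl (z : LinearMap.ker X.d) : Coh X := Submodule.Quotient.mk z

theorem cl_eq {z z' : LinearMap.ker X.d} : cl z = cl z' ↔ z.1 - z'.1 ∈ X.Nul :=
  Submodule.Quotient.eq _

/-- `v` converges to the harmonic representative of the class `q` -/
def Rp (K : KP X) (q : Coh X) (v : ℕ → S) : Prop := ∃ z, cl z = q ∧ K.Rep z.1 v

theorem rp_ex (h : K.KH) (q : Coh X) : ∃ v, Rp K q v := by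
  obtain ⟨z, rfl⟩ := Submodule.Quotient.mk_surjective _ q
  exact (h.ex z.1 z.2).imp fun v hv => ⟨z, rfl, hv⟩

theorem rp_eq (h : K.KH) {q q' : Coh X} {v : ℕ → S} (a : Rp K q v) (b : Rp K q' v) : q = q' := by
  obtain ⟨z, rfl, a⟩ := a
  obtain ⟨z', rfl, b⟩ := b
  exact cl_eq.2 (h.back a b)

theorem rp_rep (h : K.KH) {z : LinearMap.ker X.d} {v : ℕ → S} (a : Rp K (cl z) v) :
    K.Rep z.1 v := by
  obtain ⟨z', k, a⟩ := a
  exact h.ncongr a (cl_eq.1 k)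

theorem rp_add (h : K.KH) {q q' : Coh X} {v v' : ℕ → S} (a : Rp K q v) (b : Rp K q' v') :
    Rp K (q + q') fun s => v s + v' s := by
  obtain ⟨z, rfl, a⟩ := a
  obtain ⟨z', rfl, b⟩ := b
  exact ⟨z + z', rfl, h.add a b⟩

theorem rp_smul (h : K.KH) (c : ℂ) {q : Coh X} {v : ℕ → S} (a : Rp K q v) :
    Rp K (c • q) fun s => c • v s := by
  obtain ⟨z, rfl, a⟩ := a
  exact ⟨c • z, rfl, h.smul c a⟩

/-- the operators together with their actions on the cohomology -/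
def Gr (h : K.KH) : Subalgebra ℂ (Module.End ℂ S × Module.End ℂ (Coh X)) where
  carrier := {T | ∀ q v, Rp K q v → Rp K (T.2 q) fun s => T.1 (v s)}
  mul_mem' ha hb q v k := ha _ _ (hb q v k)
  add_mem' ha hb q v k := rp_add h (ha q v k) (hb q v k)
  algebraMap_mem' c _ _ k := rp_smul h c k

theorem gr_eq (h : K.KH) {a b : Module.End ℂ S × Module.End ℂ (Coh X)} (ha : a ∈ Gr h)
    (hb : b ∈ Gr h) (k : a.1 = b.1) : a.2 = b.2 := by
  refine LinearMap.ext fun q => ?_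
  obtain ⟨v, hv⟩ := rp_ex h q
  exact rp_eq h (ha q v hv) (k ▸ hb q v hv)

theorem gr_ex (hb : K.KIb) (h : K.KH) {T : Module.End ℂ S} (h1 : K.Bdd T)
    (h2 : ∀ v, K.Har v → K.Har fun s => T (v s)) : ∃ A, (T, A) ∈ Gr h := by
  have k : ∀ q, ∃ q', ∀ v, Rp K q v → Rp K q' fun s => T (v s) := fun q => by
    obtain ⟨z, rfl⟩ := Submodule.Quotient.mk_surjective _ q
    obtain ⟨v, hv⟩ := h.ex z.1 z.2
    obtain ⟨z', hz⟩ := h.har (h2 v hv.toHar)
    refine ⟨cl ⟨z', hz.cl⟩, fun v' hv' => ⟨_, rfl, h.congr hz (h2 _ (rp_rep h hv').toHar) ?_⟩⟩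
    obtain ⟨C, -, hC⟩ := h1
    have k := (h.uniq hv (rp_rep h hv')).const_mul C
    rw [mul_zero] at k
    exact squeeze_zero (fun _ => hb.nn _)
      (fun s => by simpa only [map_sub] using hC (v s - v' s)) k
  choose f hf using k
  refine ⟨⟨⟨f, fun q q' => ?_⟩, fun c q => ?_⟩, hf⟩
  · obtain ⟨v, hv⟩ := rp_ex h q
    obtain ⟨v', hv'⟩ := rp_ex h q'
    refine rp_eq h (hf _ _ (rp_add h hv hv')) ?_
    simpa only [map_add] using rp_add h (hf _ _ hv) (hf _ _ hv')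
  · obtain ⟨v, hv⟩ := rp_ex h q
    refine rp_eq h (hf _ _ (rp_smul h c hv)) ?_
    simpa only [map_smul, RingHom.id_apply] using rp_smul h c (hf _ _ hv)

theorem gr_cl (h : K.KH) {a : Module.End ℂ S × Module.End ℂ (Coh X)} (ha : a ∈ Gr h)
    (k : ∀ z v, K.Rep z v → K.Rep (a.1 z) fun s => a.1 (v s)) (z : LinearMap.ker X.d) :
    ∃ z' : LinearMap.ker X.d, z'.1 = a.1 z ∧ a.2 (cl z) = cl z' := by
  obtain ⟨v, hv⟩ := h.ex z.1 z.2
  exact ⟨⟨_, (k _ _ hv).cl⟩, rfl, rp_eq h (ha _ _ ⟨z, rfl, hv⟩) ⟨_, rfl, k _ _ hv⟩⟩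

theorem rep_H (h : K.KH) {z : S} {v : ℕ → S} (k : K.Rep z v) :
    K.Rep ((X.Nd - (D : ℂ) • 1 : Module.End ℂ S) z)
      fun s => (X.Nd - (D : ℂ) • 1 : Module.End ℂ S) (v s) := by
  have k1 : K.Rep (X.Nd z) fun s => X.Nd (v s) :=
    Finset.sum_induction (fun m : ℕ => (m : ℂ) • X.dg m)
      (fun T : Module.End ℂ S => K.Rep (T z) fun s => T (v s)) (fun _ _ a b => h.add a b) h.zero
      fun m _ => h.smul _ (h.rdg m k)
  have k2 := h.add k1 (h.smul (-(D : ℂ)) k)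
  simp only [neg_smul, ← sub_eq_add_neg] at k2
  exact k2

theorem main (hA : ABall) (hK : K.OK) : ∃ L Lm H : Module.End ℂ (Coh X), SL2 D L Lm H ∧
    (∀ z, ∃ z' : LinearMap.ker X.d, z'.1 = K.L z.1 ∧ L (cl z) = cl z') ∧
    (∀ z, ∃ z' : LinearMap.ker X.d, z'.1 = (X.Nd - (D : ℂ) • 1 : Module.End ℂ S) z.1 ∧
      H (cl z) = cl z') ∧
    ∀ q v, Rp K q v → Rp K (wy D L Lm q) fun s => K.W (v s) := by
  obtain ⟨ha, hb, h, -⟩ := hA S D X K hK
  obtain ⟨L, hL⟩ := gr_ex hb h hK.alg.bL fun v hv => (h.har hv).elim fun _ k => (h.rL k).toHar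
  obtain ⟨Lm, hLm⟩ := gr_ex hb h hK.alg.bLm fun v hv => h.hLm hv
  have e : K.L * K.Lm - K.Lm * K.L = X.Nd - (D : ℂ) • 1 := by
    rw [← neg_sub, hK.alg.sl2, neg_sub]
  have hH : (X.Nd - (D : ℂ) • 1, L * Lm - Lm * L) ∈ Gr h :=
    e ▸ sub_mem (mul_mem hL hLm) (mul_mem hLm hL)
  refine ⟨L, Lm, _, ⟨rfl, ?_, ?_, ?_, ?_⟩, gr_cl h hL fun _ _ => h.rL,
    gr_cl h hH fun _ _ => rep_H h, ?_⟩
  · refine gr_eq h (sub_mem (mul_mem hH hL) (mul_mem hL hH)) ((Gr h).smul_mem hL 2) ?_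
    show (X.Nd - (D : ℂ) • 1) * K.L - K.L * (X.Nd - (D : ℂ) • 1) = (2 : ℂ) • K.L
    rw [← ha.HL, sub_mul, mul_sub, smul_one_mul, mul_smul_one, sub_sub_sub_cancel_right]
  · refine gr_eq h (sub_mem (mul_mem hH hLm) (mul_mem hLm hH))
      (neg_mem ((Gr h).smul_mem hLm 2)) ?_
    show (X.Nd - (D : ℂ) • 1) * K.Lm - K.Lm * (X.Nd - (D : ℂ) • 1) = -((2 : ℂ) • K.Lm)
    rw [← ha.HLm, sub_mul, mul_sub, smul_one_mul, mul_smul_one, sub_sub_sub_cancel_right]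
  · exact gr_eq h (pow_mem hL _) (zero_mem _) ha.nL
  · exact gr_eq h (pow_mem hLm _) (zero_mem _) ha.nLm
  · intro q v k
    have k1 := wy_mem _ D hL hLm q v k
    have k2 := map_wy (AlgHom.fst ℂ _ _) D (K.L, L) (K.Lm, Lm)
    have k3 := map_wy (AlgHom.snd ℂ _ _) D (K.L, L) (K.Lm, Lm)
    simp only [AlgHom.fst_apply, AlgHom.snd_apply] at k2 k3
    rwa [k2, k3] at k1

end FlatAux

open FlatAux in
theorem flat_of (h3 : F2a) (hA : ABall) : FLAT := by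
  intro S _ _ D X K K' n b Qm Qm' hK hK' hc hL hb hQ hQ'
  obtain ⟨L, Lm, H, h1, h2, h4, h5⟩ := main hA hK
  obtain ⟨L', Lm', H', h1', h2', h4', h5'⟩ := main hA hK'
  have e1 : L' = L := LinearMap.ext fun q => by
    obtain ⟨z, rfl⟩ := Submodule.Quotient.mk_surjective _ q
    obtain ⟨y, a, b⟩ := h2 z
    obtain ⟨y', a', b'⟩ := h2' z
    exact b'.trans (b.trans (cl_eq.2 (by rw [a, a']; exact hL _ z.2))).symm
  have e2 : H' = H := LinearMap.ext fun q => by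
    obtain ⟨z, rfl⟩ := Submodule.Quotient.mk_surjective _ q
    obtain ⟨y, a, b⟩ := h4 z
    obtain ⟨y', a', b'⟩ := h4' z
    exact b'.trans (b.trans (congrArg cl (Subtype.ext (a.trans a'.symm)))).symm
  subst e1 e2
  obtain rfl := h3.uniq h1 h1'
  ext i j
  obtain ⟨z, hz⟩ := Submodule.Quotient.mk_surjective _ (wy D L' Lm (cl ⟨b j, hb j⟩))
  have k : ∀ {K : KP X} {Qm : Mt n}, K.OK → K.IsQ b Qm →
      (∀ q v, Rp K q v → Rp K (wy D L' Lm q) fun s => K.W (v s)) →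
      Qm i j = K.c * (Complex.I ^ D * (-1) ^ D) * X.Q (X.cj (b i)) z.1 := by
    intro K Qm hK hQ h5
    obtain ⟨-, -, h, -⟩ := hA S D X K hK
    obtain ⟨v, hv⟩ := h.ex _ (hb j)
    have k1 := h5 _ v ⟨⟨b j, hb j⟩, rfl, hv⟩
    rw [← hz] at k1
    exact tendsto_nhds_unique (hQ i j v hv) ((h.Qlim'
      (by rw [← hK.cx.cjd, hb i, map_zero]) (rp_rep h k1)).const_mul _)
  rw [k hK hQ h5, k hK' hQ' h5', hc]

end Vale.Agent.P281Z.Hg
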