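import Vale.Agent.P281Z.Hg.S3

/-!
# P281, Hodge block: forms on a manifold, basics (row G1)
-/

open scoped Manifold ContDiff ComplexOrder Topology Matrix
open Filter MeasureTheory
open Vale.Agent.P272.K Vale.Agent.P272.K.C2 Vale.Agent.P272.K.INT Vale.Agent.P299.IX
  Vale.Agent.P299.IX.Fock

noncomputable section

namespace Vale.Agent.P281Z.Hg

namespace G1H

variable {d : ℕ} {M : Type} [TopologicalSpace M] [ChartedSpace (Cm d) M] {e e' e'' : Chart d M}
  {x : M}

theorem ev_src (h : At e x) {P : M → Prop} (hP : ∀ᶠ y in 𝓝 x, P y) :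
    ∀ᶠ z in 𝓝 (e x), P (e.symm z) :=
  (e.tendsto_symm h.2).eventually hP

theorem at_tg (he : e ∈ atlas (Cm d) M) {z : Cm d} (hz : z ∈ e.target) : At e (e.symm z) :=
  ⟨he, e.map_target hz⟩

theorem cd_mulVec {ι κ : Type} [Fintype ι] [Fintype κ] {F : Cm d → Matrix ι κ ℂ}
    {u : Cm d → κ → ℂ} {z : Cm d} (hF : MC ∞ F z) (hu : ContDiffAt ℝ ∞ u z) :
    ContDiffAt ℝ ∞ (fun y => F y *ᵥ u y) z :=
  contDiffAt_pi.2 fun i => ContDiffAt.sum fun j _ => (hF i j).mul (contDiffAt_pi.1 hu j)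

theorem mc_Lw {w : Cm d → Matrix (Fin d) (Fin d) ℂ} {z : Cm d} (hw : MC ∞ w z) :
    MC ∞ (fun y => Lw (w y)) z := fun I J => by
  simp only [Lw, Matrix.sum_apply, Matrix.smul_apply, smul_eq_mul]
  exact ContDiffAt.sum fun j _ => ContDiffAt.sum fun k _ =>
    (contDiffAt_const.mul (hw j k)).mul contDiffAt_const

theorem jt_self (hk : K1b) (h : At e x) : jt e e x = 1 := by
  rw [jt, hk.jc_congr (ψ := fun y => y) (e.eventually_right_inverse (e.map_source h.2)), hk.jc_id]

theorem mkf (u : Rw d M (Fo d)) (h1 : ∀ e x, At e x → ContDiffAt ℝ ∞ (u e) (e x))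
    (h2 : ∀ e e' x, At e x → At e' x → u e (e x) = lam (jt e e' x) *ᵥ u e' (e' x)) :
    ∃ v : SF d M, ∀ e ∈ atlas (Cm d) M, ∀ z ∈ e.target, vl v e z = u e z := by
  classical
  refine ⟨mkF (fun e z => if e ∈ atlas (Cm d) M ∧ z ∈ e.target then u e z else 0)
    ⟨fun e x h => (h1 e x h).congr_of_eventuallyEq ?_, fun e z h => if_neg h,
      fun e e' x h h' => ?_⟩, fun e he z hz => if_pos ⟨he, hz⟩⟩
  · filter_upwards [e.open_target.mem_nhds (e.map_source h.2)] with z hz
    exact if_pos ⟨h.1, hz⟩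
  · rw [if_pos ⟨h.1, e.map_source h.2⟩, if_pos ⟨h'.1, e'.map_source h'.2⟩, h2 e e' x h h']

theorem zp (u : SF d M) (h : At e x) (h0 : vl u e (e x) = 0) : u ∈ ZP x := fun e' h' => by
  rw [(vl_isF u).ch e' e x h' h, h0, Matrix.mulVec_zero]

theorem ext (u v : SF d M) (h : ∀ x, ∃ e, At e x ∧ vl u e (e x) = vl v e (e x)) : u = v := by
  refine vl_inj (funext fun e => funext fun z => ?_)
  by_cases hz : e ∈ atlas (Cm d) M ∧ z ∈ e.target
  · obtain ⟨e', h1, h2⟩ := h (e.symm z)
    have h3 := zp (u - v) h1 (by rw [vl_sub, h2, sub_self]) e (at_tg hz.1 hz.2)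
    rwa [e.right_inv hz.2, vl_sub, sub_eq_zero] at h3
  · rw [(vl_isF u).off e z hz, (vl_isF v).off e z hz]

theorem op (F : Rw d M (Fm d)) (hF : CovF F) : ∃ T : Module.End ℂ (SF d M), IsOp F T := by
  refine ⟨⟨⟨fun u => mkF (fun e z => F e z *ᵥ vl u e z) ⟨fun e x h =>
    cd_mulVec (hF.sm e x h) ((vl_isF u).sm e x h), fun e z h => ?_, fun e e' x h h' => ?_⟩,
    fun u v => vl_inj (funext fun e => funext fun z => Matrix.mulVec_add (F e z) _ _)⟩,
    fun c u => vl_inj (funext fun e => funext fun z => Matrix.mulVec_smul (F e z) c (vl u e z))⟩,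
    fun u e x _ => rfl⟩
  · rw [(vl_isF u).off e z h, Matrix.mulVec_zero]
  · rw [(vl_isF u).ch e e' x h h', Matrix.mulVec_mulVec, Matrix.mulVec_mulVec, hF.ch e e' x h h']

variable [IsManifold 𝓘(ℂ, Cm d) ω M]

theorem tr_sm (h : At e x) (h' : At e' x) : ContDiffAt ℝ ∞ (fun z => e' (e.symm z)) (e x) :=
  ((transition_contDiffAt h h').restrict_scalars ℝ).of_le le_top

theorem jt_mul (hk : K1b) (h : At e x) (h' : At e' x) (h'' : At e'' x) :
    jt e e' x * jt e' e'' x = jt e e'' x := by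
  have h1 := hk.jc_comp (φ := fun z => e'' (e'.symm z)) ((tr_sm h h').differentiableAt (by simp))
    (by rw [e.left_inv h.2]; exact (tr_sm h' h'').differentiableAt (by simp))
  rw [e.left_inv h.2] at h1
  refine h1.symm.trans (hk.jc_congr ?_)
  filter_upwards [ev_src h (e'.open_source.mem_nhds h'.2)] with z hz
  rw [e'.left_inv hz]

theorem jt_eq (hk : K1b) (h : At e x) (h' : At e' x) :
    jt e e' x = blk (jacM e e' x)ᵀ ((jacM e e' x)ᵀ.map star) :=
  hk.jc_hol ((transition_contDiffAt h h').differentiableAt (by simp))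

theorem jt_det (hk : K1b) (h : At e x) (h' : At e' x) :
    (jt e e' x).det = ((‖(jacM e e' x).det‖ ^ 2 : ℝ) : ℂ) := by
  rw [jt, hk.jc_det ((tr_sm h h').differentiableAt (by simp)), det_trans h h']

theorem jt_unit (hk : K1b) (h : At e x) (h' : At e' x) : IsUnit (jt e e' x).det :=
  Matrix.isUnit_det_of_right_inverse ((jt_mul hk h h' h).trans (jt_self hk h))

theorem loc [T2Space M] (hk : K1b) (e : Chart d M) (K : Set M) (u : Cm d → Fo d)
    (he : e ∈ atlas (Cm d) M) (hK : IsCompact K) (hs : K ⊆ e.source)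
    (hu : ContDiffOn ℝ ∞ u e.target) (h0 : ∀ z ∈ e.target, z ∉ e '' K → u z = 0) :
    ∃ v : SF d M, (∀ z ∈ e.target, vl v e z = u z) ∧ ∀ x, x ∉ K → v ∈ ZP x := by
  classical
  have h1 : ∀ (e' : Chart d M) z, e'.symm z ∉ K →
      (if e'.symm z ∈ e.source then pbk (fun y => e (e'.symm y)) u z else 0) = 0 := by
    intro e' z hz
    split_ifs with h
    · rw [pbk, h0 _ (e.map_source h), Matrix.mulVec_zero]
      rintro ⟨y, hy, h2⟩
      exact hz (e.injOn (hs hy) h h2 ▸ hy)
    · rfl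
  refine (mkf (fun (e' : Chart d M) z => if e'.symm z ∈ e.source then
      pbk (fun y => e (e'.symm y)) u z else 0) (fun e' x h => ?_) fun e' e'' x h h' => ?_).imp
    fun v hv => ⟨fun z hz => ?_, fun x hx e' h => ?_⟩
  · by_cases hx : x ∈ e.source
    · refine (hk.pbk_smooth (u := u) (tr_sm h ⟨he, hx⟩) ?_).congr_of_eventuallyEq
        ((ev_src h (e.open_source.mem_nhds hx)).mono fun z hz => if_pos hz)
      rw [e'.left_inv h.2]
      exact hu.contDiffAt (e.open_target.mem_nhds (e.map_source hx))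
    · exact contDiffAt_const.congr_of_eventuallyEq ((ev_src h
        (hK.isClosed.isOpen_compl.mem_nhds fun h2 => hx (hs h2))).mono fun z hz => h1 e' z hz)
  · simp only [e'.left_inv h.2, e''.left_inv h'.2, pbk]
    split_ifs with hx
    · rw [Matrix.mulVec_mulVec]
      exact congrArg (· *ᵥ u (e x))
        ((congrArg lam (jt_mul hk h h' ⟨he, hx⟩).symm).trans (lam_mul _ _))
    · rw [Matrix.mulVec_zero]
  · have h2 := jt_self hk (at_tg he hz)
    rw [jt, e.right_inv hz] at h2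
    rw [hv e he z hz, if_pos (e.map_target hz), pbk, h2, e.right_inv hz]
    exact (congrArg (· *ᵥ u z) lam_one).trans (Matrix.one_mulVec _)
  · rw [hv e' h.1 _ (e'.map_source h.2), h1 e' _ (by rwa [e'.left_inv h.2])]

theorem om (hf : F2b) (hk : K1b) {w : Rw d M (Matrix (Fin d) (Fin d) ℂ)} (hw : IsKahler w) :
    ∃ u : SF d M, IsOm w u := by
  obtain ⟨v, hv⟩ := mkf (fun e z => Lw (w e z) *ᵥ ev ∅) (fun e x h =>
    cd_mulVec (mc_Lw (hw.smooth e x h)) contDiffAt_const) fun e e' x h h' => by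
      rw [jt_eq hk h h', Matrix.mulVec_mulVec, hf.L_blk, ← Matrix.mulVec_mulVec, lam_ev_empty,
        hw.change e e' x h h']
      rfl
  exact ⟨v, fun e x h => hv e h.1 _ (e.map_source h.2)⟩

theorem dens (hf : F1a) (hk : K1b) (a b : SF d M) :
    IsDensity (fun e z => (Bq (vl a e z) (vl b e z)).re) ∧
      IsDensity fun e z => (Bq (vl a e z) (vl b e z)).im := by
  have h1 : ∀ e x, At e x → ContinuousAt (fun z => Bq (vl a e z) (vl b e z)) (e x) :=
    fun e x h => (ContDiffAt.sum (s := Finset.univ) fun I _ =>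
      (contDiffAt_pi.1 ((vl_isF a).sm e x h) I).mul
      (contDiffAt_pi.1 (cd_mulVec (MC_const hst _) ((vl_isF b).sm e x h)) I)).continuousAt
  have h2 : ∀ e e' x, At e x → At e' x → Bq (vl a e (e x)) (vl b e (e x)) =
      Bq (vl a e' (e' x)) (vl b e' (e' x)) * ((‖(jacM e e' x).det‖ ^ 2 : ℝ) : ℂ) :=
    fun e e' x h h' => by
      rw [(vl_isF a).ch e e' x h h', (vl_isF b).ch e e' x h h', hf.Bq_lam _ _ _ (jt_unit hk h h'),
        jt_det hk h h', mul_comm]
  exact ⟨⟨fun e x h => Complex.continuous_re.continuousAt.comp (h1 e x h), fun e e' x h h' => by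
    rw [h2 e e' x h h', Complex.re_mul_ofReal]⟩, fun e x h =>
      Complex.continuous_im.continuousAt.comp (h1 e x h), fun e e' x h h' => by
    rw [h2 e e' x h h', Complex.im_mul_ofReal]⟩

theorem itg_eq [T2Space M] [CompactSpace M] (F : Rw d M ℂ)
    (h1 : IsDensity fun e z => (F e z).re) (h2 : IsDensity fun e z => (F e z).im) (N : ℕ)
    (e : Fin N → Chart d M) (ρ : Fin N → M → ℝ) (he : ∀ i, e i ∈ atlas (Cm d) M)
    (hρ : ∀ i, Continuous (ρ i)) (hs : ∀ i, tsupport (ρ i) ⊆ (e i).source)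
    (h3 : ∀ x, ∑ i, ρ i x = 1) :
    itg F = ∑ i, ∫ z in (e i).target, (ρ i ((e i).symm z) : ℂ) * F (e i) z := by
  rw [itg, ← h1.isIntegral N e ρ he hρ hs h3, ← h2.isIntegral N e ρ he hρ hs h3,
    Complex.ofReal_sum, Complex.ofReal_sum, Finset.mul_sum, ← Finset.sum_add_distrib]
  refine Finset.sum_congr rfl fun i _ => ?_
  rw [← integral_complex_ofReal, ← integral_complex_ofReal, ← integral_const_mul,
    ← integral_add
    (integrableOn_dens h1 (he i) (hρ i) (hs i)).ofReal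
    ((integrableOn_dens h2 (he i) (hρ i) (hs i)).ofReal.const_mul _)]
  refine integral_congr_ae (Eventually.of_forall fun z => ?_)
  beta_reduce
  conv_rhs => rw [← Complex.re_add_im (F (e i) z)]
  simp only [Complex.ofReal_mul]
  ring

end G1H

open G1H in
/-- row G1 -/
theorem g1 (ha : F1a) (hf : F2b) (hk : K1b) (d : ℕ) (M : Type) [TopologicalSpace M]
    [ChartedSpace (Cm d) M] [T2Space M] [CompactSpace M] [IsManifold 𝓘(ℂ, Cm d) ω M] :
    G1 d M where
  ext := G1H.ext
  zp u _ _ := zp u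
  jt_eq _ _ _ := jt_eq hk
  jt_inv _ _ _ h h' := (jt_mul hk h h' h).trans (jt_self hk h)
  jt_det _ _ _ := jt_det hk
  mkf u h1 h2 := (mkf u h1 h2).imp fun _ hv e _ h =>
    mem_of_superset (e.open_target.mem_nhds (e.map_source h.2)) (hv e h.1)
  loc := loc hk
  op := op
  fn ρ hρ := ⟨fun e x h I J => (Complex.ofRealCLM.contDiff.contDiffAt.comp _ (hρ e x h)).mul
    contDiffAt_const, fun e e' x h h' => by
      rw [e.left_inv h.2, e'.left_inv h'.2, Matrix.smul_mul, Matrix.mul_smul, one_mul, mul_one]⟩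
  wed y := ⟨fun e x h I J => by
      simp only [ha.wg_apply (vl y e _)]
      exact ContDiffAt.sum fun K _ => contDiffAt_const.mul
        (contDiffAt_pi.1 ((vl_isF y).sm e x h) K),
    fun e e' x h h' => by
      rw [(vl_isF y).ch e e' x h h']
      exact (ha.lr_wg _ _).symm⟩
  one := (mkf (fun _ _ => ev ∅) (fun _ _ _ => contDiffAt_const) fun _ _ _ _ _ =>
    (lam_ev_empty _).symm).imp fun _ hv e _ h => hv e h.1 _ (e.map_source h.2)
  om _ := om hf hk
  dens := dens ha hk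
  itg_eq := itg_eq

end Vale.Agent.P281Z.Hg
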