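import Vale.Agent.P281Z.Hg.S3

/-!
# P281, Hodge block: the `L²` norm (row G4)
-/

open scoped Manifold ContDiff ComplexOrder Topology Matrix
open Filter MeasureTheory
open Vale.Agent.P272.K Vale.Agent.P272.K.C2 Vale.Agent.P272.K.INT Vale.Agent.P299.IX
  Vale.Agent.P299.IX.Fock

noncomputable section

namespace Vale.Agent.P281Z.Hg

namespace G4H

variable {d : ℕ}

/-- comparison of a continuous family of positive forms with the norm -/
theorem cmp {E ι : Type} [TopologicalSpace E] [Fintype ι] {G : E → Matrix ι ι ℂ} {S : Set E}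
    (hS : IsCompact S) (hG : ∀ i j, ContinuousOn (fun z => G z i j) S)
    (hp : ∀ z ∈ S, (G z).PosDef) : ∃ C : ℝ, 0 ≤ C ∧ ∀ z ∈ S, ∀ v : ι → ℂ,
      ‖v‖ ^ 2 ≤ C * (star v ⬝ᵥ (G z *ᵥ v)).re ∧ (star v ⬝ᵥ (G z *ᵥ v)).re ≤ C * ‖v‖ ^ 2 := by
  have hc : IsCompact (S ×ˢ Metric.sphere (0 : ι → ℂ) 1) := hS.prod (isCompact_sphere _ _)
  have hq : ContinuousOn (fun q : E × (ι → ℂ) => (star q.2 ⬝ᵥ (G q.1 *ᵥ q.2)).re)
      (S ×ˢ Metric.sphere (0 : ι → ℂ) 1) := by
    refine Complex.continuous_re.comp_continuousOn ?_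
    refine continuousOn_finsetSum _ fun i _ => ContinuousOn.mul (by fun_prop) ?_
    refine continuousOn_finsetSum _ fun j _ => ContinuousOn.mul ?_ (by fun_prop)
    exact (hG i j).comp continuousOn_fst fun q hq => hq.1
  obtain ⟨a, ha, h1⟩ := hc.exists_forall_le' hq (a := 0) fun q hq =>
    (hp q.1 hq.1).re_dotProduct_pos fun h => by simpa [h] using hq.2
  obtain ⟨b, h2⟩ := hc.exists_bound_of_continuousOn hq
  refine ⟨a⁻¹ + |b|, by positivity, fun z hz v => ?_⟩
  by_cases hv : v = 0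
  · simp [hv]
  have hn : 0 < ‖v‖ := norm_pos_iff.2 hv
  set u : ι → ℂ := ((‖v‖⁻¹ : ℝ) : ℂ) • v with hu
  have hu1 : (z, u) ∈ S ×ˢ Metric.sphere (0 : ι → ℂ) 1 := ⟨hz, by
    simp [hu, norm_smul, hn.ne']⟩
  have h3 : (star v ⬝ᵥ (G z *ᵥ v)).re = (star u ⬝ᵥ (G z *ᵥ u)).re * ‖v‖ ^ 2 := by
    rw [hu, star_smul, Matrix.mulVec_smul, smul_dotProduct, dotProduct_smul, smul_eq_mul,
      smul_eq_mul, Complex.star_def, Complex.conj_ofReal, Complex.re_ofReal_mul,
      Complex.re_ofReal_mul]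
    field_simp
  have h4 := h1 _ hu1
  have h5 := (le_abs_self _).trans ((h2 _ hu1).trans (le_abs_self b))
  rw [h3]
  generalize (star u ⬝ᵥ (G z *ᵥ u)).re = t at h4 h5
  have h6 : 1 ≤ (a⁻¹ + |b|) * t := by
    have h7 : a⁻¹ * a ≤ a⁻¹ * t := by gcongr
    rw [inv_mul_cancel₀ ha.ne'] at h7
    nlinarith [mul_nonneg (abs_nonneg b) (ha.le.trans h4)]
  have h8 : 0 < a⁻¹ := inv_pos.2 ha
  exact ⟨by nlinarith [sq_nonneg ‖v‖], by gcongr; linarith⟩

theorem mc_Gm (h2 : F1b) {w : Cm d → Matrix (Fin d) (Fin d) ℂ} {z : Cm d} (hw : MC ∞ w z)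
    (h0 : (w z).det ≠ 0) : MC ∞ (fun y => Gm (w y)) z := by
  have h1 := hw.inv h0
  refine fun p q => hw.det.mul (MC_lam (fun p q => ?_) p q)
  refine Fin.addCases (fun i => ?_) (fun i => ?_) p <;>
    refine Fin.addCases (fun j => ?_) (fun j => ?_) q
  · exact (funext fun y => h2.blk_hh (w y)⁻¹ (w y)⁻¹ᵀ i j) ▸ h1 i j
  · exact (funext fun y => h2.blk_ha (w y)⁻¹ (w y)⁻¹ᵀ i j) ▸ contDiffAt_const
  · exact (funext fun y => h2.blk_ah (w y)⁻¹ (w y)⁻¹ᵀ i j) ▸ contDiffAt_const
  · exact (funext fun y => h2.blk_aa (w y)⁻¹ (w y)⁻¹ᵀ i j) ▸ h1 j i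

variable {M : Type} [TopologicalSpace M] [ChartedSpace (Cm d) M]

/-- `T` acts at the point `z` of the chart `e` by the matrix `F` -/
def Ac (e : Chart d M) (z : Cm d) (F : Fm d) (T : Module.End ℂ (SF d M)) : Prop :=
  ∀ u, vl (T u) e z = F *ᵥ vl u e z

section ac
variable {e : Chart d M} {z : Cm d} {F F' : Fm d} {T T' : Module.End ℂ (SF d M)}

theorem Ac.mul (h : Ac e z F T) (h' : Ac e z F' T') : Ac e z (F * F') (T * T') := fun u => by
  rw [Module.End.mul_apply, h, h', Matrix.mulVec_mulVec]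

theorem Ac.smul (c : ℂ) (h : Ac e z F T) : Ac e z (c • F) (c • T) := fun u => by
  rw [LinearMap.smul_apply, vl_smul, h, Matrix.smul_mulVec]

theorem Ac.neg (h : Ac e z F T) : Ac e z (-F) (-T) := fun u => by
  rw [LinearMap.neg_apply, vl_neg, h, Matrix.neg_mulVec]

theorem Ac.sum {α : Type} (s : Finset α) {F : α → Fm d} {T : α → Module.End ℂ (SF d M)}
    (h : ∀ i, Ac e z (F i) (T i)) : Ac e z (∑ i ∈ s, F i) (∑ i ∈ s, T i) := fun u => by
  rw [LinearMap.sum_apply, vl_sum, Matrix.sum_mulVec]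
  exact Finset.sum_congr rfl fun i _ => h i u

theorem Ac.pow (h : Ac e z F T) : ∀ k : ℕ, Ac e z (F ^ k) (T ^ k)
  | 0 => fun u => by rw [pow_zero, pow_zero, Matrix.one_mulVec, Module.End.one_apply]
  | k + 1 => by
    rw [pow_succ, pow_succ]
    exact (Ac.pow h k).mul h

theorem Ac.ex (h : Ac e z F T) (k : ℕ) : Ac e z (ex k F) (ex k T) :=
  Ac.sum _ fun i => (h.pow i).smul _

theorem Ac.wy (h : Ac e z F T) (h' : Ac e z F' T') (k : ℕ) : Ac e z (wy k F F') (wy k T T') :=
  ((h.ex _).mul (h'.neg.ex _)).mul (h.ex _)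

end ac

theorem at_tg {e : Chart d M} (he : e ∈ atlas (Cm d) M) {z : Cm d} (hz : z ∈ e.target) :
    At e (e.symm z) := ⟨he, e.map_target hz⟩

theorem dens_congr {D D' : Rw d M ℝ} (hD : IsDensity D)
    (h : ∀ e x, At e x → D' e (e x) = D e (e x)) : IsDensity D' := by
  refine ⟨fun e x hx => (hD.cont e x hx).congr ?_, fun e e' x hx hx' => by
    rw [h e x hx, h e' x hx', hD.change e e' x hx hx']⟩
  filter_upwards [e.open_target.mem_nhds (e.map_source hx.2)] with z hz
  have h1 := h e _ (at_tg hx.1 hz)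
  rw [e.right_inv hz] at h1
  exact h1.symm

omit [ChartedSpace (Cm d) M] in
theorem img_sub {e : Chart d M} {K : Set M} (hs : K ⊆ e.source) : e '' K ⊆ e.target := by
  rintro _ ⟨x, hx, rfl⟩
  exact e.map_source (hs hx)

omit [ChartedSpace (Cm d) M] in
theorem img_cpt {e : Chart d M} {K : Set M} (hK : IsCompact K) (hs : K ⊆ e.source) :
    IsCompact (e '' K) := hK.image_of_continuousOn (e.continuousOn.mono hs)

omit [ChartedSpace (Cm d) M] in
theorem ind_int {e : Chart d M} {K : Set M} (hK : IsClosed K) {g : Cm d → ℝ}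
    (hg : IntegrableOn g e.target) :
    IntegrableOn (fun z => K.indicator (fun _ => (1 : ℝ)) (e.symm z) * g z) e.target := by
  have h1 : MeasurableSet (e.target ∩ e.symm ⁻¹' Kᶜ)ᶜ :=
    (e.isOpen_inter_preimage_symm hK.isOpen_compl).measurableSet.compl
  refine (hg.indicator h1).congr_fun (fun z hz => ?_) e.open_target.measurableSet
  by_cases h : e.symm z ∈ K
  · rw [Set.indicator_of_mem (fun h' => h'.2 h), Set.indicator_of_mem h, one_mul]
  · rw [Set.indicator_of_notMem h, zero_mul]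
    exact Set.indicator_of_notMem (Set.notMem_compl_iff.2 (Set.mem_inter hz h)) _

variable [T2Space M] [CompactSpace M] [IsManifold 𝓘(ℂ, Cm d) ω M]

theorem itg_mul (c : ℂ) {F : Rw d M ℂ} (h1 : IsDensity fun e z => (F e z).re)
    (h2 : IsDensity fun e z => (F e z).im) : (itg fun e z => c * F e z) = c * itg F := by
  simp only [itg, Complex.mul_re, Complex.mul_im]
  rw [intX_sub (h1.const_mul _) (h2.const_mul _), intX_add (h2.const_mul _) (h1.const_mul _)]
  simp only [intX_const_mul]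
  apply Complex.ext <;> simp

/-- the mass of a closed set -/
def nu (D : Rw d M ℝ) (K : Set M) : ℝ :=
  intX fun e z => K.indicator (fun _ => (1 : ℝ)) (e.symm z) * D e z

theorem nu_int {D : Rw d M ℝ} (hD : IsDensity D) {K : Set M} (hK : IsClosed K)
    (i : Fin (part d M).N) : IntegrableOn (fun z => (part d M).ρ i (((part d M).e i).symm z) *
      (K.indicator (fun _ => (1 : ℝ)) (((part d M).e i).symm z) * D ((part d M).e i) z))
      ((part d M).e i).target := by
  simp only [mul_left_comm ((part d M).ρ i _)]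
  exact ind_int hK (integrableOn_part _ hD i)

theorem nu_eq {D : Rw d M ℝ} (hD : IsDensity D) {e : Chart d M} (he : e ∈ atlas (Cm d) M)
    {K : Set M} (hK : IsCompact K) (hs : K ⊆ e.source) : nu D K = ∫ z in e '' K, D e z := by
  have h1 : ∫ z in e '' K, D e z = ∑ i, ∫ z in e '' K, (part d M).ρ i (e.symm z) * D e z := by
    rw [← integral_finsetSum]
    · simp only [← Finset.sum_mul, (part d M).sum, one_mul]
    · exact fun i _ => (((((part d M).cont i).comp_continuousOn e.continuousOn_symm).mul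
        (hD.continuousOn he)).mono (img_sub hs)).integrableOn_compact (img_cpt hK hs)
  rw [h1, nu, intX]
  refine Finset.sum_congr rfl fun i _ => ?_
  simp only [← mul_assoc]
  rw [integral_change (f := fun x => (part d M).ρ i x * K.indicator (fun _ => (1 : ℝ)) x) hD
    ((part d M).mem i) he (fun x _ hx => by
      rw [image_eq_zero_of_notMem_tsupport (fun h => hx ((part d M).supp i h)), zero_mul, zero_mul])
    (fun x _ hx => by rw [Set.indicator_of_notMem (fun h => hx (hs h)), mul_zero, zero_mul]),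
    setIntegral_eq_of_subset_of_forall_sdiff_eq_zero e.open_target.measurableSet (img_sub hs)]
  · refine setIntegral_congr_fun (img_cpt hK hs).measurableSet ?_
    rintro _ ⟨x, hx, rfl⟩
    simp only [e.left_inv (hs hx), Set.indicator_of_mem hx, mul_one]
  · intro z hz
    rw [Set.indicator_of_notMem (fun h => hz.2 ⟨_, h, e.right_inv hz.1⟩), mul_zero, zero_mul]

theorem nu_le {D : Rw d M ℝ} (hD : IsDensity D) (h0 : ∀ e x, At e x → 0 ≤ D e (e x)) {K : Set M}
    (hK : IsClosed K) : nu D K ≤ intX D := by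
  unfold nu intX
  refine Finset.sum_le_sum fun i _ => setIntegral_mono_on (nu_int hD hK i)
    (integrableOn_part _ hD i) ((part d M).e i).open_target.measurableSet fun z hz => ?_
  have h1 := h0 _ _ (at_tg ((part d M).mem i) hz)
  rw [((part d M).e i).right_inv hz] at h1
  refine mul_le_mul_of_nonneg_left (mul_le_of_le_one_left h1 ?_) ((part d M).nonneg i _)
  exact Set.indicator_le_self' (fun _ _ => zero_le_one) _

theorem le_nu {D : Rw d M ℝ} (hD : IsDensity D) (h0 : ∀ e x, At e x → 0 ≤ D e (e x)) {N : ℕ}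
    {K : Fin N → Set M} (hK : ∀ j, IsClosed (K j))
    (hc : ∀ e x, At e x → D e (e x) = 0 ∨ ∃ j, x ∈ K j) : intX D ≤ ∑ j, nu D (K j) := by
  simp only [nu, intX]
  rw [Finset.sum_comm]
  refine Finset.sum_le_sum fun i _ => ?_
  rw [← integral_finsetSum _ fun j _ => nu_int hD (hK j) i]
  refine setIntegral_mono_on (integrableOn_part _ hD i)
    (integrable_finsetSum _ fun j _ => nu_int hD (hK j) i)
    ((part d M).e i).open_target.measurableSet fun z hz => ?_
  have h1 := h0 _ _ (at_tg ((part d M).mem i) hz)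
  have h2 := hc _ _ (at_tg ((part d M).mem i) hz)
  rw [((part d M).e i).right_inv hz] at h1 h2
  rw [← Finset.mul_sum, ← Finset.sum_mul]
  refine mul_le_mul_of_nonneg_left ?_ ((part d M).nonneg i _)
  obtain h2 | ⟨j, hj⟩ := h2
  · rw [h2, mul_zero]
  · refine le_mul_of_one_le_left h1 (le_trans ?_ (Finset.single_le_sum
      (fun k _ => Set.indicator_nonneg (fun _ _ => zero_le_one) _) (Finset.mem_univ j)))
    rw [Set.indicator_of_mem hj]

/-- a norm given by a positive density is an `L²` norm -/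
theorem isL2 {G : Rw d M (Fm d)} (hG : ∀ e x, At e x → MC ∞ (G e) (e x))
    (hp : ∀ e x, At e x → (G e (e x)).PosDef) {nrm : SF d M → ℝ}
    (hD : ∀ u : SF d M, IsDensity fun e z => (star (vl u e z) ⬝ᵥ (G e z *ᵥ vl u e z)).re)
    (hn : ∀ u, nrm u ^ 2 = intX fun e z => (star (vl u e z) ⬝ᵥ (G e z *ᵥ vl u e z)).re) :
    IsL2 nrm := by
  have h0 : ∀ (u : SF d M) e x, At e x →
      0 ≤ (star (vl u e (e x)) ⬝ᵥ (G e (e x) *ᵥ vl u e (e x))).re :=
    fun u e x h => (hp e x h).posSemidef.re_dotProduct_nonneg _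
  have key : ∀ e ∈ atlas (Cm d) M, ∀ K : Set M, IsCompact K → K ⊆ e.source → ∃ C : ℝ, 0 ≤ C ∧
      ∀ u : SF d M, ∫ z in e '' K, ‖vl u e z‖ ^ 2 ≤
        C * nu (fun e z => (star (vl u e z) ⬝ᵥ (G e z *ᵥ vl u e z)).re) K ∧
      nu (fun e z => (star (vl u e z) ⬝ᵥ (G e z *ᵥ vl u e z)).re) K ≤
        C * ∫ z in e '' K, ‖vl u e z‖ ^ 2 := by
    intro e he K hK hs
    obtain ⟨C, hC, h⟩ := cmp (G := G e) (img_cpt hK hs) (fun i j => by
      rintro _ ⟨x, hx, rfl⟩
      exact (hG e x ⟨he, hs hx⟩ i j).continuousAt.continuousWithinAt) (by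
      rintro _ ⟨x, hx, rfl⟩
      exact hp e x ⟨he, hs hx⟩)
    refine ⟨C, hC, fun u => ?_⟩
    have i1 : IntegrableOn (fun z => ‖vl u e z‖ ^ 2) (e '' K) := by
      refine ContinuousOn.integrableOn_compact (img_cpt hK hs) ?_
      rintro _ ⟨x, hx, rfl⟩
      exact (((vl_isF u).sm e x ⟨he, hs hx⟩).continuousAt.norm.pow 2).continuousWithinAt
    have i2 := (((hD u).continuousOn he).mono (img_sub hs)).integrableOn_compact (μ := volume)
      (img_cpt hK hs)
    rw [nu_eq (hD u) he hK hs, ← integral_const_mul, ← integral_const_mul]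
    exact ⟨setIntegral_mono_on i1 (i2.const_mul C) (img_cpt hK hs).measurableSet
      fun z hz => (h z hz _).1, setIntegral_mono_on i2 (i1.const_mul C)
      (img_cpt hK hs).measurableSet fun z hz => (h z hz _).2⟩
  refine ⟨fun e he K hK hs => ?_, fun e he K hK hs => ?_, fun N e K he hK hs hc => ?_⟩
  · obtain ⟨C, hC, h⟩ := key e he K hK hs
    refine ⟨C, hC, fun u => (h u).1.trans (mul_le_mul_of_nonneg_left ?_ hC)⟩
    rw [hn]
    exact nu_le (hD u) (h0 u) hK.isClosed
  · obtain ⟨C, hC, h⟩ := key e he K hK hs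
    refine ⟨C, hC, fun u hu => le_trans ?_ (h u).2⟩
    have h1 := le_nu (hD u) (h0 u) (K := fun _ : Fin 1 => K) (fun _ => hK.isClosed)
      fun e' x hx => by
        by_cases hx' : x ∈ K
        · exact Or.inr ⟨0, hx'⟩
        · exact Or.inl (by rw [hu x hx' e' hx, Matrix.mulVec_zero, dotProduct_zero, Complex.zero_re])
    rwa [Fin.sum_univ_one, ← hn] at h1
  · choose C hC h using fun i => key (e i) (he i) (K i) (hK i) (hs i)
    refine ⟨∑ i, C i, Finset.sum_nonneg fun i _ => hC i, fun u => ?_⟩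
    rw [hn, Finset.mul_sum]
    refine (le_nu (hD u) (h0 u) (fun j => (hK j).isClosed) fun _ x _ => Or.inr (hc x)).trans
      (Finset.sum_le_sum fun j _ => (h j u).2.trans (mul_le_mul_of_nonneg_right
        (Finset.single_le_sum (fun i _ => hC i) (Finset.mem_univ j)) ?_))
    exact integral_nonneg fun z => sq_nonneg _

end G4H

open G4H in
/-- row G4 -/
theorem g4 (_ : F1a) (h2 : F1b) (hf : F2b) {d : ℕ} {M : Type} [TopologicalSpace M]
    [ChartedSpace (Cm d) M] [T2Space M] [CompactSpace M] [IsManifold 𝓘(ℂ, Cm d) ω M]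
    (g1 : G1 d M) : G4 d M := by
  intro X w K hX hw hK
  have key : ∀ (a b : SF d M) e x, At e x →
      star (vl a e (e x)) ⬝ᵥ (Gm (w e (e x)) *ᵥ vl b e (e x)) =
        cc d * Bq (vl (X.cj a) e (e x)) (vl (K.W (K.C b)) e (e x)) := by
    intro a b e x h
    have hW : Ac e (e x) (wy d (Lw (w e (e x))) (Lam (w e (e x)))) K.W :=
      Ac.wy (fun u => hK.L u e x h) (fun u => hK.Lm u e x h) d
    have hC : Ac e (e x) (Cw d) K.C := by
      rw [h2.Cw_eq]
      exact Ac.sum _ fun m => Ac.sum _ fun k =>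
        Ac.smul _ (Ac.mul (fun u => hX.dg m u e x h) fun u => hK.pr k u e x h)
    rw [hX.cj a e x h, hW, hC, hf.G_Bq, ← hf.G_eq _ (hw.posDef e x h), Matrix.smul_mulVec,
      dotProduct_smul, smul_eq_mul]
  have k1 : ∀ a b, K.ip a b = itg fun e z => star (vl a e z) ⬝ᵥ (Gm (w e z) *ᵥ vl b e z) := by
    intro a b
    rw [KP.ip, hK.c, hX.Q, ← itg_mul _ (g1.dens _ _).1 (g1.dens _ _).2, itg, itg]
    congr 2
    · exact intX_congr fun e x h => congrArg Complex.re (key a b e x h).symm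
    · exact congrArg _ (intX_congr fun e x h => congrArg Complex.im (key a b e x h).symm)
  have k2 : ∀ a b : SF d M,
      IsDensity (fun e z => (star (vl a e z) ⬝ᵥ (Gm (w e z) *ᵥ vl b e z)).re) ∧
      IsDensity fun e z => (star (vl a e z) ⬝ᵥ (Gm (w e z) *ᵥ vl b e z)).im := by
    intro a b
    obtain ⟨h3, h4⟩ := g1.dens (X.cj a) (K.W (K.C b))
    exact ⟨dens_congr ((h3.const_mul (cc d).re).sub (h4.const_mul (cc d).im)) fun e x h => by
      rw [key a b e x h, Complex.mul_re], dens_congr ((h4.const_mul (cc d).re).add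
        (h3.const_mul (cc d).im)) fun e x h => by rw [key a b e x h, Complex.mul_im]⟩
  have hp := fun e x h => hf.G_pos _ (hw.posDef e x h)
  refine ⟨k1, k2, isL2 (G := fun e z => Gm (w e z)) (fun e x h => mc_Gm h2
    (fun i j => hw.smooth e x h i j) (hw.posDef e x h).det_pos.ne') hp (fun u => (k2 u u).1)
    fun u => ?_⟩
  have h5 : (K.ip u u).re =
      intX fun e z => (star (vl u e z) ⬝ᵥ (Gm (w e z) *ᵥ vl u e z)).re := by
    rw [k1, itg]
    simp
  rw [KP.nrm, h5, Real.sq_sqrt]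
  exact intX_nonneg fun e x h => (hp e x h).posSemidef.re_dotProduct_nonneg _

end Vale.Agent.P281Z.Hg
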