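import Vale.Agent.P281Z.Hg.D0
import Vale.Agent.P299.H863.LocR

/-!
# P281, Hodge block: row G6, local part (Weyl's lemma for sequences)
-/

open scoped ContDiff Topology
open Filter MeasureTheory
open Vale.Agent.P272.K Vale.Agent.P272.K.C2 Vale.Agent.P299.H863

noncomputable section

namespace Vale.Agent.P281Z.Hg.G6H

variable {d : ℕ}

theorem memLp_ind {K : Set (Cm d)} (hK : IsCompact K) {g : Cm d → ℂ} (hg : ContinuousOn g K) :
    MemLp (K.indicator g) 2 volume := by
  rw [memLp_indicator_iff_restrict hK.measurableSet]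
  obtain ⟨C, hC⟩ := hK.exists_bound_of_continuousOn hg
  have : IsFiniteMeasure ((volume : Measure (Cm d)).restrict K) :=
    isFiniteMeasure_restrict.2 hK.measure_lt_top.ne
  refine MemLp.of_bound (hg.aestronglyMeasurable hK.measurableSet) C ?_
  exact (ae_restrict_iff' hK.measurableSet).2 (Eventually.of_forall hC)

theorem n2_ind {K : Set (Cm d)} (hK : MeasurableSet K) {g : Cm d → ℂ}
    (hg : MemLp (K.indicator g) 2 volume) :
    n2 volume (K.indicator g) = Real.sqrt (∫ z in K, ‖g z‖ ^ 2) := by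
  have h1 := n2_sq hg
  have h2 : ∫ z, ‖K.indicator g z‖ ^ 2 = ∫ z in K, ‖g z‖ ^ 2 := by
    rw [← integral_indicator hK]
    refine integral_congr_ae (Eventually.of_forall fun z => ?_)
    by_cases h : z ∈ K <;> simp [h]
  rw [← h2, ← h1, Real.sqrt_sq (n2_nonneg _)]

theorem tendsto_sqrt {a : ℕ → ℝ} (h : Tendsto a atTop (𝓝 0)) :
    Tendsto (fun s => Real.sqrt (a s)) atTop (𝓝 0) := by
  have h1 := (Real.continuous_sqrt.tendsto 0).comp h
  rwa [Real.sqrt_zero] at h1

theorem dbv_eq (j : Fin d) (u : Cm d → ℂ) (z : Cm d) : dbv j u z = dzb j u z := by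
  unfold dbv dzb
  simp only [smul_eq_mul]
  ring

theorem loc_weyl {U K Ω : Set (Cm d)} (hU : IsOpen U) (hK : IsCompact K) (hUK : U ⊆ K)
    (hΩ : IsOpen Ω) (hKΩ : K ⊆ Ω) {σ : ℕ → Cm d → ℂ} (hσ : ∀ s, ContDiffOn ℝ ∞ (σ s) Ω)
    (hc : ∀ ε : ℝ, 0 < ε → ∃ N, ∀ r ≥ N, ∀ s ≥ N, ∫ z in K, ‖σ r z - σ s z‖ ^ 2 < ε)
    (hd : ∀ j, Tendsto (fun s => ∫ z in K, ‖dzb j (σ s) z‖ ^ 2) atTop (𝓝 0)) :
    ∃ f : Cm d → ℂ, DifferentiableOn ℂ f U ∧
      (∀ K' ⊆ U, IsCompact K' → Tendsto (fun s => ∫ z in K', ‖σ s z - f z‖ ^ 2) atTop (𝓝 0)) ∧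
      ∀ τ : Cm d → ℂ, ContinuousOn τ K →
        Tendsto (fun s => ∫ z in K, ‖σ s z - τ z‖ ^ 2) atTop (𝓝 0) → ∀ z ∈ U, τ z = f z := by
  have hσK : ∀ s, ContinuousOn (σ s) K := fun s => (hσ s).continuousOn.mono hKΩ
  have hg : ∀ s, MemLp (K.indicator (σ s)) 2 volume := fun s => memLp_ind hK (hσK s)
  obtain ⟨F, hF, hlim⟩ := exists_limit_n2 hg (by
    intro ε hε
    obtain ⟨N, hN⟩ := hc (ε ^ 2) (by positivity)
    refine ⟨N, fun k hk l hl => ?_⟩
    have h1 : (fun x => K.indicator (σ k) x - K.indicator (σ l) x) =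
        K.indicator fun x => σ k x - σ l x := by
      funext x
      by_cases h : x ∈ K <;> simp [h]
    rw [h1, n2_ind (g := fun x => σ k x - σ l x) hK.measurableSet
      (memLp_ind hK ((hσK k).sub (hσK l)))]
    exact (Real.sqrt_lt' hε).2 (hN k hk l hl))
  have hdz : ∀ s j, ContinuousOn (dzb j (σ s)) K := by
    intro s j z hz
    have h1 : ContDiffAt ℝ ∞ (σ s) z := (hσ s).contDiffAt (hΩ.mem_nhds (hKΩ hz))
    rw [dzb_eq_DD']
    exact (DD_contDiffAt _ _ _ _ (m := 0) h1 (by simp)).continuousAt.continuousWithinAt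
  obtain ⟨f, hf, hFf⟩ := weyl_limit (V := ℂ) hU (fun s => (hσ s).mono (hUK.trans hKΩ)) hg
    (fun s z hz => Set.indicator_of_mem (hUK hz) _) hF hlim (by
      intro j ψ hψ
      obtain ⟨C, hC⟩ := hψ.smooth.continuous.bounded_above_of_compact_support hψ.cpt
      have hC0 : 0 ≤ C := (norm_nonneg _).trans (hC 0)
      have h1 := (tendsto_sqrt (hd j)).const_mul C
      rw [mul_zero] at h1
      refine squeeze_zero (fun _ => n2_nonneg _) (fun s => ?_) h1
      rw [← n2_ind hK.measurableSet (memLp_ind hK (hdz s j))]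
      refine n2_mono_of_le hC0 (memLp_ind hK (hdz s j)) fun x => ?_
      by_cases hx : x ∈ K
      · rw [Set.indicator_of_mem hx, norm_smul, dbv_eq]
        exact mul_le_mul_of_nonneg_right (hC x) (norm_nonneg _)
      · rw [hψ.zero_off fun h => hx (hUK (hψ.supp h)), zero_smul, norm_zero]
        positivity)
  refine ⟨f, hf, fun K' hK' hc' => ?_, fun τ hτ hl => ?_⟩
  · have h1 := hlim.pow 2
    rw [zero_pow two_ne_zero] at h1
    refine squeeze_zero (fun s => integral_nonneg fun z => by positivity) (fun s => ?_) h1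
    have h2 : MemLp (fun x => K.indicator (σ s) x - F x) 2 volume := (hg s).sub hF
    rw [n2_sq h2]
    have h3 : ∫ z in K', ‖σ s z - f z‖ ^ 2 = ∫ z in K', ‖K.indicator (σ s) z - F z‖ ^ 2 := by
      refine setIntegral_congr_ae hc'.measurableSet ?_
      filter_upwards [hFf] with z hz hz'
      rw [Set.indicator_of_mem (hUK (hK' hz')), hz (hK' hz')]
    rw [h3]
    exact setIntegral_le_integral ((memLp_two_iff_integrable_sq_norm h2.1).1 h2)
      (Eventually.of_forall fun z => by positivity)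
  · have hτ' := memLp_ind hK hτ
    have h1 : ∀ s, n2 volume (fun x => K.indicator τ x - F x) ≤
        Real.sqrt (∫ z in K, ‖σ s z - τ z‖ ^ 2) +
          n2 volume (fun x => K.indicator (σ s) x - F x) := by
      intro s
      have h2 : (fun x => K.indicator (σ s) x - K.indicator τ x) =
          K.indicator fun x => σ s x - τ x := by
        funext x
        by_cases h : x ∈ K <;> simp [h]
      rw [← n2_ind (g := fun x => σ s x - τ x) hK.measurableSet (memLp_ind hK ((hσK s).sub hτ)),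
        ← h2, n2_sub_comm _ (K.indicator τ)]
      refine le_trans (le_of_eq ?_) (n2_add_le (hτ'.sub (hg s)) ((hg s).sub hF))
      congr 1
      funext x
      ring
    have h3 := (tendsto_sqrt hl).add hlim
    rw [add_zero] at h3
    have h4 : n2 volume (fun x => K.indicator τ x - F x) ≤ 0 := ge_of_tendsto' h3 h1
    have h5 : MemLp (fun x => K.indicator τ x - F x) 2 volume := hτ'.sub hF
    have h6 : eLpNorm (fun x => K.indicator τ x - F x) 2 volume = 0 := by
      rcases (ENNReal.toReal_eq_zero_iff _).1 (le_antisymm h4 (n2_nonneg _)) with h | h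
      · exact h
      · exact absurd h h5.2.ne
    have h7 := (eLpNorm_eq_zero_iff h5.1 (by norm_num)).1 h6
    have h8 : τ =ᵐ[volume.restrict U] f := by
      refine (ae_restrict_iff' hU.measurableSet).2 ?_
      filter_upwards [h7, hFf] with z hz hz' hzU
      rw [← hz' hzU, ← Set.indicator_of_mem (hUK hzU) τ]
      exact sub_eq_zero.1 hz
    exact Measure.eqOn_open_of_ae_eq h8 hU (hτ.mono hUK) hf.continuousOn

end Vale.Agent.P281Z.Hg.G6H
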