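import Vale.Agent.P281Z.Hg.S3
import Vale.Agent.P281Z.Hg.G6a

/-!
# P281, Hodge block: row G6
-/

open scoped Manifold ContDiff Topology Matrix
open Filter MeasureTheory
open Vale.Agent.P272.K Vale.Agent.P272.K.C2 Vale.Agent.P272.K.INT Vale.Agent.P299.IX
  Vale.Agent.P299.IX.Fock

set_option linter.unusedSectionVars false

noncomputable section

namespace Vale.Agent.P281Z.Hg

namespace G6H

variable {d : ℕ}

theorem norm_ev_Hd (c : ℂ) : ‖c • (ev (Hd d) : Fo d)‖ = ‖c‖ := by
  rw [norm_smul, ev, Pi.norm_single, norm_one, mul_one]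

theorem norm_iot (l : Fin (d + d)) (a : Fo d) (K : FI (d + d)) : ‖(iot l *ᵥ a) K‖ ≤ ‖a‖ := by
  rw [iot_mulVec]
  split_ifs
  · rw [norm_zero]; exact norm_nonneg _
  · rw [norm_mul, sg, norm_pow, norm_neg, norm_one, one_pow, one_mul]
    exact norm_le_pi_norm a _

theorem dT_top (k : K1a) {g : Cm d → ℂ} {z : Cm d} (hg : DifferentiableAt ℝ g z) :
    dT (fun y => g y • (ev (Hd d) : Fo d)) z = epsV (fun c => dr c g z) *ᵥ ev (Hd d) := by
  rw [k.fun_mul hg (differentiableAt_const _), k.const, smul_zero, add_zero]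

theorem dzb_le (h2 : F1b) (k : K1a) {g : Cm d → ℂ} {z : Cm d} (hg : DifferentiableAt ℝ g z)
    (j : Fin d) : ‖dzb j g z‖ ≤ ‖dT (fun y => g y • (ev (Hd d) : Fo d)) z‖ := by
  refine le_trans (le_of_eq ?_) (norm_iot (ah j) _ (Hd d))
  rw [dT_top k hg, Matrix.mulVec_mulVec, eq_sub_of_add_eq (iot_epsV (ah j) _), Matrix.sub_mulVec,
    ← Matrix.mulVec_mulVec, h2.iot_Hd, Matrix.mulVec_zero, sub_zero, Matrix.smul_mulVec,
    Matrix.one_mulVec, k.dr_ah]
  simp [ev]

theorem dT_hol (h2 : F1b) (k : K1a) {g : Cm d → ℂ} {z : Cm d} (hg : DifferentiableAt ℂ g z) :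
    dT (fun y => g y • (ev (Hd d) : Fo d)) z = 0 := by
  rw [dT_top k (hg.restrictScalars ℝ), epsV, Matrix.sum_mulVec]
  refine Finset.sum_eq_zero fun c _ => ?_
  rw [Matrix.smul_mulVec]
  induction c using Fin.addCases with
  | left j => rw [show Fin.castAdd d j = hl j from rfl, h2.eps_Hd, smul_zero]
  | right j => rw [show Fin.natAdd d j = ah j from rfl, k.dr_ah, dzb_of_holo hg, zero_smul]

variable {M : Type} [TopologicalSpace M] [ChartedSpace (Cm d) M] [T2Space M]
  [CompactSpace M] [IsManifold 𝓘(ℂ, Cm d) ω M]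

theorem at_symm {e : Chart d M} (he : e ∈ atlas (Cm d) M) {z : Cm d} (hz : z ∈ e.target) :
    At e (e.symm z) := ⟨he, e.map_target hz⟩

theorem vl_smooth (u : SF d M) {e : Chart d M} (he : e ∈ atlas (Cm d) M) :
    ContDiffOn ℝ ∞ (vl u e) e.target := by
  intro z hz
  have h := (vl_isF u).sm e _ (at_symm he hz)
  rw [e.right_inv hz] at h
  exact h.contDiffWithinAt

variable {X : Cx (SF d M) d} {w : Rw d M (Matrix (Fin d) (Fin d) ℂ)} {K : KP X}

theorem top_val (h2 : F1b) (hX : RealX X) (hK : RealK w K) {u : SF d M} (hu : K.Top u)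
    {e : Chart d M} (he : e ∈ atlas (Cm d) M) {z : Cm d} (hz : z ∈ e.target) :
    vl u e z = vl u e z (Hd d) • ev (Hd d) := by
  have h3 := hK.pr d u e _ (at_symm he hz)
  have h4 := hX.dg d u e _ (at_symm he hz)
  rw [hu.1, e.right_inv hz] at h3
  rw [hu.2, e.right_inv hz] at h4
  exact (h2.top _).1 ⟨h3.symm, h4.symm⟩

theorem top_of (h2 : F1b) (g1 : G1 d M) (hX : RealX X) (hK : RealK w K) {u : SF d M}
    (h : ∀ x, ∃ e, At e x ∧ ∃ c : ℂ, vl u e (e x) = c • ev (Hd d)) : K.Top u := by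
  have h3 : ∀ c : ℂ, pm d d *ᵥ (c • ev (Hd d)) = c • ev (Hd d) ∧
      dg d *ᵥ (c • (ev (Hd d) : Fo d)) = c • ev (Hd d) := fun c => (h2.top _).2 (by simp [ev])
  refine ⟨g1.ext _ _ fun x => ?_, g1.ext _ _ fun x => ?_⟩
  · obtain ⟨e, he, c, hc⟩ := h x
    exact ⟨e, he, by rw [hK.pr d u e x he, hc]; exact (h3 c).1⟩
  · obtain ⟨e, he, c, hc⟩ := h x
    exact ⟨e, he, by rw [hX.dg d u e x he, hc]; exact (h3 c).2⟩

theorem int_le {e : Chart d M} (he : e ∈ atlas (Cm d) M) {L : Set M} (hL : IsCompact L)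
    (hs : L ⊆ e.source) {g : Cm d → ℝ} (u : SF d M) (h0 : ∀ z, 0 ≤ g z)
    (h : ∀ z ∈ e.target, g z ≤ ‖vl u e z‖ ^ 2) :
    ∫ z in e '' L, g z ≤ ∫ z in e '' L, ‖vl u e z‖ ^ 2 := by
  have hc : IsCompact (e '' L) := hL.image_of_continuousOn (e.continuousOn.mono hs)
  have hsub : e '' L ⊆ e.target := by
    rintro _ ⟨x, hx, rfl⟩
    exact e.map_source (hs hx)
  refine integral_mono_of_nonneg (Eventually.of_forall h0)
    (ContinuousOn.integrableOn_compact hc ((((vl_smooth u he).continuousOn.mono hsub).norm).pow 2))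
    ((ae_restrict_iff' hc.measurableSet).2 (Eventually.of_forall fun z hz => h z (hsub hz)))

theorem nrm_sum (hb : K.KIb) {ι : Type} (s : Finset ι) (u : ι → SF d M) :
    K.nrm (∑ i ∈ s, u i) ≤ ∑ i ∈ s, K.nrm (u i) := by
  classical
  induction s using Finset.induction_on with
  | empty =>
    have h := hb.smul 0 0
    rw [zero_smul, norm_zero, zero_mul] at h
    simp [h]
  | insert a s ha ih =>
    rw [Finset.sum_insert ha, Finset.sum_insert ha]
    exact (hb.tri _ _).trans (by linarith)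

theorem tendsto_of_sq {a b : ℕ → ℝ} {C : ℝ} (h0 : ∀ s, 0 ≤ a s) (h : ∀ s, a s ^ 2 ≤ C * b s)
    (hb : Tendsto b atTop (𝓝 0)) : Tendsto a atTop (𝓝 0) := by
  have h1 := hb.const_mul C
  rw [mul_zero] at h1
  refine squeeze_zero h0 (fun s => ?_) (tendsto_sqrt h1)
  exact Real.le_sqrt_of_sq_le (h s)

/-- the local limit -/
theorem chart_lim (h2 : F1b) (k : K1a) (hX : RealX X) (hK : RealK w K) (hl : IsL2 K.nrm)
    (hb : K.KIb) {v : ℕ → SF d M} (hc : K.Cau v) (hd : K.Null fun s => X.d (v s))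
    (ht : ∀ s, K.Top (v s)) {e : Chart d M} (he : e ∈ atlas (Cm d) M) {L : Set M}
    (hL : IsCompact L) (hs : L ⊆ e.source) :
    ∃ f : Cm d → ℂ, DifferentiableOn ℂ f (e.target ∩ e.symm ⁻¹' interior L) ∧
      (∀ K' ⊆ e.target ∩ e.symm ⁻¹' interior L, IsCompact K' →
        Tendsto (fun s => ∫ z in K', ‖vl (v s) e z (Hd d) - f z‖ ^ 2) atTop (𝓝 0)) ∧
      ∀ σ : SF d M, (K.Null fun s => v s - σ) →
        ∀ z ∈ e.target ∩ e.symm ⁻¹' interior L, vl σ e z (Hd d) = f z := by
  have hcp : IsCompact (e '' L) := hL.image_of_continuousOn (e.continuousOn.mono hs)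
  have hsub : e '' L ⊆ e.target := by
    rintro _ ⟨x, hx, rfl⟩
    exact e.map_source (hs hx)
  obtain ⟨C, hC0, hC⟩ := hl.res e he L hL hs
  have hsm : ∀ u : SF d M, ContDiffOn ℝ ∞ (fun z => vl u e z (Hd d)) e.target := fun u =>
    contDiffOn_pi.1 (vl_smooth u he) _
  have hdiff : ∀ u u' : SF d M, ∫ z in e '' L, ‖vl u e z (Hd d) - vl u' e z (Hd d)‖ ^ 2 ≤
      C * K.nrm (u - u') ^ 2 := by
    intro u u'
    refine le_trans (int_le he hL hs (u - u') (fun z => by positivity) fun z _ => ?_) (hC _)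
    exact pow_le_pow_left₀ (norm_nonneg _) (norm_le_pi_norm (vl (u - u') e z) (Hd d)) 2
  obtain ⟨f, h3, h4, h5⟩ := loc_weyl (U := e.target ∩ e.symm ⁻¹' interior L)
    (e.isOpen_inter_preimage_symm isOpen_interior) hcp
    (fun z hz => ⟨e.symm z, interior_subset hz.2, e.right_inv hz.1⟩) e.open_target hsub
    (σ := fun s z => vl (v s) e z (Hd d)) (fun s => hsm _) (by
      intro ε hε
      obtain ⟨N, hN⟩ := hc (Real.sqrt (ε / (C + 1))) (by positivity)
      refine ⟨N, fun r hr s hs => (hdiff _ _).trans_lt ?_⟩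
      have h6 : K.nrm (v r - v s) ^ 2 < ε / (C + 1) :=
        (Real.lt_sqrt (hb.nn _)).1 (hN r hr s hs)
      rw [lt_div_iff₀ (by positivity)] at h6
      nlinarith [sq_nonneg (K.nrm (v r - v s))]) (by
      intro j
      have h6 := (hd.pow 2).const_mul C
      rw [zero_pow two_ne_zero, mul_zero] at h6
      refine squeeze_zero (fun s => integral_nonneg fun z => by positivity) (fun s => ?_) h6
      refine le_trans (int_le he hL hs (X.d (v s)) (fun z => by positivity) fun z hz => ?_) (hC _)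
      refine pow_le_pow_left₀ (norm_nonneg _) ?_ 2
      have h7 := hX.d (v s) e _ (at_symm he hz)
      rw [e.right_inv hz] at h7
      rw [h7, k.congr (v := fun y => vl (v s) e y (Hd d) • ev (Hd d)) (by
        filter_upwards [e.open_target.mem_nhds hz] with y hy using top_val h2 hX hK (ht s) he hy)]
      exact dzb_le h2 k (((hsm _).contDiffAt (e.open_target.mem_nhds hz)).differentiableAt
        (by simp)) j)
  refine ⟨f, h3, h4, fun σ hσ => h5 _ ((hsm σ).continuousOn.mono hsub) ?_⟩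
  have h6 := (hσ.pow 2).const_mul C
  rw [zero_pow two_ne_zero, mul_zero] at h6
  exact squeeze_zero (fun s => integral_nonneg fun z => by positivity) (fun s => hdiff _ _) h6

end G6H

open G6H in
theorem g6 (h2 : F1b) (k : K1a) (d : ℕ) (M : Type) [TopologicalSpace M] [ChartedSpace (Cm d) M]
    [T2Space M] [CompactSpace M] [IsManifold 𝓘(ℂ, Cm d) ω M] (g1 : G1 d M) : G6 d M := by
  intro X w K hX hK hl hb v hc hd ht
  set P := part d M with hP
  have hcs : ∀ i, IsCompact (tsupport (P.ρ i)) := fun i => (isClosed_tsupport _).isCompact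
  choose L hL hL1 hL2 using fun i => exists_compact_between (hcs i) (P.e i).open_source (P.supp i)
  choose f hf1 hf2 hf3 using fun i => chart_lim h2 k hX hK hl hb hc hd ht (P.mem i) (hL i) (hL2 i)
  have hU : ∀ i, IsOpen ((P.e i).target ∩ (P.e i).symm ⁻¹' interior (L i)) := fun i =>
    (P.e i).isOpen_inter_preimage_symm isOpen_interior
  have hex : ∀ i, ∃ σ : SF d M, (∀ z ∈ (P.e i).target, vl σ (P.e i) z =
      ((P.ρ i ((P.e i).symm z) : ℂ) * f i z) • ev (Hd d)) ∧
      ∀ x, x ∉ tsupport (P.ρ i) → σ ∈ ZP x := by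
    intro i
    refine g1.loc (P.e i) _ _ (P.mem i) (hcs i) (P.supp i) (fun z hz => ?_) fun z hz hz' => ?_
    · refine ContDiffAt.contDiffWithinAt ?_
      by_cases h : (P.e i).symm z ∈ tsupport (P.ρ i)
      · have h3 := P.smooth i (P.e i) _ (at_symm (P.mem i) hz)
        rw [(P.e i).right_inv hz] at h3
        have h4 : ContDiffAt ℂ ∞ (f i) z :=
          (Vale.Agent.P268.analyticOnNhd_of_differentiableOn (hU i) (hf1 i) z
            ⟨hz, hL1 i h⟩).contDiffAt
        exact ((Complex.ofRealCLM.contDiff.contDiffAt.comp z h3).mul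
          (h4.restrict_scalars ℝ)).smul contDiffAt_const
      · refine (contDiffAt_const (c := (0 : Fo d))).congr_of_eventuallyEq ?_
        filter_upwards [((P.e i).continuousAt_symm hz).eventually
          ((isClosed_tsupport (P.ρ i)).isOpen_compl.mem_nhds h)] with y hy
        rw [image_eq_zero_of_notMem_tsupport hy, Complex.ofReal_zero, zero_mul, zero_smul]
    · rw [image_eq_zero_of_notMem_tsupport fun h => hz' ⟨_, h, (P.e i).right_inv hz⟩,
        Complex.ofReal_zero, zero_mul, zero_smul]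
  choose σ hσ1 hσ2 using hex
  choose T hT using fun i => g1.op _ (g1.fn (P.ρ i) (P.smooth i))
  have hTv : ∀ i u (e : Chart d M) x, At e x → vl (T i u) e (e x) = (P.ρ i x : ℂ) • vl u e (e x) := by
    intro i u e x hx
    rw [hT i u e x hx]
    beta_reduce
    rw [e.left_inv hx.2, Matrix.smul_mulVec, Matrix.one_mulVec]
  have hsum : ∀ u, ∑ i, T i u = u := by
    intro u
    refine g1.ext _ _ fun x => ⟨chartAt (Cm d) x, ⟨chart_mem_atlas _ x, mem_chart_source _ x⟩, ?_⟩
    rw [vl_sum, Finset.sum_congr rfl fun i _ => hTv i u _ x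
      ⟨chart_mem_atlas _ x, mem_chart_source _ x⟩, ← Finset.sum_smul, ← Complex.ofReal_sum, P.sum,
      Complex.ofReal_one, one_smul]
  have hρ1 : ∀ i x, ‖(P.ρ i x : ℂ)‖ ≤ 1 := by
    intro i x
    rw [Complex.norm_real, Real.norm_of_nonneg (P.nonneg i x), ← P.sum x]
    exact Finset.single_le_sum (fun j _ => P.nonneg j x) (Finset.mem_univ i)
  have hpiece : ∀ i, Tendsto (fun s => K.nrm (T i (v s) - σ i)) atTop (𝓝 0) := by
    intro i
    obtain ⟨C, hC0, hC⟩ := hl.ext (P.e i) (P.mem i) _ (hcs i) (P.supp i)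
    have hc' : IsCompact (P.e i '' tsupport (P.ρ i)) :=
      (hcs i).image_of_continuousOn ((P.e i).continuousOn.mono (P.supp i))
    have hsub : P.e i '' tsupport (P.ρ i) ⊆ (P.e i).target ∩ (P.e i).symm ⁻¹' interior (L i) := by
      rintro _ ⟨x, hx, rfl⟩
      refine ⟨(P.e i).map_source (P.supp i hx), ?_⟩
      rw [Set.mem_preimage, (P.e i).left_inv (P.supp i hx)]
      exact hL1 i hx
    refine tendsto_of_sq (C := C) (fun s => hb.nn _) (fun s => ?_) (hf2 i _ hsub hc')
    refine (hC _ fun x hx => Submodule.sub_mem _ (fun e he => ?_) (hσ2 i x hx)).trans ?_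
    · rw [hTv i _ e x he, image_eq_zero_of_notMem_tsupport hx, Complex.ofReal_zero, zero_smul]
    · refine mul_le_mul_of_nonneg_left ?_ hC0
      refine integral_mono_of_nonneg (Eventually.of_forall fun z => by positivity)
        (ContinuousOn.integrableOn_compact hc' ?_)
        ((ae_restrict_iff' hc'.measurableSet).2 (Eventually.of_forall fun z hz => ?_))
      · exact ((((contDiffOn_pi.1 (vl_smooth (v s) (P.mem i)) (Hd d)).continuousOn.mono
          fun z hz => (hsub hz).1).sub ((hf1 i).continuousOn.mono hsub)).norm).pow 2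
      · have hz1 := (hsub hz).1
        have h3 := hTv i (v s) (P.e i) _ (at_symm (P.mem i) hz1)
        rw [(P.e i).right_inv hz1] at h3
        refine pow_le_pow_left₀ (norm_nonneg _) ?_ 2
        rw [vl_sub, h3, hσ1 i z hz1, top_val h2 hX hK (ht s) (P.mem i) hz1, smul_smul, ← sub_smul,
          norm_ev_Hd, ← mul_sub, norm_mul]
        have h4 : (vl (v s) (P.e i) z (Hd d) • (ev (Hd d) : Fo d)) (Hd d) =
            vl (v s) (P.e i) z (Hd d) := by simp [ev]
        rw [h4]
        exact mul_le_of_le_one_left (norm_nonneg _) (hρ1 i _)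
  have hnull : K.Null fun s => v s - ∑ i, σ i := by
    have h3 := tendsto_finsetSum Finset.univ fun i _ => hpiece i
    rw [Finset.sum_const_zero] at h3
    refine squeeze_zero (fun s => hb.nn _) (fun s => ?_) h3
    refine le_trans (le_of_eq ?_) (nrm_sum hb Finset.univ fun i => T i (v s) - σ i)
    rw [Finset.sum_sub_distrib, hsum]
  have htop : ∀ i, K.Top (σ i) := by
    intro i
    refine top_of h2 g1 hX hK fun x => ?_
    by_cases hx : x ∈ tsupport (P.ρ i)
    · exact ⟨P.e i, ⟨P.mem i, P.supp i hx⟩, _, hσ1 i _ ((P.e i).map_source (P.supp i hx))⟩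
    · refine ⟨chartAt (Cm d) x, ⟨chart_mem_atlas _ x, mem_chart_source _ x⟩, 0, ?_⟩
      rw [zero_smul]
      exact hσ2 i x hx _ ⟨chart_mem_atlas _ x, mem_chart_source _ x⟩
  have htop' : K.Top (∑ i, σ i) :=
    ⟨by rw [map_sum]; exact Finset.sum_congr rfl fun i _ => (htop i).1,
      by rw [map_sum]; exact Finset.sum_congr rfl fun i _ => (htop i).2⟩
  refine ⟨∑ i, σ i, g1.ext _ _ fun x => ?_, htop', hnull⟩
  obtain ⟨i, hi⟩ : ∃ i, P.ρ i x ≠ 0 := by
    by_contra h
    push Not at h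
    have h3 := P.sum x
    rw [Finset.sum_eq_zero fun i _ => h i] at h3
    exact zero_ne_one h3
  have hx : x ∈ tsupport (P.ρ i) := subset_tsupport _ hi
  have hxU : P.e i x ∈ (P.e i).target ∩ (P.e i).symm ⁻¹' interior (L i) :=
    ⟨(P.e i).map_source (P.supp i hx), by
      rw [Set.mem_preimage, (P.e i).left_inv (P.supp i hx)]; exact hL1 i hx⟩
  refine ⟨P.e i, ⟨P.mem i, P.supp i hx⟩, ?_⟩
  rw [hX.d _ _ x ⟨P.mem i, P.supp i hx⟩, k.congr (v := fun y => f i y • ev (Hd d)) (by
    filter_upwards [(hU i).mem_nhds hxU] with y hy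
    rw [top_val h2 hX hK htop' (P.mem i) hy.1, hf3 i _ hnull y hy]),
    dT_hol h2 k ((hf1 i).differentiableAt ((hU i).mem_nhds hxU))]
  rfl

end Vale.Agent.P281Z.Hg
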