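import Vale.Agent.P281Z.Hg.S1
import Mathlib.Analysis.Calculus.LineDeriv.IntegrationByParts

/-!
# P281, Hodge block: calculus of the exterior derivative
-/

set_option linter.all false

open scoped ContDiff ComplexOrder Topology Matrix
open Filter MeasureTheory
open Vale.Agent.P272.K Vale.Agent.P272.K.C2 Vale.Agent.P299.IX Vale.Agent.P299.IX.Fock

noncomputable section

namespace Vale.Agent.P281Z.Hg

namespace Ka

variable {d : ℕ} {c : Fin (d + d)} {f g : Cm d → ℂ} {z : Cm d}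

theorem dr_hl (j : Fin d) : dr (hl j) = dz j := Fin.addCases_left j

theorem dr_ah (j : Fin d) : dr (ah j) = dzb j := Fin.addCases_right j

theorem cx_hl (v : Cm d) (j : Fin d) : cx v (hl j) = v j := Fin.addCases_left j

theorem cx_ah (v : Cm d) (j : Fin d) : cx v (ah j) = star (v j) := Fin.addCases_right j

theorem sum_idx {M : Type*} [AddCommMonoid M] (F : Fin (d + d) → M) :
    ∑ c, F c = ∑ j, F (hl j) + ∑ j, F (ah j) := Fin.sum_univ_add F

theorem dr_DD (c : Fin (d + d)) : ∃ a b v w, dr c = DD a b v w :=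
  Fin.addCases (fun j => ⟨_, _, _, _, (dr_hl j).trans (funext (dz_eq_DD' j))⟩)
    (fun j => ⟨_, _, _, _, (dr_ah j).trans (funext (dzb_eq_DD' j))⟩) c

theorem dr_congr (h : f =ᶠ[𝓝 z] g) : dr c f z = dr c g z := by
  obtain ⟨a, b, v, w, e⟩ := dr_DD c
  rw [e, DD_congr _ _ _ _ h]

theorem dr_add (hf : DifferentiableAt ℝ f z) (hg : DifferentiableAt ℝ g z) :
    dr c (fun y => f y + g y) z = dr c f z + dr c g z := by
  obtain ⟨a, b, v, w, e⟩ := dr_DD c
  rw [e, DD_add _ _ _ _ hf hg]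

theorem dr_mul (hf : DifferentiableAt ℝ f z) (hg : DifferentiableAt ℝ g z) :
    dr c (fun y => f y * g y) z = dr c f z * g z + f z * dr c g z := by
  obtain ⟨a, b, v, w, e⟩ := dr_DD c
  rw [e, DD_mul _ _ _ _ hf hg]

theorem dr_const (a : ℂ) : dr c (fun _ => a) z = 0 := by
  obtain ⟨a, b, v, w, e⟩ := dr_DD c
  rw [e, DD_const]

theorem dr_cmul (a : ℂ) (hf : DifferentiableAt ℝ f z) :
    dr c (fun y => a * f y) z = a * dr c f z := by
  rw [dr_mul (differentiableAt_const a) hf, dr_const, zero_mul, zero_add]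

theorem dr_sum {ι : Type*} (s : Finset ι) {F : ι → Cm d → ℂ}
    (hF : ∀ i ∈ s, DifferentiableAt ℝ (F i) z) :
    dr c (fun y => ∑ i ∈ s, F i y) z = ∑ i ∈ s, dr c (F i) z := by
  obtain ⟨a, b, v, w, e⟩ := dr_DD c
  rw [e, DD_sum _ _ _ _ s hF]

theorem dr_smooth (hf : ContDiffAt ℝ ∞ f z) : ContDiffAt ℝ ∞ (dr c f) z := by
  obtain ⟨a, b, v, w, e⟩ := dr_DD c
  rw [e]
  exact DD_contDiffAt _ _ _ _ hf le_rfl

theorem dr_comm (c c' : Fin (d + d)) (hf : ContDiffAt ℝ ∞ f z) :
    dr c (dr c' f) z = dr c' (dr c f) z := by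
  obtain ⟨a, b, v, w, e⟩ := dr_DD c
  obtain ⟨a', b', v', w', e'⟩ := dr_DD c'
  rw [e, e', DD_comm _ _ _ _ _ _ _ _ (hf.of_le (WithTop.coe_le_coe.2 le_top))]

theorem anti {ι M : Type*} [Fintype ι] [AddCommGroup M] [Module ℂ M] {F : ι → ι → M}
    (h : ∀ i j, F i j = -F j i) : ∑ i, ∑ j, F i j = 0 := by
  have h1 : ∑ i, ∑ j, F i j = -∑ i, ∑ j, F i j := by
    conv_lhs => rw [Finset.sum_comm]
    simp only [← Finset.sum_neg_distrib]
    exact Finset.sum_congr rfl fun i _ => Finset.sum_congr rfl fun j _ => h j i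
  have h2 : (2 : ℂ) • ∑ i, ∑ j, F i j = 0 := by rw [two_smul, add_eq_zero_iff_eq_neg]; exact h1
  have h3 := congrArg (fun x => (2 : ℂ)⁻¹ • x) h2
  simpa [smul_smul] using h3

section vec

variable {κ κ' : Type*} [Fintype κ] [Fintype κ'] {u v : Cm d → κ → ℂ}

theorem dp (hu : DifferentiableAt ℝ u z) (I : κ) : DifferentiableAt ℝ (fun y => u y I) z :=
  differentiableAt_pi.1 hu I

theorem Dv_congr (h : u =ᶠ[𝓝 z] v) : Dv c u z = Dv c v z :=
  funext fun I => dr_congr (h.mono fun _ e => congrFun e I)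

theorem Dv_add (hu : DifferentiableAt ℝ u z) (hv : DifferentiableAt ℝ v z) :
    Dv c (fun y => u y + v y) z = Dv c u z + Dv c v z :=
  funext fun I => dr_add (dp hu I) (dp hv I)

theorem Dv_const (a : κ → ℂ) : Dv c (fun _ => a) z = 0 := funext fun _ => dr_const _

theorem Dv_fmul (hg : DifferentiableAt ℝ g z) (hu : DifferentiableAt ℝ u z) :
    Dv c (fun y => g y • u y) z = dr c g z • u z + g z • Dv c u z :=
  funext fun I => dr_mul hg (dp hu I)

theorem Dv_smul (a : ℂ) (hu : DifferentiableAt ℝ u z) :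
    Dv c (fun y => a • u y) z = a • Dv c u z := funext fun I => dr_cmul a (dp hu I)

theorem Dv_sum {ι : Type*} (s : Finset ι) {F : ι → Cm d → κ → ℂ}
    (hF : ∀ i ∈ s, DifferentiableAt ℝ (F i) z) :
    Dv c (fun y => ∑ i ∈ s, F i y) z = ∑ i ∈ s, Dv c (F i) z := by
  funext I
  simp only [Dv, Finset.sum_apply]
  exact dr_sum s fun i hi => dp (hF i hi) I

theorem Dv_mul (A : Matrix κ' κ ℂ) (hu : DifferentiableAt ℝ u z) :
    Dv c (fun y => A *ᵥ u y) z = A *ᵥ Dv c u z := by
  funext I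
  simp only [Dv, Matrix.mulVec, dotProduct]
  rw [dr_sum _ fun J _ => (dp hu J).const_mul _]
  exact Finset.sum_congr rfl fun J _ => dr_cmul _ (dp hu J)

theorem cd_mul {m : WithTop ℕ∞} (A : Matrix κ' κ ℂ) (hu : ContDiffAt ℝ m u z) :
    ContDiffAt ℝ m (fun y => A *ᵥ u y) z :=
  contDiffAt_pi.2 fun _ => ContDiffAt.sum fun J _ => contDiffAt_const.mul (contDiffAt_pi.1 hu J)

theorem df_mul (A : Matrix κ' κ ℂ) (hu : DifferentiableAt ℝ u z) :
    DifferentiableAt ℝ (fun y => A *ᵥ u y) z :=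
  differentiableAt_pi.2 fun _ => DifferentiableAt.fun_sum fun J _ => (dp hu J).const_mul _

theorem Dv_smooth (hu : ContDiffAt ℝ ∞ u z) : ContDiffAt ℝ ∞ (Dv c u) z :=
  contDiffAt_pi.2 fun I => dr_smooth (contDiffAt_pi.1 hu I)

theorem dr_dot (hu : DifferentiableAt ℝ u z) (hv : DifferentiableAt ℝ v z) :
    dr c (fun y => u y ⬝ᵥ v y) z = Dv c u z ⬝ᵥ v z + u z ⬝ᵥ Dv c v z := by
  simp only [dotProduct, ← Finset.sum_add_distrib]
  rw [dr_sum _ fun J _ => (dp hu J).fun_mul (dp hv J)]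
  exact Finset.sum_congr rfl fun J _ => dr_mul (dp hu J) (dp hv J)

theorem Dv_star_hl (j : Fin d) (hu : DifferentiableAt ℝ u z) :
    Dv (hl j) (fun y => star (u y)) z = star (Dv (ah j) u z) := by
  funext I
  simp only [Dv, dr_hl, dr_ah, Pi.star_apply]
  exact dz_conj j (dp hu I)

theorem Dv_star_ah (j : Fin d) (hu : DifferentiableAt ℝ u z) :
    Dv (ah j) (fun y => star (u y)) z = star (Dv (hl j) u z) := by
  funext I
  simp only [Dv, dr_hl, dr_ah, Pi.star_apply]
  exact dzb_conj j (dp hu I)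

theorem df_star (hu : DifferentiableAt ℝ u z) : DifferentiableAt ℝ (fun y => star (u y)) z :=
  differentiableAt_pi.2 fun I => differentiableAt_conj (dp hu I)

end vec

variable {u v : Cm d → Fo d}

theorem smooth (hu : ContDiffAt ℝ ∞ u z) : ContDiffAt ℝ ∞ (dT u) z :=
  ContDiffAt.sum fun c _ => cd_mul (eps c) (Dv_smooth hu)

theorem dd (hu : ContDiffAt ℝ ∞ u z) : dT (dT u) z = 0 := by
  have h1 : ∀ c, DifferentiableAt ℝ (Dv c u) z := fun c =>
    (Dv_smooth hu).differentiableAt (by simp)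
  have h2 : ∀ c, Dv c (dT u) z = ∑ c', eps c' *ᵥ Dv c (Dv c' u) z := fun c =>
    (Dv_sum _ fun c' _ => df_mul (eps c') (h1 c')).trans
      (Finset.sum_congr rfl fun c' _ => Dv_mul _ (h1 c'))
  simp only [dT.eq_1 (dT u), h2, Matrix.mulVec_sum, Matrix.mulVec_mulVec]
  refine anti fun c c' => ?_
  rw [eps_eps, Matrix.neg_mulVec]
  exact congrArg (fun x => -((eps c' * eps c) *ᵥ x))
    (funext fun I => dr_comm c c' (contDiffAt_pi.1 hu I))

theorem Dv_wg (h : F1a) (hu : DifferentiableAt ℝ u z) (hv : DifferentiableAt ℝ v z) :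
    Dv c (fun y => wg (u y) *ᵥ v y) z = wg (Dv c u z) *ᵥ v z + wg (u z) *ᵥ Dv c v z := by
  funext K
  have h1 : ∀ x : Fo d, wg x K = (Matrix.of fun J I => wg (ev I) K J) *ᵥ x := fun x =>
    funext fun J => h.wg_apply x K J
  have h2 : ∀ x y : Fo d, (wg x *ᵥ y) K = ((Matrix.of fun J I => wg (ev I) K J) *ᵥ x) ⬝ᵥ y :=
    fun x y => congrArg (· ⬝ᵥ y) (h1 x)
  simp only [Dv.eq_1 c _ z K, Pi.add_apply, h2]
  rw [dr_dot (df_mul _ hu) hv, Dv_mul _ hu]

theorem int_fderiv (hg : ContDiff ℝ ∞ g) (hc : HasCompactSupport g) (v : Cm d) :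
    Integrable (fun z => fderiv ℝ g z v) ∧ ∫ z, fderiv ℝ g z v = 0 := by
  have h1 : Integrable (fun z => fderiv ℝ g z v) :=
    ((hg.continuous_fderiv (by simp)).clm_apply continuous_const).integrable_of_hasCompactSupport
      (hc.fderiv_apply ℝ v)
  refine ⟨h1, ?_⟩
  simpa using integral_mul_fderiv_eq_neg_fderiv_mul_of_integrable (μ := volume)
    (f := fun _ => (1 : ℂ)) (g := g) (v := v)
    ((integrable_zero _ _ _).congr (.of_forall fun x => by simp)) (h1.const_mul 1)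
    ((hg.continuous.integrable_of_hasCompactSupport hc).const_mul 1)
    (fun _ _ => differentiableAt_const _) fun x _ => hg.differentiable (by simp) x

theorem om {w : Cm d → Matrix (Fin d) (Fin d) ℂ} (hw : MC ∞ w z)
    (hh : ∀ᶠ y in 𝓝 z, (w y).IsHermitian)
    (hc : ∀ i j k, dz k (fun y => w y i j) z = dz i (fun y => w y k j) z) :
    dT (fun y => Lw (w y) *ᵥ ev ∅) z = 0 := by
  have h1 : ∀ j k, DifferentiableAt ℝ (fun y => w y j k) z := fun j k =>
    (hw j k).differentiableAt (by simp)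
  have h2 : ∀ j k (x : Fo d), DifferentiableAt ℝ (fun y => (Complex.I * w y j k) • x) z :=
    fun j k x => ((h1 j k).const_mul _).smul_const x
  have h3 : ∀ c, eps c *ᵥ Dv c (fun y => Lw (w y) *ᵥ ev ∅) z = ∑ j, ∑ k,
      (Complex.I * dr c (fun y => w y j k) z) • (eps c * (eps (hl j) * eps (ah k))) *ᵥ ev ∅ := by
    intro c
    simp only [Lw, Matrix.sum_mulVec, Matrix.smul_mulVec]
    rw [Dv_sum _ fun j _ => DifferentiableAt.fun_sum fun k _ => h2 j k _, Matrix.mulVec_sum]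
    refine Finset.sum_congr rfl fun j _ => ?_
    rw [Dv_sum _ fun k _ => h2 j k _, Matrix.mulVec_sum]
    refine Finset.sum_congr rfl fun k _ => ?_
    rw [Dv_fmul ((h1 j k).const_mul _) (differentiableAt_const _), Dv_const, smul_zero, add_zero,
      dr_cmul _ (h1 j k), Matrix.mulVec_smul, Matrix.mulVec_mulVec]
  have h4 : ∀ l j k, dzb l (fun y => w y j k) z = star (dz l (fun y => w y k j) z) := by
    intro l j k
    rw [dzb_congr l (g := fun y => (starRingEnd ℂ) (w y k j)) (hh.mono fun y hy =>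
      (hy.apply j k).symm), dzb_conj l (h1 k j)]
    rfl
  rw [dT, sum_idx]
  simp only [h3, dr_hl, dr_ah]
  rw [anti (F := fun i j => ∑ k, (Complex.I * dz i (fun y => w y j k) z) •
    (eps (hl i) * (eps (hl j) * eps (ah k))) *ᵥ ev ∅), zero_add, Finset.sum_comm]
  · refine Finset.sum_eq_zero fun j _ => anti fun l k => ?_
    have e : ∀ l k : Fin d, eps (ah l) * (eps (hl j) * eps (ah k)) =
        -(eps (hl j) * (eps (ah l) * eps (ah k))) := fun l k => by
      rw [← Matrix.mul_assoc, eps_eps, Matrix.neg_mul, Matrix.mul_assoc]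
    rw [h4, h4, hc k j l, e, e, eps_eps (ah l)]
    simp [Matrix.neg_mulVec]
  · intro i j
    rw [← Finset.sum_neg_distrib]
    refine Finset.sum_congr rfl fun k _ => ?_
    rw [hc j k i, ← Matrix.mul_assoc, eps_eps, Matrix.neg_mul, Matrix.mul_assoc,
      Matrix.neg_mulVec, smul_neg]

theorem fd (v : Cm d) : fderiv ℝ g z v = ∑ c, cx v c * dr c g z := by
  have h1 : v = ∑ j, ((v j).re • (Pi.single j 1 : Cm d) +
      (v j).im • (Pi.single j Complex.I : Cm d)) := by
    funext k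
    simp [Finset.sum_apply, Pi.single_apply, Finset.sum_add_distrib, Complex.ext_iff]
  conv_lhs => rw [h1, map_sum]
  rw [sum_idx, ← Finset.sum_add_distrib]
  refine Finset.sum_congr rfl fun j _ => ?_
  rw [cx_hl, cx_ah, dr_hl, dr_ah, map_add, map_smul, map_smul, dz, dzb, Complex.real_smul,
    Complex.real_smul]
  have h2 : star (v j) = (v j).re - (v j).im * Complex.I := by simp [Complex.ext_iff]
  rw [h2]
  nth_rewrite 3 [← Complex.re_add_im (v j)]
  linear_combination ((v j).im * fderiv ℝ g z (Pi.single j Complex.I)) * Complex.I_sq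

end Ka

open Ka in
/-- row K1a -/
theorem k1a (h1 : F1a) (h2 : F1b) : K1a where
  dr_hl := dr_hl
  dr_ah := dr_ah
  congr h := Finset.sum_congr rfl fun c _ => by rw [Dv_congr h]
  add hu hv := by simp only [dT, Dv_add hu hv, Matrix.mulVec_add, Finset.sum_add_distrib]
  smul a _ _ hu := by simp only [dT, Dv_smul a hu, Matrix.mulVec_smul, Finset.smul_sum]
  const u z := by simp only [dT, Dv_const, Matrix.mulVec_zero, Finset.sum_const_zero]
  Dv_mul A _ _ _ hu := Dv_mul A hu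
  fun_mul hg hu := by
    simp only [dT, Dv_fmul hg hu, Matrix.mulVec_add, Finset.sum_add_distrib, Matrix.mulVec_smul,
      Finset.smul_sum, epsV, Matrix.sum_mulVec, Matrix.smul_mulVec]
  smooth := smooth
  dd := dd
  leib {d u v z} hu hv := by
    have e := map_sum (AddMonoidHom.mk' (wg : Fo d → Fm d) h1.wg_add)
      (fun c => eps c *ᵥ Dv c u z) Finset.univ
    simp only [AddMonoidHom.mk'_apply, h1.wg_eps] at e
    simp only [dT, Dv_wg h1 hu hv, Matrix.mulVec_add, Finset.sum_add_distrib, e, Matrix.sum_mulVec,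
      Matrix.mulVec_sum, Matrix.mulVec_mulVec, h1.eps_wg (u z)]
  cjv {d u z} hu := by
    have e := fun F => map_sum (AddMonoidHom.mk' (cjv : Fo d → Fo d) h2.cjv_add) F
      (Finset.univ : Finset (Fin d))
    simp only [AddMonoidHom.mk'_apply] at e
    rw [dT, dT, sum_idx, sum_idx, h2.cjv_add, e, e, add_comm]
    simp only [h2.cjv_hl, h2.cjv_ah]
    simp only [Hg.cjv, Dv_mul _ (df_star hu), Dv_star_hl _ hu, Dv_star_ah _ hu]
  Bq_dT {d u v z} hu hv := by
    have e : ∀ c, dr c (fun y => Bq (eps c *ᵥ u y) (v y)) z =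
        Bq (eps c *ᵥ Dv c u z) (v z) + Bq (u z) (eps c *ᵥ Dv c v z) := fun c => by
      rw [← h1.Bq_eps (u z)]
      simp only [Bq]
      rw [dr_dot (df_mul _ hu) (df_mul _ hv), Dv_mul _ hu, Dv_mul _ hv]
    simp only [e, Finset.sum_add_distrib]
    simp only [dT, Bq, sum_dotProduct, Matrix.mulVec_sum, dotProduct_sum]
  stokes c g hg hc := by
    obtain ⟨a, b, v, w, e⟩ := dr_DD c
    simp only [e, DD]
    rw [integral_add ((int_fderiv hg hc v).1.const_mul a) ((int_fderiv hg hc w).1.const_mul b),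
      integral_const_mul, integral_const_mul, (int_fderiv hg hc v).2, (int_fderiv hg hc w).2]
    simp
  om := om
  fd v _ := fd v

end Vale.Agent.P281Z.Hg
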