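import Vale.Agent.P281Z.Hg.S2
import Mathlib.LinearAlgebra.FreeModule.PID
import Mathlib.LinearAlgebra.LinearIndependent.BaseChange

/-!
# P281, Hodge block, row LT: the lattice of integral classes has a basis
-/

open scoped Topology
open Filter

noncomputable section

namespace Vale.Agent.P281Z.Hg

namespace Lt

variable {S : Type} [AddCommGroup S] [Module ℂ S] {D : ℕ} {X : Cx S D} {M : Type} [MetricSpace M]
  {E : LC M X} {ε η : ℝ} {m : ℕ}

theorem nr_mono (h : η ≤ ε) {l : List M} {z : M} (k : Nr η l z) : Nr ε l z :=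
  fun x hx => (k x hx).trans_le h

theorem zg_mono (h : η ≤ ε) {α : S} {a : List M → ℂ} (k : E.Zg ε m α a) : E.Zg η m α a := by
  obtain ⟨γ, k0, k1, k2, k3⟩ := k
  exact ⟨γ, k0, k1, fun l hl z hz => k2 l hl z (nr_mono h hz),
    fun l hl z hz => k3 l hl z (nr_mono h hz)⟩

theorem cob_mono (h : η ≤ ε) {a : List M → ℂ} (k : Cob ε m a) : Cob η m a := by
  obtain ⟨b, k0, k1⟩ := k
  exact ⟨b, k0, fun l hl ⟨z, hz⟩ => k1 l hl ⟨z, nr_mono h hz⟩⟩

/-- the closed forms of degree `m` -/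
def ClS (X : Cx S D) (m : ℕ) : Submodule ℂ S where
  carrier := {z | X.Cl m z}
  add_mem' h k := ⟨by rw [map_add, h.1, k.1, add_zero], by rw [map_add, h.2, k.2]⟩
  zero_mem' := ⟨map_zero _, map_zero _⟩
  smul_mem' c _ h := ⟨by rw [map_smul, h.1, smul_zero], by rw [map_smul, h.2]⟩

/-- the zigzags -/
def ZgS (hv : VT1) (E : LC M X) (ε : ℝ) (m : ℕ) : Submodule ℂ (S × (List M → ℂ)) where
  carrier := {p | E.Zg ε m p.1 p.2}
  add_mem' := by
    rintro ⟨_, a⟩ ⟨_, b⟩ ⟨γ, rfl, k1, k2, k3⟩ ⟨γ', rfl, l1, l2, l3⟩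
    refine ⟨γ + γ', rfl, fun l j e => ?_, fun l hl z hz => ?_, fun l hl z hz => ?_⟩
    · rw [Pi.add_apply, map_add, k1 l j e, l1 l j e]
    · have := add_mem (k2 l hl z hz) (l2 l hl z hz)
      rwa [sub_add_sub_comm, ← map_add, ← hv.add] at this
    · have := add_mem (k3 l hl z hz) (l3 l hl z hz)
      rwa [sub_add_sub_comm, ← add_smul, ← hv.add] at this
  zero_mem' := by
    have h : ∀ l : List M, dl (0 : List M → S) l = 0 := fun l => hv.map (0 : S →+ S) 0 l
    exact ⟨0, rfl, fun _ _ _ => map_zero _, fun l _ z _ => by simp [h], fun l _ z _ => by simp [h]⟩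
  smul_mem' := by
    rintro c ⟨_, a⟩ ⟨γ, rfl, k1, k2, k3⟩
    have h : ∀ l, dl (c • γ) l = c • dl γ l := hv.map (DistribSMul.toAddMonoidHom S c) γ
    refine ⟨c • γ, rfl, fun l j e => ?_, fun l hl z hz => ?_, fun l hl z hz => ?_⟩
    · rw [Pi.smul_apply, map_smul, k1 l j e]
    · have := (E.Z z).smul_mem c (k2 l hl z hz)
      rwa [smul_sub, ← map_smul, ← h] at this
    · have := (E.Z z).smul_mem c (k3 l hl z hz)
      rwa [smul_sub, smul_smul, ← h] at this

theorem zg_cl (h : E.OK) {α : S} {a : List M → ℂ} (k : E.Zg ε m α a) : X.Cl m α := by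
  obtain ⟨γ, rfl, k1, k2, -⟩ := k
  exact ⟨h.sep _ fun x => by simpa [dl] using k2 [] (Nat.zero_le m) x (fun _ e => by simp at e),
    k1 [] m (Nat.zero_add m)⟩

theorem zg_coc (hv : VT1) (h : E.OK) {α : S} {a : List M → ℂ} (k : E.Zg ε m α a) : Coc ε m a := by
  obtain ⟨γ, -, -, -, k3⟩ := k
  intro l hl hs
  have h1 : IsOpen {z | Nr ε l z} := by
    have : {z | Nr ε l z} = ⋂ x ∈ {x | x ∈ l}, Metric.ball x ε := by
      ext z
      simp [Nr, dist_comm]
    exact this ▸ l.finite_toSet.isOpen_biInter fun _ _ => Metric.isOpen_ball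
  obtain ⟨C, -, h2⟩ := h.ev _ h1 hs
  have h3 := h2 (-dl a l) 0 fun y hy => by
    have e1 := hv.mem (E.Z y).toAddSubgroup (dl γ + fun l => (-a l) • E.one) l fun l' e e' => by
      have := k3 l' (by omega) y fun x hx => hy x (e.subset hx)
      rwa [sub_eq_add_neg, ← neg_smul] at this
    have e2 := hv.map (-(LinearMap.toSpanSingleton ℂ S E.one)).toAddMonoidHom a l
    simp only [LinearMap.toAddMonoidHom_coe, LinearMap.neg_apply,
      LinearMap.toSpanSingleton_apply, ← neg_smul] at e2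
    rwa [hv.add, hv.dldl, zero_add, e2, ← sub_zero (_ • E.one)] at e1
  have h4 := h.smul 0 0
  rw [zero_smul, norm_zero, zero_mul] at h4
  rwa [h4, mul_zero, norm_neg, norm_le_zero_iff] at h3

theorem ex_nul (h : X.OK) (β : S) : X.d β ∈ X.Nul :=
  ⟨h.dd β, fun y hy => neg_eq_zero.1 (by rw [← h.Qd, hy, map_zero, LinearMap.zero_apply])⟩

/-- the integral forms -/
def IntS (hv : VT1) (E : LC M X) (m : ℕ) : AddSubgroup S where
  carrier := {u | E.IsInt m u}
  add_mem' := by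
    rintro u v ⟨ε, k1, a, k2⟩ ⟨η, l1, b, l2⟩
    refine ⟨min ε η, lt_min k1 l1, a + b, ?_⟩
    rw [show zl (a + b) = zl a + zl b from funext fun l => Int.cast_add _ _]
    exact (ZgS hv E _ m).add_mem (x := (u, _)) (y := (v, _)) (zg_mono (min_le_left _ _) k2)
      (zg_mono (min_le_right _ _) l2)
  zero_mem' := ⟨1, one_pos, 0, by
    rw [show zl (0 : List M → ℤ) = 0 from funext fun l => Int.cast_zero]
    exact (ZgS hv E _ m).zero_mem⟩
  neg_mem' := by
    rintro u ⟨ε, k1, a, k2⟩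
    refine ⟨ε, k1, -a, ?_⟩
    rw [show zl (-a) = -zl a from funext fun l => Int.cast_neg _]
    exact (ZgS hv E _ m).neg_mem (x := (u, _)) k2

end Lt

open Lt in
theorem lt_of (hv : VT1) (hr : ZR) (hi : ZI) : LT := by
  intro S _ _ D X M _ E m h hN hP
  obtain ⟨⟨ε, hε, A, C, hA, hZ⟩, hU2⟩ := hr S D X M E h m
  obtain ⟨hI, hU1⟩ := hi S D X M E h m
  obtain ⟨r, c, p0, p1, p2, p3, p4⟩ := hP ε hε
  let per : S →ₗ[ℂ] Fin r → ℂ := LinearMap.pi fun i => ∑ l ∈ (c i).support, (c i l : ℂ) • A l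
  have hper : ∀ u i, per u i = evc (fun l => A l u) (c i) := fun u i => by
    simp [per, evc, Finsupp.sum, LinearMap.sum_apply]
  have hb : ∀ u i, ‖per u i‖ ≤ (∑ l ∈ (c i).support, ‖(c i l : ℂ)‖ * C) * E.nrm u := fun u i => by
    rw [hper, evc, Finsupp.sum, Finset.sum_mul]
    refine norm_sum_le_of_le _ fun l hl => ?_
    rw [norm_mul, mul_assoc]
    exact mul_le_mul_of_nonneg_left (hA l u (p0 i l hl).1) (norm_nonneg _)
  have hc : ∀ u, X.Cl m u → Coc ε m fun l => A l u := fun u hu => zg_coc hv h (hZ u hu)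
  have e0 : ∀ β, X.Cl m (X.d β) → per (X.d β) = 0 := fun β hβ => funext fun i => by
    obtain ⟨η, k1, k2⟩ := hU2 ε hε
    exact (hper _ i).trans (p2 _ η (hc _ hβ) k1 (k2 β _ (hZ _ hβ)) i)
  have ex : ∀ η η' u a, 0 < η → 0 < η' → E.Zg η m u a → Cob η' m a → u ∈ X.Nul :=
    fun η η' u a k1 k2 k3 k4 => by
      obtain ⟨β, rfl⟩ := hU1 _ u a (lt_min k1 k2) (zg_mono (min_le_left _ _) k3)
        (cob_mono (min_le_right _ _) k4)
      exact ex_nul h.cx β
  have zN : ∀ u, X.Cl m u → per u = 0 → u ∈ X.Nul := fun u hu e => by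
    obtain ⟨η, k1, k2⟩ := p3 _ (hc u hu) fun i => (hper u i).symm.trans (congrFun e i)
    exact ex ε η u _ hε k1 (hZ u hu) k2
  have Nz : ∀ u, X.Cl m u → u ∈ X.Nul → per u = 0 := fun u hu e => funext fun i => by
    obtain ⟨y, hy⟩ := hN u e
    have k1 : ∀ y, per (X.dg m (X.d y)) = 0 := fun y => by
      obtain ⟨β, k⟩ : ∃ β, X.dg m (X.d y) = X.d β := by
        cases m with
        | zero => exact ⟨0, (LinearMap.congr_fun h.cx.dg0_d y).trans (map_zero _).symm⟩
        | succ m => exact ⟨_, LinearMap.congr_fun (h.cx.dg_d m) y⟩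
      rw [k]
      refine e0 β ⟨h.cx.dd β, ?_⟩
      rw [← k]
      exact LinearMap.congr_fun ((h.cx.dg_mul m m).trans (if_pos rfl)) _
    have k2 := (squeeze_zero (fun s => h.nn _) (fun s => h.dgb m _) hy).const_mul
      (∑ l ∈ (c i).support, ‖(c i l : ℂ)‖ * C)
    rw [mul_zero] at k2
    refine norm_le_zero_iff.1 (ge_of_tendsto' k2 fun s => ?_)
    refine le_of_eq_of_le ?_ (hb _ i)
    rw [map_sub, map_sub, hu.2, k1, sub_zero]
  have icl : ∀ u, E.IsInt m u → X.Cl m u := fun u ⟨_, _, _, k⟩ => zg_cl h k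
  let La : Submodule ℤ (Fin r → ℤ) := (((IntS hv E m).map per.toAddMonoidHom).comap
    (AddMonoidHom.compLeft (Int.castAddHom ℂ) (Fin r))).toIntSubmodule
  have int : ∀ u, E.IsInt m u → ∃ k ∈ La, per u = fun i => (k i : ℂ) := fun u hu => by
    obtain ⟨ε', k1, a, k2⟩ := id hu
    obtain ⟨η, k3, k4⟩ := hU2 _ (lt_min hε k1)
    have k5 := (ZgS hv E _ m).sub_mem (x := (u, _)) (y := (u, _))
      (zg_mono (min_le_left ε ε') (hZ u (icl u hu))) (zg_mono (min_le_right ε ε') k2)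
    rw [Prod.mk_sub_mk, sub_self, ← map_zero X.d] at k5
    choose k hk using p1 _ a η (hc u (icl u hu)) k3 (k4 0 _ k5)
    have k6 : per u = fun i => (k i : ℂ) := funext fun i => (hper u i).trans (hk i)
    exact ⟨k, ⟨u, hu, k6⟩, k6⟩
  obtain ⟨n, B⟩ := Submodule.basisOfPid (Pi.basisFun ℤ (Fin r)) La
  choose b b1 b2 using fun j => (B j).2
  have b3 : ∀ j, per (b j) = fun i => ((B j).1 i : ℂ) := b2
  have bcl : ∀ k : Fin n → ℂ, ∑ j, k j • b j ∈ ClS X m := fun k =>
    Submodule.sum_mem _ fun j _ => Submodule.smul_mem _ _ (icl _ (b1 j))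
  have crd : ∀ z, E.IsInt m z → ∃ k : Fin n → ℤ, z - ∑ j, (k j : ℂ) • b j ∈ X.Nul := fun z hz => by
    obtain ⟨k, k1, k2⟩ := int z hz
    refine ⟨B.repr ⟨k, k1⟩, zN _ ((ClS X m).sub_mem (icl z hz) (bcl _)) (funext fun i => ?_)⟩
    have k3 := congrArg (fun v : La => (v.1 i : ℂ)) (B.sum_repr ⟨k, k1⟩)
    simp only [Submodule.coe_sum, Submodule.coe_smul, Finset.sum_apply, Pi.smul_apply, smul_eq_mul,
      Int.cast_sum, Int.cast_mul] at k3
    simp only [map_sub, map_sum, map_smul, k2, b3, Pi.sub_apply, Finset.sum_apply, Pi.smul_apply,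
      smul_eq_mul, k3, sub_self, Pi.zero_apply]
  refine ⟨n, b, ⟨fun j => icl _ (b1 j), fun k hk => ?_, fun z hz => ?_⟩, b1, crd⟩
  · have k1 := (linearIndependent_algebraMap_comp_iff (S := ℂ)).2
      (B.linearIndependent.map' La.subtype La.ker_subtype)
    refine funext (Fintype.linearIndependent_iff.1 k1 k ?_)
    have k2 := Nz _ (bcl k) hk
    simp only [map_sum, map_smul, b3] at k2
    exact k2
  · obtain ⟨η, k1, s, lam, a, k2, k3⟩ := p4 _ (hc z hz)
    choose α hα using fun i => hI η (zl (a i)) k1 fun l e1 e2 =>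
      (hv.map (Int.castAddHom ℂ) (a i) l).trans (by rw [k2 i l e1 e2, map_zero])
    choose k hk using fun i => crd (α i) ⟨η, k1, a i, hα i⟩
    have k4 : E.Zg _ m _ _ :=
      (ZgS hv E _ m).sub_mem (x := (z, _)) (zg_mono (min_le_left ε η) (hZ z hz))
        (Submodule.sum_mem _ fun i (_ : i ∈ Finset.univ) => Submodule.smul_mem _ (lam i)
          (x := (α i, zl (a i))) (zg_mono (min_le_right ε η) (hα i)))
    simp only [Prod.fst_sub, Prod.snd_sub, Prod.fst_sum, Prod.snd_sum, Prod.smul_mk] at k4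
    have k5 := ex _ η _ _ (lt_min hε k1) k1 k4 k3
    refine ⟨fun j => ∑ i, lam i * k i j, ?_⟩
    have k6 := add_mem k5 (X.Nul.sum_mem fun i (_ : i ∈ Finset.univ) =>
      X.Nul.smul_mem (lam i) (hk i))
    simp only [smul_sub, Finset.sum_sub_distrib, sub_add_sub_cancel, Finset.smul_sum,
      smul_smul] at k6
    simp only [Finset.sum_smul]
    rwa [Finset.sum_comm]

end Vale.Agent.P281Z.Hg
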