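import Vale.Agent.P281Z.Hg.S4

/-!
# P281, Hodge block: the transported family in the charts of the central fibre (row MDL)
-/

open scoped Manifold ContDiff ComplexOrder Topology Matrix
open Filter
open Vale.Agent.P272.K Vale.Agent.P272.K.C2 Vale.Agent.P299.IX Vale.Agent.P299.IX.Fock

noncomputable section

namespace Vale.Agent.P281Z.Hg

namespace Mdp

variable {p d : ℕ} {X Y : Type} [TopologicalSpace X] [ChartedSpace (Cm (p + d)) X]
  [TopologicalSpace Y] [ChartedSpace (Cm p) Y]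

/-- the moving point -/
def mv (Φ : Y → X → X) (χ : Chart p Y) (a : Y) (q : PC p d X Y) (k : Cm p × Cm d) : X :=
  Φ (χ.symm k.1) (q.2.symm (q.1 a, k.2))

/-- the fibre coordinate of the moving point -/
def ph (Φ : Y → X → X) (χ : Chart p Y) (a : Y) (q : PC p d X Y) (s : Cm p) (z : Cm d) : Cm d :=
  (q.2 (mv Φ χ a q (s, z))).2

/-- the point with base coordinate in `χ` and fibre coordinate in `q` -/
def bm (χ : Chart p Y) (q : PC p d X Y) (k : Cm p × Cm d) : X :=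
  q.2.symm (q.1 (χ.symm k.1), k.2)

variable {f : X → Y}

theorem fj {y : Y} (B : Fib p d f y) (m : B.F) : f (B.j m) = y := by
  have h : B.j m ∈ f ⁻¹' {y} := B.rng ▸ Set.mem_range_self m
  exact h

theorem q_j {y : Y} (B : Fib p d f y) {q : PC p d X Y} {e : Chart d B.F} (hq : IsPC f q)
    (hs : Sl y B.j q e) {m : B.F} (hm : m ∈ e.source) :
    B.j m ∈ q.2.source ∧ q.2 (B.j m) = (q.1 y, e m) := by
  have h1 : B.j m ∈ q.2.source := by
    have h := hm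
    rw [hs.src] at h
    exact h
  refine ⟨h1, Prod.ext ?_ (hs.val m hm).symm⟩
  rw [(hq.2.fst _ h1).2, fj B m]

theorem j_eq {y : Y} (B : Fib p d f y) {q : PC p d X Y} {e : Chart d B.F} (hq : IsPC f q)
    (hs : Sl y B.j q e) {m : B.F} (hm : m ∈ e.source) : q.2.symm (q.1 y, e m) = B.j m := by
  obtain ⟨h1, h2⟩ := q_j B hq hs hm
  rw [← h2, q.2.left_inv h1]

theorem j_symm {y : Y} (B : Fib p d f y) {q : PC p d X Y} {e : Chart d B.F} (hq : IsPC f q)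
    (hs : Sl y B.j q e) {z : Cm d} (hz : z ∈ e.target) :
    q.2.symm (q.1 y, z) = B.j (e.symm z) := by
  have h := j_eq B hq hs (e.map_target hz)
  rwa [e.right_inv hz] at h

variable {a : Y} {N : Set Y} {r : X → X} {Φ : Y → X → X} {χ : Chart p Y}

theorem tend_base (hχ : At χ a) (z : Cm d) :
    Tendsto (fun k : Cm p × Cm d => χ.symm k.1) (𝓝 (χ a, z)) (𝓝 a) := by
  have h1 : ContinuousAt χ.symm (χ a) := χ.continuousAt_symm (χ.map_source hχ.2)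
  have h2 : Tendsto χ.symm (𝓝 (χ a)) (𝓝 a) := by
    have h := h1.tendsto
    rwa [χ.left_inv hχ.2] at h
  exact h2.comp (continuous_fst.tendsto (χ a, z))

theorem tend_mv (hT : Triv p d f a N r Φ) (hχ : At χ a) (Ba : Fib p d f a) {q : PC p d X Y}
    {e : Chart d Ba.F} (hq : IsPC f q) (hs : Sl a Ba.j q e) {x : Ba.F} (hx : x ∈ e.source) :
    Tendsto (mv Φ χ a q) (𝓝 (χ a, e x)) (𝓝 (Ba.j x)) := by
  obtain ⟨h1, h2⟩ := q_j Ba hq hs hx
  have h3 : Tendsto (fun k : Cm p × Cm d => q.2.symm (q.1 a, k.2)) (𝓝 (χ a, e x))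
      (𝓝 (Ba.j x)) := by
    have h4 : ContinuousAt q.2.symm (q.1 a, e x) := by
      rw [← h2]
      exact q.2.continuousAt_symm (q.2.map_source h1)
    have h5 := h4.tendsto
    rw [j_eq Ba hq hs hx] at h5
    exact h5.comp ((continuous_const.prodMk continuous_snd).tendsto (χ a, e x))
  have h6 : Tendsto (fun k : Cm p × Cm d => (χ.symm k.1, q.2.symm (q.1 a, k.2))) (𝓝 (χ a, e x))
      (𝓝[{k : Y × X | f k.2 = a}] (a, Ba.j x)) := by
    refine tendsto_nhdsWithin_iff.2 ⟨(tend_base hχ _).prodMk_nhds h3, ?_⟩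
    have h7 : ∀ᶠ k : Cm p × Cm d in 𝓝 (χ a, e x), k.2 ∈ e.target :=
      continuous_snd.continuousAt (e.open_target.mem_nhds (e.map_source hx))
    filter_upwards [h7] with k hk
    show f (q.2.symm (q.1 a, k.2)) = a
    rw [j_symm Ba hq hs hk, fj Ba]
  have h8 := (hT.pc a hT.mem (Ba.j x) (fj Ba x)).tendsto.comp h6
  rw [hT.h3 _ (fj Ba x)] at h8
  exact h8

/-- good points -/
structure Gd (Φ : Y → X → X) (χ : Chart p Y) (a : Y) (N : Set Y) (q : PC p d X Y)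
    (O : Set (Cm d)) (k : Cm p × Cm d) : Prop where
  tg : k.1 ∈ χ.target
  mN : χ.symm k.1 ∈ N
  sr : χ.symm k.1 ∈ q.1.source
  zt : k.2 ∈ O
  mv : mv Φ χ a q k ∈ q.2.source

theorem gd (hT : Triv p d f a N r Φ) (hχ : At χ a) (Ba : Fib p d f a) {q : PC p d X Y}
    {e : Chart d Ba.F} (hq : IsPC f q) (hs : Sl a Ba.j q e) {x : Ba.F} (hx : x ∈ e.source) :
    ∀ᶠ k in 𝓝 (χ a, e x), Gd Φ χ a N q e.target k := by
  have h1 : ∀ᶠ k : Cm p × Cm d in 𝓝 (χ a, e x), k.1 ∈ χ.target :=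
    continuous_fst.continuousAt (χ.open_target.mem_nhds (χ.map_source hχ.2))
  have h2 := (tend_base hχ (e x)).eventually (hT.opn.mem_nhds hT.mem)
  have h3 := (tend_base hχ (e x)).eventually (q.1.open_source.mem_nhds hs.mem)
  have h4 : ∀ᶠ k : Cm p × Cm d in 𝓝 (χ a, e x), k.2 ∈ e.target :=
    continuous_snd.continuousAt (e.open_target.mem_nhds (e.map_source hx))
  have h5 := (tend_mv hT hχ Ba hq hs hx).eventually
    (q.2.open_source.mem_nhds (q_j Ba hq hs hx).1)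
  filter_upwards [h1, h2, h3, h4, h5] with k k1 k2 k3 k4 k5
  exact ⟨k1, k2, k3, k4, k5⟩

theorem mv_eq (Ba : Fib p d f a) {q : PC p d X Y} {e : Chart d Ba.F} (hq : IsPC f q)
    (hs : Sl a Ba.j q e) {k : Cm p × Cm d} (hk : k.2 ∈ e.target) :
    mv Φ χ a q k = Φ (χ.symm k.1) (Ba.j (e.symm k.2)) := by
  rw [mv, j_symm Ba hq hs hk]

theorem q_mv (hT : Triv p d f a N r Φ) (Ba : Fib p d f a) {q : PC p d X Y} {e : Chart d Ba.F}
    (hq : IsPC f q) (hs : Sl a Ba.j q e) {k : Cm p × Cm d} (hk : Gd Φ χ a N q e.target k) :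
    bm χ q (k.1, ph Φ χ a q k.1 k.2) = mv Φ χ a q k := by
  have h1 : f (mv Φ χ a q k) = χ.symm k.1 := by
    rw [mv_eq Ba hq hs hk.zt]
    exact (hT.h1 _ hk.mN _ (fj Ba _)).1
  have h2 : q.2 (mv Φ χ a q k) = (q.1 (χ.symm k.1), ph Φ χ a q k.1 k.2) := by
    refine Prod.ext ?_ rfl
    rw [(hq.2.fst _ hk.mv).2, h1]
  show q.2.symm (q.1 (χ.symm k.1), ph Φ χ a q k.1 k.2) = _
  rw [← h2, q.2.left_inv hk.mv]

theorem ph_id (hT : Triv p d f a N r Φ) (hχ : At χ a) (Ba : Fib p d f a) {q : PC p d X Y}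
    {e : Chart d Ba.F} (hq : IsPC f q) (hs : Sl a Ba.j q e) {z : Cm d} (hz : z ∈ e.target) :
    ph Φ χ a q (χ a) z = z := by
  rw [ph, mv_eq Ba hq hs (k := (χ a, z)) hz]
  show (q.2 (Φ (χ.symm (χ a)) (Ba.j (e.symm z)))).2 = z
  rw [χ.left_inv hχ.2, hT.h3 _ (fj Ba _), ← hs.val _ (e.map_target hz), e.right_inv hz]

section
variable [IsManifold 𝓘(ℂ, Cm p) ω Y]

theorem tr_hol (hχ : At χ a) {χ' : Chart p Y} (hχ' : At χ' a) (z : Cm d) :
    ContDiffAt ℂ ω (fun k : Cm p × Cm d => (χ' (χ.symm k.1), k.2)) (χ a, z) := by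
  have h1 : ContMDiffAt 𝓘(ℂ, Cm p) 𝓘(ℂ, Cm p) ω χ.symm (χ a) :=
    contMDiffAt_symm_of_mem_maximalAtlas (IsManifold.subset_maximalAtlas hχ.1) (χ.map_source hχ.2)
  have h2 : ContMDiffAt 𝓘(ℂ, Cm p) 𝓘(ℂ, Cm p) ω χ' (χ.symm (χ a)) := by
    rw [χ.left_inv hχ.2]
    exact contMDiffAt_of_mem_maximalAtlas (IsManifold.subset_maximalAtlas hχ'.1) hχ'.2
  have h3 : ContDiffAt ℂ ω (fun s => χ' (χ.symm s)) (χ a) :=
    contMDiffAt_iff_contDiffAt.1 (h2.comp (χ a) h1)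
  exact (ContDiffAt.comp (g := fun s => χ' (χ.symm s)) (χ a, z) h3 contDiffAt_fst).prodMk
    contDiffAt_snd

theorem bm_hol (hχ : At χ a) (Ba : Fib p d f a) {q : PC p d X Y}
    {e : Chart d Ba.F} (hq : IsPC f q) (hs : Sl a Ba.j q e) {x : Ba.F} (hx : x ∈ e.source) :
    ContMDiffAt 𝓘(ℂ, Cm p × Cm d) 𝓘(ℂ, Cm (p + d)) ω (bm χ q) (χ a, e x) ∧
      bm χ q (χ a, e x) = Ba.j x := by
  obtain ⟨h1, h2⟩ := q_j Ba hq hs hx
  have h3 : ContMDiffAt 𝓘(ℂ, Cm p × Cm d) 𝓘(ℂ, Cm (p + d)) ω q.2.symm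
      (q.1 (χ.symm (χ a)), e x) := by
    rw [χ.left_inv hχ.2, ← h2]
    exact hq.2.symm_hol.contMDiffAt (q.2.open_target.mem_nhds (q.2.map_source h1))
  refine ⟨ContMDiffAt.comp (g := q.2.symm) (χ a, e x) h3
    (tr_hol hχ ⟨hq.1, hs.mem⟩ (e x)).contMDiffAt, ?_⟩
  show q.2.symm (q.1 (χ.symm (χ a)), e x) = _
  rw [χ.left_inv hχ.2, j_eq Ba hq hs hx]

theorem th_hol (hχ : At χ a) (Ba : Fib p d f a) {q q' : PC p d X Y}
    {e : Chart d Ba.F} (hq : IsPC f q) (hs : Sl a Ba.j q e) {x : Ba.F} (hx : x ∈ e.source)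
    (hq' : IsPC f q') (hx' : Ba.j x ∈ q'.2.source) :
    AnalyticAt ℂ (fun k => (q'.2 (bm χ q k)).2) (χ a, e x) := by
  obtain ⟨h1, h2⟩ := bm_hol hχ Ba hq hs hx
  have h3 : ContMDiffAt 𝓘(ℂ, Cm (p + d)) 𝓘(ℂ, Cm p × Cm d) ω q'.2 (bm χ q (χ a, e x)) := by
    rw [h2]
    exact hq'.2.hol.contMDiffAt (q'.2.open_source.mem_nhds hx')
  have h4 : ContDiffAt ℂ ω (fun k => q'.2 (bm χ q k)) (χ a, e x) :=
    contMDiffAt_iff_contDiffAt.1 (h3.comp (χ a, e x) h1)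
  exact h4.snd.analyticAt

end

theorem c_mv (hT : Triv p d f a N r Φ) (hχ : At χ a) (Ba : Fib p d f a) {q : PC p d X Y}
    {e : Chart d Ba.F} (hq : IsPC f q) (hs : Sl a Ba.j q e) {x : Ba.F} (hx : x ∈ e.source)
    {c : Chart (p + d) X} (hc : At c (Ba.j x)) :
    ContDiffAt ℝ ∞ (fun k => c (mv Φ χ a q k)) (χ a, e x) := by
  have h := hT.ps a hT.mem (Ba.j x) (fj Ba x) q χ c hq (q_j Ba hq hs hx).1 hχ
    (by rw [hT.h3 _ (fj Ba x)]; exact hc)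
  rw [← hs.val x hx] at h
  exact h

section
variable [IsManifold 𝓘(ℂ, Cm (p + d)) ω X]

theorem ph_sm (hT : Triv p d f a N r Φ) (hχ : At χ a) (Ba : Fib p d f a) {q : PC p d X Y}
    {e : Chart d Ba.F} (hq : IsPC f q) (hs : Sl a Ba.j q e) {x : Ba.F} (hx : x ∈ e.source) :
    ContDiffAt ℝ ∞ (fun k : Cm p × Cm d => ph Φ χ a q k.1 k.2) (χ a, e x) := by
  obtain ⟨c, hc⟩ : ∃ c : Chart (p + d) X, At c (Ba.j x) :=
    ⟨chartAt _ (Ba.j x), chart_mem_atlas _ _, mem_chart_source _ _⟩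
  have h0 := tend_mv hT hχ Ba hq hs hx
  have h1 := c_mv hT hχ Ba hq hs hx hc
  have h2 : mv Φ χ a q (χ a, e x) = Ba.j x := by
    rw [mv_eq Ba hq hs (k := (χ a, e x)) (e.map_source hx)]
    show Φ (χ.symm (χ a)) (Ba.j (e.symm (e x))) = _
    rw [χ.left_inv hχ.2, e.left_inv hx, hT.h3 _ (fj Ba x)]
  have h3 : ContMDiffAt 𝓘(ℂ, Cm (p + d)) 𝓘(ℂ, Cm (p + d)) ω c.symm (c (Ba.j x)) :=
    contMDiffAt_symm_of_mem_maximalAtlas (IsManifold.subset_maximalAtlas hc.1) (c.map_source hc.2)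
  have h4 : ContMDiffAt 𝓘(ℂ, Cm (p + d)) 𝓘(ℂ, Cm p × Cm d) ω q.2 (c.symm (c (Ba.j x))) := by
    rw [c.left_inv hc.2]
    exact hq.2.hol.contMDiffAt (q.2.open_source.mem_nhds (q_j Ba hq hs hx).1)
  have h5 : ContDiffAt ℂ ω (fun y => q.2 (c.symm y)) (c (Ba.j x)) :=
    contMDiffAt_iff_contDiffAt.1 (h4.comp _ h3)
  have h6 : ContDiffAt ℝ ∞ (fun y => (q.2 (c.symm y)).2) (c (mv Φ χ a q (χ a, e x))) := by
    rw [h2]
    exact (h5.snd.restrict_scalars ℝ).of_le le_top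
  refine (h6.comp (χ a, e x) h1).congr_of_eventuallyEq ?_
  filter_upwards [h0.eventually (c.open_source.mem_nhds hc.2)] with k hk
  show (q.2 (mv Φ χ a q k)).2 = (q.2 (c.symm (c (mv Φ χ a q k)))).2
  rw [c.left_inv hk]

theorem unit (k1 : K1b) (hT : Triv p d f a N r Φ) (hχ : At χ a) (Ba : Fib p d f a)
    {q : PC p d X Y} {e : Chart d Ba.F} (hq : IsPC f q) (hs : Sl a Ba.j q e) {x : Ba.F}
    (hx : x ∈ e.source) :
    ∀ᶠ k : Cm p × Cm d in 𝓝 (χ a, e x), IsUnit (jc (ph Φ χ a q k.1) k.2).det := by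
  have h1 := ph_sm hT hχ Ba hq hs hx
  have h2 : ContDiffAt ℝ ∞ (Function.uncurry fun (k : Cm p × Cm d) (y : Cm d) =>
      ph Φ χ a q k.1 y) ((χ a, e x), e x) :=
    ContDiffAt.comp (g := fun k : Cm p × Cm d => ph Φ χ a q k.1 k.2)
      (f := fun k : (Cm p × Cm d) × Cm d => (k.1.1, k.2)) ((χ a, e x), e x) h1 (by fun_prop)
  have h3 : ContDiffAt ℝ 0 (fun k : Cm p × Cm d => fderiv ℝ (ph Φ χ a q k.1) k.2) (χ a, e x) :=
    ContDiffAt.fderiv (g := Prod.snd) h2 contDiffAt_snd (by simp)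
  have h4 : ContinuousAt (fun k : Cm p × Cm d => (fderiv ℝ (ph Φ χ a q k.1) k.2).det)
      (χ a, e x) := ContinuousLinearMap.continuous_det.continuousAt.comp h3.continuousAt
  have h5 : (fderiv ℝ (ph Φ χ a q (χ a)) (e x)).det ≠ 0 := by
    have h6 : ph Φ χ a q (χ a) =ᶠ[𝓝 (e x)] id := by
      filter_upwards [e.open_target.mem_nhds (e.map_source hx)] with z hz
      exact ph_id hT hχ Ba hq hs hz
    rw [h6.fderiv_eq, fderiv_id]
    show LinearMap.det (LinearMap.id : Cm d →ₗ[ℝ] Cm d) ≠ 0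
    rw [LinearMap.det_id]
    exact one_ne_zero
  have h7 := (h1.of_le (m := 1) (by simp)).eventually (by simp)
  filter_upwards [h4.eventually_ne h5, h7] with k hk hk'
  have h8 : DifferentiableAt ℝ (ph Φ χ a q k.1) k.2 :=
    DifferentiableAt.comp (g := fun k : Cm p × Cm d => ph Φ χ a q k.1 k.2)
      (f := fun y : Cm d => (k.1, y)) k.2 (hk'.differentiableAt one_ne_zero) (by fun_prop)
  rw [k1.jc_det h8, isUnit_iff_ne_zero]
  exact Complex.ofReal_ne_zero.2 hk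

end

/-- the pull-back in the slice charts -/
theorem pb_eq (k1 : K1b) (Ba : Fib p d f a) {q : PC p d X Y} {e : Chart d Ba.F}
    (he : e ∈ atlas (Cm d) Ba.F) (hq : IsPC f q) (hs : Sl a Ba.j q e) {k : Cm p × Cm d}
    (hk : ∀ᶠ k' in 𝓝 k, Gd Φ χ a N q e.target k') (B : Fib p d f (χ.symm k.1)) {φ : Ba.F → B.F}
    (hφ : ∀ m, B.j (φ m) = Φ (χ.symm k.1) (Ba.j m)) {e' : Chart d B.F}
    (he' : e' ∈ atlas (Cm d) B.F) (hs' : Sl (χ.symm k.1) B.j q e') :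
    ∃ y, At e' y ∧ e' y = ph Φ χ a q k.1 k.2 ∧ B.j y = mv Φ χ a q k ∧
      ∀ T : SF d B.F → SF d Ba.F, IsPb φ T → ∀ u,
        vl (T u) e k.2 = lam (jc (ph Φ χ a q k.1) k.2) *ᵥ vl u e' (e' y) := by
  have key : ∀ z, Gd Φ χ a N q e.target (k.1, z) → B.j (φ (e.symm z)) = mv Φ χ a q (k.1, z) ∧
      φ (e.symm z) ∈ e'.source ∧ e' (φ (e.symm z)) = ph Φ χ a q k.1 z := by
    intro z hz
    have h1 : B.j (φ (e.symm z)) = mv Φ χ a q (k.1, z) := by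
      rw [hφ, mv_eq Ba hq hs hz.zt]
    have h2 : φ (e.symm z) ∈ e'.source := by
      rw [hs'.src]
      show B.j (φ (e.symm z)) ∈ q.2.source
      rw [h1]
      exact hz.mv
    exact ⟨h1, h2, by rw [hs'.val _ h2, h1, ph]⟩
  have h0 : Gd Φ χ a N q e.target k := hk.self_of_nhds
  obtain ⟨h1, h2, h3⟩ := key k.2 h0
  refine ⟨φ (e.symm k.2), ⟨he', h2⟩, h3, h1, fun T hT u => ?_⟩
  have h4 := hT u e e' (e.symm k.2) ⟨he, e.map_target h0.zt⟩ ⟨he', h2⟩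
  rw [e.right_inv h0.zt] at h4
  have h5 : (fun z => e' (φ (e.symm z))) =ᶠ[𝓝 k.2] ph Φ χ a q k.1 := by
    have h6 : Tendsto (fun z : Cm d => (k.1, z)) (𝓝 k.2) (𝓝 k) :=
      (continuous_const.prodMk continuous_id).tendsto k.2
    filter_upwards [h6.eventually hk] with z hz
    exact (key z hz).2.2
  rw [h4, k1.jc_congr h5]
  rfl

theorem conj_op {M M' : Type} [TopologicalSpace M] [ChartedSpace (Cm d) M] [TopologicalSpace M']
    [ChartedSpace (Cm d) M'] (T : SF d M' ≃ₗ[ℂ] SF d M) {e : Chart d M} {e' : Chart d M'}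
    {z : Cm d} {y : M'} (hy : At e' y) {J : Matrix (Fin (d + d)) (Fin (d + d)) ℂ}
    (hJ : IsUnit J.det) (hT : ∀ u, vl (T u) e z = lam J *ᵥ vl u e' (e' y))
    {F : Rw d M' (Fm d)} {A : Module.End ℂ (SF d M')} (hA : IsOp F A) (u : SF d M) :
    vl (T.conj A u) e z = (lam J * F e' (e' y) * lam J⁻¹) *ᵥ vl u e z := by
  have h1 : T.conj A u = T (A (T.symm u)) := rfl
  have h2 := hT (T.symm u)
  rw [T.apply_symm_apply] at h2
  rw [h1, hT, hA _ e' y hy, h2, Matrix.mulVec_mulVec, Matrix.mulVec_mulVec,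
    Matrix.mul_assoc _ _ (lam J), lam_inv_mul hJ, Matrix.mul_one]

theorem dz_sm {E : Type} [NormedAddCommGroup E] [NormedSpace ℝ E] {G : E → Cm d → ℂ}
    {g : E → Cm d} {k : E} (hG : ContDiffAt ℝ ∞ (Function.uncurry G) (k, g k))
    (hg : ContDiffAt ℝ ∞ g k) (i : Fin d) :
    ContDiffAt ℝ ∞ (fun k' => dz i (G k') (g k')) k := by
  have h1 : ContDiffAt ℝ ∞ (fun k' => fderiv ℝ (G k') (g k')) k :=
    ContDiffAt.fderiv hG hg (by simp)
  have h2 : ∀ v : Cm d, ContDiffAt ℝ ∞ (fun k' => fderiv ℝ (G k') (g k') v) k := fun v =>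
    h1.clm_apply contDiffAt_const
  exact ((h2 _).sub (contDiffAt_const.mul (h2 _))).div_const 2

end Mdp

open Mdp

variable (p d : ℕ) (X Y : Type) [TopologicalSpace X] [ChartedSpace (Cm (p + d)) X]
  [TopologicalSpace Y] [ChartedSpace (Cm p) Y] [T2Space X] [CompactSpace X]
  [IsManifold 𝓘(ℂ, Cm (p + d)) ω X] [T2Space Y] [IsManifold 𝓘(ℂ, Cm p) ω Y]

/-- row MDL -/
theorem mdl (k1 : K1b) : MDL p d X Y := by
  intro w f U a N r Φ n Ba Xa B P φ T χ K hF hNU hT hφ hP hχ hc hK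
  obtain ⟨x0, hx0⟩ := hF.onto a (hNU hT.mem)
  obtain ⟨m0, -⟩ : x0 ∈ Set.range Ba.j := by
    rw [Ba.rng]
    exact hx0
  obtain ⟨q0, -⟩ := Ba.ch1 _ (chart_mem_atlas _ m0)
  have : Nonempty (PC p d X Y) := ⟨q0⟩
  choose! q hq hs using Ba.ch1
  have hW : ∀ (q : PC p d X Y) (s : Cm p), ∃ W : Cm d → Matrix (Fin d) (Fin d) ℂ,
      ∀ h : χ.symm s ∈ N, IsPC f q → χ.symm s ∈ q.1.source →
        ∃ e ∈ atlas (Cm d) (B ⟨_, h⟩).F, Sl (χ.symm s) (B ⟨_, h⟩).j q e ∧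
          W = (P ⟨_, h⟩).wF e := by
    intro q s
    by_cases H : ∃ _ : χ.symm s ∈ N, IsPC f q ∧ χ.symm s ∈ q.1.source
    · obtain ⟨h, h1, h2⟩ := H
      obtain ⟨e, he, hs⟩ := (B ⟨_, h⟩).ch2 q h1 h2
      exact ⟨(P ⟨_, h⟩).wF e, fun _ _ _ => ⟨e, he, hs, rfl⟩⟩
    · exact ⟨0, fun h h1 h2 => (H ⟨h, h1, h2⟩).elim⟩
  choose W hW using hW
  have loc : ∀ e x, At e x → ∀ᶠ k in 𝓝 ((χ a, e x) : Cm p × Cm d),
      ∃ (h : Gd Φ χ a N (q e) e.target k) (e' : Chart d (B ⟨_, h.mN⟩).F) (y : (B ⟨_, h.mN⟩).F),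
        Sl (χ.symm k.1) (B ⟨_, h.mN⟩).j (q e) e' ∧ At e' y ∧
        W (q e) k.1 = (P ⟨_, h.mN⟩).wF e' ∧ e' y = ph Φ χ a (q e) k.1 k.2 ∧
        (B ⟨_, h.mN⟩).j y = mv Φ χ a (q e) k ∧ ∀ u, vl (T ⟨_, h.mN⟩ u) e k.2 =
          lam (jc (ph Φ χ a (q e) k.1) k.2) *ᵥ vl u e' (e' y) := by
    intro e x hx
    filter_upwards [(gd hT hχ Ba (hq e hx.1) (hs e hx.1) hx.2).eventually_nhds] with k hk
    have h0 := hk.self_of_nhds
    obtain ⟨e', he', hs', hw⟩ := hW (q e) k.1 h0.mN (hq e hx.1) h0.sr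
    obtain ⟨y, h1, h2, h3, h4⟩ := pb_eq k1 Ba hx.1 (hq e hx.1) (hs e hx.1) hk (B ⟨_, h0.mN⟩)
      (hφ ⟨_, h0.mN⟩) he' hs'
    exact ⟨h0, e', y, hs', h1, hw, h2, h3, h4 _ (hP ⟨_, h0.mN⟩)⟩
  refine ⟨fun e => ph Φ χ a (q e), fun e s z => W (q e) s (ph Φ χ a (q e) s z),
    ⟨fun e x hx => ph_sm hT hχ Ba (hq e hx.1) (hs e hx.1) hx.2,
      fun e x hx => ph_id hT hχ Ba (hq e hx.1) (hs e hx.1) (e.map_source hx.2),
      fun e e' x hx hx' => ?_, fun e x hx i j => ?_, fun e x hx => ?_, hc, fun e x hx => ?_⟩,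
    fun V σ u hV haV hσ hu e x hx => ?_⟩
  · refine ⟨fun k => ((q e').2 (bm χ (q e) k)).2, th_hol hχ Ba (hq e hx.1) (hs e hx.1) hx.2
      (hq e' hx'.1) (q_j Ba (hq e' hx'.1) (hs e' hx'.1) hx'.2).1, ?_⟩
    have h1 : Tendsto (fun k : Cm p × Cm d => e.symm k.2) (𝓝 (χ a, e x)) (𝓝 x) := by
      have h2 := (e.continuousAt_symm (e.map_source hx.2)).tendsto
      rw [e.left_inv hx.2] at h2
      exact h2.comp (continuous_snd.tendsto (χ a, e x))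
    filter_upwards [gd hT hχ Ba (hq e hx.1) (hs e hx.1) hx.2,
      h1.eventually (e'.open_source.mem_nhds hx'.2)] with k hk hk'
    rw [q_mv hT Ba (hq e hx.1) (hs e hx.1) hk, mv_eq Ba (hq e hx.1) (hs e hx.1) hk.zt, ph,
      mv_eq Ba (hq e' hx'.1) (hs e' hx'.1) (k := (k.1, e' (e.symm k.2))) (e'.map_source hk'),
      e'.left_inv hk']
  · obtain ⟨c, hc'⟩ : ∃ c : Chart (p + d) X, At c (Ba.j x) :=
      ⟨chartAt _ (Ba.j x), chart_mem_atlas _ _, mem_chart_source _ _⟩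
    have h0 := tend_mv hT hχ Ba (hq e hx.1) (hs e hx.1) hx.2
    have h1 := c_mv hT hχ Ba (hq e hx.1) (hs e hx.1) hx.2 hc'
    have h2 := ph_sm hT hχ Ba (hq e hx.1) (hs e hx.1) hx.2
    have h3 := ph_id hT hχ Ba (hq e hx.1) (hs e hx.1) (e.map_source hx.2)
    obtain ⟨h4, h5⟩ := bm_hol hχ Ba (hq e hx.1) (hs e hx.1) hx.2
    have h6 : ContMDiffAt 𝓘(ℂ, Cm (p + d)) 𝓘(ℂ, Cm (p + d)) ω c (bm χ (q e) (χ a, e x)) := by
      rw [h5]
      exact contMDiffAt_of_mem_maximalAtlas (IsManifold.subset_maximalAtlas hc'.1) hc'.2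
    have h7 : ContDiffAt ℝ ∞ (fun k => c (bm χ (q e) k)) (χ a, e x) :=
      ((contMDiffAt_iff_contDiffAt.1 (h6.comp _ h4)).restrict_scalars ℝ).of_le le_top
    have h8 : ∀ b i, ContDiffAt ℝ ∞ (fun k : Cm p × Cm d =>
        dz i (fun z => c (bm χ (q e) (k.1, z)) b) (ph Φ χ a (q e) k.1 k.2)) (χ a, e x) := by
      intro b i
      refine dz_sm (G := fun (k : Cm p × Cm d) z => c (bm χ (q e) (k.1, z)) b) ?_ h2 i
      show ContDiffAt ℝ ∞ _ ((χ a, e x), ph Φ χ a (q e) (χ a) (e x))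
      rw [h3]
      exact ContDiffAt.comp (g := fun k : Cm p × Cm d => c (bm χ (q e) k) b)
        (f := fun k : (Cm p × Cm d) × Cm d => (k.1.1, k.2)) ((χ a, e x), e x)
        (contDiffAt_pi.1 h7 b) (by fun_prop)
    have h9 : ∀ b b', ContDiffAt ℝ ∞ (fun k : Cm p × Cm d => w c (c (mv Φ χ a (q e) k)) b b')
        (χ a, e x) := by
      intro b b'
      refine ContDiffAt.comp (g := fun z => w c z b b') (χ a, e x) ?_ h1
      rw [tendsto_nhds_unique h1.continuousAt.tendsto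
        ((c.continuousAt hc'.2).tendsto.comp h0)]
      exact hF.kah.smooth c _ hc' b b'
    have h10 : ContDiffAt ℝ ∞ (fun k : Cm p × Cm d => ∑ b', (∑ b,
        dz i (fun z => c (bm χ (q e) (k.1, z)) b) (ph Φ χ a (q e) k.1 k.2) *
          w c (c (mv Φ χ a (q e) k)) b b') * (starRingEnd ℂ)
        (dz j (fun z => c (bm χ (q e) (k.1, z)) b') (ph Φ χ a (q e) k.1 k.2))) (χ a, e x) :=
      ContDiffAt.sum fun b' _ => (ContDiffAt.sum fun b _ => (h8 b i).mul (h9 b b')).mul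
        (Complex.conjCLE.contDiff.contDiffAt.comp _ (h8 b' j))
    refine h10.congr_of_eventuallyEq ?_
    filter_upwards [loc e x hx, h0.eventually (c.open_source.mem_nhds hc'.2)] with k hk hk'
    obtain ⟨h, e', y, k2, k3, k4, k5, k6, -⟩ := hk
    have k7 : ∀ b i, dz i (fun z => c ((B ⟨_, h.mN⟩).j (e'.symm z)) b) (e' y) =
        dz i (fun z => c (bm χ (q e) (k.1, z)) b) (e' y) := by
      intro b i
      refine dz_congr i ?_
      filter_upwards [e'.open_target.mem_nhds (e'.map_source k3.2)] with z hz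
      rw [← j_symm (B ⟨_, h.mN⟩) (hq e hx.1) k2 hz]
      rfl
    rw [k4, ← k5, (P ⟨_, h.mN⟩).res e' c y k3 ⟨hc'.1, by rw [k6]; exact hk'⟩, k6]
    simp only [Matrix.mul_apply, Matrix.transpose_apply, Matrix.map_apply, Matrix.of_apply, k7]
  · obtain ⟨h, e', y, -, k3, k4, k5, -, -⟩ := (loc e x hx).self_of_nhds
    show (W (q e) (χ a) (ph Φ χ a (q e) (χ a) (e x))).PosDef
    rw [k4, ← k5]
    exact (P ⟨_, h.mN⟩).kah.posDef e' y k3
  · filter_upwards [loc e x hx, unit k1 hT hχ Ba (hq e hx.1) (hs e hx.1) hx.2] with k hk hJ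
    obtain ⟨h, e', y, -, k3, k4, k5, -, k7⟩ := hk
    rw [hK k.1 h.mN h.tg, k4, ← k5]
    exact ⟨((P ⟨_, h.mN⟩).kah.posDef e' y k3).isHermitian, fun u =>
      ⟨fun m => conj_op _ k3 hJ k7 ((P ⟨_, h.mN⟩).rk.pr m) u,
        conj_op _ k3 hJ k7 (P ⟨_, h.mN⟩).rk.L u, conj_op _ k3 hJ k7 (P ⟨_, h.mN⟩).rk.Lm u⟩⟩
  · obtain ⟨h1, h2⟩ := q_j Ba (hq e hx.1) (hs e hx.1) hx.2
    have h3 : AnalyticAt ℂ (σ (q e)) ((q e).1 (χ.symm (χ a)), e x) := by
      rw [χ.left_inv hχ.2, ← h2]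
      exact hσ.hol (q e) _ (hq e hx.1) h1 (by rw [fj Ba]; exact haV)
    refine ⟨fun k => σ (q e) ((q e).1 (χ.symm k.1), k.2), AnalyticAt.comp (g := σ (q e))
      (f := fun k : Cm p × Cm d => ((q e).1 (χ.symm k.1), k.2)) h3
      (tr_hol hχ ⟨(hq e hx.1).1, (hs e hx.1).mem⟩ (e x)).analyticAt, ?_⟩
    filter_upwards [loc e x hx, (tend_base hχ (e x)).eventually (hV.mem_nhds haV)] with k hk hk'
    obtain ⟨h, e', y, k2, k3, -, k5, -, k7⟩ := hk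
    obtain ⟨u', hu1, hu2⟩ := hu k.1 h.mN h.tg hk'
    rw [hu2, k7, hu1 (q e) e' y (hq e hx.1) k3 k2, k5]
    rfl

end Vale.Agent.P281Z.Hg
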