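import Vale.Agent.P281Z.Hg.S4

/-!
# P281, Hodge block: assembly on one compact Kähler manifold
-/

open scoped Manifold ContDiff Topology
open Filter
open Vale.Agent.P272.K

noncomputable section

namespace Vale.Agent.P281Z.Hg

/-- the Kähler identities from the algebraic axioms -/
def KIall : Prop := ∀ (S : Type) [AddCommGroup S] [Module ℂ S] (D : ℕ) (X : Cx S D) (K : KP X),
  X.OK → K.Alg → K.KIa ∧ K.KIb

theorem one_of (d : ℕ) (M : Type) [MetricSpace M] [ChartedSpace (Cm d) M] [CompactSpace M]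
    [IsManifold 𝓘(ℂ, Cm d) ω M] (hI : KIall) (hA : ABall) (g2 : G2 d M) (g3 : G3 d M)
    (g4 : G4 d M) (g5 : G5 d M) (g6 : G6 d M) (g7 : G7 d M) (po : POG d M) (ul : ULCG M)
    (v2 : VT2) (v3 : VT3) (zs : ZS) (lt : LT) : ONE d M := by
  intro w hw
  obtain ⟨⟨X, hX, hok⟩, -, -⟩ := g2
  obtain ⟨⟨K, hK⟩, halg⟩ := g3 X w hX hok hw
  obtain ⟨-, -, hl2⟩ := g4 X w K hX hw hK
  have hal := halg K hK hl2
  obtain ⟨ha, hb⟩ := hI _ _ X K hok hal
  obtain ⟨⟨E, hE⟩, hEo⟩ := g7 X K hX hok hl2 hb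
  have heo : E.OK := hEo E hE (po X K E hX hl2 hb hE)
  have hs1 : K.S1 := by
    intro u hu hd
    have h := zs _ _ X M E heo u
    rw [hE.nrm] at h
    exact h hu hd
  have hKo : K.OK := ⟨hok, hal, g5 X w K hX hok hw hK hal ha hb, hs1, g6 X w K hX hK hl2 hb⟩
  refine ⟨X, K, E, hX, hK, hKo, hE, heo, hl2, fun m => ?_⟩
  refine lt _ _ X M E m heo ?_ (v3 M m (v2 M ul m))
  intro z hz
  rw [hE.nrm]
  exact (hA _ _ X K hKo).2.2.1.nc z hz

end Vale.Agent.P281Z.Hg
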