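import Vale.Agent.P281Z.Hg.Po1a
import Vale.Agent.P284Y.Lib.Par

/-!
# P281, Hodge block, row PO1: the homotopy formula for the averaged cone operator
-/

open scoped ContDiff Topology Matrix
open Filter MeasureTheory Set
open Vale.Agent.P272.K Vale.Agent.P299.IX Vale.Agent.P299.IX.Fock Vale.Agent.P284Y.Lib

noncomputable section

namespace Vale.Agent.P281Z.Hg

namespace Po1

variable {d : ℕ}

theorem int_eq (f : ℝ → Fo d) :
    ∫ s in (0 : ℝ)..1, f s = ∫ s, f s ∂(volume.restrict (Ioc (0 : ℝ) 1)) :=
  intervalIntegral.integral_of_le zero_le_one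

theorem null01 : (volume.restrict (Ioc (0 : ℝ) 1)) (Icc (0 : ℝ) 1)ᶜ = 0 := by
  rw [Measure.restrict_apply measurableSet_Icc.compl]
  refine measure_mono_null (t := ∅) ?_ measure_empty
  rintro s ⟨h1, h2⟩
  exact h1 (Ioc_subset_Icc_self h2)

/-- `dT` under an integral -/
theorem dT_int {S : Type} [NormedAddCommGroup S] [NormedSpace ℝ S] [MeasurableSpace S]
    [BorelSpace S] [SecondCountableTopology S] (ν : Measure S) [IsFiniteMeasure ν] {K : Set S}
    (hK : IsCompact K) (hν : ν Kᶜ = 0) {f : S → Cm d → Fo d}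
    (hf : ContDiff ℝ ∞ (Function.uncurry f)) (z : Cm d) :
    dT (fun y => ∫ s, f s y ∂ν) z = ∫ s, dT (f s) z ∂ν ∧ Continuous fun s => dT (f s) z := by
  obtain ⟨L, hL⟩ := exL d
  have hc : Continuous fun s => fderiv ℝ (f s) z :=
    (contDiff_fderiv_snd hf).continuous.comp (continuous_id.prodMk continuous_const)
  have h1 : (fun s => dT (f s) z) = fun s => L (fderiv ℝ (f s) z) := by
    funext s
    have h2 : ContDiff ℝ ∞ (f s) := hf.comp (contDiff_const.prodMk contDiff_id)
    exact hL _ _ _ (h2.differentiable (by norm_num) z).hasFDerivAt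
  rw [hL _ _ _ (hasFDerivAt_integral_param ν hK hν hf z), h1,
    L.integral_comp_comm (integrable_param ν hK hν hc)]
  exact ⟨rfl, L.continuous.comp hc⟩

theorem dT_cd {u : Cm d → Fo d} (hu : ContDiff ℝ ∞ u) : ContDiff ℝ ∞ (dT u) := by
  obtain ⟨L, hL⟩ := exL d
  have h1 : dT u = fun z => L (fderiv ℝ u z) :=
    funext fun z => hL _ _ _ (hu.differentiable (by norm_num) z).hasFDerivAt
  rw [h1]
  exact L.contDiff.comp (hu.fderiv_right (by norm_num))

/-- the cone operator with vertex `y` -/
def cn (u : Cm d → Fo d) (y z : Cm d) : Fo d := ∫ s in (0 : ℝ)..1, ig u y z s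

theorem cn_cd {u : Cm d → Fo d} (hu : ContDiff ℝ ∞ u) {E : Type} [NormedAddCommGroup E]
    [NormedSpace ℝ E] [FiniteDimensional ℝ E] {y z : E → Cm d} (hy : ContDiff ℝ ∞ y)
    (hz : ContDiff ℝ ∞ z) : ContDiff ℝ ∞ fun q => cn u (y q) (z q) := by
  simp only [cn, int_eq]
  exact contDiff_integral_param _ isCompact_Icc null01
    (f := fun (s : ℝ) (q : E) => ig u (y q) (z q) s)
    (ig_cd hu (y := fun q : ℝ × E => y q.2) (z := fun q : ℝ × E => z q.2) (s := fun q => q.1)
      (hy.comp contDiff_snd) (hz.comp contDiff_snd) contDiff_fst)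

theorem ig_cont {u : Cm d → Fo d} (hu : Continuous u) (y z : Cm d) :
    Continuous fun s => ig u y z s :=
  (ig_cd (contDiff_zero.2 hu) (y := fun _ : ℝ => y) (z := fun _ => z) (s := fun s => s)
    contDiff_const contDiff_const contDiff_id).continuous

theorem cn_cont {u : Cm d → Fo d} (hu : Continuous u) (z : Cm d) :
    Continuous fun y => cn u y z :=
  intervalIntegral.continuous_parametric_intervalIntegral_of_continuous'
    (f := fun y s => ig u y z s) (ig_cd (contDiff_zero.2 hu) (y := fun q : Cm d × ℝ => q.1)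
      (z := fun _ => z) (s := fun q => q.2) contDiff_fst contDiff_const contDiff_snd).continuous 0 1

theorem cn_hom (hK : K1a) {u : Cm d → Fo d} (hu : ContDiff ℝ ∞ u) (y z : Cm d) :
    dT (cn u y) z + cn (dT u) y z = u z - u y ∅ • ev ∅ := by
  have h1 := dT_int (volume.restrict (Ioc (0 : ℝ) 1)) isCompact_Icc null01
    (f := fun s z' => ig u y z' s) (ig_cd hu (y := fun _ : ℝ × Cm d => y) (z := fun q => q.2)
      (s := fun q => q.1) contDiff_const contDiff_snd contDiff_fst) z
  have h2 : cn u y = fun z' => ∫ s, ig u y z' s ∂(volume.restrict (Ioc (0 : ℝ) 1)) :=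
    funext fun z' => int_eq _
  rw [h2, h1.1, ← int_eq, cn, ← intervalIntegral.integral_add (h1.2.intervalIntegrable _ _)
    ((ig_cont (dT_cd hu).continuous y z).intervalIntegrable _ _), ← ftc hu y z]
  exact intervalIntegral.integral_congr fun s _ => cartan hK (hu.differentiable (by norm_num)) y z s

theorem smul_int {β : Cm d → ℝ} (hβ : Continuous β) (hc : HasCompactSupport β) {V : Type}
    [NormedAddCommGroup V] [NormedSpace ℝ V] {f : Cm d → V} (hf : Continuous f) :
    Integrable fun y => β y • f y :=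
  (hβ.smul hf).integrable_of_hasCompactSupport hc.smul_right

theorem res_int {β : Cm d → ℝ} {V : Type} [NormedAddCommGroup V] [NormedSpace ℝ V]
    (f : Cm d → V) : ∫ y, β y • f y = ∫ y, β y • f y ∂(volume.restrict (tsupport β)) := by
  refine (setIntegral_eq_integral_of_forall_compl_eq_zero fun y hy => ?_).symm
  rw [image_eq_zero_of_notMem_tsupport hy, zero_smul]

theorem part1 (hK : K1a) {β : Cm d → ℝ} (hβ : ContDiff ℝ ∞ β) (hc : HasCompactSupport β)
    (h1 : ∫ y, β y = 1) {u : Cm d → Fo d} (hu : ContDiff ℝ ∞ u) :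
    ContDiff ℝ ∞ (cone β u) ∧ ∀ z,
      dT (cone β u) z + cone β (dT u) z = u z - (∫ y, (β y : ℂ) * u y ∅) • ev ∅ := by
  have : IsFiniteMeasure (volume.restrict (tsupport β)) :=
    isFiniteMeasure_restrict.2 hc.isCompact.measure_lt_top.ne
  have hν : (volume.restrict (tsupport β)) (tsupport β)ᶜ = 0 := by
    rw [Measure.restrict_apply (isClosed_tsupport β).measurableSet.compl, compl_inter_self,
      measure_empty]
  have hf : ContDiff ℝ ∞ (Function.uncurry fun y z => β y • cn u y z) :=
    (hβ.comp contDiff_fst).smul (cn_cd hu (y := fun q : Cm d × Cm d => q.1) (z := fun q => q.2)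
      contDiff_fst contDiff_snd)
  have h2 : cone β u = fun z => ∫ y, β y • cn u y z ∂(volume.restrict (tsupport β)) :=
    funext fun z => res_int _
  refine ⟨h2 ▸ contDiff_integral_param _ hc.isCompact hν hf, fun z => ?_⟩
  have h3 := dT_int (volume.restrict (tsupport β)) hc.isCompact hν hf z
  have h4 : ∀ y, dT (fun z' => β y • cn u y z') z = β y • dT (cn u y) z := by
    intro y
    have e1 : ContDiff ℝ ∞ (cn u y) :=
      cn_cd hu (y := fun _ : Cm d => y) (z := fun q => q) contDiff_const contDiff_id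
    have e2 := hK.smul (β y : ℂ) (e1.differentiable (by norm_num) z)
    simpa only [Complex.coe_smul] using e2
  have h5 : ∀ y, dT (cn u y) z = u z - u y ∅ • ev ∅ - cn (dT u) y z := fun y =>
    eq_sub_of_add_eq (cn_hom hK hu y z)
  have hc0 : Continuous fun y => u y ∅ := (continuous_apply ∅).comp hu.continuous
  have hc1 : Continuous fun y => cn (dT u) y z := cn_cont (dT_cd hu).continuous z
  have hc2 : Continuous fun y => u y ∅ • (ev ∅ : Fo d) := hc0.smul continuous_const
  have h6 : ∫ y, β y • u y ∅ • (ev ∅ : Fo d) = (∫ y, (β y : ℂ) * u y ∅) • ev ∅ := by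
    rw [← integral_smul_const]
    simp only [mul_smul, Complex.coe_smul]
  rw [h2, h3.1]
  simp only [h4, h5]
  rw [← res_int]
  simp only [smul_sub]
  have h7 : Integrable fun y => β y • u z - β y • u y ∅ • (ev ∅ : Fo d) :=
    (smul_int hβ.continuous hc continuous_const).sub (smul_int hβ.continuous hc hc2)
  rw [integral_sub h7 (smul_int hβ.continuous hc hc1),
    integral_sub (smul_int hβ.continuous hc continuous_const) (smul_int hβ.continuous hc hc2),
    integral_smul_const, h1, one_smul, h6]
  exact sub_add_cancel _ _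

theorem part2 {β : Cm d → ℝ} (hβ : Continuous β) (hc : HasCompactSupport β)
    {u v : Cm d → Fo d} (c : ℂ) (hu : Continuous u) (hv : Continuous v) (z : Cm d) :
    cone β (fun y => u y + c • v y) z = cone β u z + c • cone β v z := by
  have h1 : ∀ y, cn (fun y => u y + c • v y) y z = cn u y z + c • cn v y z := by
    intro y
    have e : Continuous fun s => c • ig v y z s := (ig_cont hv y z).const_smul c
    rw [cn, cn, cn, ← intervalIntegral.integral_smul, ← intervalIntegral.integral_add
      ((ig_cont hu y z).intervalIntegrable _ _) (e.intervalIntegrable _ _)]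
    refine intervalIntegral.integral_congr fun s _ => ?_
    simp only [ig, Matrix.mulVec_add, Matrix.mulVec_smul]
  show ∫ y, β y • cn (fun y => u y + c • v y) y z =
    (∫ y, β y • cn u y z) + c • ∫ y, β y • cn v y z
  have e : Integrable fun y => c • β y • cn v y z := (smul_int hβ hc (cn_cont hv z)).smul c
  rw [← integral_smul, ← integral_add (smul_int hβ hc (cn_cont hu z)) e]
  refine integral_congr_ae (Eventually.of_forall fun y => ?_)
  simp only [h1, smul_add, smul_comm (β y) c]

theorem part3 {β : Cm d → ℝ} (hβ : Continuous β) (hc : HasCompactSupport β)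
    {u : Cm d → Fo d} (j : ℕ) (hu : Continuous u) (z : Cm d) :
    dg j *ᵥ cone β u z = cone β (fun y => dg (j + 1) *ᵥ u y) z := by
  have h0 : ∀ ξ : Fin (d + d) → ℂ, dg j * iotV ξ = iotV ξ * dg (j + 1) := by
    intro ξ
    simp only [iotV, Finset.mul_sum, Finset.sum_mul, Matrix.mul_smul, Matrix.smul_mul, dg_iot]
  have h1 : ∀ y, mv (dg j) (cn u y z) = cn (fun y => dg (j + 1) *ᵥ u y) y z := by
    intro y
    rw [cn, cn, ← (mv (dg j)).intervalIntegral_comp_comm ((ig_cont hu y z).intervalIntegrable _ _)]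
    refine intervalIntegral.integral_congr fun s _ => ?_
    simp only [mv_apply, ig]
    rw [Matrix.mulVec_mulVec _ (iotV _) (dg _), ← h0, ← Matrix.mulVec_mulVec]
    funext I
    simp only [dgl_mulVec, dg_mulVec]
    split_ifs
    · rfl
    · rw [mul_zero]
  show mv (dg j) (∫ y, β y • cn u y z) = ∫ y, β y • cn (fun y => dg (j + 1) *ᵥ u y) y z
  rw [← (mv (dg j)).integral_comp_comm (smul_int hβ hc (cn_cont hu z))]
  simp only [map_smul, h1]

theorem part4 {β : Cm d → ℝ} {u v : Cm d → Fo d} {B : Set (Cm d)} (hB : Convex ℝ B)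
    (hs : tsupport β ⊆ B) (h : ∀ y ∈ B, u y = v y) {z : Cm d} (hz : z ∈ B) :
    cone β u z = cone β v z := by
  rw [cone_eq, cone_eq]
  refine integral_congr_ae (Eventually.of_forall fun y => ?_)
  by_cases hy : y ∈ tsupport β
  · have e : ∫ s in (0 : ℝ)..1, ig u y z s = ∫ s in (0 : ℝ)..1, ig v y z s := by
      refine intervalIntegral.integral_congr fun s hs' => ?_
      rw [uIcc_of_le zero_le_one] at hs'
      simp only [ig]
      rw [h _ (hB.add_smul_sub_mem (hs hy) hz hs')]
    simp only [e]
  · simp only [image_eq_zero_of_notMem_tsupport hy, zero_smul]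

end Po1

/-- row PO1 from row K1a -/
theorem po1' (hK : K1a) : PO1 := fun _ _ hβ hc h1 =>
  ⟨fun _ hu => Po1.part1 hK hβ hc h1 hu, fun _ _ c hu hv z => Po1.part2 hβ.continuous hc c hu hv z,
    fun _ j hu z => Po1.part3 hβ.continuous hc j hu z,
    fun _ _ _ hB hs h _ hz => Po1.part4 hB hs h hz⟩

/-- row PO1 -/
theorem po1 (_hF : F1a) (hK : K1a) (_hK' : K1b) : PO1 := po1' hK

end Vale.Agent.P281Z.Hg
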