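import Vale.Agent.P281Z.Hg.Po1a
import Mathlib.MeasureTheory.Integral.MeanInequalities

/-!
# P281, Hodge block: the `L²` bound of the cone operator
-/

open scoped Topology Matrix ENNReal
open Filter MeasureTheory Set Metric
open Vale.Agent.P272.K Vale.Agent.P299.IX Vale.Agent.P299.IX.Fock

noncomputable section

namespace Vale.Agent.P281Z.Hg

set_option linter.unusedSectionVars false

namespace Po2

theorem cs {α : Type} [MeasurableSpace α] (ν : Measure α) {f : α → ℝ≥0∞} (hf : Measurable f) :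
    (∫⁻ a, f a ∂ν) ^ 2 ≤ ν univ * ∫⁻ a, f a ^ 2 ∂ν := by
  have h := ENNReal.lintegral_mul_le_Lp_mul_Lq ν Real.HolderConjugate.two_two
    (f := fun _ => 1) (g := f) aemeasurable_const hf.aemeasurable
  simp only [Pi.mul_apply, one_mul, ENNReal.one_rpow, lintegral_one] at h
  refine (pow_le_pow_left' h 2).trans_eq ?_
  rw [mul_pow, ← ENNReal.rpow_natCast, ← ENNReal.rpow_natCast, ← ENNReal.rpow_mul,
    ← ENNReal.rpow_mul]
  simp

variable {E : Type} [NormedAddCommGroup E] [NormedSpace ℝ E] [FiniteDimensional ℝ E]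
  [MeasurableSpace E] [BorelSpace E] (μ : Measure E) [μ.IsAddHaarMeasure] {B : Set E}
  {G : E → ℝ≥0∞}

theorem hom (hB : Convex ℝ B) (hm : MeasurableSet B) (hG : Measurable G) {t : ℝ} (h1 : 2⁻¹ ≤ t)
    (h2 : t ≤ 1) {p : E} (hp : p ∈ B) : ∫⁻ z in B, G (p + t • (z - p)) ∂μ ≤
      ENNReal.ofReal (2 ^ Module.finrank ℝ E) * ∫⁻ z in B, G z ∂μ := by
  have t0 : 0 < t := lt_of_lt_of_le (by norm_num) h1
  have hF : Measurable fun z => B.indicator G (p + z) := (hG.indicator hm).comp (by fun_prop)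
  calc ∫⁻ z in B, G (p + t • (z - p)) ∂μ ≤ ∫⁻ z, B.indicator G (p + t • (z - p)) ∂μ := by
        refine (setLIntegral_mono' hm fun z hz => ?_).trans (setLIntegral_le_lintegral _ _)
        rw [indicator_of_mem (hB.add_smul_sub_mem hp hz ⟨t0.le, h2⟩)]
    _ = ∫⁻ z, B.indicator G (p + t • z) ∂μ :=
        lintegral_sub_right_eq_self (fun z => B.indicator G (p + t • z)) p
    _ = ENNReal.ofReal |(t ^ Module.finrank ℝ E)⁻¹| * ∫⁻ z in B, G z ∂μ := by
        rw [← lintegral_map hF (measurable_const_smul t), Measure.map_addHaar_smul μ t0.ne',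
          lintegral_smul_measure, lintegral_add_left_eq_self, lintegral_indicator hm, smul_eq_mul]
    _ ≤ _ := by
        gcongr
        rw [abs_of_pos (by positivity), ← inv_pow]
        gcongr
        exact inv_le_of_inv_le₀ two_pos h1

theorem triple (hB : Convex ℝ B) (hm : MeasurableSet B) (hG : Measurable G) :
    ∫⁻ z in B, ∫⁻ y in B, ∫⁻ s in Ioc (0 : ℝ) 1, G (y + s • (z - y)) ∂volume ∂μ ∂μ ≤
      μ B * (ENNReal.ofReal (2 ^ Module.finrank ℝ E) * ∫⁻ z in B, G z ∂μ) := by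
  have m3 : Measurable fun q : (E × ℝ) × E => G (q.2 + q.1.2 • (q.1.1 - q.2)) :=
    hG.comp (by fun_prop)
  have e1 : ∀ z, ∫⁻ y in B, ∫⁻ s in Ioc (0 : ℝ) 1, G (y + s • (z - y)) ∂volume ∂μ =
      ∫⁻ s in Ioc (0 : ℝ) 1, ∫⁻ y in B, G (y + s • (z - y)) ∂μ := fun z =>
    lintegral_lintegral_swap (Measurable.aemeasurable (hG.comp (by fun_prop)))
  simp_rw [e1]
  rw [lintegral_lintegral_swap (Measurable.aemeasurable m3.lintegral_prod_right')]
  refine (setLIntegral_mono' measurableSet_Ioc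
    (g := fun _ => μ B * (ENNReal.ofReal (2 ^ Module.finrank ℝ E) * ∫⁻ z in B, G z ∂μ))
    fun s hs => ?_).trans (by simp)
  rcases le_total 2⁻¹ s with h | h
  · have m4 : Measurable fun q : E × E => G (q.2 + s • (q.1 - q.2)) := hG.comp (by fun_prop)
    rw [lintegral_lintegral_swap (f := fun z y => G (y + s • (z - y))) m4.aemeasurable]
    exact (setLIntegral_mono' hm fun y hy => hom μ hB hm hG h hs.2 hy).trans (by simp [mul_comm])
  · have e2 : ∀ z y : E, y + s • (z - y) = z + (1 - s) • (y - z) := fun z y => by module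
    simp_rw [e2]
    exact (setLIntegral_mono' hm fun z hz => hom μ hB hm hG (by linarith) (by linarith [hs.1])
      hz).trans (by simp [mul_comm])

theorem avg {V : Type} [NormedAddCommGroup V] [NormedSpace ℝ V] (hm : MeasurableSet B) {f : E → V}
    {g : E → ℝ≥0∞} (h0 : ∀ y ∉ B, f y = 0) (h1 : ∀ y ∈ B, ‖f y‖ₑ ≤ g y) (hg : Measurable g) :
    ‖∫ y, f y ∂μ‖ₑ ^ 2 ≤ μ B * ∫⁻ y in B, g y ^ 2 ∂μ := by
  rw [← setIntegral_eq_integral_of_forall_compl_eq_zero h0]
  refine (pow_le_pow_left' ((enorm_integral_le_lintegral_enorm _).trans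
    (setLIntegral_mono' hm h1)) 2).trans ((cs _ hg).trans_eq ?_)
  rw [Measure.restrict_apply_univ]

theorem fin (hB : IsCompact B) {g : E → ℝ} (hg : Continuous g) (g0 : ∀ z, 0 ≤ g z) {c : ℝ≥0∞}
    (hc : c ≠ ∞) {x : ℝ} (h : ‖x‖ₑ ≤ c * ∫⁻ z in B, ‖g z‖ₑ ∂μ) :
    x ≤ c.toReal * ∫ z in B, g z ∂μ := by
  have hi := hg.continuousOn.integrableOn_compact (μ := μ) hB
  have h1 := ENNReal.toReal_mono (ENNReal.mul_ne_top hc hi.2.ne) h
  rw [toReal_enorm, ENNReal.toReal_mul, ← integral_norm_eq_lintegral_enorm hi.1] at h1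
  simp only [Real.norm_of_nonneg (g0 _)] at h1
  exact (le_abs_self x).trans h1

variable {d : ℕ}

theorem ig_le {s : ℝ} (hs : s ∈ Ioc (0 : ℝ) 1) (v : Cm d) (a : Fo d) :
    ‖dgl (fun m => (s : ℂ) ^ m) *ᵥ (iotV (cx v) *ᵥ a)‖ ≤ ‖Po1.bl d‖ * ‖v‖ * ‖a‖ := by
  refine le_trans ?_ ((Po1.bl d).le_opNorm₂ v a)
  rw [Po1.bl_apply]
  refine (pi_norm_le_iff_of_nonneg (norm_nonneg _)).2 fun I => ?_
  rw [dgl_mulVec, norm_mul, norm_pow, Complex.norm_real, Real.norm_of_nonneg hs.1.le]
  exact (mul_le_of_le_one_left (norm_nonneg _) (pow_le_one₀ hs.1.le hs.2)).trans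
    (norm_le_pi_norm _ I)

end Po2

open Po2 in
theorem po2 : PO2 := by
  intro d β z0 R hβ hs
  set B := closedBall z0 R with hB
  have cB : IsCompact B := isCompact_closedBall _ _
  have mB : MeasurableSet B := cB.measurableSet
  have vB : volume B ≠ ∞ := cB.measure_ne_top
  obtain ⟨M, hM⟩ := cB.exists_bound_of_continuousOn hβ.continuousOn
  have b0 : ∀ y ∉ B, β y = 0 := fun y hy => image_eq_zero_of_notMem_tsupport fun k => hy (hs k)
  have b1 : ∀ y ∈ B, ‖β y‖ₑ ≤ ENNReal.ofReal M := fun y hy => by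
    rw [← ofReal_norm]
    exact ENNReal.ofReal_le_ofReal (hM y hy)
  set c := ENNReal.ofReal M * ENNReal.ofReal (‖Po1.bl d‖ * (R + R)) with hc
  set c1 := volume B * (c ^ 2 * (volume B * ENNReal.ofReal (2 ^ Module.finrank ℝ (Cm d))))
  set c2 := volume B * ENNReal.ofReal M ^ 2
  have f1 : c1 ≠ ∞ := by finiteness
  have f2 : c2 ≠ ∞ := by finiteness
  refine ⟨(c1 + c2).toReal, ENNReal.toReal_nonneg, fun u hu => ?_⟩
  have mu : Measurable fun z => ‖u z‖ₑ := hu.measurable.enorm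
  have e2 : ∀ {V : Type} [NormedAddCommGroup V] (x : V), ‖‖x‖ ^ 2‖ₑ = ‖x‖ₑ ^ 2 := fun x => by
    rw [enorm_pow, enorm_norm]
  constructor
  · refine fin volume cB (g := fun z => ‖u z‖ ^ 2) (hu.norm.pow 2) (fun _ => sq_nonneg _)
      (by finiteness) ((enorm_integral_le_lintegral_enorm _).trans ?_)
    simp_rw [e2]
    have k1 : ∀ z ∈ B, ‖cone β u z‖ₑ ^ 2 ≤ volume B * c ^ 2 *
        ∫⁻ y in B, ∫⁻ s in Ioc (0 : ℝ) 1, ‖u (y + s • (z - y))‖ₑ ^ 2 := fun z hz => by
      have m2 : Measurable fun q : Cm d × ℝ => ‖u (q.1 + q.2 • (z - q.1))‖ₑ :=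
        mu.comp (by fun_prop)
      refine (avg volume mB (g := fun y => c * ∫⁻ s in Ioc (0 : ℝ) 1, ‖u (y + s • (z - y))‖ₑ)
        (fun y hy => by rw [b0 y hy, zero_smul]) (fun y hy => ?_)
        (m2.lintegral_prod_right'.const_mul c)).trans ?_
      · rw [enorm_smul, hc, mul_assoc, intervalIntegral.integral_of_le zero_le_one,
          ← lintegral_const_mul' _ _ ENNReal.ofReal_ne_top]
        refine mul_le_mul' (b1 y hy) ((enorm_integral_le_lintegral_enorm _).trans
          (setLIntegral_mono' measurableSet_Ioc fun s hs => ?_))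
        have k2 : ‖z - y‖ ≤ R + R := by
          rw [← dist_eq_norm]
          exact (dist_triangle_right z y z0).trans (add_le_add hz hy)
        have k3 : 0 ≤ ‖Po1.bl d‖ := (Po1.bl d).opNorm_nonneg
        rw [← ofReal_norm, ← ofReal_norm, ← ENNReal.ofReal_mul
          (mul_nonneg k3 ((norm_nonneg _).trans k2))]
        exact ENNReal.ofReal_le_ofReal ((ig_le hs _ _).trans (mul_le_mul_of_nonneg_right
          (mul_le_mul_of_nonneg_left k2 k3) (norm_nonneg _)))
      · rw [mul_assoc, ← lintegral_const_mul' (c ^ 2) _ (by finiteness)]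
        refine mul_le_mul' le_rfl (lintegral_mono fun y => ?_)
        rw [mul_pow]
        exact mul_le_mul' le_rfl ((cs _ (mu.comp (by fun_prop))).trans (by simp))
    refine (setLIntegral_mono' mB k1).trans ?_
    rw [lintegral_const_mul' _ _ (by finiteness)]
    refine (mul_le_mul' le_rfl (triple volume (convex_closedBall _ _) mB
      (mu.pow_const 2))).trans (le_trans (le_of_eq ?_) (mul_le_mul' le_self_add le_rfl))
    simp only [c1, mul_assoc, hB]
  · refine fin volume cB (g := fun z => ‖u z‖ ^ 2) (hu.norm.pow 2) (fun _ => sq_nonneg _)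
      (by finiteness) ?_
    simp_rw [e2]
    refine (avg volume mB (g := fun y => ENNReal.ofReal M * ‖u y‖ₑ)
      (fun y hy => by simp [b0 y hy]) (fun y hy => ?_) (mu.const_mul _)).trans ?_
    · rw [enorm_mul]
      refine mul_le_mul' (le_trans (le_of_eq ?_) (b1 y hy)) ?_
      · rw [← ofReal_norm, ← ofReal_norm, Complex.norm_real]
      · rw [← ofReal_norm, ← ofReal_norm]
        exact ENNReal.ofReal_le_ofReal (norm_le_pi_norm _ _)
    · simp_rw [mul_pow]
      rw [lintegral_const_mul' _ _ (by finiteness), ← mul_assoc]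
      exact mul_le_mul' le_add_self le_rfl

end Vale.Agent.P281Z.Hg
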