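import Vale.Agent.P281Z.Hg.S4
import Mathlib.Analysis.Calculus.BumpFunction.Normed
import Mathlib.Analysis.Calculus.BumpFunction.FiniteDimension

/-!
# P281, Hodge block, row PO3: bounded homotopy operators on a compact manifold
-/

open scoped Manifold ContDiff Topology Matrix
open Filter MeasureTheory Set Metric
open Vale.Agent.P272.K Vale.Agent.P299.IX Vale.Agent.P299.IX.Fock

noncomputable section

namespace Vale.Agent.P281Z.Hg

namespace Po3

theorem mkLin {V W : Type} [AddCommGroup V] [Module ℂ V] [AddCommGroup W] [Module ℂ W]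
    (f : V → W) (h : ∀ u v (c : ℂ), f (u + c • v) = f u + c • f v) :
    ∃ T : V →ₗ[ℂ] W, ∀ u, T u = f u := by
  have h0 : f 0 = 0 := by
    have h1 := h 0 0 1
    rw [one_smul, one_smul, add_zero] at h1
    exact left_eq_add.1 h1
  refine ⟨⟨⟨f, fun u v => ?_⟩, fun c v => ?_⟩, fun _ => rfl⟩
  · have h1 := h u v 1
    rwa [one_smul, one_smul] at h1
  · have h1 := h 0 v c
    rwa [zero_add, h0, zero_add] at h1

theorem le_sqrt {a b C : ℝ} (hb : 0 ≤ b) (hC : 0 ≤ C) (h : a ^ 2 ≤ C * b ^ 2) :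
    a ≤ Real.sqrt C * b := by
  refine (Real.le_sqrt_of_sq_le h).trans_eq ?_
  rw [Real.sqrt_mul hC, Real.sqrt_sq hb]

variable {d : ℕ} {M : Type} [MetricSpace M] [ChartedSpace (Cm d) M] [CompactSpace M]
  [IsManifold 𝓘(ℂ, Cm d) ω M]

omit [CompactSpace M] [IsManifold 𝓘(ℂ, Cm d) ω M] in
theorem at_tg {e : Chart d M} (he : e ∈ atlas (Cm d) M) {z : Cm d} (hz : z ∈ e.target) :
    At e (e.symm z) := ⟨he, e.map_target hz⟩

theorem uniq (g1 : G1 d M) {e : Chart d M} (he : e ∈ atlas (Cm d) M) {K : Set M}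
    (hK : K ⊆ e.source) {v v' : SF d M} (h : ∀ z ∈ e.target, vl v e z = vl v' e z)
    (h1 : ∀ x, x ∉ K → v ∈ ZP x) (h2 : ∀ x, x ∉ K → v' ∈ ZP x) : v = v' := by
  refine g1.ext v v' fun x => ?_
  by_cases hx : x ∈ K
  · exact ⟨e, ⟨he, hK hx⟩, h _ (e.map_source (hK hx))⟩
  · have ha : At (chartAt (Cm d) x) x := ⟨chart_mem_atlas _ x, mem_chart_source _ x⟩
    exact ⟨_, ha, (h1 x hx _ ha).trans (h2 x hx _ ha).symm⟩

/-- the form `u` in the chart `e`, cut off -/
def cut {z0 : Cm d} (χ : ContDiffBump z0) (e : Chart d M) (u : SF d M) (z : Cm d) : Fo d :=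
  (χ z : ℂ) • vl u e z

omit [CompactSpace M] [IsManifold 𝓘(ℂ, Cm d) ω M] in
theorem cut_cd {z0 : Cm d} (χ : ContDiffBump z0) {e : Chart d M} (he : e ∈ atlas (Cm d) M)
    (hs : closedBall z0 χ.rOut ⊆ e.target) (u : SF d M) : ContDiff ℝ ∞ (cut χ e u) := by
  refine contDiff_iff_contDiffAt.2 fun z => ?_
  by_cases hz : z ∈ closedBall z0 χ.rOut
  · have h1 := (vl_isF u).sm e _ (at_tg he (hs hz))
    rw [e.right_inv (hs hz)] at h1
    exact (Complex.ofRealCLM.contDiff.comp χ.contDiff).contDiffAt.smul h1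
  · refine (contDiffAt_const (c := (0 : Fo d))).congr_of_eventuallyEq ?_
    filter_upwards [isClosed_closedBall.isOpen_compl.mem_nhds hz] with y hy
    rw [cut, χ.zero_of_le_dist (le_of_lt (not_le.1 hy)), Complex.ofReal_zero, zero_smul]

omit [CompactSpace M] [IsManifold 𝓘(ℂ, Cm d) ω M] in
theorem cut_eq {z0 : Cm d} (χ : ContDiffBump z0) (e : Chart d M) (u : SF d M) {z : Cm d}
    (hz : z ∈ closedBall z0 χ.rIn) : cut χ e u z = vl u e z := by
  rw [cut, χ.one_of_mem_closedBall hz, Complex.ofReal_one, one_smul]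

omit [CompactSpace M] [IsManifold 𝓘(ℂ, Cm d) ω M] in
theorem cut_lin {z0 : Cm d} (χ : ContDiffBump z0) (e : Chart d M) (u v : SF d M) (c : ℂ) :
    cut χ e (u + c • v) = fun z => cut χ e u z + c • cut χ e v z := by
  funext z
  rw [cut, cut, cut, vl_add, vl_smul, smul_add, smul_comm]

omit [CompactSpace M] [IsManifold 𝓘(ℂ, Cm d) ω M] in
theorem cut_op {z0 : Cm d} (χ : ContDiffBump z0) {e : Chart d M} (he : e ∈ atlas (Cm d) M)
    {A : Fm d} {T : SF d M → SF d M} (hT : IsOp (fun _ _ => A) T) (u : SF d M) :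
    cut χ e (T u) = fun z => A *ᵥ cut χ e u z := by
  funext z
  by_cases hz : z ∈ e.target
  · have h1 := hT u e _ (at_tg he hz)
    rw [e.right_inv hz] at h1
    rw [cut, cut, h1, Matrix.mulVec_smul]
  · rw [cut, cut, (vl_isF u).off e z fun h => hz h.2, (vl_isF (T u)).off e z fun h => hz h.2,
      smul_zero, Matrix.mulVec_zero]

/-- the local homotopy operator -/
theorem local_op (hk : K1a) (p1 : PO1) (p2 : PO2) (g1 : G1 d M) {X : Cx (SF d M) d}
    (hX : RealX X) {nrm : SF d M → ℝ} (hl : IsL2 nrm) (hn : ∀ u, 0 ≤ nrm u) {one : SF d M}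
    (ho : IsOne one) (x0 : M) {r : ℝ} (hr : 0 < r) :
    ∃ (U : Set M) (P : Module.End ℂ (SF d M)) (μ : SF d M →ₗ[ℂ] ℂ) (C : ℝ), IsOpen U ∧ x0 ∈ U ∧
      U ⊆ ball x0 r ∧ 0 ≤ C ∧ (∀ u, (∀ y, dist x0 y < r → u ∈ ZP y) → P u = 0 ∧ μ u = 0) ∧
      (∀ u, ∀ y ∈ U, X.d (P u) + P (X.d u) - u + μ u • one ∈ ZP y) ∧
      (∀ j, X.dg j * P = P * X.dg (j + 1)) ∧ (∀ u, μ (X.dg 0 u) = μ u) ∧
      (∀ u, nrm (P u) ≤ C * nrm u) ∧ ∀ u, ‖μ u‖ ≤ C * nrm u := by
  obtain ⟨e, he, hx0⟩ : ∃ e : Chart d M, At e x0 :=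
    ⟨_, chart_mem_atlas _ x0, mem_chart_source _ x0⟩
  have hnb : e.target ∩ e.symm ⁻¹' ball x0 r ∈ 𝓝 (e x0) := by
    refine inter_mem (e.open_target.mem_nhds (e.map_source hx0)) ?_
    refine (e.continuousAt_symm (e.map_source hx0)).preimage_mem_nhds ?_
    rw [e.left_inv hx0]
    exact ball_mem_nhds x0 hr
  obtain ⟨R4, hR4, hsub⟩ := Metric.mem_nhds_iff.1 hnb
  obtain ⟨R, hR, rfl⟩ : ∃ R : ℝ, 0 < R ∧ R4 = 4 * R := ⟨R4 / 4, by positivity, by ring⟩
  have h3 : closedBall (e x0) (3 * R) ⊆ e.target ∩ e.symm ⁻¹' ball x0 r :=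
    (closedBall_subset_ball (by linarith)).trans hsub
  have h23 : closedBall (e x0) (2 * R) ⊆ closedBall (e x0) (3 * R) :=
    closedBall_subset_closedBall (by linarith)
  have h2t : closedBall (e x0) (2 * R) ⊆ e.target := fun z hz => (h3 (h23 hz)).1
  let b : ContDiffBump (e x0) := ⟨R / 2, R, by positivity, by linarith⟩
  let χ : ContDiffBump (e x0) := ⟨R, 2 * R, hR, by linarith⟩
  let χ' : ContDiffBump (e x0) := ⟨2 * R, 3 * R, by positivity, by linarith⟩
  have hβ : ContDiff ℝ ∞ (b.normed volume) := b.contDiff_normed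
  have hβs : tsupport (b.normed volume) = closedBall (e x0) R := b.tsupport_normed_eq
  obtain ⟨q1, q2, q3, q4⟩ := p1 d _ hβ b.hasCompactSupport_normed b.integral_normed
  have hcd : ∀ u, ContDiff ℝ ∞ (cut χ' e u) := cut_cd χ' he fun z hz => (h3 hz).1
  have hK : IsCompact (e.symm '' closedBall (e x0) (2 * R)) :=
    (isCompact_closedBall _ _).image_of_continuousOn (e.continuousOn_symm.mono h2t)
  have hKs : e.symm '' closedBall (e x0) (2 * R) ⊆ e.source := by
    rintro _ ⟨z, hz, rfl⟩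
    exact e.map_target (h2t hz)
  have hKe : e '' (e.symm '' closedBall (e x0) (2 * R)) = closedBall (e x0) (2 * R) :=
    e.image_symm_image_of_subset_target h2t
  have hcc : ∀ u, ContDiff ℝ ∞ fun z => (χ z : ℂ) • cone (b.normed volume) (cut χ' e u) z :=
    fun u => (Complex.ofRealCLM.contDiff.comp χ.contDiff).smul (q1 _ (hcd u)).1
  choose f hf1 hf2 using fun u : SF d M => g1.loc e _
    (fun z => (χ z : ℂ) • cone (b.normed volume) (cut χ' e u) z) he hK hKs (hcc u).contDiffOn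
    fun z _ hz => by
      rw [hKe] at hz
      rw [χ.zero_of_le_dist (le_of_lt (not_le.1 hz)), Complex.ofReal_zero, zero_smul]
  obtain ⟨P, hP⟩ := mkLin f fun u v c => by
    refine uniq g1 he hKs (fun z hz => ?_) (hf2 _) fun x hx =>
      (ZP x).add_mem (hf2 u x hx) ((ZP x).smul_mem c (hf2 v x hx))
    rw [vl_add, vl_smul, hf1 _ z hz, hf1 _ z hz, hf1 _ z hz, cut_lin,
      q2 _ _ c (hcd u).continuous (hcd v).continuous, smul_add, smul_comm]
  have hint : ∀ u, Integrable fun y => (b.normed volume y : ℂ) * cut χ' e u y ∅ := fun u =>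
    ((Complex.continuous_ofReal.comp hβ.continuous).mul ((continuous_apply ∅).comp
      (hcd u).continuous)).integrable_of_hasCompactSupport
      (b.hasCompactSupport_normed.comp_left (g := fun t : ℝ => (t : ℂ))
        Complex.ofReal_zero).mul_right
  obtain ⟨μ, hμ⟩ := mkLin (fun u => ∫ y, (b.normed volume y : ℂ) * cut χ' e u y ∅) fun u v c => by
    rw [smul_eq_mul, ← integral_const_mul, ← integral_add (hint u) ((hint v).const_mul c), cut_lin]
    refine integral_congr_ae (Eventually.of_forall fun y => ?_)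
    simp only [Pi.add_apply, Pi.smul_apply, smul_eq_mul]
    ring
  obtain ⟨C1, hC1, k1⟩ := hl.ext e he _ hK hKs
  obtain ⟨C2, hC2, k2⟩ := p2 d _ (e x0) (2 * R) hβ.continuous
    (hβs ▸ closedBall_subset_closedBall (by linarith))
  obtain ⟨C3, hC3, k3⟩ := hl.res e he _ hK hKs
  rw [hKe] at k1 k3
  have k4 : ∀ u, ∫ z in closedBall (e x0) (2 * R), ‖cut χ' e u z‖ ^ 2 ≤ C3 * nrm u ^ 2 := by
    intro u
    refine le_of_eq_of_le (setIntegral_congr_fun measurableSet_closedBall fun z hz => ?_) (k3 u)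
    simp only [cut_eq χ' e u hz]
  refine ⟨e.source ∩ e ⁻¹' ball (e x0) R, P, μ, Real.sqrt (C1 * (C2 * C3)) + Real.sqrt (C2 * C3),
    e.isOpen_inter_preimage isOpen_ball, ⟨hx0, mem_ball_self hR⟩, fun y hy => ?_, by positivity,
    fun u hu => ?_, fun u y hy => ?_, fun j => ?_, fun u => ?_, fun u => ?_, fun u => ?_⟩
  · have h1 := (hsub (ball_subset_ball (by linarith) hy.2)).2
    rwa [mem_preimage, e.left_inv hy.1] at h1
  · have h1 : cut χ' e u = cut χ' e 0 := by
      funext z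
      by_cases hz : z ∈ closedBall (e x0) (3 * R)
      · have h2 := hu _ (mem_ball'.1 (h3 hz).2) e (at_tg he (h3 hz).1)
        rw [e.right_inv (h3 hz).1] at h2
        rw [cut, cut, h2, vl_zero]
      · rw [cut, cut, χ'.zero_of_le_dist (le_of_lt (not_le.1 hz)), Complex.ofReal_zero, zero_smul,
          zero_smul]
    constructor
    · rw [← map_zero P, hP, hP]
      exact uniq g1 he hKs (fun z hz => by rw [hf1 _ z hz, hf1 _ z hz, h1]) (hf2 _) (hf2 _)
    · rw [← map_zero μ, hμ, hμ]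
      simp only [h1]
  · have ha : At e y := ⟨he, hy.1⟩
    have hb : ball (e x0) R ⊆ ball (e x0) (2 * R) := ball_subset_ball (by linarith)
    have h1 : ∀ u, ∀ z ∈ ball (e x0) R, vl (P u) e z = cone (b.normed volume) (cut χ' e u) z := by
      intro u z hz
      rw [hP, hf1 _ z (h2t (ball_subset_closedBall (hb hz))),
        χ.one_of_mem_closedBall (ball_subset_closedBall hz), Complex.ofReal_one, one_smul]
    have h2 : dT (vl (P u) e) (e y) = dT (cone (b.normed volume) (cut χ' e u)) (e y) := by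
      refine hk.congr ?_
      filter_upwards [isOpen_ball.mem_nhds hy.2] with z hz using h1 u z hz
    have h4 : cone (b.normed volume) (cut χ' e (X.d u)) (e y) =
        cone (b.normed volume) (dT (cut χ' e u)) (e y) := by
      refine q4 _ _ _ (convex_ball (e x0) (2 * R)) (hβs ▸ closedBall_subset_ball (by linarith))
        (fun z hz => ?_) _ (hb hy.2)
      have hzt := h2t (ball_subset_closedBall hz)
      have h5 := hX.d u e _ (at_tg he hzt)
      rw [e.right_inv hzt] at h5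
      rw [cut_eq χ' e _ (ball_subset_closedBall hz), h5]
      refine hk.congr ?_
      filter_upwards [isOpen_ball.mem_nhds hz] with z' hz'
      exact (cut_eq χ' e u (ball_subset_closedBall hz')).symm
    refine g1.zp _ e y ha ?_
    rw [vl_add, vl_sub, vl_add, vl_smul, hX.d _ e y ha, h2, h1 _ _ hy.2, h4, (q1 _ (hcd u)).2,
      ho e y ha, hμ, cut_eq χ' e u (ball_subset_closedBall (hb hy.2))]
    abel
  · refine LinearMap.ext fun u => ?_
    rw [Module.End.mul_apply, Module.End.mul_apply, hP, hP]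
    refine uniq g1 he hKs (fun z hz => ?_) (fun x hx e' h' => ?_) (hf2 _)
    · have h1 := hX.dg j (f u) e _ (at_tg he hz)
      rw [e.right_inv hz] at h1
      rw [h1, hf1 _ z hz, hf1 _ z hz, cut_op χ' he (hX.dg (j + 1)), Matrix.mulVec_smul,
        q3 _ j (hcd u).continuous]
    · rw [hX.dg j (f u) e' x h', hf2 u x hx e' h', Matrix.mulVec_zero]
  · rw [hμ, hμ, cut_op χ' he (hX.dg 0)]
    simp only [dg_mulVec, Finset.card_empty, if_true]
  · have h1 : ∫ z in closedBall (e x0) (2 * R), ‖vl (f u) e z‖ ^ 2 ≤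
        ∫ z in closedBall (e x0) (2 * R), ‖cone (b.normed volume) (cut χ' e u) z‖ ^ 2 := by
      rw [setIntegral_congr_fun (g := fun z =>
        ‖(χ z : ℂ) • cone (b.normed volume) (cut χ' e u) z‖ ^ 2) measurableSet_closedBall
        fun z hz => by simp only [hf1 u z (h2t hz)]]
      refine setIntegral_mono_on
        (((hcc u).continuous.norm.pow 2).continuousOn.integrableOn_compact
          (isCompact_closedBall _ _))
        (((q1 _ (hcd u)).1.continuous.norm.pow 2).continuousOn.integrableOn_compact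
          (isCompact_closedBall _ _)) measurableSet_closedBall fun z _ => ?_
      refine pow_le_pow_left₀ (norm_nonneg _) ?_ 2
      rw [norm_smul, Complex.norm_real, Real.norm_of_nonneg χ.nonneg]
      exact mul_le_of_le_one_left (norm_nonneg _) χ.le_one
    have h2 : nrm (f u) ^ 2 ≤ C1 * (C2 * C3) * nrm u ^ 2 := by
      refine (k1 _ (hf2 u)).trans ?_
      rw [mul_assoc, mul_assoc]
      exact mul_le_mul_of_nonneg_left (h1.trans ((k2 _ (hcd u).continuous).1.trans
        (mul_le_mul_of_nonneg_left (k4 u) hC2))) hC1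
    rw [hP, add_mul]
    exact (le_sqrt (hn u) (by positivity) h2).trans
      (le_add_of_nonneg_right (mul_nonneg (Real.sqrt_nonneg _) (hn u)))
  · have h2 : ‖μ u‖ ^ 2 ≤ C2 * C3 * nrm u ^ 2 := by
      rw [hμ, mul_assoc]
      exact (k2 _ (hcd u).continuous).2.trans (mul_le_mul_of_nonneg_left (k4 u) hC2)
    rw [add_mul]
    exact (le_sqrt (hn u) (by positivity) h2).trans
      (le_add_of_nonneg_left (mul_nonneg (Real.sqrt_nonneg _) (hn u)))

end Po3

/-- row PO3 -/
theorem pog' (hk : K1a) (p1 : PO1) (p2 : PO2) {d : ℕ} {M : Type} [MetricSpace M]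
    [ChartedSpace (Cm d) M] [CompactSpace M] [IsManifold 𝓘(ℂ, Cm d) ω M] (g1 : G1 d M) :
    POG d M := by
  intro X K E hX hl hb hE r hr
  choose U P μ C hU hx hUr hC h1 h2 h3 h4 h5 h6 using fun x0 : M =>
    Po3.local_op hk p1 p2 g1 hX hl hb.nn hE.one x0 (half_pos hr)
  obtain ⟨t, ht⟩ := isCompact_univ.elim_finite_subcover U hU fun x _ => mem_iUnion.2 ⟨x, hx x⟩
  obtain ⟨δ, hδ, hL⟩ := lebesgue_number_lemma_of_metric (c := fun i : t => U i) isCompact_univ
    (fun i => hU i) fun x hx => by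
      obtain ⟨i, hi, h⟩ := mem_iUnion₂.1 (ht hx)
      exact mem_iUnion.2 ⟨⟨i, hi⟩, h⟩
  choose i hi using fun x => hL x (mem_univ x)
  have hCs : ∀ x, C (i x) ≤ ∑ j ∈ t, C j := fun x =>
    Finset.single_le_sum (fun j _ => hC j) (i x).2
  refine ⟨δ, hδ, fun x => P (i x), fun x => μ (i x), ∑ j ∈ t, C j,
    Finset.sum_nonneg fun j _ => hC j, fun x u hu => h1 _ u fun y hy => ?_, fun x u y hy => ?_,
    fun x => h3 _, fun x => h4 _, fun x u => ?_, fun x u => ?_⟩
  · rw [← hE.Z]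
    have h7 := mem_ball.1 (hUr _ (hi x (mem_ball_self hδ)))
    exact hu y ((dist_triangle x _ y).trans_lt (by linarith))
  · rw [hE.Z]
    exact h2 _ u y (hi x (mem_ball'.2 hy))
  · rw [hE.nrm]
    exact (h5 _ u).trans (mul_le_mul_of_nonneg_right (hCs x) (hb.nn u))
  · rw [hE.nrm]
    exact (h6 _ u).trans (mul_le_mul_of_nonneg_right (hCs x) (hb.nn u))

/-- row PO3 -/
theorem pog (_hF : F1a) (hk : K1a) (p1 : PO1) (p2 : PO2) {d : ℕ} {M : Type} [MetricSpace M]
    [ChartedSpace (Cm d) M] [CompactSpace M] [IsManifold 𝓘(ℂ, Cm d) ω M] (g1 : G1 d M) :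
    POG d M := pog' hk p1 p2 g1

end Vale.Agent.P281Z.Hg
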