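import Vale.Agent.P281Z.Hg.S2
import Vale.Agent.P268.Hol

/-!
# P281, Hodge block, row PVS: smoothness and transversality of a family of polarised gradings
-/

open scoped ContDiff ComplexOrder Topology Matrix
open Filter Asymptotics
open Vale.Agent.P272.K Vale.Agent.P272.K.C2

noncomputable section

namespace Vale.Agent.P281Z.Hg

namespace Pvs

variable {n p : ℕ}

theorem mul_der {r g : Cm p → ℂ} {t : Cm p} (hr : DifferentiableAt ℂ r t) (h0 : r t = 0)
    (hg : ContinuousAt g t) : DifferentiableAt ℂ (fun s => r s * g s) t := by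
  have a : r =O[𝓝 t] fun s => ‖s - t‖ := by simpa only [h0, sub_zero] using hr.isBigO_sub.norm_right
  have b : (fun s => g s - g t) =o[𝓝 t] fun _ => (1 : ℝ) :=
    (isLittleO_one_iff ℝ).2 (tendsto_sub_nhds_zero_iff.2 hg)
  have c : (fun s => r s * (g s - g t)) =o[𝓝 t] fun s => s - t := by
    have := a.mul_isLittleO b
    simp only [mul_one] at this
    exact this.of_norm_right
  have d : HasFDerivAt (fun s => r s * (g s - g t)) (0 : Cm p →L[ℂ] ℂ) t :=
    HasFDerivAt.of_isLittleO (by simpa [h0] using c)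
  refine (d.differentiableAt.add (hr.mul_const (g t))).congr_of_eventuallyEq
    (Eventually.of_forall fun s => ?_)
  change r s * g s = r s * (g s - g t) + r s * g t
  ring

theorem has_der {R : Cm p → Mt n} {t : Cm p} {Dm : Fin p → Mt n} (h0 : R t = 0)
    (h : ∀ i i', (fun s => (R s - ∑ j, (s - t) j • Dm j) i i') =o[𝓝 t] fun s => s - t)
    (i i' : Fin n) : HasFDerivAt (fun s => R s i i')
      (∑ j, Dm j i i' • ContinuousLinearMap.proj (R := ℂ) (φ := fun _ : Fin p => ℂ) j) t := by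
  refine HasFDerivAt.of_isLittleO ((h i i').congr_left fun s => ?_)
  simp [h0, Matrix.sum_apply, mul_comm]

theorem dz_hol {f : Cm p → ℂ} {L : Cm p →L[ℂ] ℂ} {t : Cm p} (h : HasFDerivAt f L t) (j : Fin p) :
    dz j f t = L (Pi.single j 1) ∧ dzb j f t = 0 := by
  have e : L (Pi.single j Complex.I) = Complex.I * L (Pi.single j 1) := by
    rw [← smul_eq_mul, ← map_smul, ← Pi.single_smul', smul_eq_mul, mul_one]
  unfold dz dzb
  rw [(h.restrictScalars ℝ).fderiv]
  simp only [ContinuousLinearMap.coe_restrictScalars', e, ← mul_assoc, Complex.I_mul_I]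
  constructor <;> ring

theorem unit {A : Mt n} (h : A.det ≠ 0) : IsUnit A :=
  (Matrix.isUnit_iff_isUnit_det A).2 (isUnit_iff_ne_zero.2 h)

/-- the projector on the range of `F` along the kernel of `G` -/
theorem alg {F G : Mt n} (h : F * F = F) (h0 : G * G = G) (m : (1 - F + G).det ≠ 0)
    (m' : (1 - G + F).det ≠ 0) : F * ((1 - F + G)⁻¹ * G) = (1 - F + G)⁻¹ * G ∧
      G * ((1 - F + G)⁻¹ * G) = G ∧ (1 - F + G)⁻¹ * G * F = F := by
  have u := isUnit_iff_ne_zero.2 m
  have e3 : (1 - F + G)⁻¹ * G * F = F := by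
    have : G * F = (1 - F + G) * F := by rw [add_mul, sub_mul, one_mul, h, sub_self, zero_add]
    rw [mul_assoc, this, Matrix.nonsing_inv_mul_cancel_left _ _ u]
  have e : (1 - F + G) * ((1 - F + G)⁻¹ * G) = G := Matrix.mul_nonsing_inv_cancel_left _ _ u
  generalize (1 - F + G)⁻¹ * G = P at e e3 ⊢
  have e1 : (1 - G + F) * ((1 - F) * P) = 0 := by
    have : (1 - G + F) * (1 - F) = (1 - G) * (1 - F + G) := by
      rw [add_mul, mul_sub F, mul_one, h, sub_self, mul_add, sub_mul 1 G G, one_mul, h0, sub_self]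
    rw [← mul_assoc, this, mul_assoc, e, sub_mul, one_mul, h0, sub_self]
  have e2 := (unit m').mul_right_eq_zero.1 e1
  rw [add_mul, e2, zero_add] at e
  rw [sub_mul, one_mul, sub_eq_zero] at e2
  exact ⟨e2.symm, e, e3⟩

theorem cont_det {M : Cm p → Mt n} {t : Cm p} (h : ContinuousAt M t) :
    ContinuousAt (fun s => (M s).det) t :=
  ContinuousAt.comp (g := fun A : Mt n => A.det) continuous_id.matrix_det.continuousAt h

theorem cont_inv {M : Cm p → Mt n} {t : Cm p} (h : ContinuousAt M t) (h0 : (M t).det ≠ 0) :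
    ContinuousAt (fun s => (M s)⁻¹) t := by
  have ha : ContinuousAt (fun s => (M s).adjugate) t :=
    ContinuousAt.comp (g := fun A : Mt n => A.adjugate)
      continuous_id.matrix_adjugate.continuousAt h
  simp only [Matrix.inv_def, Ring.inverse_eq_inv']
  exact ((cont_det h).inv₀ h0).smul ha

theorem mc_const (A : Mt n) (t : Cm p) : MC ∞ (fun _ => A) t := fun _ _ => contDiffAt_const

theorem mc_congr {M N : Cm p → Mt n} {t : Cm p} (h : MC ∞ M t) (e : N =ᶠ[𝓝 t] M) : MC ∞ N t :=
  fun i j => (h i j).congr_of_eventuallyEq (e.mono fun _ hs => congrFun (congrFun hs i) j)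

/-- a continuous family of self-adjoint projectors whose range moves holomorphically is smooth -/
theorem smooth {F : Cm p → Mt n} {Q : Mt n} (hQ : Q.det ≠ 0) {O : Set (Cm p)} (hO : IsOpen O)
    (h1 : ∀ t ∈ O, F t * F t = F t) (h2 : ∀ t ∈ O, (F t)ᴴ * Q = Q * F t)
    (hc : ∀ t ∈ O, ContinuousAt F t)
    (hd : ∀ t ∈ O, ∀ i j, DifferentiableAt ℂ (fun s => ((1 - F t) * F s) i j) t) {t1 : Cm p}
    (ht : t1 ∈ O) : MC ∞ F t1 := by
  have cM : ∀ t ∈ O, ContinuousAt (fun s => 1 - F s + F t1) t := fun t h =>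
    (continuousAt_const.sub (hc t h)).add continuousAt_const
  have m1 : 1 - F t1 + F t1 = 1 := sub_add_cancel _ _
  have d1 : (1 - F t1 + F t1).det ≠ 0 := by
    rw [m1, Matrix.det_one]
    exact one_ne_zero
  obtain ⟨U, hU, oU, tU⟩ := eventually_nhds_iff.1 ((hO.eventually_mem ht).and
    (((cont_det (cM t1 ht)).eventually_ne d1).and
      ((cont_det (M := fun s => 1 - F t1 + F s)
        (continuousAt_const.add (hc t1 ht))).eventually_ne d1)))
  set P : Cm p → Mt n := fun s => (1 - F s + F t1)⁻¹ * F t1 with hP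
  have A : ∀ s ∈ U, F s * P s = P s ∧ F t1 * P s = F t1 ∧ P s * F s = F s := fun s hs =>
    alg (h1 s (hU s hs).1) (h1 t1 ht) (hU s hs).2.1 (hU s hs).2.2
  have dP : ∀ i j, ∀ t ∈ U, DifferentiableAt ℂ (fun s => P s i j) t := by
    intro i j t h
    have tO := (hU t h).1
    have cP : ContinuousAt P t := (cont_inv (cM t tO) (hU t h).2.1).mul continuousAt_const
    have e : (fun s => P s i j) =ᶠ[𝓝 t] fun s => P t i j +
        ∑ l, (∑ m, (1 - F t + F t1)⁻¹ i m * ((1 - F t) * F s) m l) * P s l j := by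
      filter_upwards [oU.mem_nhds h] with s hs
      have e1 : P s = P t + (1 - F t + F t1)⁻¹ * ((1 - F t) * F s) * P s := by
        have e2 : (1 - F t + F t1) * P s = F t1 + (1 - F t) * P s := by
          rw [add_mul, (A s hs).2.1, add_comm]
        change _ = (1 - F t + F t1)⁻¹ * F t1 + _
        rw [mul_assoc, mul_assoc, (A s hs).1, ← mul_add, ← e2,
          Matrix.nonsing_inv_mul_cancel_left _ _ (isUnit_iff_ne_zero.2 (hU t h).2.1)]
      exact congrFun (congrFun e1 i) j
    refine DifferentiableAt.congr_of_eventuallyEq (DifferentiableAt.const_add _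
      (DifferentiableAt.fun_sum fun l _ => mul_der
        (DifferentiableAt.fun_sum fun m _ => (hd t tO m l).const_mul _) ?_ ?_)) e
    · rw [sub_mul, one_mul, h1 t tO, sub_self]
      simp
    · exact (continuous_apply_apply l j).continuousAt.comp cP
  have sP : MC ∞ P t1 := fun i j =>
    ((Vale.Agent.P268.analyticAt_of_differentiableOn oU
      (fun t h => (dP i j t h).differentiableWithinAt) tU).contDiffAt.restrict_scalars ℝ)
  have sN : MC ∞ (fun s => Q * (1 - P s) + (P s)ᴴ * Q) t1 :=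
    ((mc_const Q t1).mul ((mc_const 1 t1).sub sP)).add (sP.conjTranspose.mul (mc_const Q t1))
  have dN : (Q * (1 - P t1) + (P t1)ᴴ * Q).det ≠ 0 := by
    have : P t1 = F t1 := by
      simp only [hP]
      rw [m1, inv_one, one_mul]
    rwa [this, h2 t1 ht, ← mul_add, m1, mul_one]
  refine mc_congr ((sN.inv dN).mul (sP.conjTranspose.mul (mc_const Q t1))) ?_
  filter_upwards [oU.mem_nhds tU, det_ne_zero_eventually (sN.mono (by simp)) dN] with s hs h
  have e : (P s)ᴴ * Q = (Q * (1 - P s) + (P s)ᴴ * Q) * F s := by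
    rw [add_mul, mul_assoc, sub_mul, one_mul, (A s hs).2.2, sub_self, mul_zero, zero_add,
      mul_assoc, ← h2 s (hU s hs).1, ← mul_assoc, ← Matrix.conjTranspose_mul, (A s hs).1]
  nth_rewrite 2 [e]
  rw [Matrix.nonsing_inv_mul_cancel_left _ _ (isUnit_iff_ne_zero.2 h)]

/-- the holomorphic derivative of the projector -/
theorem dm_eq {F : Cm p → Mt n} {Q : Mt n} (hQ : Q.det ≠ 0) {t : Cm p} (hF : MD F t)
    (h1 : ∀ᶠ s in 𝓝 t, F s * F s = F s) (h2 : ∀ᶠ s in 𝓝 t, (F s)ᴴ * Q = Q * F s)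
    {Dm : Fin p → Mt n} (h : ∀ i i', (fun s => ((1 - F t) * F s - ∑ j, (s - t) j • Dm j) i i')
      =o[𝓝 t] fun s => s - t) (j : Fin p) :
    DM j F t = Dm j ∧ DM j F t * F t = DM j F t := by
  have md : ∀ A : Mt n, MD (fun _ : Cm p => A) t := fun _ _ _ => differentiableAt_const _
  have hd := has_der (R := fun s => (1 - F t) * F s)
    (by rw [sub_mul, one_mul, h1.self_of_nhds, sub_self]) h
  have a : (1 - F t) * DM j F t = Dm j := by
    have := DM_mul (k := j) (md (1 - F t)) hF
    rw [DM_const, zero_mul, zero_add] at this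
    rw [← this]
    ext i i'
    rw [DM_apply, (dz_hol (hd i i') j).1]
    simp [Pi.single_apply]
  have b : (1 - F t) * DMb j F t = 0 := by
    have := DMb_mul (k := j) (md (1 - F t)) hF
    rw [DMb_const, zero_mul, zero_add] at this
    rw [← this]
    ext i i'
    exact (dz_hol (hd i i') j).2
  have c : (DMb j F t)ᴴ * Q = Q * DM j F t := by
    have e := DM_congr (k := j) h2
    have mc : MD (fun s => (F s)ᴴ) t := fun i i' => differentiableAt_conj (hF i' i)
    rwa [DM_mul mc (md Q), DM_mul (md Q) hF, DM_const, mul_zero, add_zero, zero_mul, zero_add,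
      DM_conjTranspose hF] at e
  have d : DM j F t * F t = DM j F t := by
    have e : Q * (DM j F t * (1 - F t)) = 0 := by
      have e1 : Q * (1 - F t) = (1 - F t)ᴴ * Q := by
        rw [Matrix.conjTranspose_sub, Matrix.conjTranspose_one, sub_mul, mul_sub, h2.self_of_nhds,
          one_mul, mul_one]
      rw [← mul_assoc, ← c, mul_assoc, e1, ← mul_assoc, ← Matrix.conjTranspose_mul, b,
        Matrix.conjTranspose_zero, zero_mul]
    have e2 := (unit hQ).mul_right_eq_zero.1 e
    rw [mul_sub, mul_one, sub_eq_zero] at e2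
    exact e2.symm
  have e := DM_congr (k := j) h1
  rw [DM_mul hF hF, d, add_eq_left] at e
  rw [sub_mul, one_mul, e, sub_zero] at a
  exact ⟨a, d⟩

section grading

variable {T : Type} {w : ℕ} {Q : Mt n} {Pr : ℕ → T → Mt n} {t : T}

theorem detQ (h : PG w Q Pr t) : Q.det ≠ 0 := by
  have := h.pos.det_pos.ne'
  rw [Matrix.det_mul] at this
  exact left_ne_zero_of_mul this

theorem FP (h : PG w Q Pr t) {k j : ℕ} (hk : k ≤ j) : Fp w Pr k t * Pr j t = Pr j t := by
  unfold Fp
  rw [Finset.sum_mul]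
  simp only [h.orth, Finset.sum_ite_eq', Finset.mem_Ico]
  split_ifs with hj
  · rfl
  · exact (h.zero j (by omega)).symm

theorem FF (h : PG w Q Pr t) {k l : ℕ} (hk : k ≤ l) : Fp w Pr k t * Fp w Pr l t = Fp w Pr l t := by
  nth_rewrite 2 [Fp]
  rw [Finset.mul_sum]
  exact Finset.sum_congr rfl fun j hj => FP h (hk.trans (Finset.mem_Ico.1 hj).1)

theorem Fadj (h : PG w Q Pr t) (k : ℕ) : (Fp w Pr k t)ᴴ * Q = Q * Fp w Pr k t := by
  unfold Fp
  rw [Matrix.conjTranspose_sum, Finset.sum_mul, Finset.mul_sum]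
  exact Finset.sum_congr rfl fun j _ => h.adj j

theorem Fsucc (h : PG w Q Pr t) (k : ℕ) : Fp w Pr k t = Pr k t + Fp w Pr (k + 1) t := by
  unfold Fp
  by_cases hk : k ≤ w
  · exact Finset.sum_eq_sum_Ico_succ_bot (by omega) _
  · rw [Finset.Ico_eq_empty (by omega), Finset.Ico_eq_empty (by omega), h.zero k (by omega),
      zero_add]

theorem Fzero (h : PG w Q Pr t) : Fp w Pr 0 t = 1 := by
  unfold Fp
  rw [← Finset.range_eq_Ico]
  exact h.sum

theorem PwP (h : PG w Q Pr t) (k : ℕ) :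
    Pw w Pr t * Pr k t = (k : ℂ) • Pr k t ∧ Pr k t * Pw w Pr t = (k : ℂ) • Pr k t := by
  unfold Pw
  rw [Finset.sum_mul, Finset.mul_sum]
  simp only [smul_mul_assoc, mul_smul_comm, h.orth, smul_ite, smul_zero, Finset.sum_ite_eq',
    Finset.sum_ite_eq, Finset.mem_range]
  split_ifs with hj
  · exact ⟨rfl, rfl⟩
  · rw [h.zero k (by omega), smul_zero]
    exact ⟨rfl, rfl⟩

theorem Pw_eq (w : ℕ) (Pr : ℕ → T → Mt n) (t : T) :
    Pw w Pr t = ∑ k ∈ Finset.range w, Fp w Pr (k + 1) t := by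
  unfold Pw Fp
  induction w with
  | zero => simp
  | succ w ih =>
    have e : ∑ k ∈ Finset.range (w + 1), ∑ j ∈ Finset.Ico (k + 1) (w + 1 + 1), Pr j t =
        ∑ k ∈ Finset.range (w + 1), (∑ j ∈ Finset.Ico (k + 1) (w + 1), Pr j t + Pr (w + 1) t) :=
      Finset.sum_congr rfl fun k hk =>
        Finset.sum_Ico_succ_top (Nat.succ_le_of_lt (Finset.mem_range.1 hk)) fun j => Pr j t
    rw [e, Finset.sum_range_succ, ih, Finset.sum_add_distrib, Finset.sum_const, Finset.card_range,
      Finset.sum_range_succ _ w, Finset.Ico_self, Finset.sum_empty, add_zero,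
      Nat.cast_smul_eq_nsmul]

end grading

end Pvs

open Pvs

/-- **row PVS** -/
theorem pvs : PVS := by
  intro p n w Q Pr O hO H t ht
  have G := (H t ht).1
  have ev : ∀ᶠ s in 𝓝 t, PG w Q Pr s := (hO.eventually_mem ht).mono fun s hs => (H s hs).1
  have sF : ∀ k, MC ∞ (Fp w Pr k) t := by
    rintro (_ | k)
    · exact mc_congr (mc_const 1 t) (ev.mono fun s hs => Fzero hs)
    refine smooth (detQ G) hO (fun s hs => FF (H s hs).1 le_rfl) (fun s hs => Fadj (H s hs).1 _)
      (fun s hs => tendsto_finsetSum _ fun j _ => continuousAt_pi.2 fun a =>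
        continuousAt_pi.2 fun b => (H s hs).2.cont j a b) (fun s hs i j => ?_) ht
    obtain ⟨Dm, -, h⟩ := (H s hs).2.der k
    exact (has_der (R := fun y => (1 - Fp w Pr (k + 1) s) * Fp w Pr (k + 1) y)
      (by rw [sub_mul, one_mul, FF (H s hs).1 le_rfl, sub_self]) h i j).differentiableAt
  have mF : ∀ k, MD (Fp w Pr k) t := fun k => (sF k).md (by simp)
  have dF : ∀ k j, Pr k t * DM j (Fp w Pr (k + 1)) t = DM j (Fp w Pr (k + 1)) t ∧
      DM j (Fp w Pr (k + 1)) t * Fp w Pr (k + 1) t = DM j (Fp w Pr (k + 1)) t := by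
    intro k j
    obtain ⟨Dm, h0, h⟩ := (H t ht).2.der k
    obtain ⟨a, b⟩ := dm_eq (detQ G) (mF (k + 1)) (ev.mono fun s hs => FF hs le_rfl)
      (ev.mono fun s hs => Fadj hs _) h j
    exact ⟨by rw [a, h0], b⟩
  have dP : ∀ k j, DM j (Fp w Pr (k + 1)) t * Pr (k + 1) t = DM j (Fp w Pr (k + 1)) t := by
    intro k j
    have e := DM_congr (k := j) (ev.mono fun s hs => FF hs (Nat.le_succ (k + 1)))
    have e1 : Fp w Pr (k + 1) t * DM j (Fp w Pr (k + 1 + 1)) t = DM j (Fp w Pr (k + 1 + 1)) t := by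
      rw [← (dF (k + 1) j).1, ← mul_assoc, FP G le_rfl]
    rw [DM_mul (mF _) (mF _), e1, add_eq_right] at e
    have e2 := (dF k j).2
    rwa [Fsucc G, mul_add, e, add_zero] at e2
  refine ⟨G, fun k => ?_, fun k j => by rw [(dF k j).1, dP], fun j => ?_⟩
  · exact mc_congr ((sF k).sub (sF (k + 1))) (ev.mono fun s hs => eq_sub_of_add_eq (Fsucc hs k).symm)
  · have e : DM j (Pw w Pr) t = ∑ k ∈ Finset.range w, DM j (Fp w Pr (k + 1)) t := by
      ext a b
      rw [DM_apply, Matrix.sum_apply]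
      simp only [Pw_eq, Matrix.sum_apply]
      exact dz_sum j _ fun k _ => mF (k + 1) a b
    rw [e, Finset.mul_sum, Finset.sum_mul, ← Finset.sum_sub_distrib, ← Finset.sum_neg_distrib]
    refine Finset.sum_congr rfl fun k _ => ?_
    nth_rewrite 1 [← (dF k j).1]
    nth_rewrite 2 [← dP k j]
    rw [← mul_assoc, (PwP G k).1, mul_assoc, (PwP G (k + 1)).2, smul_mul_assoc, mul_smul_comm,
      (dF k j).1, dP, ← sub_smul, Nat.cast_succ, sub_add_cancel_left, neg_one_smul]

end Vale.Agent.P281Z.Hg
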