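import Vale.Agent.P281Z.Hg.Mdl

/-!
# P281, Hodge block: the diffeomorphisms of the fibres (row TRF)
-/

open scoped Manifold ContDiff ComplexOrder Topology Matrix
open Filter
open Vale.Agent.P272.K Vale.Agent.P272.K.C2 Vale.Agent.P299.IX Vale.Agent.P299.IX.Fock

noncomputable section

namespace Vale.Agent.P281Z.Hg

namespace Mdp

variable {p d : ℕ} {X Y : Type} [TopologicalSpace X] [ChartedSpace (Cm (p + d)) X]
  [TopologicalSpace Y] [ChartedSpace (Cm p) Y] {f : X → Y}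

theorem ex_at {n : ℕ} {M : Type} [TopologicalSpace M] [ChartedSpace (Cm n) M] (x : M) :
    ∃ c : Chart n M, At c x := ⟨chartAt _ x, chart_mem_atlas _ _, mem_chart_source _ _⟩

theorem tend_symm {M E : Type} [TopologicalSpace M] [TopologicalSpace E]
    (e : OpenPartialHomeomorph M E) {x : M} (hx : x ∈ e.source) :
    Tendsto e.symm (𝓝 (e x)) (𝓝 x) := by
  have h := (e.continuousAt_symm (e.map_source hx)).tendsto
  rwa [e.left_inv hx] at h

theorem sl_mem {y : Y} (B : Fib p d f y) {q : PC p d X Y} {e : Chart d B.F} (hs : Sl y B.j q e)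
    {m : B.F} (hm : B.j m ∈ q.2.source) : m ∈ e.source := by
  rw [hs.src]
  exact hm

theorem ex_j {y : Y} (B : Fib p d f y) {x : X} (hx : f x = y) : ∃ m, B.j m = x := by
  have h : x ∈ Set.range B.j := by
    rw [B.rng]
    exact hx
  exact h

variable [IsManifold 𝓘(ℂ, Cm (p + d)) ω X]

theorem pc_c {q : PC p d X Y} (hq : IsPC f q) {x : X} (hx : x ∈ q.2.source)
    {c : Chart (p + d) X} (hc : At c x) : ContDiffAt ℂ ω (fun y => q.2 (c.symm y)) (c x) := by
  have h3 : ContMDiffAt 𝓘(ℂ, Cm (p + d)) 𝓘(ℂ, Cm (p + d)) ω c.symm (c x) :=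
    contMDiffAt_symm_of_mem_maximalAtlas (IsManifold.subset_maximalAtlas hc.1) (c.map_source hc.2)
  have h4 : ContMDiffAt 𝓘(ℂ, Cm (p + d)) 𝓘(ℂ, Cm p × Cm d) ω q.2 (c.symm (c x)) := by
    rw [c.left_inv hc.2]
    exact hq.2.hol.contMDiffAt (q.2.open_source.mem_nhds hx)
  exact contMDiffAt_iff_contDiffAt.1 (h4.comp _ h3)

theorem c_pc {q : PC p d X Y} (hq : IsPC f q) {x : X} (hx : x ∈ q.2.source)
    {c : Chart (p + d) X} (hc : At c x) : ContDiffAt ℂ ω (fun k => c (q.2.symm k)) (q.2 x) := by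
  have h3 : ContMDiffAt 𝓘(ℂ, Cm p × Cm d) 𝓘(ℂ, Cm (p + d)) ω q.2.symm (q.2 x) :=
    hq.2.symm_hol.contMDiffAt (q.2.open_target.mem_nhds (q.2.map_source hx))
  have h4 : ContMDiffAt 𝓘(ℂ, Cm (p + d)) 𝓘(ℂ, Cm (p + d)) ω c (q.2.symm (q.2 x)) := by
    rw [q.2.left_inv hx]
    exact contMDiffAt_of_mem_maximalAtlas (IsManifold.subset_maximalAtlas hc.1) hc.2
  exact contMDiffAt_iff_contDiffAt.1 (h4.comp _ h3)

/-- a map into a fibre is smooth if it is smooth as a map into the total space -/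
theorem sm_into {y : Y} (B : Fib p d f y) {E : Type} [NormedAddCommGroup E] [NormedSpace ℝ E]
    {g : E → B.F} {z : E} (hg : ContinuousAt g z) {e : Chart d B.F} (he : At e (g z))
    {c : Chart (p + d) X} (hc : At c (B.j (g z)))
    (h : ContDiffAt ℝ ∞ (fun z' => c (B.j (g z'))) z) : ContDiffAt ℝ ∞ (fun z' => e (g z')) z := by
  obtain ⟨q, hq, hs⟩ := B.ch1 e he.1
  have h1 : ContDiffAt ℝ ∞ (fun u => (q.2 (c.symm u)).2) (c (B.j (g z))) :=
    ((pc_c hq (q_j B hq hs he.2).1 hc).snd.restrict_scalars ℝ).of_le le_top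
  refine (ContDiffAt.comp (g := fun u => (q.2 (c.symm u)).2) z h1 h).congr_of_eventuallyEq ?_
  filter_upwards [hg.eventually (e.open_source.mem_nhds he.2),
    (B.emb.continuous.continuousAt.comp hg).eventually (c.open_source.mem_nhds hc.2)] with z' k1 k2
  show e (g z') = (q.2 (c.symm (c (B.j (g z'))))).2
  rw [c.left_inv (x := B.j (g z')) k2, hs.val _ k1]

/-- the inclusion of a fibre is holomorphic in the charts -/
theorem j_hol {y : Y} (B : Fib p d f y) {e : Chart d B.F} {x : B.F} (he : At e x)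
    {c : Chart (p + d) X} (hc : At c (B.j x)) :
    ContDiffAt ℂ ω (fun z => c (B.j (e.symm z))) (e x) := by
  obtain ⟨q, hq, hs⟩ := B.ch1 e he.1
  obtain ⟨h1, h2⟩ := q_j B hq hs he.2
  have h3 := c_pc hq h1 hc
  rw [h2] at h3
  refine (ContDiffAt.comp (g := fun k => c (q.2.symm k)) (f := fun z : Cm d => (q.1 y, z)) (e x)
    h3 (by fun_prop)).congr_of_eventuallyEq ?_
  filter_upwards [e.open_target.mem_nhds (e.map_source he.2)] with z hz
  show c (B.j (e.symm z)) = c (q.2.symm (q.1 y, z))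
  rw [j_symm B hq hs hz]

end Mdp

open Mdp

variable (p d : ℕ) (X Y : Type) [TopologicalSpace X] [ChartedSpace (Cm (p + d)) X]
  [TopologicalSpace Y] [ChartedSpace (Cm p) Y] [T2Space X] [CompactSpace X]
  [IsManifold 𝓘(ℂ, Cm (p + d)) ω X] [T2Space Y] [IsManifold 𝓘(ℂ, Cm p) ω Y]

/-- row TRF -/
theorem trf : TRF p d X Y := by
  intro w f U a N r Φ _ _ hT t ht Ba Bt
  have hN : ∀ x, f (Bt.j x) ∈ N := fun x => by
    rw [fj Bt]
    exact ht
  choose φ hφ using fun m : Ba.F => ex_j Bt (hT.h1 t ht _ (fj Ba m)).1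
  choose ψ hψ using fun x : Bt.F => ex_j Ba (hT.h2 _ (hN x)).1
  have c1 : Continuous φ := by
    rw [Bt.emb.continuous_iff, show Bt.j ∘ φ = fun m => Φ t (Ba.j m) from funext hφ,
      continuous_iff_continuousAt]
    intro m
    have h1 : Tendsto (fun m' : Ba.F => (t, Ba.j m')) (𝓝 m)
        (𝓝[{k : Y × X | f k.2 = a}] (t, Ba.j m)) :=
      tendsto_nhdsWithin_iff.2 ⟨(continuous_const.prodMk Ba.emb.continuous).tendsto m,
        Eventually.of_forall fun m' => fj Ba m'⟩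
    exact (hT.pc t ht _ (fj Ba m)).tendsto.comp h1
  have c2 : Continuous ψ := by
    rw [Ba.emb.continuous_iff, show Ba.j ∘ ψ = fun x => r (Bt.j x) from funext hψ,
      continuous_iff_continuousAt]
    intro x
    exact ContinuousAt.comp (g := r) (hT.rc _ (hN x)) Bt.emb.continuous.continuousAt
  have l1 : ∀ m, ψ (φ m) = m := fun m => Ba.emb.injective (by
    rw [hψ, hφ, (hT.h1 t ht _ (fj Ba m)).2])
  have l2 : ∀ x, φ (ψ x) = x := fun x => Bt.emb.injective (by
    have h := (hT.h2 _ (hN x)).2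
    rw [fj Bt] at h
    rw [hφ, hψ, h])
  refine ⟨⟨⟨φ, ψ, l1, l2⟩, c1, c2⟩, hφ, hψ, ⟨c1, fun e e' x he he' => ?_⟩,
    ⟨c2, fun e e' x he he' => ?_⟩, fun x => ?_⟩
  · show ContDiffAt ℝ ∞ (fun z => e' (φ (e.symm z))) (e x)
    obtain ⟨q, hq, hs⟩ := Ba.ch1 e he.1
    obtain ⟨c, hc⟩ := ex_at (n := p + d) (Φ t (Ba.j x))
    obtain ⟨χ, hχ⟩ := ex_at (n := p) t
    have h0 : φ (e.symm (e x)) = φ x := by rw [e.left_inv he.2]
    refine sm_into Bt (g := fun z => φ (e.symm z)) (c := c)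
      (c1.continuousAt.comp (e.continuousAt_symm (e.map_source he.2)))
      (by rw [h0]; exact he') (by rw [h0, hφ]; exact hc) ?_
    have h1 := hT.ps t ht _ (fj Ba x) q χ c hq (q_j Ba hq hs he.2).1 hχ hc
    rw [← hs.val x he.2] at h1
    refine (ContDiffAt.comp (f := fun z : Cm d => (χ t, z)) (e x) h1
      (by fun_prop)).congr_of_eventuallyEq ?_
    filter_upwards [e.open_target.mem_nhds (e.map_source he.2)] with z hz
    show c (Bt.j (φ (e.symm z))) = c (Φ (χ.symm (χ t)) (q.2.symm (q.1 a, z)))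
    rw [hφ, χ.left_inv hχ.2, j_symm Ba hq hs hz]
  · show ContDiffAt ℝ ∞ (fun z => e' (ψ (e.symm z))) (e x)
    obtain ⟨c, hc⟩ := ex_at (n := p + d) (Bt.j x)
    obtain ⟨c', hc'⟩ := ex_at (n := p + d) (r (Bt.j x))
    have h0 : ψ (e.symm (e x)) = ψ x := by rw [e.left_inv he.2]
    refine sm_into Ba (g := fun z => ψ (e.symm z)) (c := c')
      (c2.continuousAt.comp (e.continuousAt_symm (e.map_source he.2)))
      (by rw [h0]; exact he') (by rw [h0, hψ]; exact hc') ?_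
    have h1 : ContDiffAt ℝ ∞ (fun z => c' (r (c.symm z))) (c (Bt.j (e.symm (e x)))) := by
      rw [e.left_inv he.2]
      exact hT.rs c c' _ (hN x) hc hc'
    have h2 : ContDiffAt ℝ ∞ (fun z => c (Bt.j (e.symm z))) (e x) :=
      ((j_hol Bt he hc).restrict_scalars ℝ).of_le le_top
    refine (ContDiffAt.comp (g := fun z => c' (r (c.symm z))) (e x) h1
      h2).congr_of_eventuallyEq ?_
    filter_upwards [((Bt.emb.continuous.tendsto x).comp (tend_symm e he.2)).eventually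
      (c.open_source.mem_nhds hc.2)] with z hz
    show c' (Ba.j (ψ (e.symm z))) = c' (r (c.symm (c (Bt.j (e.symm z)))))
    rw [hψ, c.left_inv (x := Bt.j (e.symm z)) hz]
  · obtain ⟨q, hq, h1, h2, h3⟩ := hT.ori t ht _ (fj Ba x)
    have h4 : a ∈ q.1.source := by
      have h := (hq.2.fst _ h1).1
      rwa [fj Ba] at h
    have h5 : t ∈ q.1.source := by
      have h := (hq.2.fst _ h2).1
      rwa [(hT.h1 t ht _ (fj Ba x)).1] at h
    obtain ⟨e, he, hs⟩ := Ba.ch2 q hq h4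
    obtain ⟨e', he', hs'⟩ := Bt.ch2 q hq h5
    have h6 : x ∈ e.source := sl_mem Ba hs h1
    have h7 : φ x ∈ e'.source := sl_mem Bt hs' (by rw [hφ]; exact h2)
    refine ⟨e, e', ⟨he, h6⟩, ⟨he', h7⟩, ?_⟩
    have h8 : (fun z => e' (φ (e.symm z))) =ᶠ[𝓝 (e x)]
        fun z => (q.2 (Φ t (q.2.symm (q.1 a, z)))).2 := by
      filter_upwards [e.open_target.mem_nhds (e.map_source h6),
        ((c1.tendsto x).comp (tend_symm e h6)).eventually (e'.open_source.mem_nhds h7)]
        with z k1 k2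
      rw [hs'.val (φ (e.symm z)) k2, j_symm Ba hq hs k1, ← hφ]
    show 0 < (fderiv ℝ (fun z => e' (φ (e.symm z))) (e x)).det
    rw [h8.fderiv_eq, hs.val x h6]
    exact h3

end Vale.Agent.P281Z.Hg
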