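import Vale.Agent.P281Z.Hg.S2

/-!
# P281, Hodge block: algebra of list cochains (row VT1)
-/

noncomputable section

namespace Vale.Agent.P281Z.Hg

namespace Vt1H

variable {M M' A : Type} [AddCommGroup A]

theorem dl_sub (a b : List M → A) (l : List M) :
    dl (fun l' => a l' - b l') l = dl a l - dl b l := by
  induction l generalizing a b with
  | nil => simp [dl]
  | cons x l ih =>
    rw [dl, dl, dl, ih]
    abel

theorem dl_comap (f : M → M') (a : List M' → A) (l : List M) :
    dl (fun l' => a (l'.map f)) l = dl a (l.map f) := by
  induction l generalizing a with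
  | nil => rfl
  | cons x l ih => rw [List.map_cons, dl, dl, ← ih]; rfl

/-- the prism operator -/
def pri (f g : M → M') : (List M' → A) → List M → A
  | _, [] => 0
  | a, x :: l => a (f x :: g x :: l.map g) - pri f g (fun l' => a (f x :: l')) l

variable (f g : M → M')

theorem pri_sub (a b : List M' → A) (l : List M) :
    pri f g (fun l' => a l' - b l') l = pri f g a l - pri f g b l := by
  induction l generalizing a b with
  | nil => simp [pri]
  | cons x l ih =>
    rw [pri, pri, pri, ih]
    abel

theorem pri_dl (a : List M' → A) (l : List M) :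
    dl (pri f g a) l + pri f g (dl a) l = a (l.map g) - a (l.map f) := by
  induction l generalizing a with
  | nil => simp [pri, dl]
  | cons x l ih =>
    have h := ih fun l' => a (f x :: l')
    simp only [pri, dl, List.map_cons]
    rw [dl_sub, pri_sub, dl_comap g fun l' => a (f x :: g x :: l'), ← sub_eq_iff_eq_add.2 h.symm]
    abel

theorem pri_zero (c : List M' → A) (l : List M) (s : Set M') (hs : ∀ x ∈ l, f x ∈ s ∧ g x ∈ s)
    (h : ∀ l' : List M', l'.length = l.length + 1 → (∀ y ∈ l', y ∈ s) → c l' = 0) :
    pri f g c l = 0 := by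
  induction l generalizing c with
  | nil => rfl
  | cons x l ih =>
    have hx := hs x List.mem_cons_self
    have hl := fun y hy => hs y (List.mem_cons_of_mem x hy)
    rw [pri, ih _ hl fun l' h1 h2 => h _ (by simp [h1]) (List.forall_mem_cons.2 ⟨hx.1, h2⟩),
      h _ (by simp) (List.forall_mem_cons.2 ⟨hx.1, List.forall_mem_cons.2
        ⟨hx.2, List.forall_mem_map.2 fun y hy => (hl y hy).2⟩⟩), sub_zero]

end Vt1H

open Vt1H in
/-- **VT1** -/
theorem vt1 : VT1 where
  add a b l := by
    induction l generalizing a b with
    | nil => simp [dl]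
    | cons x l ih =>
      rw [dl, dl, dl, Pi.add_apply, ← add_sub_add_comm, ← ih]
      rfl
  map φ a l := by
    induction l generalizing a with
    | nil => simp [dl]
    | cons x l ih => rw [dl, dl, map_sub, ih]
  dldl a l := by
    induction l generalizing a with
    | nil => rfl
    | cons x l ih =>
      simp only [dl]
      rw [dl_sub, ih, sub_zero, sub_self]
  comap := dl_comap
  mem B a l h := by
    induction l generalizing a with
    | nil => exact B.zero_mem
    | cons x l ih =>
      exact B.sub_mem (h l (l.sublist_cons_self x) rfl)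
        (ih _ fun l' h1 h2 => h _ (h1.cons_cons x) (congrArg (· + 1) h2))
  nrm ν a l C h0 h1 h := by
    induction l generalizing a with
    | nil => simp [dl, h0]
    | cons x l ih =>
      have h2 := h l (l.sublist_cons_self x) rfl
      have h3 := ih _ fun l' h1 h2 => h _ (h1.cons_cons x) (congrArg (· + 1) h2)
      refine (h1 _ _).trans ?_
      rw [List.length_cons, Nat.cast_succ]
      linarith
  prism f g a := ⟨pri f g a, rfl, fun l _ h => by
    rw [← pri_dl, pri_zero f g _ l {y | ∃ x ∈ l, y = f x ∨ y = g x}
      (fun x hx => ⟨⟨x, hx, .inl rfl⟩, x, hx, .inr rfl⟩) h, add_zero]⟩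

end Vale.Agent.P281Z.Hg
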