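import Vale.Agent.P281Z.Hg.Vt2a

/-!
# P281, Hodge block: refinement of cycles
-/

open scoped Topology
open Filter Set Metric

noncomputable section

namespace Vale.Agent.P281Z.Hg

namespace Vt2

variable {M : Type} [MetricSpace M]

/-- the points of `l` are close to each other -/
def Dm (ε : ℝ) (l : List M) : Prop := ∀ x ∈ l, ∀ y ∈ l, dist x y < ε

/-- the points of `l'` are close to points of `l` -/
def Nb (r : ℝ) (l l' : List M) : Prop := ∀ w ∈ l', ∃ y ∈ l, dist y w < r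

theorem Dm.mono {ε ε' : ℝ} {l l' : List M} (h : Dm ε l) (h1 : l' ⊆ l) (h2 : ε ≤ ε') : Dm ε' l' :=
  fun x a y b => (h x (h1 a) y (h1 b)).trans_le h2

theorem Nb.mono {r r' : ℝ} {l₁ l₂ l' : List M} (h : Nb r l₁ l') (h1 : l₁ ⊆ l₂) (h2 : r ≤ r') :
    Nb r' l₂ l' := fun w a =>
  let ⟨y, b, c⟩ := h w a
  ⟨y, h1 b, c.trans_le h2⟩

/-- cycles at scale `θ` in `B` are boundaries at scale `η` in `B'` -/
def Fill (θ η : ℝ) (B B' : Set M) : Prop := ∀ (j : ℕ) (c : C M),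
  c ∈ Ch j (fun l => Dm θ l ∧ ∀ w ∈ l, w ∈ B) → bd c = 0 →
    ∃ b ∈ Ch (j + 1) fun l => Dm η l ∧ ∀ w ∈ l, w ∈ B', bd b = c

theorem fill_of {K B' : Set M} (hK : IsCompact K) {H : ℝ → M → M} {x0 : M} (h0 : x0 ∈ B')
    (h1 : ContinuousOn (fun q : ℝ × M => H q.1 q.2) (Icc 0 1 ×ˢ K))
    (h2 : ∀ y ∈ K, H 0 y = y ∧ H 1 y = x0) (h3 : ∀ s ∈ Icc (0 : ℝ) 1, ∀ y ∈ K, H s y ∈ B') {η : ℝ}
    (hη : 0 < η) : ∃ θ, 0 < θ ∧ Fill θ η K B' := by
  obtain ⟨θ, hθ, h4⟩ := Metric.uniformContinuousOn_iff.1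
    ((isCompact_Icc.prod hK).uniformContinuousOn_of_continuous h1) η hη
  refine ⟨θ, hθ, fun j c hc hb => ?_⟩
  set S := (Ch (j + 1) fun l => Dm η l ∧ ∀ w ∈ l, w ∈ B').map bd
  have k1 : ∀ s ∈ Icc (0 : ℝ) 1, ∀ t ∈ Icc (0 : ℝ) 1, dist s t < θ →
      push (H t) c - push (H s) c ∈ S := fun s hs t ht hst => by
    refine ⟨L (pr1 (H s) (H t)) c, mem_of hc _ fun l a b => ?_,
      by rw [bd_pr, hb, map_zero, sub_zero]⟩
    rw [L_sg, ← a]
    refine ch_mono (pr1_mem _ _ l) fun l' _ k => ?_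
    have k' : ∀ w ∈ l', ∃ y ∈ l, ∃ u ∈ ({s, t} : Set ℝ), w = H u y := fun w hw =>
      let ⟨y, c1, c2⟩ := k w hw
      ⟨y, c1, c2.elim (fun e => ⟨s, .inl rfl, e⟩) fun e => ⟨t, .inr rfl, e⟩⟩
    have k2 : ∀ u ∈ ({s, t} : Set ℝ), u ∈ Icc (0 : ℝ) 1 := by
      rintro u (rfl | rfl) <;> assumption
    refine ⟨fun w hw w' hw' => ?_, fun w hw => ?_⟩
    · obtain ⟨y, c1, u, c2, rfl⟩ := k' w hw
      obtain ⟨y', d1, u', d2, rfl⟩ := k' w' hw'
      refine h4 (u, y) ⟨k2 u c2, b.2 y c1⟩ (u', y') ⟨k2 u' d2, b.2 y' d1⟩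
        (max_lt ?_ (b.1 y c1 y' d1))
      rcases c2 with rfl | rfl <;> rcases d2 with rfl | rfl <;> simp only [dist_self, hθ, hst]
      rwa [dist_comm]
    · obtain ⟨y, c1, u, c2, rfl⟩ := k' w hw
      exact h3 u (k2 u c2) y (b.2 y c1)
  have k2 : push (H 1) c - push (H 0) c ∈ S := by
    refine isPreconnected_Icc.induction₂' (fun s t => push (H t) c - push (H s) c ∈ S)
      (fun s hs => ?_) (fun s t u _ _ _ a b => ?_) (left_mem_Icc.2 zero_le_one)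
      (right_mem_Icc.2 zero_le_one)
    · filter_upwards [self_mem_nhdsWithin, mem_nhdsWithin_of_mem_nhds (ball_mem_nhds s hθ)]
        with t a b using ⟨k1 s hs t a (mem_ball'.1 b), k1 t a s hs b⟩
    · simpa using add_mem b a
  have k3 : push (H 0) c = c := eq_on hc _ LinearMap.id fun l _ b => by
    rw [push_sg, List.map_congr_left (g := id) fun y hy => (h2 y (b.2 y hy)).1, List.map_id]
    rfl
  have k4 : push (H 1) c ∈ Ch j fun l => ∀ w ∈ l, w = x0 := mem_of hc _ fun l a b =>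
    push_sg (H 1) l ▸ sg_mem (by simp [a]) fun w hw =>
      let ⟨y, c1, c2⟩ := List.mem_map.1 hw
      c2 ▸ (h2 y (b.2 y c1)).2
  have k5 : push (H 1) c ∈ S := by
    refine ⟨cons x0 (push (H 1) c), cons_mem k4 fun l a => ?_,
      by rw [bd_cons, bd_push, hb, map_zero, map_zero, sub_zero]⟩
    have b : ∀ w ∈ x0 :: l, w = x0 := List.forall_mem_cons.2 ⟨rfl, a⟩
    exact ⟨fun w c1 w' c2 => by rw [b w c1, b w' c2, dist_self]; exact hη,
      fun w c1 => b w c1 ▸ h0⟩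
  have k6 := sub_mem k5 k2
  rwa [sub_sub_cancel, k3] at k6

/-- uniform local acyclicity -/
def Acyc (M : Type) [MetricSpace M] : Prop := ∀ r : ℝ, 0 < r → ∃ δ : ℝ, 0 < δ ∧ ∀ η : ℝ, 0 < η →
  ∃ θ : ℝ, 0 < θ ∧ ∀ x : M, Fill θ η (ball x δ) (ball x r)

theorem acyc [CompactSpace M] (h : ULC M) : Acyc M := by
  intro r hr
  obtain ⟨δ, hδ, h1⟩ := h (r / 2) (half_pos hr)
  have h2 : 0 < min δ r / 2 := half_pos (lt_min hδ hr)
  refine ⟨_, h2, fun η hη => ?_⟩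
  have h3 : ∀ x : M, ∃ θ, 0 < θ ∧ Fill θ η (closedBall x δ) (ball x (r / 2)) := fun x =>
    let ⟨H, x0, a, b, c⟩ := h1 x
    have d := mem_closedBall_self (x := x) hδ.le
    fill_of isClosed_closedBall.isCompact
      (mem_ball'.2 ((b x d).2 ▸ c 1 (right_mem_Icc.2 zero_le_one) x d)) a b
      (fun s e y f => mem_ball'.2 (c s e y f)) hη
  choose θ hθ h4 using h3
  obtain ⟨t, -, h5, h6⟩ := finite_cover_balls_of_compact (isCompact_univ (X := M)) h2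
  obtain ⟨θ₀, h7, h8⟩ := (((eventually_all_finite h5).2 fun x _ =>
    mem_nhdsWithin_of_mem_nhds (t := Ioi 0) (Iio_mem_nhds (hθ x))).and self_mem_nhdsWithin).exists
  refine ⟨θ₀, h8, fun x j c hc hb => ?_⟩
  obtain ⟨z, a, b⟩ := mem_iUnion₂.1 (h6 (mem_univ x))
  have e1 := min_le_left δ r
  have e2 := min_le_right δ r
  obtain ⟨b', k1, k2⟩ := h4 z j c (ch_mono hc fun l _ k => ⟨k.1.mono (List.Subset.refl _)
    (le_of_lt (h7 z a)), fun w hw => mem_closedBall.2 (by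
      linarith [mem_ball.1 (k.2 w hw), mem_ball.1 b, dist_triangle w x z])⟩) hb
  exact ⟨b', ch_mono k1 fun l _ k => ⟨k.1, fun w hw => mem_ball.2 (by
    linarith [mem_ball.1 (k.2 w hw), mem_ball.1 b, dist_triangle_right w x z])⟩, k2⟩

/-- subdivision -/
theorem ex_sd (h : Acyc M) : ∀ (j : ℕ) (r : ℝ), 0 < r → ∃ ε : ℝ, 0 < ε ∧ ∀ η : ℝ, 0 < η →
    ∃ ψ : List M → C M, ψ [] = sg [] ∧ ∀ l, l.length ≤ j → Dm ε l →
      ψ l ∈ Ch l.length (fun l' => Dm η l' ∧ Nb r l l') ∧ bd (ψ l) = L ψ (bd1 l)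
  | 0, r, _ => ⟨1, one_pos, fun η _ => ⟨sg, rfl, fun l a _ => by
      obtain rfl := List.length_eq_zero_iff.1 (Nat.le_zero.1 a)
      exact ⟨sg_mem rfl ⟨by simp [Dm], by simp [Nb]⟩, by simp [bd1]⟩⟩⟩
  | j + 1, r, hr => by
    obtain ⟨δ, hδ, h1⟩ := h r hr
    obtain ⟨ε, hε, h2⟩ := ex_sd h j (min (δ / 2) r) (lt_min (half_pos hδ) hr)
    refine ⟨min ε (δ / 2), lt_min hε (half_pos hδ), fun η hη => ?_⟩
    obtain ⟨θ, hθ, h3⟩ := h1 η hη
    obtain ⟨ψ, h4, h5⟩ := h2 (min θ η) (lt_min hθ hη)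
    obtain ⟨ψ', h6, h7⟩ := step (j := j) (P := Dm (min ε (δ / 2))) (α := 0) (σ := 1) (ψ := ψ)
      (S := fun l => Ch l.length fun l' => Dm η l' ∧ Nb r l l') (fun l a b => by
        obtain ⟨k1, k2⟩ := h5 l a (b.mono (List.Subset.refl _) (min_le_left _ _))
        exact ⟨ch_mono k1 fun l' _ k => ⟨k.1.mono (List.Subset.refl _) (min_le_right _ _),
          k.2.mono (List.Subset.refl _) (min_le_right _ _)⟩, by simpa using k2⟩) (fun l a b => by
        obtain ⟨x, hx⟩ := List.exists_mem_of_length_eq_add_one a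
        have k1 := fun (l' : List M) (a' : l'.length = j) (b' : l' ⊆ l) =>
          h5 l' a'.le (b.mono b' (min_le_left _ _))
        obtain ⟨b', k2, k3⟩ := h3 x j (L ψ (bd1 l)) (mem_of (bd1_mem a) _ fun l' a' b' => by
          rw [L_sg, ← a']
          refine ch_mono (k1 l' a' b').1 fun l'' _ k =>
            ⟨k.1.mono (List.Subset.refl _) (min_le_left _ _), fun w hw => ?_⟩
          obtain ⟨y, c1, c2⟩ := k.2 w hw
          have c3 := b x hx y (b' c1)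
          rw [lt_min_iff] at c2 c3
          exact mem_ball'.2 (by linarith [dist_triangle x y w]))
          ((eq_on (bd1_mem a) (bd ∘ₗ L ψ) (L ψ ∘ₗ bd) fun l' a' b' => by
            simpa using (k1 l' a' b').2).trans (by simp [bd_bd1]))
        exact ⟨b', a ▸ ch_mono k2 fun l' _ k => ⟨k.1, fun w hw => ⟨x, hx, mem_ball'.1 (k.2 w hw)⟩⟩,
          by simpa using k3⟩)
    exact ⟨ψ', h6.trans h4, fun l a b => by simpa using h7 l a b⟩

/-- homotopy -/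
theorem ex_ht {ε r : ℝ} (hr : 0 < r) {m : ℕ} {φ : List M → C M} (h0 : φ [] = 0)
    (h : ∀ l, l.length ≤ m → Dm ε l → φ l ∈ Ch l.length (Nb r l) ∧ bd (φ l) = L φ (bd1 l)) :
    ∀ j ≤ m, ∃ D : List M → C M, D [] = 0 ∧ ∀ l, l.length ≤ j → Dm ε l →
      D l ∈ Ch (l.length + 1) (Nb r l) ∧ bd (D l) = φ l + (-1 : ℤ) • L D (bd1 l)
  | 0, _ => ⟨0, rfl, fun l a _ => by
      obtain rfl := List.length_eq_zero_iff.1 (Nat.le_zero.1 a)
      exact ⟨zero_mem _, by simp [bd1, h0]⟩⟩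
  | j + 1, hj => by
    obtain ⟨D, h1, h2⟩ := ex_ht hr h0 h j (Nat.le_of_succ_le hj)
    obtain ⟨D', h3, h4⟩ := step (S := fun l => Ch (l.length + 1) (Nb r l)) h2 fun l a b => by
      obtain ⟨x, hx⟩ := List.exists_mem_of_length_eq_add_one a
      have k1 := fun (l' : List M) (a' : l'.length = j) (b' : l' ⊆ l) =>
        h2 l' a'.le (b.mono b' le_rfl)
      obtain ⟨k2, k3⟩ := h l (a ▸ hj) b
      refine ⟨cons x (φ l + (-1 : ℤ) • L D (bd1 l)), cons_mem (P := Nb r l) (add_mem k2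
        (Submodule.smul_mem _ _ (mem_of (bd1_mem a) _ fun l' a' b' => ?_))) fun l' k =>
          List.forall_mem_cons.2 ⟨⟨x, hx, by simpa using hr⟩, k⟩, ?_⟩
      · rw [L_sg, a, ← a']
        exact ch_mono (k1 l' a' b').1 fun _ _ k => k.mono b' le_rfl
      · have k4 := eq_on (bd1_mem a) (bd ∘ₗ L D) (L φ - L D ∘ₗ bd) fun l' a' b' => by
          simpa [sub_eq_add_neg] using (k1 l' a' b').2
        simp only [LinearMap.comp_apply, LinearMap.sub_apply, bd_bd1, map_zero, sub_zero] at k4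
        rw [bd_cons, map_add, map_smul, k3, k4]
        simp
    exact ⟨D', h3.trans h1, h4⟩

end Vt2

open Vt2

theorem vt2' : VT2 := by
  intro M _ _ hM m ε₀ h₀
  obtain ⟨ε, hε, h1⟩ := ex_sd (acyc hM) (m + 1) (ε₀ / 2) (half_pos h₀)
  refine ⟨min ε (ε₀ / 2) / 2, half_pos (lt_min hε (half_pos h₀)), fun c hc hz η hη => ?_⟩
  obtain ⟨ψ, h2, h3⟩ := h1 η hη
  have h4 : c ∈ Ch (m + 1) (Dm (min ε (ε₀ / 2))) := fun l hl =>
    let ⟨a, z, b⟩ := hc l hl
    ⟨a, fun x c1 y c2 => by linarith [b x c1, b y c2, dist_triangle_right x y z]⟩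
  have h5 := fun (l : List M) (a : l.length ≤ m + 1) (b : Dm (min ε (ε₀ / 2)) l) =>
    h3 l a (b.mono (List.Subset.refl _) (min_le_left _ _))
  have h6 : ∀ (a : List M → ℂ) (f : List M → C M), L a (f []) = 0 → L a (L f (bd c)) = 0 :=
    fun a f e => by rw [L_L, L_bd, ← evc_eq, hz _ e]
  obtain ⟨D, h7, h8⟩ := ex_ht (ε := min ε (ε₀ / 2)) (half_pos h₀) (φ := fun l => ψ l - sg l)
    (by simp [h2]) (fun l a b => ⟨sub_mem (ch_mono (h5 l a b).1 fun _ _ k => k.2)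
      (sg_mem rfl fun w hw => ⟨w, hw, by simpa using h₀⟩), by
        rw [map_sub, (h5 l a b).2, bd_sg]
        exact eq_all (L ψ - LinearMap.id) (L fun l => ψ l - sg l) (fun l => by simp) _⟩)
    (m + 1) le_rfl
  have h9 : L ψ c ∈ Ch (m + 1) (Dm η) := mem_of h4 _ fun l a b => by
    rw [L_sg, ← a]
    exact ch_mono (h5 l a.le b).1 fun _ _ k => k.1
  refine ⟨L ψ c, fun l hl => ⟨(h9 hl).1, ?_⟩, fun b hb => ?_, fun a ha => ?_⟩
  · obtain ⟨x, hx⟩ := List.exists_mem_of_length_eq_add_one (h9 hl).1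
    exact ⟨x, fun y hy => (h9 hl).2 y hy x hx⟩
  · rw [evc_eq, ← L_bd, ← h6 b ψ (by simp [h2, hb])]
    exact congrArg _ (eq_on h4 (bd ∘ₗ L ψ) (L ψ ∘ₗ bd) fun l a b => by simpa using (h5 l a.le b).2)
  · have k1 := eq_on h4 (bd ∘ₗ L D) (L ψ - LinearMap.id - L D ∘ₗ bd) fun l a b => by
      simpa [sub_eq_add_neg] using (h8 l a.le b).2
    have k2 : L (dl a) (L D c) ∈ (⊥ : Submodule ℤ ℂ) :=
      mem_of h4 (L (dl a) ∘ₗ L D) fun l a' b => by
        rw [LinearMap.comp_apply, L_sg]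
        refine mem_of (h8 l a'.le b).1 _ fun l' c1 c2 => ?_
        obtain ⟨x, hx⟩ := List.exists_mem_of_length_eq_add_one a'
        refine (L_sg _ _).trans (ha l' (by omega) ⟨x, fun w hw => ?_⟩)
        obtain ⟨y, d1, d2⟩ := c2 w hw
        linarith [(lt_min_iff.1 (b y d1 x hx)).2, dist_triangle_left w x y]
    rw [Submodule.mem_bot, ← L_bd, show bd (L D c) = _ from k1] at k2
    simp only [LinearMap.sub_apply, LinearMap.comp_apply, LinearMap.id_apply, map_sub,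
      h6 a D (by simp [h7]), sub_zero] at k2
    rw [evc_eq, evc_eq, sub_eq_zero.1 k2]

theorem vt2 (_h : VT1) : VT2 := vt2'

end Vale.Agent.P281Z.Hg
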