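import Vale.Agent.P281Z.Hg.Vt2a
import Mathlib.Algebra.Category.Grp.Injective
import Mathlib.Data.Set.Finite.List
import Mathlib.RingTheory.Flat.EquationalCriterion
import Mathlib.RingTheory.Flat.TorsionFree

/-!
# P281, Hodge block: periods (row VT3)
-/

noncomputable section

namespace Vale.Agent.P281Z.Hg

open Vt2

namespace Vt3

variable {M : Type} {P : List M → Prop} {m : ℕ}

open Classical in
/-- kills the empty list -/
def pj : C M →ₗ[ℤ] C M := L fun l => if l = [] then 0 else sg l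

theorem L_pj {b : List M → ℂ} (h : b [] = 0) (c : C M) : L b (pj c) = L b c :=
  eq_all (L b ∘ₗ pj) _ (fun l => by by_cases e : l = [] <;> simp [pj, e, h]) c

theorem cyc_of {c : C M} (h : pj (bd c) = 0) : Cyc c := fun b hb => by
  rw [evc_eq, ← L_bd, ← L_pj hb, h, map_zero]

theorem ch_fg {t : Set M} (ht : t.Finite) (h : ∀ l, P l → ∀ y ∈ l, y ∈ t) (j : ℕ) :
    (Ch j P).FG := by
  have := ht.to_subtype
  rw [Ch, Finsupp.supported_eq_span_single]
  refine Submodule.fg_span (Set.Finite.image _ (((List.finite_length_eq t j).image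
    (List.map Subtype.val)).subset fun l hl => ⟨l.attachWith _ (h l hl.2), ?_, ?_⟩))
  · simpa using hl.1
  · simp

/-- a cochain which kills the cycles is a coboundary -/
theorem cob (a : List M → ℂ) (h : ∀ c ∈ Ch m P, pj (bd c) = 0 → L a c = 0) :
    ∃ b : List M → ℂ, b [] = 0 ∧ ∀ l, l.length = m → P l → a l = dl b l := by
  let T := (pj ∘ₗ bd).domRestrict (Ch m P)
  obtain ⟨φ, hφ⟩ := (Module.Baer.of_divisible ℂ).extension_property ((LinearMap.ker T).liftQ T le_rfl)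
    (LinearMap.ker_eq_bot.1 (Submodule.ker_liftQ_eq_bot' _ _ rfl))
    ((LinearMap.ker T).liftQ ((L a).domRestrict _) fun c hc => h c c.2 hc)
  refine ⟨fun l => φ (pj (sg l)), by simp [pj], fun l h1 h2 => ?_⟩
  rw [← L_bd1, ← eq_all (φ ∘ₗ pj) _ fun l => (L_sg (fun l => φ (pj (sg l))) l).symm,
    ← L_sg a, ← bd_sg]
  exact (LinearMap.congr_fun hφ (Submodule.Quotient.mk ⟨_, sg_mem h1 h2⟩)).symm

/-- a cocycle is a combination of integral cocycles -/
theorem comb (hP : ∀ l l', P l → l' ⊆ l → P l') (hf : ∀ j, (Ch j P).FG) (a : List M → ℂ)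
    (h : ∀ l, l.length = m + 1 → P l → dl a l = 0) :
    ∃ (s : ℕ) (lam : Fin s → ℂ) (a' : Fin s → List M → ℤ),
      (∀ i l, l.length = m + 1 → P l → dl (a' i) l = 0) ∧
      ∀ l, l.length = m → P l → a l = ∑ i, lam i * a' i l := by
  classical
  have := fun j => Module.Finite.iff_fg.2 (hf j)
  have : Module.Free ℤ (Ch m P) := .of_equiv (Finsupp.supportedEquivFinsupp _).symm
  let π : C M →ₗ[ℤ] Ch m P := Finsupp.restrictDom ℤ ℤ _
  have hπ : ∀ c ∈ Ch m P, (π c : C M) = c := fun c hc =>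
    congrArg Subtype.val (LinearMap.congr_fun (Finsupp.restrictDom_comp_subtype _) ⟨c, hc⟩)
  obtain ⟨s, α, y, h1, h2⟩ := Module.Flat.exists_factorization_of_comp_eq_zero_of_free
    (f := (π ∘ₗ bd).domRestrict (Ch (m + 1) P)) (x := (L a).domRestrict (Ch m P))
    (LinearMap.ext fun c => eq_on c.2 ((L a).domRestrict (Ch m P) ∘ₗ π ∘ₗ bd) 0 fun l k1 k2 => by
      show L a (π (bd (sg l))) = 0
      rw [bd_sg, hπ _ (ch_mono (bd1_mem k1) fun l' _ k => hP l l' k2 k), L_bd1, h l k1 k2])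
  refine ⟨s, fun i => y (Finsupp.single i 1), fun i l => α (π (sg l)) i, fun i l k1 k2 => ?_,
    fun l k1 k2 => ?_⟩
  · rw [← L_bd1, ← eq_all (Finsupp.lapply i ∘ₗ α ∘ₗ π) _
      fun l => (L_sg (fun l => α (π (sg l)) i) l).symm, ← bd_sg]
    exact DFunLike.congr_fun (LinearMap.congr_fun h2 ⟨_, sg_mem k1 k2⟩) i
  · rw [← L_sg a, ← hπ _ (sg_mem k1 k2)]
    refine (LinearMap.congr_fun h1 (π (sg l))).trans ?_
    rw [LinearMap.comp_apply, ← Finsupp.univ_sum_single (α _), map_sum]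
    refine Finset.sum_congr rfl fun i _ => ?_
    rw [← Finsupp.smul_single_one, map_smul, zsmul_eq_mul, mul_comm]

variable [MetricSpace M] {ε η : ℝ}

theorem evc_cob {a : List M → ℂ} {c : C M} (ha : Cob η m a) (h1 : Chn η m c) (h2 : Cyc c) :
    L a c = 0 := by
  obtain ⟨b, h3, h4⟩ := ha
  rw [← h2 b h3, evc_eq]
  exact eq_on (P := Sm η) h1 _ _ fun l k1 k2 => by simp [h4 l k1 k2]

theorem sm_map {ρ : M → M} (hρ : ∀ x, dist (ρ x) x < η) {l l' : List M} (h : Sm η l)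
    (h' : ∀ y ∈ l', ∃ x ∈ l, y = id x ∨ y = ρ x) (hε : η + η ≤ ε) : Sm ε l' := by
  obtain ⟨z, hz⟩ := h
  refine ⟨z, fun y hy => ?_⟩
  obtain ⟨x, h1, h2⟩ := h' y hy
  have := hz x h1
  have := hρ x
  have := dist_triangle (ρ x) x z
  have := dist_nonneg (x := ρ x) (y := x)
  rcases h2 with e | e <;> rw [e] <;> [rw [id]; skip] <;> linarith

/-- a cocycle which is a coboundary on the net is a coboundary -/
theorem pull (hv : VT1) {ρ : M → M} (hρ : ∀ x, dist (ρ x) x < η) (hε : η + η ≤ ε)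
    {a a' b : List M → ℂ} (ha : Coc ε m a) (hb : b [] = 0)
    (h : ∀ l, l.length = m + 1 → Sm η l → a (l.map ρ) - a' l = dl b (l.map ρ)) :
    Cob η m (a - a') := by
  obtain ⟨b', h1, h2⟩ := hv.prism id ρ a
  refine ⟨(fun l => b (l.map ρ)) + fun l => (-AddMonoidHom.id ℂ) (b' l), by simp [hb, h1],
    fun l k1 k2 => ?_⟩
  rw [hv.add, hv.map, hv.comap, ← h l k1 k2, ← h2 l (by rintro rfl; simp at k1)
    fun l' k3 k4 => ha l' (by omega) (sm_map hρ k2 k4 hε)]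
  simp

end Vt3

open Vt3 in
/-- **VT3** -/
theorem vt3 (hv : VT1) : VT3 := fun M _ _ m hR ε0 h0 => by
  obtain ⟨ε1, h1, hR⟩ := hR ε0 h0
  set η := min ε0 ε1 / 2
  have hη : 0 < η := half_pos (lt_min h0 h1)
  have e0 : η + η ≤ ε0 := (add_halves _).trans_le (min_le_left _ _)
  have e1 : η + η ≤ ε1 := (add_halves _).trans_le (min_le_right _ _)
  obtain ⟨t, -, ht, hc⟩ := finite_cover_balls_of_compact (isCompact_univ (X := M)) hη
  choose ρ hρ hρ' using fun x => Set.mem_iUnion₂.1 (hc (Set.mem_univ x))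
  replace hρ' : ∀ x, dist (ρ x) x < η := fun x => Metric.mem_ball'.1 (hρ' x)
  let P : List M → Prop := fun l => (∀ y ∈ l, y ∈ t) ∧ Sm (η + η) l
  have hf := ch_fg (P := P) ht fun l hl => hl.1
  have hs : ∀ {ε l}, η + η ≤ ε → P l → Sm ε l := fun e ⟨_, z, hz⟩ =>
    ⟨z, fun x hx => (hz x hx).trans_le e⟩
  have hP : ∀ l, Sm η l → P (l.map ρ) := fun l hl => ⟨List.forall_mem_map.2 fun x _ => hρ x,
    sm_map hρ' hl (List.forall_mem_map.2 fun x hx => ⟨x, hx, .inr rfl⟩) le_rfl⟩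
  obtain ⟨r, c, hc⟩ := Submodule.fg_iff_exists_fin_generating_family.1
    ((hf (m + 1)).of_le (inf_le_left (b := LinearMap.ker (pj ∘ₗ bd))))
  have h2 := fun i => hc.le (Submodule.subset_span ⟨i, rfl⟩)
  have h3 : ∀ (a : List M → ℂ) (a' : List M → ℤ) (η : ℝ), Coc ε0 m a → 0 < η →
      Cob η m (a - zl a') → ∀ i, ∃ c', evc a (c i) = (L a' c' : ℤ) := fun a a' θ k1 k2 k3 i => by
    obtain ⟨c', k4, k5, k6⟩ := hR (c i) (fun l hl => ⟨((h2 i).1 hl).1, hs e1 ((h2 i).1 hl).2⟩)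
      (cyc_of (h2 i).2) θ k2
    refine ⟨c', ?_⟩
    rw [k6 a k1, evc_eq, ← sub_eq_zero, ← evc_cob k3 k4 k5]
    exact eq_all (L a - (Int.castAddHom ℂ).toIntLinearMap ∘ₗ L a') _ (fun l => by simp [zl]) c'
  refine ⟨r, c, fun i l hl => ⟨((h2 i).1 hl).1, hs e0 ((h2 i).1 hl).2⟩,
    fun a a' θ k1 k2 k3 i => (h3 a a' θ k1 k2 k3 i).elim fun _ e => ⟨_, e⟩,
    fun a θ k1 k2 k3 i => ?_, fun a k1 k2 => ⟨η, hη, ?_⟩, fun a k1 => ⟨η, hη, ?_⟩⟩
  · obtain ⟨c', e⟩ := h3 a 0 θ k1 k2 (by rwa [show zl 0 = 0 from funext fun _ => Int.cast_zero,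
      sub_zero]) i
    simpa [L] using e
  · obtain ⟨b, k3, k4⟩ := cob (m := m + 1) (P := P) a fun c' k3 k4 =>
      (hc.ge.trans (Submodule.span_le (p := LinearMap.ker (L a)).2
        (Set.range_subset_iff.2 fun i => (evc_eq a _).symm.trans (k2 i)))) ⟨k3, k4⟩
    simpa using pull hv hρ' e0 (a' := 0) k1 k3 fun l k5 k6 =>
      (sub_zero _).trans (k4 _ (by simpa using k5) (hP l k6))
  · obtain ⟨s, lam, a', k2, k3⟩ := comb (m := m + 1) (P := P)
      (fun l l' k k' => ⟨fun y hy => k.1 y (k' hy), k.2.imp fun z hz x hx => hz x (k' hx)⟩) hf a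
      fun l k k' => k1 l k (hs e0 k')
    refine ⟨s, lam, fun i l => a' i (l.map ρ), fun i l k k' => ?_,
      pull hv hρ' e0 (b := fun _ => (0 : ℂ →+ ℂ) 0) k1 rfl fun l k k' => ?_⟩
    · rw [hv.comap, k2 i _ (by simpa using k) (hP l k')]
    · rw [hv.map 0 fun _ => (0 : ℂ), k3 _ (by simpa using k) (hP l k')]
      simp [zl]

end Vale.Agent.P281Z.Hg
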