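import Vale.Agent.P281Z.Hg.S2

/-!
# P281, Hodge block, row ZS: closed `L²` forms are cohomologous to smooth closed forms
-/

open scoped Topology
open Filter

noncomputable section

namespace Vale.Agent.P281Z.Hg

namespace Zs

section dl
variable {M A : Type} [AddCommGroup A]

/-- the coboundary as an additive map -/
def dlH (h : VT1) (l : List M) : (List M → A) →+ A :=
  AddMonoidHom.mk' (fun a => dl a l) fun a b => h.add a b l

theorem dl_sub (h : VT1) (a b : List M → A) (l : List M) :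
    dl (fun l => a l - b l) l = dl a l - dl b l := map_sub (dlH h l) a b

theorem dl_sum (h : VT1) {N : ℕ} (a : Fin N → List M → A) (l : List M) :
    dl (fun l => ∑ i, a i l) l = ∑ i, dl (a i) l := by
  have e : (fun l => ∑ i, a i l) = ∑ i, a i := by
    funext l
    rw [Finset.sum_apply]
  rw [e]
  exact map_sum (dlH h l) a Finset.univ

theorem dl_congr (h : VT1) {a b : List M → A} {l : List M}
    (e : ∀ l' : List M, l'.length + 1 = l.length → a l' = b l') : dl a l = dl b l := by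
  rw [← sub_eq_zero, ← dl_sub h]
  exact AddSubgroup.mem_bot.1 (h.mem ⊥ _ l fun l' _ c => AddSubgroup.mem_bot.2
    (sub_eq_zero.2 (e l' c)))

end dl

variable {S : Type} [AddCommGroup S] [Module ℂ S] {D : ℕ} {X : Cx S D} {M : Type} [MetricSpace M]
  {E : LC M X}

/-- families which tend to zero -/
def Nul (h : E.OK) {ι : Type} (F : Filter ι) : AddSubgroup (ι → S) where
  carrier := {p | Tendsto (fun s => E.nrm (p s)) F (𝓝 0)}
  zero_mem' := by
    have : E.nrm 0 = 0 := by simpa using h.smul 0 0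
    simpa [this] using tendsto_const_nhds
  add_mem' a b := squeeze_zero (fun _ => h.nn _) (fun _ => h.tri _ _) (by simpa using a.add b)
  neg_mem' {p} a := by
    have : ∀ u, E.nrm (-u) = E.nrm u := fun u => by simpa using h.smul (-1) u
    simpa [this] using a

/-- operators act on families -/
def lf (ι : Type) (T : Module.End ℂ S) : (ι → S) →+ (ι → S) := T.toAddMonoidHom.compLeft ι

theorem lf_apply {ι : Type} (T : Module.End ℂ S) (w : ι → S) (s : ι) : lf ι T w s = T (w s) := rfl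

theorem nul_lf (h : E.OK) {ι : Type} {F : Filter ι} {T : Module.End ℂ S} {C : ℝ}
    (hT : ∀ u, E.nrm (T u) ≤ C * E.nrm u) {p : ι → S} (hp : p ∈ Nul h F) : lf ι T p ∈ Nul h F :=
  squeeze_zero (fun _ => h.nn _) (fun _ => hT _) (by simpa using hp.const_mul C)

theorem nul_smul (h : E.OK) {c : ℕ → ℂ} (hc : Tendsto c atTop (𝓝 0)) (u : S) :
    (fun s => c s • u) ∈ Nul h atTop := by
  show Tendsto (fun s => E.nrm (c s • u)) atTop (𝓝 0)
  simpa [h.smul] using hc.norm.mul_const (E.nrm u)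

/-- differences -/
def df : (ℕ → S) →+ (ℕ × ℕ → S) :=
  AddMonoidHom.mk' (fun u q => u q.1 - u q.2) fun _ _ => funext fun _ => add_sub_add_comm _ _ _ _

/-- Cauchy sequences -/
def Cau (h : E.OK) : AddSubgroup (ℕ → S) := (Nul h atTop).comap df

theorem cau_lf (h : E.OK) {T : Module.End ℂ S} {C : ℝ} (hT : ∀ u, E.nrm (T u) ≤ C * E.nrm u)
    {p : ℕ → S} (hp : p ∈ Cau h) : lf ℕ T p ∈ Cau h := by
  have e : df (lf ℕ T p) = lf _ T (df p) := funext fun q => (map_sub T _ _).symm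
  show df (lf ℕ T p) ∈ Nul h atTop
  rw [e]
  exact nul_lf h hT hp

theorem cau_lim (h : E.OK) {μ : S →ₗ[ℂ] ℂ} {C : ℝ} (hμ : ∀ u, ‖μ u‖ ≤ C * E.nrm u) {p : ℕ → S}
    (hp : p ∈ Cau h) : ∃ a, Tendsto (fun s => μ (p s)) atTop (𝓝 a) := by
  refine cauchySeq_tendsto_of_complete (cauchySeq_iff_tendsto_dist_atTop_0.2 ?_)
  refine squeeze_zero (g := fun q => C * E.nrm (df p q)) (fun _ => dist_nonneg) (fun q => ?_)
    (by simpa using Tendsto.const_mul C hp)
  rw [dist_eq_norm, ← map_sub]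
  exact hμ _

variable (E) in
/-- sequences which vanish on `O` -/
def Vn (O : Set M) : AddSubgroup (ℕ → S) where
  carrier := {v | ∀ s, ∀ z ∈ O, v s ∈ E.Z z}
  zero_mem' _ _ _ := zero_mem _
  add_mem' a b s z c := add_mem (a s z c) (b s z c)
  neg_mem' a s z c := neg_mem (a s z c)

/-- sequences which are small on `O` -/
def N0 (h : E.OK) (O : Set M) : AddSubgroup (ℕ → S) := Nul h atTop ⊔ Vn E O

theorem N0_mono (h : E.OK) {O O' : Set M} (e : O ⊆ O') : N0 h O' ≤ N0 h O :=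
  sup_le_sup_left (fun _ a s z c => a s z (e c)) _

/-- the points near `l` -/
abbrev Ns (ε : ℝ) (l : List M) : Set M := {z | Nr ε l z}

theorem open_Ns (ε : ℝ) (l : List M) : IsOpen (Ns ε l) := by
  have : Ns ε l = ⋂ x ∈ {x | x ∈ l}, Metric.ball x ε := by
    ext z
    simp [Nr, dist_comm]
  exact this ▸ l.finite_toSet.isOpen_biInter fun _ _ => Metric.isOpen_ball

theorem Ns_mono {ε η : ℝ} (h : η ≤ ε) (l : List M) : Ns η l ⊆ Ns ε l :=
  fun _ a y b => (a y b).trans_le h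

theorem Ns_sub {ε : ℝ} {l l' : List M} (h : l'.Sublist l) : Ns ε l ⊆ Ns ε l' :=
  fun _ a y b => a y (h.subset b)

theorem n0_nul {h : E.OK} {O : Set M} {p : ℕ → S} (a : p ∈ Nul h atTop) : p ∈ N0 h O :=
  AddSubgroup.mem_sup_left a

theorem n0_vn {h : E.OK} {O : Set M} {v : ℕ → S} (a : ∀ s, ∀ z ∈ O, v s ∈ E.Z z) : v ∈ N0 h O :=
  AddSubgroup.mem_sup_right a

omit [MetricSpace M] in
theorem lf_dl (hv : VT1) (T : Module.End ℂ S) (g : List M → ℕ → S) (l : List M) :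
    lf ℕ T (dl g l) = dl (fun l => lf ℕ T (g l)) l := (hv.map _ g l).symm

/-- the zigzag of the sequence `u` of forms of degree `m`, up to the length `j` -/
structure Up (h : E.OK) (m j : ℕ) (ε : ℝ) (u : ℕ → S) (g : List M → ℕ → S) : Prop where
  pos : 0 < ε
  nil : g [] = u
  cau : ∀ l, l.length ≤ j → g l ∈ Cau h
  deg : ∀ l i, l.length ≤ j → l.length + i = m → lf ℕ (X.dg i) (g l) = g l
  mid : ∀ l, l.length ≤ j → lf ℕ X.d (g l) - dl g l ∈ N0 h (Ns ε l)

theorem Up.step (hv : VT1) {h : E.OK} {m j ε u g} (H : Up h m j ε u g) :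
    ∃ (η : ℝ) (P : M → Module.End ℂ S) (μ : M → S →ₗ[ℂ] ℂ) (C : ℝ), 0 < η ∧ η ≤ ε ∧
      (∀ x j, X.dg j * P x = P x * X.dg (j + 1)) ∧ (∀ x u, μ x (X.dg 0 u) = μ x u) ∧
      (∀ x u, E.nrm (P x u) ≤ C * E.nrm u) ∧ (∀ x u, ‖μ x u‖ ≤ C * E.nrm u) ∧
      ∀ x l, l.length = j → dl g (x :: l) ∈ Cau h ∧
        (∀ i, j + i = m → lf ℕ (X.dg i) (dl g (x :: l)) = dl g (x :: l)) ∧
        (fun s => X.d (P x (dl g (x :: l) s)) - dl g (x :: l) s +
          μ x (dl g (x :: l) s) • E.one) ∈ N0 h (Ns η (x :: l)) := by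
  have hε := H.pos
  obtain ⟨δ, hδ, P, μ, C, -, h1, h2, h3, h4, h5, h6⟩ := h.po (ε / 2) (by positivity)
  refine ⟨min δ (ε / 4), P, μ, C, by positivity, (min_le_right _ _).trans (by linarith), h3, h4, h5,
    h6, fun x l hl => ?_⟩
  have hf : ∀ l' : List M, l'.length + 1 = (x :: l).length → l'.length = j := fun l' e => by
    rw [List.length_cons] at e
    omega
  refine ⟨hv.mem _ g _ fun l' _ e => H.cau l' (hf l' e).le, fun i hi =>
    hv.mem ((lf ℕ (X.dg i)).eqLocus (AddMonoidHom.id _)) g _ fun l' _ e =>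
      H.deg l' i (hf l' e).le (hf l' e ▸ hi), ?_⟩
  rcases (Ns (min δ (ε / 4)) (x :: l)).eq_empty_or_nonempty with e | ⟨z, hz⟩
  · rw [e]
    exact n0_vn fun _ _ c => c.elim
  have k1 : lf ℕ X.d (dl g (x :: l)) ∈ N0 h (Metric.ball x (ε / 2)) := by
    rw [lf_dl hv, ← sub_zero (dl _ _), ← hv.dldl g (x :: l), ← dl_sub hv]
    refine hv.mem _ _ _ fun l' a e => N0_mono h (O' := Ns ε l') (fun y hy x' hx' => ?_)
      (H.mid l' (hf l' e).le)
    have b1 := (hz x' (a.subset hx')).trans_le (min_le_right _ _)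
    have b2 := (hz x List.mem_cons_self).trans_le (min_le_right _ _)
    have b3 := dist_triangle4 x' z x y
    rw [Metric.mem_ball, dist_comm] at hy
    rw [dist_comm] at b2
    linarith
  obtain ⟨p, hp, v, hv', e⟩ := AddSubgroup.mem_sup.1 k1
  refine AddSubgroup.mem_sup.2 ⟨-lf ℕ (P x) p, neg_mem (nul_lf h (h5 x) hp), _, fun s y hy =>
    h2 x (dl g (x :: l) s) y ((hy x List.mem_cons_self).trans_le (min_le_left _ _)), ?_⟩
  funext s
  have e1 : X.d (dl g (x :: l) s) = p s + v s := (congrFun e s).symm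
  have e2 : P x (v s) = 0 := (h1 x _ fun y hy => hv' s y (Metric.mem_ball'.2 hy)).1
  simp only [Pi.add_apply, Pi.neg_apply, lf_apply, e1, map_add, e2]
  abel

theorem Up.succ (hv : VT1) {h : E.OK} {m j ε u g} (H : Up h m j ε u g) (hj : j < m) :
    ∃ η g', Up h m (j + 1) η u g' := by
  obtain ⟨η, P, μ, C, h1, h2, h3, h4, h5, -, h7⟩ := H.step hv
  let g' : List M → ℕ → S := fun l => match l with
    | [] => g []
    | x :: l => if l.length = j then lf ℕ (P x) (dl g (x :: l)) else g (x :: l)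
  have e1 : ∀ l, l.length ≤ j → g' l = g l := by
    rintro (_ | ⟨x, l⟩) hl
    · rfl
    · exact if_neg (by rw [List.length_cons] at hl; omega)
  have e2 : ∀ x l, l.length = j → g' (x :: l) = lf ℕ (P x) (dl g (x :: l)) := fun x l hl =>
    if_pos hl
  have e3 : ∀ l, l.length ≤ j + 1 → dl g' l = dl g l := fun l hl =>
    dl_congr hv fun l' e => e1 l' (by omega)
  have cs : ∀ l : List M, l.length ≤ j + 1 → l.length ≤ j ∨ ∃ x l', l'.length = j ∧ l = x :: l' := by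
    rintro (_ | ⟨x, l⟩) hl
    · exact .inl (Nat.zero_le _)
    · rw [List.length_cons] at hl ⊢
      exact (Nat.lt_or_ge l.length j).imp id fun c => ⟨x, l, by omega, rfl⟩
  refine ⟨η, g', h1, H.nil, fun l hl => ?_, fun l i hl hi => ?_, fun l hl => ?_⟩
  · obtain c | ⟨x, l, c, rfl⟩ := cs l hl
    · exact e1 l c ▸ H.cau l c
    · exact e2 x l c ▸ cau_lf h (h5 x) (h7 x l c).1
  · obtain c | ⟨x, l, c, rfl⟩ := cs l hl
    · exact e1 l c ▸ H.deg l i c hi
    · rw [e2 x l c]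
      funext s
      have k := congrFun ((h7 x l c).2.1 (i + 1) (by rw [List.length_cons] at hi; omega)) s
      exact (LinearMap.congr_fun (h3 x i) _).trans (congrArg (P x) k)
  · rw [e3 l hl]
    obtain c | ⟨x, l, c, rfl⟩ := cs l hl
    · exact e1 l c ▸ N0_mono h (Ns_mono h2 l) (H.mid l c)
    · obtain ⟨i, hi⟩ := Nat.exists_eq_add_of_lt hj
      have k : ∀ s, μ x (dl g (x :: l) s) = 0 := fun s => by
        have k1 : X.dg (i + 1) _ = _ := congrFun ((h7 x l c).2.1 (i + 1) (by omega)) s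
        have k2 := LinearMap.congr_fun (h.cx.dg_mul 0 (i + 1)) (dl g (x :: l) s)
        rw [if_neg (by omega), Module.End.mul_apply, k1, LinearMap.zero_apply] at k2
        rw [← h4, k2, map_zero]
      have k3 := (h7 x l c).2.2
      simp only [k, zero_smul, add_zero] at k3
      exact e2 x l c ▸ k3

theorem exists_up (hv : VT1) (h : E.OK) {m : ℕ} {u : ℕ → S} (h1 : u ∈ Cau h)
    (h2 : lf ℕ X.d u ∈ Nul h atTop) (h3 : lf ℕ (X.dg m) u = u) (j : ℕ) (hj : j ≤ m) :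
    ∃ ε g, Up h m j ε u g := by
  induction j with
  | zero =>
    refine ⟨1, fun _ => u, one_pos, rfl, fun _ _ => h1, fun l i a b => ?_, fun l a => ?_⟩
    · rwa [show i = m by omega]
    · rw [List.length_eq_zero_iff.1 (Nat.le_zero.1 a)]
      exact n0_nul (sub_mem h2 (zero_mem _))
  | succ j ih =>
    obtain ⟨ε, g, H⟩ := ih (by omega)
    exact H.succ hv hj

/-- constant sequences -/
def cst : S →+ (ℕ → S) := AddMonoidHom.mk' (fun u _ => u) fun _ _ => rfl

theorem Up.fin (hv : VT1) {h : E.OK} {m ε u g} (H : Up h m m ε u g) :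
    ∃ (η : ℝ) (a : List M → ℂ), 0 < η ∧ η ≤ ε ∧ Coc η m a ∧
      ∀ l, l.length = m + 1 → dl g l - cst (a l • E.one) ∈ N0 h (Ns η l) := by
  obtain ⟨η, P, μ, C, h1, h2, h3, -, -, h6, h7⟩ := H.step hv
  have k0 : ∀ l : List M, ∃ a : ℂ, l.length = m + 1 →
      dl g l - cst (a • E.one) ∈ N0 h (Ns η l) := by
    rintro (_ | ⟨x, l⟩)
    · exact ⟨0, fun e => absurd e (by simp)⟩
    by_cases c : l.length = m
    swap
    · exact ⟨0, fun e => absurd (by simpa using e) c⟩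
    obtain ⟨k1, k2, k3⟩ := h7 x l c
    obtain ⟨a, ha⟩ := cau_lim h (h6 x) k1
    have k4 : P x * X.dg 0 = 0 := by
      rw [← one_mul (P x), ← h.cx.dg_sum, Finset.sum_mul, Finset.sum_mul]
      refine Finset.sum_eq_zero fun i _ => ?_
      rw [h3, mul_assoc, h.cx.dg_mul, if_neg (by omega), mul_zero]
    have k5 : ∀ s, P x (dl g (x :: l) s) = 0 := fun s => by
      have k6 : X.dg 0 _ = _ := congrFun (k2 0 rfl) s
      rw [← k6]
      exact LinearMap.congr_fun k4 _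
    refine ⟨a, fun _ => ?_⟩
    have k7 := sub_mem (n0_nul (nul_smul h (tendsto_sub_nhds_zero_iff.2 ha) E.one)) k3
    refine (congrArg (· ∈ N0 h _) (funext fun s => ?_)).mp k7
    simp only [Pi.sub_apply, k5, map_zero, sub_smul]
    show _ = _ - a • E.one
    abel
  choose a ha using k0
  refine ⟨η, a, h1, h2, fun l hl hs => ?_, ha⟩
  obtain ⟨C', -, hC⟩ := h.ev _ (open_Ns η l) hs
  have k1 : dl (fun l => dl g l - cst (a l • E.one)) l ∈ N0 h (Ns η l) :=
    hv.mem _ _ _ fun l' b e => N0_mono h (Ns_sub b) (ha l' (by omega))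
  have k2 := hv.map (cst.comp (LinearMap.toSpanSingleton ℂ S E.one).toAddMonoidHom) a l
  rw [dl_sub hv, hv.dldl, zero_sub, neg_mem_iff] at k1
  obtain ⟨p, hp, v, hv', e⟩ := AddSubgroup.mem_sup.1 k1
  have k3 : ∀ s, ‖dl a l‖ ≤ C' * E.nrm (p s) := fun s => hC _ _ fun y hy => by
    have k4 : p s + v s = dl a l • E.one := (congrFun e s).trans (congrFun k2 s)
    rw [← k4, add_sub_cancel_left]
    exact hv' s y hy
  exact norm_le_zero_iff.1 (ge_of_tendsto' (by simpa using Tendsto.const_mul C' hp) k3)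

/-- sequences which are small on `O` up to differentials of small sequences -/
def NN (h : E.OK) (O : Set M) : AddSubgroup (ℕ → S) := N0 h O ⊔ (Nul h atTop).map (lf ℕ X.d)

theorem nn_n0 {h : E.OK} {O : Set M} {p : ℕ → S} (a : p ∈ N0 h O) : p ∈ NN h O :=
  AddSubgroup.mem_sup_left a

theorem nn_d {h : E.OK} {O : Set M} {p : ℕ → S} (a : p ∈ Nul h atTop) : lf ℕ X.d p ∈ NN h O :=
  AddSubgroup.mem_sup_right (AddSubgroup.mem_map_of_mem _ a)

theorem NN_le (h : E.OK) {O : Set M} {B : AddSubgroup (ℕ → S)} {T : (ℕ → S) →+ (ℕ → S)}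
    (h1 : ∀ p ∈ Nul h atTop, T p ∈ B) (h2 : ∀ v ∈ Vn E O, T v ∈ B)
    (h3 : ∀ q ∈ Nul h atTop, T (lf ℕ X.d q) ∈ B) {w : ℕ → S} (hw : w ∈ NN h O) : T w ∈ B :=
  (sup_le (sup_le h1 h2) (AddSubgroup.map_le_iff_le_comap.2 h3) : NN h O ≤ B.comap T) hw

theorem NN_d (h : E.OK) {O : Set M} (hO : IsOpen O) {w : ℕ → S} (hw : w ∈ NN h O) :
    lf ℕ X.d w ∈ NN h O := by
  refine NN_le h (fun p a => nn_d a) (fun v a => nn_n0 (n0_vn fun s z c =>
    h.dloc _ _ (mem_of_superset (hO.mem_nhds c) (a s)))) (fun q _ => ?_) hw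
  rw [show lf ℕ X.d (lf ℕ X.d q) = 0 from funext fun s => h.cx.dd _]
  exact zero_mem _

theorem down (hv : VT1) (h : E.OK) {m : ℕ} {ε : ℝ} (hε : 0 < ε) {g : List M → ℕ → S}
    (h1 : ∀ l, l.length ≤ m → lf ℕ X.d (g l) - dl g l ∈ NN h (Ns ε l))
    (h2 : ∀ l, l.length = m + 1 → dl g l ∈ NN h (Ns ε l)) :
    ∃ y, g [] - lf ℕ X.d y ∈ Nul h atTop := by
  obtain ⟨N, x, ρ, C, -, p1, p2, -, p4, p5⟩ := h.pu ε hε
  have k1 : ∀ i l w, w ∈ NN h (Ns ε (x i :: l)) → lf ℕ (ρ i) w ∈ NN h (Ns ε l) := by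
    intro i l w hw
    refine NN_le h (fun p a => nn_n0 (n0_nul (nul_lf h (p4 i) a)))
      (fun v a => nn_n0 (n0_vn fun s z c => p2 i _ z ?_)) (fun q a => ?_) hw
    · refine (lt_or_ge (dist (x i) z) ε).imp (fun d => a s z fun y e => ?_) id
      exact (List.mem_cons.1 e).elim (fun e => e ▸ d) (c y)
    · have e : lf ℕ (ρ i) (lf ℕ X.d q) =
          lf ℕ X.d (lf ℕ (ρ i) q) - lf ℕ (X.d * ρ i - ρ i * X.d) q :=
        funext fun s => (sub_sub_cancel _ _).symm
      rw [e]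
      exact sub_mem (nn_d (nul_lf h (p4 i) a)) (nn_n0 (n0_nul (nul_lf h (p5 i) a)))
  have k2 : ∀ (b : List M → ℕ → S) (l : List M), (∀ i, dl b (x i :: l) ∈ NN h (Ns ε (x i :: l))) →
      b l - dl (fun l => ∑ i, lf ℕ (ρ i) (b (x i :: l))) l ∈ NN h (Ns ε l) := by
    intro b l hb
    have e1 : b l = ∑ i, lf ℕ (ρ i) (b l) := funext fun s => by
      rw [Finset.sum_apply]
      exact ((LinearMap.sum_apply _ ρ _).symm.trans (LinearMap.congr_fun p1 _)).symm
    rw [dl_sum hv, e1, ← Finset.sum_sub_distrib]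
    refine sum_mem fun i _ => ?_
    rw [← lf_dl hv, ← map_sub]
    exact k1 i l _ (hb i)
  have e0 : ∀ w : ℕ → S, lf ℕ X.d (lf ℕ X.d w) = 0 := fun w => funext fun s => h.cx.dd _
  have k3 : ∀ i j, j + i = m → ∃ β : List M → ℕ → S, ∀ l, l.length = j + 1 →
      dl (fun l => g l - lf ℕ X.d (β l)) l ∈ NN h (Ns ε l) := by
    intro i
    induction i with
    | zero => exact fun j e => ⟨0, fun l a => by simpa using h2 l (by omega)⟩
    | succ i ih =>
      intro j e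
      obtain ⟨β, hβ⟩ := ih (j + 1) (by omega)
      refine ⟨fun l => ∑ i, lf ℕ (ρ i) (g (x i :: l) - lf ℕ X.d (β (x i :: l))), fun l a => ?_⟩
      have k4 := NN_d h (open_Ns ε l) (k2 _ l fun i => hβ _ (by rw [List.length_cons, a]))
      rw [map_sub, map_sub, e0, sub_zero, lf_dl hv] at k4
      rw [dl_sub hv, ← sub_sub_sub_cancel_left _ _ (lf ℕ X.d (g l))]
      exact sub_mem k4 (h1 l (by omega))
  obtain ⟨β, hβ⟩ := k3 m 0 (zero_add m)
  have k5 := k2 _ [] fun i => hβ _ rfl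
  obtain ⟨_, a, _, ⟨q, -, rfl⟩, e⟩ := AddSubgroup.mem_sup.1 k5
  obtain ⟨p, hp, v, hv', rfl⟩ := AddSubgroup.mem_sup.1 a
  have e1 : v = 0 := funext fun s => h.sep _ fun z => hv' s z fun _ c => absurd c List.not_mem_nil
  refine ⟨β [] + q, ?_⟩
  have e2 : p + v + lf ℕ X.d q = g [] - lf ℕ X.d (β []) - 0 := e
  rwa [map_add, ← sub_sub, ← sub_zero (g [] - lf ℕ X.d (β [])), ← e2, e1, add_zero,
    add_sub_cancel_right]

theorem one (hv : VT1) (hi : ZI) (h : E.OK) {m : ℕ} {u : ℕ → S} (h1 : u ∈ Cau h)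
    (h2 : lf ℕ X.d u ∈ Nul h atTop) (h3 : lf ℕ (X.dg m) u = u) :
    ∃ z y, X.d z = 0 ∧ u - cst z - lf ℕ X.d y ∈ Nul h atTop := by
  obtain ⟨ε, g, H⟩ := exists_up hv h h1 h2 h3 m le_rfl
  obtain ⟨η, a, k1, k2, k3, k4⟩ := H.fin hv
  obtain ⟨_, γ, rfl, hγ⟩ := (hi S D X M E h m).1 η a k1 k3
  have e : ∀ l, dl (fun l => g l - cst (γ l)) l = dl g l - cst (dl γ l) := fun l => by
    rw [dl_sub hv, hv.map]
  obtain ⟨y, hy⟩ := down hv h (m := m) k1 (g := fun l => g l - cst (γ l)) (fun l hl => by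
    have e1 : lf ℕ X.d (cst (γ l)) = cst (X.d (γ l)) := rfl
    rw [e, map_sub, e1, sub_sub_sub_comm, ← map_sub]
    exact nn_n0 (sub_mem (N0_mono h (Ns_mono k2 l) (H.mid l hl))
      (n0_vn fun _ => hγ.mid l hl))) fun l hl => by
    rw [e, ← sub_sub_sub_cancel_right _ _ (cst (a l • E.one)), ← map_sub]
    exact nn_n0 (sub_mem (k4 l hl) (n0_vn fun _ => hγ.fin l hl))
  refine ⟨γ [], y, h.sep _ fun z => ?_, H.nil ▸ hy⟩
  exact sub_zero (X.d (γ [])) ▸ hγ.mid [] (Nat.zero_le _) z fun _ c => absurd c List.not_mem_nil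

end Zs

open Zs in
/-- row ZS -/
theorem zs (hv : VT1) (hi : ZI) : ZS := by
  intro S _ _ D X M _ E h u h1 h2
  have k1 : u ∈ Cau h := Metric.tendsto_atTop.2 fun ε hε => by
    obtain ⟨N, hN⟩ := h1 ε hε
    refine ⟨(N, N), fun q hq => ?_⟩
    rw [Real.dist_0_eq_abs, abs_of_nonneg (h.nn _)]
    exact hN _ hq.1 _ hq.2
  have k2 : ∀ m v, E.nrm (X.dg m v) ≤ 1 * E.nrm v := fun m v =>
    (h.dgb m v).trans_eq (one_mul _).symm
  choose z y hz hy using fun m => one hv hi h (m := m) (cau_lf h (k2 m) k1)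
    ((congrArg (· ∈ Nul h atTop) (funext fun s => LinearMap.congr_fun (h.cx.dg_d m) (u s))).mp
      (nul_lf h (k2 (m + 1)) (p := lf ℕ X.d u) h2))
    (funext fun s => LinearMap.congr_fun ((h.cx.dg_mul m m).trans (if_pos rfl)) (u s))
  refine ⟨∑ m ∈ Finset.range (D + D + 1), z m, fun s => ∑ m ∈ Finset.range (D + D + 1), y m s,
    by simp [hz], ?_⟩
  refine (congrArg (· ∈ Nul h atTop) (funext fun s => ?_)).mp
    (sum_mem (t := Finset.range (D + D + 1)) fun m _ => hy m)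
  have e := LinearMap.congr_fun h.cx.dg_sum (u s)
  rw [LinearMap.sum_apply, Module.End.one_apply] at e
  rw [Finset.sum_apply, map_sum, ← e, ← Finset.sum_sub_distrib, ← Finset.sum_sub_distrib]
  rfl

end Vale.Agent.P281Z.Hg
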