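import Vale.Agent.P281Z.Hg.Pv4
import Vale.Agent.P281Z.Hg.One
import Vale.Agent.P281Z.Hg.F1a
import Vale.Agent.P281Z.Hg.F1b
import Vale.Agent.P281Z.Hg.F2a
import Vale.Agent.P281Z.Hg.F2b
import Vale.Agent.P281Z.Hg.K1a
import Vale.Agent.P281Z.Hg.K1b
import Vale.Agent.P281Z.Hg.Ab0a
import Vale.Agent.P281Z.Hg.Ab0b
import Vale.Agent.P281Z.Hg.Ab2
import Vale.Agent.P281Z.Hg.Flat
import Vale.Agent.P281Z.Hg.Tr
import Vale.Agent.P281Z.Hg.Fa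
import Vale.Agent.P281Z.Hg.Pvs
import Vale.Agent.P281Z.Hg.Vt1
import Vale.Agent.P281Z.Hg.Vt2
import Vale.Agent.P281Z.Hg.Vt3
import Vale.Agent.P281Z.Hg.Zr
import Vale.Agent.P281Z.Hg.Zi
import Vale.Agent.P281Z.Hg.Zs
import Vale.Agent.P281Z.Hg.Lt
import Vale.Agent.P281Z.Hg.Cm
import Vale.Agent.P281Z.Hg.G1
import Vale.Agent.P281Z.Hg.G2
import Vale.Agent.P281Z.Hg.G4
import Vale.Agent.P281Z.Hg.G5
import Vale.Agent.P281Z.Hg.G6
import Vale.Agent.P281Z.Hg.G7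
import Vale.Agent.P281Z.Hg.Po1
import Vale.Agent.P281Z.Hg.Po2
import Vale.Agent.P281Z.Hg.Po3
import Vale.Agent.P281Z.Hg.Pb1
import Vale.Agent.P281Z.Hg.Pb2
import Vale.Agent.P281Z.Hg.Fg1
import Vale.Agent.P281Z.Hg.Fg2
import Vale.Agent.P281Z.Hg.Fg3
import Vale.Agent.P281Z.Hg.Fib
import Vale.Agent.P281Z.Hg.Ehr
import Vale.Agent.P281Z.Hg.Trf
import Vale.Agent.P281Z.Hg.Topf
import Vale.Agent.P281Z.Hg.Mdl

/-!
# P281, Hodge block: all rows together (the Kaehler package rows as hypotheses)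
-/

open scoped Manifold ContDiff
open Vale.Agent.P272.K

namespace Vale.Agent.P281Z.Hg

theorem f2bT : F2b := f2b f1a f1b f2a

theorem k1aT : K1a := k1a f1a f1b

theorem kiAll : KIall := fun _ _ _ _ _ _ hX h =>
  ⟨KP.kia f2a hX h, KP.kib f2a hX h (KP.kia f2a hX h)⟩

theorem abAll : ABall :=
  abAll_of (fun _ _ _ _ _ _ hX h => KP.kia f2a hX h) fun _ _ _ _ _ _ hX h ha => KP.kib f2a hX h ha

theorem g1T (d : ℕ) (M : Type) [TopologicalSpace M] [ChartedSpace (Cm d) M] [T2Space M]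
    [CompactSpace M] [IsManifold 𝓘(ℂ, Cm d) ω M] : G1 d M := g1 f1a f2bT k1b' d M

theorem g2T (d : ℕ) (M : Type) [TopologicalSpace M] [ChartedSpace (Cm d) M] [T2Space M]
    [CompactSpace M] [IsManifold 𝓘(ℂ, Cm d) ω M] : G2 d M := g2 f1a f1b k1aT k1b' (g1T d M)

theorem g4T (d : ℕ) (M : Type) [TopologicalSpace M] [ChartedSpace (Cm d) M] [T2Space M]
    [CompactSpace M] [IsManifold 𝓘(ℂ, Cm d) ω M] : G4 d M := g4 f1a f1b f2bT (g1T d M)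

theorem pb1T (d : ℕ) (M : Type) [TopologicalSpace M] [ChartedSpace (Cm d) M] [T2Space M]
    [CompactSpace M] [IsManifold 𝓘(ℂ, Cm d) ω M] (d' : ℕ) (M' : Type) [TopologicalSpace M']
    [ChartedSpace (Cm d') M'] [T2Space M'] [CompactSpace M'] [IsManifold 𝓘(ℂ, Cm d') ω M'] :
    PB1 d M d' M' := pb1 d M d' M' f1a f1b k1aT k1b' (g1T d M)

theorem rows_of
    (h3 : ∀ (d : ℕ) (M : Type) [TopologicalSpace M] [ChartedSpace (Cm d) M] [T2Space M]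
      [CompactSpace M] [IsManifold 𝓘(ℂ, Cm d) ω M], G3 d M)
    (hb : ∀ (d : ℕ) (M : Type) [TopologicalSpace M] [ChartedSpace (Cm d) M] [T2Space M]
      [CompactSpace M] [IsManifold 𝓘(ℂ, Cm d) ω M], G4b d M) : Rows where
  f1a := f1a
  f2b := f2bT
  ab := abAll
  flat := flat_of f2a abAll
  tr := tr_of abAll
  fa := fa_of abAll (tr_of abAll)
  pvs := pvs
  cm := cm_of (zr vt1) zi'
  one d M _ _ _ _ := one_of d M kiAll abAll (g2T d M) (h3 d M) (g4T d M)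
    (g5 f2bT (g1T d M) (g4T d M)) (g6 f1b k1aT d M (g1T d M))
    (g7 k1aT (g1T d M) (g2T d M) (hb d M)) (pog' k1aT (po1' k1aT) po2 (g1T d M)) (ulcg d M)
    vt2' (vt3 vt1) (zs vt1 zi') (lt_of vt1 (zr vt1) zi')
  g1 := g1T
  g2 := g2T
  fg1 d M _ _ _ _ _ := fg1 (hb d M)
  fg2 d M _ _ _ _ _ := fg2 f1a f1b k1aT k1b' (g1T d M) (hb d M)
  fg3 d M _ _ _ _ _ := fg3 f1b k1aT k1b' (g1T d M)
  pb1 := pb1T
  pbc d M _ _ _ _ _ d' M' _ _ _ _ _ := pbc d M d' M' f1a k1b'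
  pb2 d M M' _ _ _ _ _ _ _ _ _ _ :=
    pb2 f1a k1b' (g1T d M) (g1T d M') (pb1T d M d M') (pb1T d M' d M)
  fam p d X Y _ _ _ _ _ _ _ _ _ :=
    ⟨fib p d X Y, ehr p d X Y, trf p d X Y, topf p d X Y f1b f2bT k1aT (g1T d) (g4T d), mdl p d X Y k1b'⟩

end Vale.Agent.P281Z.Hg
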