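import Vale.Agent.P299.H835.IX.FockD

/-!
# P281, Hodge block: pointwise definitions (forms of all degrees as vectors of the Fock space)

The index `hl j` stands for `dz_j`, the index `ah j` for `dz̄_j`.
-/

open scoped ContDiff ComplexOrder Topology Matrix
open Vale.Agent.P272.K Vale.Agent.P272.K.C2 Vale.Agent.P299.IX Vale.Agent.P299.IX.Fock

noncomputable section

namespace Vale.Agent.P281Z.Hg

/-- forms at a point of `ℂ^d` -/
abbrev Fo (d : ℕ) : Type := Fk (d + d)

/-- operators on forms at a point -/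
abbrev Fm (d : ℕ) : Type := FM (d + d)

/-- truncated exponential -/
def ex {R : Type*} [Ring R] [Algebra ℂ R] (K : ℕ) (A : R) : R :=
  ∑ k ∈ Finset.range K, ((k.factorial : ℂ))⁻¹ • A ^ k

/-- the Weyl element of the triple `L`, `Λ` in complex dimension `D` -/
def wy {R : Type*} [Ring R] [Algebra ℂ R] (D : ℕ) (L Lm : R) : R :=
  ex (D + D + 2) L * ex (D + D + 2) (-Lm) * ex (D + D + 2) L

variable {d : ℕ}

/-- index of `dz_j` -/
def hl (j : Fin d) : Fin (d + d) := Fin.castAdd d j

/-- index of `dz̄_j` -/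
def ah (j : Fin d) : Fin (d + d) := Fin.natAdd d j

/-- holomorphic degree of a multi-index -/
def tp (I : FI (d + d)) : ℕ := (I.filter fun a => a.val < d).card

/-- the multi-index of `dz_1 ∧ … ∧ dz_d` -/
def Hd (d : ℕ) : FI (d + d) := Finset.univ.filter fun a => a.val < d

/-- projector on holomorphic degree `k` -/
def pm (d k : ℕ) : Fm d := Matrix.diagonal fun I => if tp I = k then 1 else 0

/-- the Weil operator `i^(q-p)` -/
def Cw (d : ℕ) : Fm d := Matrix.diagonal fun I => Complex.I ^ I.card * (-1) ^ tp I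

/-- exterior power of a rectangular matrix: column `l` of `J` is the image of the `l`-th
generator -/
def lr {a b : ℕ} (J : Matrix (Fin a) (Fin b) ℂ) : Matrix (FI a) (FI b) ℂ :=
  qz (fun l => epsV fun p => J p l) (ev ∅)

/-- block diagonal matrices -/
def blk (A B : Matrix (Fin d) (Fin d) ℂ) : Matrix (Fin (d + d)) (Fin (d + d)) ℂ :=
  Matrix.reindex finSumFinEquiv finSumFinEquiv (Matrix.fromBlocks A 0 0 B)

/-- the exchange of `dz_j` and `dz̄_j` -/
def swm (d : ℕ) : Matrix (Fin (d + d)) (Fin (d + d)) ℂ :=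
  Matrix.reindex finSumFinEquiv finSumFinEquiv (Matrix.fromBlocks 0 1 1 0)

/-- complex conjugation of forms -/
def cjv (u : Fo d) : Fo d := lam (swm d) *ᵥ star u

/-- the pairing: top coefficient of the reversal of `v` wedge `u` -/
def Bq {n : ℕ} (u v : Fk n) : ℂ := u ⬝ᵥ (hst *ᵥ v)

/-- exterior multiplication by `u` on the left -/
def wg {n : ℕ} (u : Fk n) : FM n := Matrix.of fun K J => (qz eps (ev J) *ᵥ u) K

/-- exterior multiplication by `i Σ w_jk dz_j ∧ dz̄_k` -/
def Lw (w : Matrix (Fin d) (Fin d) ℂ) : Fm d :=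
  ∑ j, ∑ k, (Complex.I * w j k) • (eps (hl j) * eps (ah k))

/-- the dual Lefschetz operator -/
def Lam (w : Matrix (Fin d) (Fin d) ℂ) : Fm d :=
  ∑ j, ∑ k, (-Complex.I * w⁻¹ k j) • (iot (ah k) * iot (hl j))

/-- the matrix of the form `Bq (conj u) (W C v)` -/
def G0 (w : Matrix (Fin d) (Fin d) ℂ) : Fm d := lam (swm d) * hst * wy d (Lw w) (Lam w) * Cw d

/-- the normalising constant -/
def cc (d : ℕ) : ℂ := (G0 (1 : Matrix (Fin d) (Fin d) ℂ) ∅ ∅)⁻¹

/-- the metric on forms times the volume density -/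
def Gm (w : Matrix (Fin d) (Fin d) ℂ) : Fm d := w.det • lam (blk w⁻¹ w⁻¹ᵀ)

/-- the derivative `∂/∂z_j` or `∂/∂z̄_j` -/
def dr (c : Fin (d + d)) : (Cm d → ℂ) → Cm d → ℂ :=
  Fin.addCases (motive := fun _ => (Cm d → ℂ) → Cm d → ℂ) (fun j => dz j) (fun j => dzb j) c

/-- derivative of vector valued functions -/
def Dv {κ : Type*} (c : Fin (d + d)) (u : Cm d → κ → ℂ) (z : Cm d) : κ → ℂ :=
  fun I => dr c (fun y => u y I) z

/-- the exterior derivative -/
def dT (u : Cm d → Fo d) (z : Cm d) : Fo d := ∑ c, eps c *ᵥ Dv c u z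

/-- the coordinates `w_j`, `w̄_j` of a point -/
def cx {b : ℕ} (w : Cm b) (l : Fin (b + b)) : ℂ :=
  Fin.addCases (motive := fun _ => ℂ) (fun j => w j) (fun j => star (w j)) l

/-- the complexified Jacobian matrix: column `l` is the differential of the coordinate `l` -/
def jc {a b : ℕ} (ψ : Cm a → Cm b) (z : Cm a) : Matrix (Fin (a + a)) (Fin (b + b)) ℂ :=
  Matrix.of fun p l => dr p (fun y => cx (ψ y) l) z

/-- pull-back of a form by a map -/
def pbk {a b : ℕ} (ψ : Cm a → Cm b) (u : Cm b → Fo b) (z : Cm a) : Fo a :=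
  lr (jc ψ z) *ᵥ u (ψ z)

/-- contraction with the holomorphic vector `η` -/
def ctr (η : Fin d → ℂ) : Fm d := ∑ l, η l • iot (hl l)

end Vale.Agent.P281Z.Hg
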