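import Vale.Agent.P272.K.C2.Mat
import Mathlib.LinearAlgebra.Matrix.PosDef

/-!
# P281, Hodge block: the output (polarised integral variation of Hodge structure in matrices)
-/

open scoped ContDiff ComplexOrder Topology Matrix
open Vale.Agent.P272.K Vale.Agent.P272.K.C2

noncomputable section

namespace Vale.Agent.P281Z.Hg

/-- square complex matrices -/
abbrev Mt (n : ℕ) : Type := Matrix (Fin n) (Fin n) ℂ

variable {n p : ℕ}

/-- the projector on the step `F^k` of the Hodge filtration -/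
def Fp {T : Type*} (w : ℕ) (Pr : ℕ → T → Mt n) (k : ℕ) (t : T) : Mt n :=
  ∑ j ∈ Finset.Ico k (w + 1), Pr j t

/-- the grading operator -/
def Pw {T : Type*} (w : ℕ) (Pr : ℕ → T → Mt n) (t : T) : Mt n :=
  ∑ k ∈ Finset.range (w + 1), (k : ℂ) • Pr k t

/-- the Weil sign, `+1` on the top piece -/
def Sg {T : Type*} (w : ℕ) (Pr : ℕ → T → Mt n) (t : T) : Mt n :=
  ∑ k ∈ Finset.range (w + 1), ((-1 : ℂ) ^ (w - k)) • Pr k t

/-- a polarised grading (one point) -/
structure PG {T : Type*} (w : ℕ) (Q : Mt n) (Pr : ℕ → T → Mt n) (t : T) : Prop where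
  orth : ∀ j k, Pr j t * Pr k t = if j = k then Pr k t else 0
  sum : ∑ k ∈ Finset.range (w + 1), Pr k t = 1
  zero : ∀ k, w < k → Pr k t = 0
  herm : Q.IsHermitian
  adj : ∀ k, (Pr k t)ᴴ * Q = Q * Pr k t
  pos : (Q * Sg w Pr t).PosDef

/-- a polarised variation of Hodge structure at the point `t`, in a flat frame: `Q` is the flat
Hermitian form, `Pr k` the projector on the piece of type `k` -/
structure PVAt (w : ℕ) (Q : Mt n) (Pr : ℕ → Cm p → Mt n) (t : Cm p) : Prop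
    extends PG w Q Pr t where
  smooth : ∀ k, MC ∞ (Pr k) t
  trans : ∀ k j, DM j (Fp w Pr (k + 1)) t = Pr k t * DM j (Fp w Pr (k + 1)) t * Pr (k + 1) t
  comm : ∀ j, Pw w Pr t * DM j (Pw w Pr) t - DM j (Pw w Pr) t * Pw w Pr t = -DM j (Pw w Pr) t

/-- integer matrices as complex matrices -/
def zc (g : Matrix (Fin n) (Fin n) ℤ) : Mt n := g.map (Int.cast : ℤ → ℂ)

/-- a polarised integral variation of Hodge structure on the open set `U`, given by flat frames
on neighbourhoods `N a` of the points `a` of `U` and a locally constant integral cocycle -/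
structure Loc (p n w : ℕ) {Y : Type} [TopologicalSpace Y] [ChartedSpace (Cm p) Y]
    (U : Set Y) where
  N : Y → Set Y
  Q : Y → Mt n
  Pr : Y → ℕ → Y → Mt n
  g : Y → Y → Y → Matrix (Fin n) (Fin n) ℤ
  opn : ∀ a, IsOpen (N a)
  mem : ∀ a ∈ U, a ∈ N a
  sub : ∀ a, N a ⊆ U
  pv : ∀ a (e : Chart p Y) x, At e x → x ∈ N a →
    PVAt w (Q a) (fun k z => Pr a k (e.symm z)) (e x)
  lc : ∀ a b, ∀ t ∈ N a, t ∈ N b → ∀ᶠ s in 𝓝 t, g a b s = g a b t
  one : ∀ a, ∀ t ∈ N a, g a a t = 1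
  coc : ∀ a b c, ∀ t ∈ N a, t ∈ N b → t ∈ N c → g a b t * g b c t = g a c t
  chP : ∀ a b k, ∀ t ∈ N a, t ∈ N b → Pr a k t * zc (g a b t) = zc (g a b t) * Pr b k t
  chQ : ∀ a b, ∀ t ∈ N a, t ∈ N b → Q b = (zc (g a b t))ᴴ * Q a * zc (g a b t)

/-- a holomorphic section over `V` of the flat bundle, in the frames -/
structure Loc.Sec {w : ℕ} {Y : Type} [TopologicalSpace Y] [ChartedSpace (Cm p) Y] {U : Set Y}
    (L : Loc p n w U) (V : Set Y) (ψ : Y → Y → Fin n → ℂ) : Prop where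
  ch : ∀ a b, ∀ t ∈ L.N a, t ∈ L.N b → t ∈ V → ψ a t = zc (L.g a b t) *ᵥ ψ b t
  hol : ∀ a (e : Chart p Y) x, At e x → x ∈ L.N a → x ∈ V →
    ∀ᶠ y in 𝓝 (e x), DifferentiableAt ℂ (fun z => ψ a (e.symm z)) y
  top : ∀ a, ∀ t ∈ L.N a, t ∈ V → L.Pr a w t *ᵥ ψ a t = ψ a t

end Vale.Agent.P281Z.Hg
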