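import Vale.Agent.P281Z.Hg.D0
import Vale.Agent.P281Z.Hg.Out

/-!
# P281, Hodge block: the abstract de Rham complex with a Kähler package
-/

open scoped ComplexOrder Topology Matrix
open Filter

noncomputable section

namespace Vale.Agent.P281Z.Hg

/-- a complex with a pairing, a conjugation and a grading; `D` is the complex dimension -/
structure Cx (S : Type) [AddCommGroup S] [Module ℂ S] (D : ℕ) where
  d : Module.End ℂ S
  Q : S →ₗ[ℂ] S →ₗ[ℂ] ℂ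
  cj : S →ₛₗ[starRingEnd ℂ] S
  dg : ℕ → Module.End ℂ S

variable {S : Type} [AddCommGroup S] [Module ℂ S] {D : ℕ}

/-- the axioms of the complex -/
structure Cx.OK (X : Cx S D) : Prop where
  dd : ∀ a, X.d (X.d a) = 0
  Qd : ∀ a b, X.Q (X.d a) b = -X.Q a (X.d b)
  Qs : ∀ a b, X.Q a b = (-1) ^ D * X.Q b a
  cjcj : ∀ a, X.cj (X.cj a) = a
  cjd : ∀ a, X.cj (X.d a) = X.d (X.cj a)
  Qcj : ∀ a b, X.Q (X.cj a) (X.cj b) = (-1) ^ D * star (X.Q a b)
  dg_mul : ∀ j k, X.dg j * X.dg k = if j = k then X.dg k else 0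
  dg_sum : ∑ m ∈ Finset.range (D + D + 1), X.dg m = 1
  dg_zero : ∀ m, D + D < m → X.dg m = 0
  dg_d : ∀ m, X.dg (m + 1) * X.d = X.d * X.dg m
  dg0_d : X.dg 0 * X.d = 0
  Qdg : ∀ j k a b, j + k = D + D → X.Q (X.dg j a) b = X.Q a (X.dg k b)
  cjdg : ∀ m a, X.cj (X.dg m a) = X.dg m (X.cj a)

/-- closed forms orthogonal to all closed forms -/
def Cx.Nul (X : Cx S D) : Submodule ℂ S where
  carrier := {z | X.d z = 0 ∧ ∀ y, X.d y = 0 → X.Q y z = 0}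
  add_mem' := by
    rintro a b ⟨h1, h2⟩ ⟨h3, h4⟩
    exact ⟨by rw [map_add, h1, h3, add_zero], fun y hy => by
      rw [map_add, h2 y hy, h4 y hy, add_zero]⟩
  zero_mem' := ⟨map_zero _, fun y _ => map_zero _⟩
  smul_mem' := by
    rintro c a ⟨h1, h2⟩
    exact ⟨by rw [map_smul, h1, smul_zero], fun y hy => by rw [map_smul, h2 y hy, smul_zero]⟩

/-- closed forms of degree `m` -/
def Cx.Cl (X : Cx S D) (m : ℕ) (z : S) : Prop := X.d z = 0 ∧ X.dg m z = z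

/-- `b` is a basis of the cohomology of degree `m` -/
structure Cx.Bas (X : Cx S D) (m : ℕ) {n : ℕ} (b : Fin n → S) : Prop where
  cl : ∀ i, X.Cl m (b i)
  ind : ∀ c : Fin n → ℂ, ∑ i, c i • b i ∈ X.Nul → c = 0
  span : ∀ z, X.Cl m z → ∃ c : Fin n → ℂ, z - ∑ i, c i • b i ∈ X.Nul

/-- the degree operator -/
def Cx.Nd (X : Cx S D) : Module.End ℂ S := ∑ m ∈ Finset.range (D + D + 1), (m : ℂ) • X.dg m

/-- an isomorphism of complexes -/
structure Cx.Iso {S' : Type} [AddCommGroup S'] [Module ℂ S'] (X' : Cx S' D) (X : Cx S D)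
    (T : S' ≃ₗ[ℂ] S) : Prop where
  d : ∀ a, T (X'.d a) = X.d (T a)
  Q : ∀ a b, X.Q (T a) (T b) = X'.Q a b
  cj : ∀ a, T (X'.cj a) = X.cj (T a)
  dg : ∀ m a, T (X'.dg m a) = X.dg m (T a)

/-- the data of a Kähler structure: projectors on the holomorphic degrees, Lefschetz operators,
normalising constant -/
structure KP (X : Cx S D) where
  pr : ℕ → Module.End ℂ S
  L : Module.End ℂ S
  Lm : Module.End ℂ S
  c : ℂ

namespace KP

variable {X : Cx S D} (K : KP X)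

/-- `∂` -/
def A : Module.End ℂ S := ∑ k ∈ Finset.range (D + 1), K.pr (k + 1) * X.d * K.pr k

/-- `∂̄` -/
def Ab : Module.End ℂ S := ∑ k ∈ Finset.range (D + 1), K.pr k * X.d * K.pr k

/-- the Weyl element -/
def W : Module.End ℂ S := wy D K.L K.Lm

/-- the Weil operator -/
def C : Module.End ℂ S := ∑ m ∈ Finset.range (D + D + 1), ∑ k ∈ Finset.range (D + 1),
  (Complex.I ^ m * (-1) ^ k) • (X.dg m * K.pr k)

/-- the `L²` inner product -/
def ip (a b : S) : ℂ := K.c * X.Q (X.cj a) (K.W (K.C b))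

/-- the `L²` norm -/
def nrm (a : S) : ℝ := Real.sqrt (K.ip a a).re

/-- the adjoint of `∂` -/
def As : Module.End ℂ S := Complex.I • (K.Lm * K.Ab - K.Ab * K.Lm)

/-- the adjoint of `∂̄` -/
def Abs : Module.End ℂ S := (-Complex.I) • (K.Lm * K.A - K.A * K.Lm)

/-- the adjoint of `d` -/
def ds : Module.End ℂ S := K.As + K.Abs

/-- bounded operators -/
def Bdd (T : S → S) : Prop := ∃ C : ℝ, 0 ≤ C ∧ ∀ a, K.nrm (T a) ≤ C * K.nrm a

/-- sequences tending to zero -/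
def Null (u : ℕ → S) : Prop := Tendsto (fun s => K.nrm (u s)) atTop (𝓝 0)

/-- Cauchy sequences -/
def Cau (u : ℕ → S) : Prop := ∀ ε : ℝ, 0 < ε → ∃ N, ∀ r ≥ N, ∀ s ≥ N, K.nrm (u r - u s) < ε

/-- sequences converging to a harmonic form -/
structure Har (v : ℕ → S) : Prop where
  cau : K.Cau v
  d : K.Null fun s => X.d (v s)
  ds : K.Null fun s => K.ds (v s)

/-- `v` converges to the harmonic representative of the closed form `z` -/
structure Rep (z : S) (v : ℕ → S) : Prop extends K.Har v where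
  cl : X.d z = 0
  coh : ∃ y : ℕ → S, K.Null fun s => v s - z - X.d (y s)

/-- the algebraic axioms -/
structure Alg : Prop where
  pr_mul : ∀ j k, K.pr j * K.pr k = if j = k then K.pr k else 0
  pr_sum : ∑ k ∈ Finset.range (D + 1), K.pr k = 1
  pr_zero : ∀ k, D < k → K.pr k = 0
  pr_dg : ∀ k m, K.pr k * X.dg m = X.dg m * K.pr k
  Qpr : ∀ j k a b, j + k = D → X.Q (K.pr j a) b = X.Q a (K.pr k b)
  cjpr : ∀ j k a, X.cj (K.pr j (X.dg (j + k) a)) = K.pr k (X.dg (j + k) (X.cj a))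
  pr_lt : ∀ k m, m < k → K.pr k * X.dg m = 0
  dtype : ∀ j k, j ≠ k → j ≠ k + 1 → K.pr j * X.d * K.pr k = 0
  Ld : K.L * X.d = X.d * K.L
  prL : ∀ k, K.pr (k + 1) * K.L = K.L * K.pr k
  dgL : ∀ m, X.dg (m + 2) * K.L = K.L * X.dg m
  prLm : ∀ k, K.pr k * K.Lm = K.Lm * K.pr (k + 1)
  dgLm : ∀ m, X.dg m * K.Lm = K.Lm * X.dg (m + 2)
  sl2 : K.Lm * K.L - K.L * K.Lm = (D : ℂ) • 1 - X.Nd
  QL : ∀ a b, X.Q (K.L a) b = -X.Q a (K.L b)
  QLm : ∀ a b, X.Q (K.Lm a) b = -X.Q a (K.Lm b)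
  cjL : ∀ a, X.cj (K.L a) = K.L (X.cj a)
  cjLm : ∀ a, X.cj (K.Lm a) = K.Lm (X.cj a)
  herm : ∀ a b, K.ip a b = star (K.ip b a)
  pos : ∀ a, 0 ≤ (K.ip a a).re
  defn : ∀ a, K.ip a a = 0 → a = 0
  bL : K.Bdd K.L
  bLm : K.Bdd K.Lm
  bcj : K.Bdd X.cj
  c0 : K.c ≠ 0

/-- weakly harmonic forms are strongly harmonic -/
def WS : Prop := ∀ u : ℕ → S, K.Cau u →
  (∀ y, Tendsto (fun s => K.ip ((X.d + K.ds) y) (u s)) atTop (𝓝 0)) →
  ∃ v : ℕ → S, (K.Null fun s => u s - v s) ∧ K.Null fun s => (X.d + K.ds) (v s)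

/-- closed `L²` forms are cohomologous to smooth closed forms -/
def S1 : Prop := ∀ u : ℕ → S, K.Cau u → (K.Null fun s => X.d (u s)) →
  ∃ (z : S) (y : ℕ → S), X.d z = 0 ∧ K.Null fun s => u s - z - X.d (y s)

/-- forms of top holomorphic type -/
def Top (s : S) : Prop := K.pr D s = s ∧ X.dg D s = s

/-- closed `L²` forms of top holomorphic type are smooth -/
def HOL : Prop := ∀ v : ℕ → S, K.Cau v → (K.Null fun s => X.d (v s)) → (∀ s, K.Top (v s)) →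
  ∃ σ, X.d σ = 0 ∧ K.Top σ ∧ K.Null fun s => v s - σ

/-- all axioms -/
structure OK : Prop where
  cx : X.OK
  alg : K.Alg
  ws : K.WS
  s1 : K.S1
  hol : K.HOL

variable {n : ℕ}

/-- `Pr k` is the matrix, in the basis `b`, of the projector on the classes of holomorphic
degree `k` -/
def IsPr (b : Fin n → S) (Pr : ℕ → Mt n) : Prop :=
  ∀ k j v, K.Rep (b j) v → K.Rep (∑ i, Pr k i j • b i) fun s => K.pr k (v s)

/-- `Qm` is the matrix of the polarisation in the middle degree -/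
def IsQ (b : Fin n → S) (Qm : Mt n) : Prop :=
  ∀ i j v, K.Rep (b j) v → Tendsto (fun s =>
    K.c * (Complex.I ^ D * (-1) ^ D) * X.Q (X.cj (b i)) (K.W (v s))) atTop (𝓝 (Qm i j))

/-- transport of the Kähler package along an isomorphism -/
def tr {S' : Type} [AddCommGroup S'] [Module ℂ S'] {X' : Cx S' D} (K' : KP X') (X : Cx S D)
    (T : S' ≃ₗ[ℂ] S) : KP X where
  pr k := T.conj (K'.pr k)
  L := T.conj K'.L
  Lm := T.conj K'.Lm
  c := K'.c

end KP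

/-- hypotheses on a family of Kähler packages on one complex at the point `t0` -/
structure FamH {p : ℕ} {X : Cx S D} (K : (Fin p → ℂ) → KP X) (t0 : Fin p → ℂ) : Prop where
  ok0 : (K t0).OK
  ok : ∀ᶠ t in 𝓝 t0, (K t).OK
  h1 : ∀ ε : ℝ, 0 < ε → ∀ᶠ t in 𝓝 t0, ∀ a,
    |((K t).ip a a).re - ((K t0).ip a a).re| ≤ ε * ((K t0).ip a a).re
  h2 : ∀ k, ∀ ε : ℝ, 0 < ε → ∀ᶠ t in 𝓝 t0, ∀ a,
    (K t0).nrm ((K t).pr k a - (K t0).pr k a) ≤ ε * (K t0).nrm a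
  h3 : ∀ j k, j + 2 ≤ k → ∀ ε : ℝ, 0 < ε → ∀ᶠ t in 𝓝 t0, ∀ a,
    (K t0).nrm ((K t0).pr j ((K t).pr k a)) ≤ ε * ‖t - t0‖ * (K t0).nrm a
  h4 : ∃ μ η : Fin p → Module.End ℂ S, (∀ j, (K t0).Bdd (μ j)) ∧ (∀ j, (K t0).Bdd (η j)) ∧
    (∀ j, (K t0).Bdd ((K t0).Ab * η j + η j * (K t0).Ab)) ∧
    ∀ k, ∀ ε : ℝ, 0 < ε → ∀ᶠ t in 𝓝 t0, ∀ a,
      (K t0).nrm ((K t0).pr k ((K t).pr (k + 1) a - ∑ j, ((t - t0) j • μ j ((K t0).pr (k + 1) a) +
        star ((t - t0) j) • ((K t0).Ab * η j + η j * (K t0).Ab) ((K t0).pr (k + 1) a)))) ≤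
        ε * ‖t - t0‖ * (K t0).nrm a

/-- first order behaviour of a family of gradings at the point `t0` -/
structure Ctr {p n : ℕ} (w : ℕ) (Pr : ℕ → (Fin p → ℂ) → Mt n) (t0 : Fin p → ℂ) : Prop where
  cont : ∀ k i j, ContinuousAt (fun t => Pr k t i j) t0
  der : ∀ k, ∃ Dm : Fin p → Mt n, (∀ j, Pr k t0 * Dm j = Dm j) ∧ ∀ i i',
    (fun t => ((1 - Fp w Pr (k + 1) t0) * Fp w Pr (k + 1) t - ∑ j, (t - t0) j • Dm j) i i')
      =o[𝓝 t0] fun t => t - t0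

end Vale.Agent.P281Z.Hg
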