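import Vale.Agent.P281Z.Hg.DG
import Vale.Agent.P281.H152.K.Chart

/-!
# P281, Hodge block: smooth families, fibres, the final statement
-/

open scoped Manifold ContDiff ComplexOrder Topology Matrix
open Filter MeasureTheory
open Vale.Agent.P272.K Vale.Agent.P299.IX Vale.Agent.P299.IX.Fock

noncomputable section

namespace Vale.Agent.P281Z.Hg

/-- a chart of the base and a product chart of the total space -/
abbrev PC (p d : ℕ) (X Y : Type) [TopologicalSpace X] [TopologicalSpace Y] : Type :=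
  Chart p Y × OpenPartialHomeomorph X (Cm p × Cm d)

variable {p d : ℕ} {X Y : Type} [TopologicalSpace X] [ChartedSpace (Cm (p + d)) X]
  [TopologicalSpace Y] [ChartedSpace (Cm p) Y]

/-- product charts of `f` -/
def IsPC (f : X → Y) (q : PC p d X Y) : Prop :=
  q.1 ∈ atlas (Cm p) Y ∧ Vale.Agent.P281.H152.K.IsProd f q.1 q.2

/-- the Jacobian determinant of the change of fibre coordinates from `q` to `q'` at `x` -/
def fdet (q q' : PC p d X Y) (x : X) : ℂ :=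
  (Matrix.of fun a i => dz i (fun z => (q'.2 (q.2.symm ((q.2 x).1, z))).2 a) (q.2 x).2 :
    Matrix (Fin d) (Fin d) ℂ).det

/-- `σ` is a holomorphic form of top degree on the fibre over `t`: `σ q dz_1 ∧ … ∧ dz_d` in the
product chart `q` -/
structure FibHol (f : X → Y) (t : Y) (σ : PC p d X Y → Cm d → ℂ) : Prop where
  hol : ∀ q x, IsPC f q → x ∈ q.2.source → f x = t → AnalyticAt ℂ (σ q) (q.2 x).2
  ch : ∀ q q' x, IsPC f q → IsPC f q' → x ∈ q.2.source → x ∈ q'.2.source → f x = t →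
    σ q (q.2 x).2 = fdet q q' x * σ q' (q'.2 x).2

/-- `s` is a holomorphic relative form of top degree over `V` -/
structure RelHol (f : X → Y) (V : Set Y) (s : PC p d X Y → Cm p × Cm d → ℂ) : Prop where
  hol : ∀ q x, IsPC f q → x ∈ q.2.source → f x ∈ V → AnalyticAt ℂ (s q) (q.2 x)
  ch : ∀ q q' x, IsPC f q → IsPC f q' → x ∈ q.2.source → x ∈ q'.2.source → f x ∈ V →
    s q (q.2 x) = fdet q q' x * s q' (q'.2 x)

/-- restriction of a relative form to a fibre -/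
def rs (s : PC p d X Y → Cm p × Cm d → ℂ) (t : Y) : PC p d X Y → Cm d → ℂ :=
  fun q z => s q (q.1 t, z)

/-- `I` is the integral over the fibre over `t` of the density `F` -/
def FibItg (f : X → Y) (t : Y) (F : PC p d X Y → Cm d → ℂ) (I : ℂ) : Prop :=
  ∀ (N : ℕ) (q : Fin N → PC p d X Y) (ρ : Fin N → X → ℝ), (∀ i, IsPC f (q i)) →
    (∀ i, t ∈ (q i).1.source) → (∀ i, Continuous (ρ i)) →
    (∀ i, tsupport (ρ i) ⊆ (q i).2.source) → (∀ x, f x = t → ∑ i, ρ i x = 1) →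
    ∑ i, ∫ z in {z : Cm d | ((q i).1 t, z) ∈ (q i).2.target},
      (ρ i ((q i).2.symm ((q i).1 t, z)) : ℂ) * F (q i) z = I

/-- the class map -/
structure ClMap {n : ℕ} (f : X → Y) {U : Set Y} (L : Loc p n d U)
    (cl : Y → Y → (PC p d X Y → Cm d → ℂ) → Fin n → ℂ) : Prop where
  lin : ∀ a, ∀ t ∈ L.N a, ∀ (c : ℂ) σ σ', FibHol f t σ → FibHol f t σ' →
    cl a t (σ + c • σ') = cl a t σ + c • cl a t σ'
  ch : ∀ a b, ∀ t ∈ L.N a, t ∈ L.N b → ∀ σ, FibHol f t σ → cl a t σ = zc (L.g a b t) *ᵥ cl b t σ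
  top : ∀ a, ∀ t ∈ L.N a, ∀ σ, FibHol f t σ → L.Pr a d t *ᵥ cl a t σ = cl a t σ
  onto : ∀ a, ∀ t ∈ L.N a, ∀ v, L.Pr a d t *ᵥ v = v → ∃ σ, FibHol f t σ ∧ cl a t σ = v
  nrm : ∀ a, ∀ t ∈ L.N a, ∀ σ σ', FibHol f t σ → FibHol f t σ' →
    FibItg f t (fun q z => star (σ q z) * σ' q z) (star (cl a t σ) ⬝ᵥ (L.Q a *ᵥ cl a t σ'))
  hol : ∀ V s, IsOpen V → V ⊆ U → RelHol f V s → L.Sec V fun a t => cl a t (rs s t)

/-- the chart `e` of the fibre is the slice of the product chart `q` -/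
structure Sl {F : Type} [TopologicalSpace F] (y : Y) (j : F → X) (q : PC p d X Y)
    (e : Chart d F) : Prop where
  mem : y ∈ q.1.source
  src : e.source = j ⁻¹' q.2.source
  tgt : e.target = {z | (q.1 y, z) ∈ q.2.target}
  val : ∀ x ∈ e.source, e x = (q.2 (j x)).2

variable (p d) in
/-- the fibre over `y` as a compact complex manifold -/
structure Fib (f : X → Y) (y : Y) where
  F : Type
  [ms : MetricSpace F]
  [cs : ChartedSpace (Cm d) F]
  [cpt : CompactSpace F]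
  [mf : IsManifold 𝓘(ℂ, Cm d) ω F]
  j : F → X
  emb : Topology.IsEmbedding j
  rng : Set.range j = f ⁻¹' {y}
  ch1 : ∀ e ∈ atlas (Cm d) F, ∃ q : PC p d X Y, IsPC f q ∧ Sl y j q e
  ch2 : ∀ q : PC p d X Y, IsPC f q → y ∈ q.1.source → ∃ e ∈ atlas (Cm d) F, Sl y j q e

attribute [instance] Fib.ms Fib.cs Fib.cpt Fib.mf

/-- `wF` is the restriction of the metric `w` along `j` -/
def IsRes {F : Type} [TopologicalSpace F] [ChartedSpace (Cm d) F] (j : F → X)
    (w : Rw (p + d) X (Matrix (Fin (p + d)) (Fin (p + d)) ℂ))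
    (wF : Rw d F (Matrix (Fin d) (Fin d) ℂ)) : Prop :=
  ∀ (e : Chart d F) (e' : Chart (p + d) X) x, At e x → At e' (j x) →
    wF e (e x) = (Matrix.of fun a i => dz i (fun z => e' (j (e.symm z)) a) (e x) :
      Matrix (Fin (p + d)) (Fin d) ℂ)ᵀ * w e' (e' (j x)) *
      (Matrix.of fun a i => dz i (fun z => e' (j (e.symm z)) a) (e x) :
        Matrix (Fin (p + d)) (Fin d) ℂ).map (starRingEnd ℂ)

/-- the form `u` on the fibre is `σ dz_1 ∧ … ∧ dz_d` -/
def Fib.Is {f : X → Y} {y : Y} (B : Fib p d f y) (σ : PC p d X Y → Cm d → ℂ) (u : SF d B.F) :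
    Prop :=
  ∀ q e x, IsPC f q → At e x → Sl y B.j q e → vl u e (e x) = σ q (e x) • ev (Hd d)

/-- all the structure on one fibre -/
structure Pk (w : Rw (p + d) X (Matrix (Fin (p + d)) (Fin (p + d)) ℂ)) {f : X → Y} {y : Y}
    (B : Fib p d f y) (n : ℕ) where
  Xc : Cx (SF d B.F) d
  wF : Rw d B.F (Matrix (Fin d) (Fin d) ℂ)
  K : KP Xc
  E : LC B.F Xc
  b : Fin n → SF d B.F
  rx : RealX Xc
  kah : IsKahler wF
  res : IsRes B.j w wF
  rk : RealK wF K
  ok : K.OK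
  re : RealE K E
  eok : E.OK
  l2 : IsL2 K.nrm
  lb : E.LB d b

variable (p d) in
/-- a smooth trivialisation of `f` over the neighbourhood `N` of `a` -/
structure Triv (f : X → Y) (a : Y) (N : Set Y) (r : X → X) (Φ : Y → X → X) : Prop where
  opn : IsOpen N
  mem : a ∈ N
  h1 : ∀ t ∈ N, ∀ m, f m = a → f (Φ t m) = t ∧ r (Φ t m) = m
  h2 : ∀ x, f x ∈ N → f (r x) = a ∧ Φ (f x) (r x) = x
  h3 : ∀ m, f m = a → Φ a m = m
  rc : ∀ x, f x ∈ N → ContinuousAt r x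
  rs : ∀ (e e' : Chart (p + d) X) x, f x ∈ N → At e x → At e' (r x) →
    ContDiffAt ℝ ∞ (fun z => e' (r (e.symm z))) (e x)
  pc : ∀ t ∈ N, ∀ m, f m = a →
    ContinuousWithinAt (fun k : Y × X => Φ k.1 k.2) {k | f k.2 = a} (t, m)
  ps : ∀ t ∈ N, ∀ m, f m = a → ∀ (q : PC p d X Y) (χ : Chart p Y) (e' : Chart (p + d) X),
    IsPC f q → m ∈ q.2.source → At χ t → At e' (Φ t m) →
    ContDiffAt ℝ ∞ (fun k : Cm p × Cm d => e' (Φ (χ.symm k.1) (q.2.symm (q.1 a, k.2))))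
      (χ t, (q.2 m).2)
  ori : ∀ t ∈ N, ∀ m, f m = a → ∃ q : PC p d X Y, IsPC f q ∧ m ∈ q.2.source ∧
    Φ t m ∈ q.2.source ∧
    0 < (fderiv ℝ (fun z => (q.2 (Φ t (q.2.symm (q.1 a, z)))).2) (q.2 m).2).det

variable (p d) in
/-- the input: a holomorphic map of a compact Kähler manifold which is a surjective submersion
over the open set `U` -/
structure Fam [T2Space X] [CompactSpace X] [IsManifold 𝓘(ℂ, Cm (p + d)) ω X] [T2Space Y]
    [IsManifold 𝓘(ℂ, Cm p) ω Y] (w : Rw (p + d) X (Matrix (Fin (p + d)) (Fin (p + d)) ℂ))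
    (f : X → Y) (U : Set Y) : Prop where
  kah : IsKahler w
  hol : ContMDiff 𝓘(ℂ, Cm (p + d)) 𝓘(ℂ, Cm p) ω f
  opn : IsOpen U
  sub : ∀ x, f x ∈ U → Function.Surjective (mfderiv 𝓘(ℂ, Cm (p + d)) 𝓘(ℂ, Cm p) f x)
  onto : ∀ y ∈ U, ∃ x, f x = y

/-- **the output of the Hodge block** -/
def HODGE : Prop :=
  ∀ (p d : ℕ) (X Y : Type) [TopologicalSpace X] [ChartedSpace (Cm (p + d)) X] [TopologicalSpace Y]
    [ChartedSpace (Cm p) Y] [T2Space X] [CompactSpace X] [IsManifold 𝓘(ℂ, Cm (p + d)) ω X]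
    [T2Space Y] [IsManifold 𝓘(ℂ, Cm p) ω Y]
    (w : Rw (p + d) X (Matrix (Fin (p + d)) (Fin (p + d)) ℂ)) (f : X → Y) (U : Set Y),
    Fam p d w f U → IsPreconnected U →
    ∃ (n : ℕ) (L : Loc p n d U) (cl : Y → Y → (PC p d X Y → Cm d → ℂ) → Fin n → ℂ), ClMap f L cl

end Vale.Agent.P281Z.Hg
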