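import Vale.Agent.P281Z.Hg.DL
import Vale.Agent.P272.K.INT.Dens

/-!
# P281, Hodge block: smooth forms on a compact complex manifold
-/

open scoped Manifold ContDiff ComplexOrder Topology Matrix
open Filter MeasureTheory
open Vale.Agent.P272.K Vale.Agent.P272.K.C2 Vale.Agent.P272.K.INT Vale.Agent.P299.IX
  Vale.Agent.P299.IX.Fock

noncomputable section

namespace Vale.Agent.P281Z.Hg

/-- families of functions indexed by the charts -/
abbrev Rw (d : ℕ) (M : Type) [TopologicalSpace M] (V : Type) : Type := Chart d M → Cm d → V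

section top
variable {d : ℕ} {M : Type} [TopologicalSpace M]

/-- the complexified Jacobian matrix of the change of coordinates from `e` to `e'` -/
def jt (e e' : Chart d M) (x : M) : Matrix (Fin (d + d)) (Fin (d + d)) ℂ :=
  jc (fun z => e' (e.symm z)) (e x)

variable [ChartedSpace (Cm d) M]

/-- smooth forms -/
structure IsF (u : Rw d M (Fo d)) : Prop where
  sm : ∀ e x, At e x → ContDiffAt ℝ ∞ (u e) (e x)
  off : ∀ e z, ¬(e ∈ atlas (Cm d) M ∧ z ∈ e.target) → u e z = 0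
  ch : ∀ e e' x, At e x → At e' x → u e (e x) = lam (jt e e' x) *ᵥ u e' (e' x)

variable (d M) in
/-- the submodule of smooth forms -/
def SFs : Submodule ℂ (Rw d M (Fo d)) where
  carrier := {u | IsF u}
  add_mem' := by
    intro a b ha hb
    refine ⟨fun e x h => (ha.sm e x h).add (hb.sm e x h), fun e z h => ?_, fun e e' x h h' => ?_⟩
    · show a e z + b e z = 0
      rw [ha.off e z h, hb.off e z h, add_zero]
    · show a e (e x) + b e (e x) = _ *ᵥ (a e' (e' x) + b e' (e' x))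
      rw [ha.ch e e' x h h', hb.ch e e' x h h', Matrix.mulVec_add]
  zero_mem' := ⟨fun _ _ _ => contDiffAt_const, fun _ _ _ => rfl, fun e e' x _ _ => by
    show (0 : Fo d) = _ *ᵥ (0 : Fo d)
    rw [Matrix.mulVec_zero]⟩
  smul_mem' := by
    intro c a ha
    refine ⟨fun e x h => (ha.sm e x h).const_smul c, fun e z h => ?_, fun e e' x h h' => ?_⟩
    · show c • a e z = 0
      rw [ha.off e z h, smul_zero]
    · show c • a e (e x) = _ *ᵥ (c • a e' (e' x))
      rw [ha.ch e e' x h h', Matrix.mulVec_smul]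

variable (d M) in
/-- the space of smooth forms -/
def SF : Type := SFs d M

instance : AddCommGroup (SF d M) := inferInstanceAs (AddCommGroup (SFs d M))

instance : Module ℂ (SF d M) := inferInstanceAs (Module ℂ (SFs d M))

/-- the value of a form in a chart -/
def vl (u : SF d M) : Rw d M (Fo d) := Subtype.val (p := fun v => v ∈ SFs d M) u

/-- the form with given values -/
def mkF (u : Rw d M (Fo d)) (h : IsF u) : SF d M := (⟨u, h⟩ : SFs d M)

theorem vl_mkF (u : Rw d M (Fo d)) (h : IsF u) : vl (mkF u h) = u := rfl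

theorem vl_isF (u : SF d M) : IsF (vl u) := Subtype.property (p := fun v => v ∈ SFs d M) u

theorem vl_inj {u v : SF d M} (h : vl u = vl v) : u = v := Subtype.ext h

theorem vl_add (u v : SF d M) (e : Chart d M) (z : Cm d) : vl (u + v) e z = vl u e z + vl v e z :=
  rfl

theorem vl_sub (u v : SF d M) (e : Chart d M) (z : Cm d) : vl (u - v) e z = vl u e z - vl v e z :=
  rfl

theorem vl_neg (u : SF d M) (e : Chart d M) (z : Cm d) : vl (-u) e z = -vl u e z := rfl

theorem vl_smul (c : ℂ) (u : SF d M) (e : Chart d M) (z : Cm d) :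
    vl (c • u) e z = c • vl u e z := rfl

theorem vl_zero (e : Chart d M) (z : Cm d) : vl (0 : SF d M) e z = 0 := rfl

theorem vl_sum {ι : Type*} (s : Finset ι) (u : ι → SF d M) (e : Chart d M) (z : Cm d) :
    vl (∑ i ∈ s, u i) e z = ∑ i ∈ s, vl (u i) e z := by
  classical
  induction s using Finset.induction_on with
  | empty => rfl
  | insert a s ha ih => rw [Finset.sum_insert ha, Finset.sum_insert ha, vl_add, ih]

/-- smooth fields of endomorphisms of the bundle of forms -/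
structure CovF (F : Rw d M (Fm d)) : Prop where
  sm : ∀ e x, At e x → MC ∞ (F e) (e x)
  ch : ∀ e e' x, At e x → At e' x → F e (e x) * lam (jt e e' x) = lam (jt e e' x) * F e' (e' x)

/-- `T` acts pointwise by the field `F` -/
def IsOp (F : Rw d M (Fm d)) (T : SF d M → SF d M) : Prop :=
  ∀ u e x, At e x → vl (T u) e (e x) = F e (e x) *ᵥ vl u e (e x)

/-- the forms vanishing at `x` -/
def ZP (x : M) : Submodule ℂ (SF d M) where
  carrier := {u | ∀ e, At e x → vl u e (e x) = 0}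
  add_mem' := by
    intro a b ha hb e h
    show vl a e (e x) + vl b e (e x) = 0
    rw [ha e h, hb e h, add_zero]
  zero_mem' := fun _ _ => rfl
  smul_mem' := by
    intro c a ha e h
    show c • vl a e (e x) = 0
    rw [ha e h, smul_zero]

/-- `u` is the constant function `1` -/
def IsOne (u : SF d M) : Prop := ∀ e x, At e x → vl u e (e x) = ev ∅

/-- `u` is the fundamental form of `w` -/
def IsOm (w : Rw d M (Matrix (Fin d) (Fin d) ℂ)) (u : SF d M) : Prop :=
  ∀ e x, At e x → vl u e (e x) = Lw (w e (e x)) *ᵥ ev ∅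

/-- `nrm` is comparable to the `L²` norms in the charts -/
structure IsL2 (nrm : SF d M → ℝ) : Prop where
  res : ∀ e ∈ atlas (Cm d) M, ∀ K : Set M, IsCompact K → K ⊆ e.source → ∃ C : ℝ, 0 ≤ C ∧
    ∀ u, ∫ z in e '' K, ‖vl u e z‖ ^ 2 ≤ C * nrm u ^ 2
  ext : ∀ e ∈ atlas (Cm d) M, ∀ K : Set M, IsCompact K → K ⊆ e.source → ∃ C : ℝ, 0 ≤ C ∧
    ∀ u, (∀ x, x ∉ K → u ∈ ZP x) → nrm u ^ 2 ≤ C * ∫ z in e '' K, ‖vl u e z‖ ^ 2
  cov : ∀ (N : ℕ) (e : Fin N → Chart d M) (K : Fin N → Set M), (∀ i, e i ∈ atlas (Cm d) M) →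
    (∀ i, IsCompact (K i)) → (∀ i, K i ⊆ (e i).source) → (∀ x, ∃ i, x ∈ K i) →
    ∃ C : ℝ, 0 ≤ C ∧ ∀ u, nrm u ^ 2 ≤ C * ∑ i, ∫ z in e i '' K i, ‖vl u (e i) z‖ ^ 2

variable {d' : ℕ} {M' : Type} [TopologicalSpace M'] [ChartedSpace (Cm d') M']

variable (d d') in
/-- smooth maps -/
structure Smo (f : M → M') : Prop where
  cont : Continuous f
  sm : ∀ (e : Chart d M) (e' : Chart d' M') x, At e x → At e' (f x) →
    ContDiffAt ℝ ∞ (fun z => e' (f (e.symm z))) (e x)

/-- `T` is the pull-back of forms along `f` -/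
def IsPb (f : M → M') (T : SF d' M' → SF d M) : Prop :=
  ∀ u e e' x, At e x → At e' (f x) →
    vl (T u) e (e x) = lr (jc (fun z => e' (f (e.symm z))) (e x)) *ᵥ vl u e' (e' (f x))

variable (d) in
/-- orientation preserving maps -/
def Ori {M' : Type} [TopologicalSpace M'] [ChartedSpace (Cm d) M'] (f : M → M') : Prop :=
  ∀ x, ∃ (e : Chart d M) (e' : Chart d M'), At e x ∧ At e' (f x) ∧
    0 < (fderiv ℝ (fun z => e' (f (e.symm z))) (e x)).det

/-- `K` is the Kähler package of the metric `w` -/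
structure RealK {X : Cx (SF d M) d} (w : Rw d M (Matrix (Fin d) (Fin d) ℂ)) (K : KP X) : Prop where
  pr : ∀ k, IsOp (fun _ _ => pm d k) (K.pr k)
  L : IsOp (fun e z => Lw (w e z)) K.L
  Lm : IsOp (fun e z => Lam (w e z)) K.Lm
  c : K.c = cc d

/-- a family of Kähler packages given in the charts by a smooth family of coordinate changes
`φ e t` with `φ e t0 = id` and metrics `wt e t` -/
structure Mdl {p : ℕ} {X : Cx (SF d M) d} (K : Cm p → KP X) (t0 : Cm p)
    (φ : Chart d M → Cm p → Cm d → Cm d)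
    (wt : Chart d M → Cm p → Cm d → Matrix (Fin d) (Fin d) ℂ) : Prop where
  sm : ∀ e x, At e x → ContDiffAt ℝ ∞ (fun q : Cm p × Cm d => φ e q.1 q.2) (t0, e x)
  id : ∀ e x, At e x → φ e t0 (e x) = e x
  hol : ∀ e e' x, At e x → At e' x → ∃ θ : Cm p × Cm d → Cm d, AnalyticAt ℂ θ (t0, e x) ∧
    ∀ᶠ q in 𝓝 ((t0, e x) : Cm p × Cm d), φ e' q.1 (e' (e.symm q.2)) = θ (q.1, φ e q.1 q.2)
  wsm : ∀ e x, At e x → ∀ i j,
    ContDiffAt ℝ ∞ (fun q : Cm p × Cm d => wt e q.1 q.2 i j) (t0, e x)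
  wpos : ∀ e x, At e x → (wt e t0 (e x)).PosDef
  c : ∀ t, (K t).c = cc d
  pt : ∀ e x, At e x → ∀ᶠ q in 𝓝 ((t0, e x) : Cm p × Cm d), (wt e q.1 q.2).IsHermitian ∧ ∀ u,
    (∀ k, vl ((K q.1).pr k u) e q.2 = (lam (jc (φ e q.1) q.2) * pm d k *
      lam (jc (φ e q.1) q.2)⁻¹) *ᵥ vl u e q.2) ∧
    vl ((K q.1).L u) e q.2 = (lam (jc (φ e q.1) q.2) * Lw (wt e q.1 q.2) *
      lam (jc (φ e q.1) q.2)⁻¹) *ᵥ vl u e q.2 ∧
    vl ((K q.1).Lm u) e q.2 = (lam (jc (φ e q.1) q.2) * Lam (wt e q.1 q.2) *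
      lam (jc (φ e q.1) q.2)⁻¹) *ᵥ vl u e q.2

/-- a family of forms which are the pull-backs of a holomorphic family of top forms -/
def MdlS {p : ℕ} (t0 : Cm p) (φ : Chart d M → Cm p → Cm d → Cm d) (s : Cm p → SF d M) : Prop :=
  ∀ e x, At e x → ∃ σ : Cm p × Cm d → ℂ, AnalyticAt ℂ σ (t0, e x) ∧
    ∀ᶠ q in 𝓝 ((t0, e x) : Cm p × Cm d), vl (s q.1) e q.2 =
      lam (jc (φ e q.1) q.2) *ᵥ (σ (q.1, φ e q.1 q.2) • ev (Hd d))

end top

section cpt
variable {d : ℕ} {M : Type} [TopologicalSpace M] [ChartedSpace (Cm d) M] [T2Space M]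
  [CompactSpace M] [IsManifold 𝓘(ℂ, Cm d) ω M]

/-- the integral of a complex density -/
def itg (F : Rw d M ℂ) : ℂ :=
  (intX fun e z => (F e z).re : ℝ) + Complex.I * (intX fun e z => (F e z).im : ℝ)

/-- `X` is the de Rham complex of `M` -/
structure RealX (X : Cx (SF d M) d) : Prop where
  d : ∀ u e x, At e x → vl (X.d u) e (e x) = dT (vl u e) (e x)
  Q : ∀ a b, X.Q a b = itg fun e z => Bq (vl a e z) (vl b e z)
  cj : ∀ u e x, At e x → vl (X.cj u) e (e x) = cjv (vl u e (e x))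
  dg : ∀ m, IsOp (fun _ _ => dg m) (X.dg m)

end cpt

/-- `E` is the localisation of the de Rham complex with the norm of `K` -/
structure RealE {d : ℕ} {M : Type} [MetricSpace M] [ChartedSpace (Cm d) M] {X : Cx (SF d M) d}
    (K : KP X) (E : LC M X) : Prop where
  Z : ∀ x, E.Z x = ZP x
  one : IsOne E.one
  nrm : E.nrm = K.nrm

end Vale.Agent.P281Z.Hg
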