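import Vale.Agent.P281Z.Hg.DF

/-!
# P281, Hodge block: the weighted output with the class map on all closed forms
-/

open scoped Manifold ContDiff ComplexOrder Topology Matrix
open Filter
open Vale.Agent.P272.K Vale.Agent.P299.IX Vale.Agent.P299.IX.Fock

noncomputable section

namespace Vale.Agent.P281Z.Hg

variable {p d : ℕ} {X Y : Type} [TopologicalSpace X] [ChartedSpace (Cm (p + d)) X]
  [TopologicalSpace Y] [ChartedSpace (Cm p) Y]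

/-- `γ` is a smooth form on the fibre over `t`, given in the product charts -/
structure FibSm (f : X → Y) (t : Y) (γ : PC p d X Y → Cm d → Fo d) : Prop where
  sm : ∀ q x, IsPC f q → x ∈ q.2.source → f x = t → ContDiffAt ℝ ∞ (γ q) (q.2 x).2
  ch : ∀ q q' x, IsPC f q → IsPC f q' → x ∈ q.2.source → x ∈ q'.2.source → f x = t →
    γ q (q.2 x).2 = lam (jc (fun z => (q'.2 (q.2.symm ((q.2 x).1, z))).2) (q.2 x).2) *ᵥ
      γ q' (q'.2 x).2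

/-- `γ` is a smooth closed form of degree `d` on the fibre over `t` -/
structure FibCl (f : X → Y) (t : Y) (γ : PC p d X Y → Cm d → Fo d) : Prop
    extends FibSm f t γ where
  cl : ∀ q x, IsPC f q → x ∈ q.2.source → f x = t → dT (γ q) (q.2 x).2 = 0
  deg : ∀ q x, IsPC f q → x ∈ q.2.source → f x = t → dg d *ᵥ γ q (q.2 x).2 = γ q (q.2 x).2

variable (p d) in
/-- `Γ` is a smooth closed form of degree `d` on the preimage of `V` -/
structure TotCl (f : X → Y) (V : Set Y) (Γ : Rw (p + d) X (Fo (p + d))) : Prop where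
  sm : ∀ e x, At e x → f x ∈ V → ContDiffAt ℝ ∞ (Γ e) (e x)
  ch : ∀ e e' x, At e x → At e' x → f x ∈ V → Γ e (e x) = lam (jt e e' x) *ᵥ Γ e' (e' x)
  cl : ∀ e x, At e x → f x ∈ V → dT (Γ e) (e x) = 0
  deg : ∀ e x, At e x → f x ∈ V → dg d *ᵥ Γ e (e x) = Γ e (e x)

/-- `γ` is the restriction of `Γ` to the fibre over `t` -/
def Rst (f : X → Y) (t : Y) (Γ : Rw (p + d) X (Fo (p + d))) (γ : PC p d X Y → Cm d → Fo d) :
    Prop :=
  ∀ q e x, IsPC f q → x ∈ q.2.source → f x = t → At e x →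
    γ q (q.2 x).2 = lr (jc (fun z => e (q.2.symm (q.1 t, z))) (q.2 x).2) *ᵥ Γ e (e x)

/-- the form `σ dz_1 ∧ … ∧ dz_d` -/
def tf (σ : PC p d X Y → Cm d → ℂ) : PC p d X Y → Cm d → Fo d := fun q z => σ q z • ev (Hd d)

/-- the class map on closed forms, for the polarisation weighted by `wt` -/
structure ClMap2 {n : ℕ} (f : X → Y) (wt : X → ℝ) {U : Set Y} (L : Loc p n d U)
    (cf : Y → Y → (PC p d X Y → Cm d → Fo d) → Fin n → ℂ) : Prop where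
  lin : ∀ a, ∀ t ∈ L.N a, ∀ (c : ℂ) γ γ', FibCl f t γ → FibCl f t γ' →
    cf a t (γ + c • γ') = cf a t γ + c • cf a t γ'
  ch : ∀ a b, ∀ t ∈ L.N a, t ∈ L.N b → ∀ γ, FibCl f t γ → cf a t γ = zc (L.g a b t) *ᵥ cf b t γ
  congr : ∀ a, ∀ t ∈ L.N a, ∀ γ γ', FibCl f t γ → FibCl f t γ' →
    (∀ q x, IsPC f q → x ∈ q.2.source → f x = t → γ q (q.2 x).2 = γ' q (q.2 x).2) →
    cf a t γ = cf a t γ'
  ex : ∀ a, ∀ t ∈ L.N a, ∀ γ β, FibCl f t γ → FibSm f t β →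
    (∀ q x, IsPC f q → x ∈ q.2.source → f x = t → γ q (q.2 x).2 = dT (β q) (q.2 x).2) →
    cf a t γ = 0
  tcl : ∀ t ∈ U, ∀ σ : PC p d X Y → Cm d → ℂ, FibHol f t σ → FibCl f t (tf σ)
  top : ∀ a, ∀ t ∈ L.N a, ∀ σ, FibHol f t σ → L.Pr a d t *ᵥ cf a t (tf σ) = cf a t (tf σ)
  onto : ∀ a, ∀ t ∈ L.N a, ∀ v, L.Pr a d t *ᵥ v = v → ∃ σ, FibHol f t σ ∧ cf a t (tf σ) = v
  pair : ∀ a, ∀ t ∈ L.N a, ∀ σ γ, FibHol f t σ → FibCl f t γ →
    FibItg f t (fun q z => (wt (q.2.symm (q.1 t, z)) : ℂ) * (star (σ q z) * γ q z (Hd d)))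
      (star (cf a t (tf σ)) ⬝ᵥ (L.Q a *ᵥ cf a t γ))
  hol : ∀ V s, IsOpen V → V ⊆ U → RelHol f V s → L.Sec V fun a t => cf a t (tf (rs s t))
  rst : ∀ V Γ, IsOpen V → V ⊆ U → TotCl p d f V Γ → ∀ t ∈ V,
    (∃ γ : PC p d X Y → Cm d → Fo d, Rst f t Γ γ) ∧ ∀ γ, Rst f t Γ γ → FibCl f t γ
  flat : ∀ V Γ, IsOpen V → V ⊆ U → TotCl p d f V Γ → ∀ γ : Y → PC p d X Y → Cm d → Fo d,
    (∀ t ∈ V, Rst f t Γ (γ t)) → ∀ a, ∀ t ∈ L.N a, t ∈ V →
    ∀ᶠ s in 𝓝 t, cf a s (γ s) = cf a t (γ t)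

/-- **the weighted output of the Hodge block** -/
def HODGE2 : Prop :=
  ∀ (p d : ℕ) (X Y : Type) [TopologicalSpace X] [ChartedSpace (Cm (p + d)) X] [TopologicalSpace Y]
    [ChartedSpace (Cm p) Y] [T2Space X] [CompactSpace X] [IsManifold 𝓘(ℂ, Cm (p + d)) ω X]
    [T2Space Y] [IsManifold 𝓘(ℂ, Cm p) ω Y]
    (w : Rw (p + d) X (Matrix (Fin (p + d)) (Fin (p + d)) ℂ)) (f : X → Y) (U : Set Y)
    (wt : X → ℝ), Fam p d w f U → IsPreconnected U → (∀ x, f x ∈ U → 0 < wt x) →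
    (∀ x, f x ∈ U → ∀ᶠ y in 𝓝 x, wt y = wt x) →
    ∃ (n : ℕ) (L : Loc p n d U) (cf : Y → Y → (PC p d X Y → Cm d → Fo d) → Fin n → ℂ),
      ClMap2 f wt L cf

end Vale.Agent.P281Z.Hg
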