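import Vale.Agent.P281Z.Hg.DA

/-!
# P281, Hodge block: list cochains, zigzags, integral classes
-/

open scoped Topology
open Filter

noncomputable section

namespace Vale.Agent.P281Z.Hg

/-- the coboundary of a cochain on lists of points (alternating sum over the faces) -/
def dl {M A : Type} [AddCommGroup A] : (List M → A) → List M → A
  | _, [] => 0
  | γ, x :: l => γ l - dl (fun l' => γ (x :: l')) l

section
variable {M : Type} [MetricSpace M]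

/-- `z` is within `ε` of all points of `l` -/
def Nr (ε : ℝ) (l : List M) (z : M) : Prop := ∀ x ∈ l, dist x z < ε

/-- `l` is small -/
def Sm (ε : ℝ) (l : List M) : Prop := ∃ z, Nr ε l z

/-- `a` is an `m`-cocycle at scale `ε` -/
def Coc {A : Type} [AddCommGroup A] (ε : ℝ) (m : ℕ) (a : List M → A) : Prop :=
  ∀ l : List M, l.length = m + 2 → Sm ε l → dl a l = 0

/-- `a` is an `m`-coboundary at scale `ε` -/
def Cob {A : Type} [AddCommGroup A] (ε : ℝ) (m : ℕ) (a : List M → A) : Prop :=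
  ∃ b : List M → A, b [] = 0 ∧ ∀ l : List M, l.length = m + 1 → Sm ε l → a l = dl b l

/-- integer cochains as complex cochains -/
def zl {M : Type} (a : List M → ℤ) : List M → ℂ := fun l => (a l : ℂ)

/-- pairing of a cochain with an integral chain -/
def evc {M : Type} (a : List M → ℂ) (c : List M →₀ ℤ) : ℂ := c.sum fun l k => (k : ℂ) * a l

/-- `c` is an `m`-chain at scale `ε` -/
def Chn (ε : ℝ) (m : ℕ) (c : List M →₀ ℤ) : Prop := ∀ l ∈ c.support, l.length = m + 1 ∧ Sm ε l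

/-- `c` is a cycle -/
def Cyc {M : Type} (c : List M →₀ ℤ) : Prop := ∀ b : List M → ℂ, b [] = 0 → evc (dl b) c = 0

variable (M) in
/-- uniform local contractibility -/
def ULC : Prop := ∀ r : ℝ, 0 < r → ∃ δ : ℝ, 0 < δ ∧ ∀ x : M, ∃ (H : ℝ → M → M) (x0 : M),
  ContinuousOn (fun q : ℝ × M => H q.1 q.2) (Set.Icc 0 1 ×ˢ Metric.closedBall x δ) ∧
  (∀ y ∈ Metric.closedBall x δ, H 0 y = y ∧ H 1 y = x0) ∧
  ∀ s ∈ Set.Icc (0 : ℝ) 1, ∀ y ∈ Metric.closedBall x δ, dist x (H s y) < r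

variable (M) in
/-- cycles can be refined -/
def REF (m : ℕ) : Prop := ∀ ε0 : ℝ, 0 < ε0 → ∃ ε1 : ℝ, 0 < ε1 ∧ ∀ c : List M →₀ ℤ,
  Chn ε1 m c → Cyc c → ∀ η : ℝ, 0 < η → ∃ c' : List M →₀ ℤ, Chn η m c' ∧ Cyc c' ∧
    ∀ a : List M → ℂ, Coc ε0 m a → evc a c = evc a c'

variable (M) in
/-- finitely many integral cycles detect the cocycles -/
def PER (m : ℕ) : Prop := ∀ ε0 : ℝ, 0 < ε0 → ∃ (r : ℕ) (c : Fin r → List M →₀ ℤ),
  (∀ i, Chn ε0 m (c i)) ∧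
  (∀ (a : List M → ℂ) (a' : List M → ℤ) (η : ℝ), Coc ε0 m a → 0 < η → Cob η m (a - zl a') →
    ∀ i, ∃ k : ℤ, evc a (c i) = k) ∧
  (∀ (a : List M → ℂ) (η : ℝ), Coc ε0 m a → 0 < η → Cob η m a → ∀ i, evc a (c i) = 0) ∧
  (∀ a : List M → ℂ, Coc ε0 m a → (∀ i, evc a (c i) = 0) → ∃ η : ℝ, 0 < η ∧ Cob η m a) ∧
  ∀ a : List M → ℂ, Coc ε0 m a → ∃ η : ℝ, 0 < η ∧ ∃ (s : ℕ) (lam : Fin s → ℂ)
    (a' : Fin s → List M → ℤ), (∀ i, Coc η m (a' i)) ∧ Cob η m (a - ∑ i, lam i • zl (a' i))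

end

variable {S : Type} [AddCommGroup S] [Module ℂ S] {D : ℕ}

/-- localisation data of a complex over the space `M` -/
structure LC (M : Type) (X : Cx S D) where
  Z : M → Submodule ℂ S
  one : S
  nrm : S → ℝ

namespace LC

variable {M : Type} [MetricSpace M] {X : Cx S D} (E : LC M X)

/-- partitions of unity -/
def PU : Prop := ∀ ε : ℝ, 0 < ε → ∃ (N : ℕ) (x : Fin N → M) (ρ : Fin N → Module.End ℂ S) (C : ℝ),
  0 ≤ C ∧ ∑ i, ρ i = 1 ∧ (∀ i u y, u ∈ E.Z y ∨ ε ≤ dist (x i) y → ρ i u ∈ E.Z y) ∧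
  (∀ i m, ρ i * X.dg m = X.dg m * ρ i) ∧ (∀ i u, E.nrm (ρ i u) ≤ C * E.nrm u) ∧
  ∀ i u, E.nrm (X.d (ρ i u) - ρ i (X.d u)) ≤ C * E.nrm u

/-- bounded local homotopy operators -/
def PO : Prop := ∀ r : ℝ, 0 < r → ∃ δ : ℝ, 0 < δ ∧ ∃ (P : M → Module.End ℂ S)
  (μ : M → S →ₗ[ℂ] ℂ) (C : ℝ), 0 ≤ C ∧
  (∀ x u, (∀ y, dist x y < r → u ∈ E.Z y) → P x u = 0 ∧ μ x u = 0) ∧
  (∀ x u y, dist x y < δ → X.d (P x u) + P x (X.d u) - u + μ x u • E.one ∈ E.Z y) ∧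
  (∀ x j, X.dg j * P x = P x * X.dg (j + 1)) ∧ (∀ x u, μ x (X.dg 0 u) = μ x u) ∧
  (∀ x u, E.nrm (P x u) ≤ C * E.nrm u) ∧ ∀ x u, ‖μ x u‖ ≤ C * E.nrm u

/-- the axioms -/
structure OK : Prop where
  cx : X.OK
  sep : ∀ u, (∀ x, u ∈ E.Z x) → u = 0
  dloc : ∀ u x, (∀ᶠ y in 𝓝 x, u ∈ E.Z y) → X.d u ∈ E.Z x
  dgZ : ∀ m u x, u ∈ E.Z x → X.dg m u ∈ E.Z x
  d_one : X.d E.one = 0
  dg_one : X.dg 0 E.one = E.one
  nn : ∀ u, 0 ≤ E.nrm u
  tri : ∀ u v, E.nrm (u + v) ≤ E.nrm u + E.nrm v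
  smul : ∀ (c : ℂ) u, E.nrm (c • u) = ‖c‖ * E.nrm u
  dgb : ∀ m u, E.nrm (X.dg m u) ≤ E.nrm u
  ev : ∀ (O : Set M), IsOpen O → O.Nonempty → ∃ C : ℝ, 0 ≤ C ∧ ∀ (c : ℂ) u,
    (∀ y ∈ O, c • E.one - u ∈ E.Z y) → ‖c‖ ≤ C * E.nrm u
  pu : E.PU
  po : E.PO

/-- `u` vanishes at the points within `ε` of all points of `l` -/
def Van (ε : ℝ) (l : List M) (u : S) : Prop := ∀ z, Nr ε l z → u ∈ E.Z z

/-- `γ` is a zigzag at scale `ε` from the form `γ []` of degree `m` to the cochain `a` -/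
structure Zz (ε : ℝ) (m : ℕ) (γ : List M → S) (a : List M → ℂ) : Prop where
  deg : ∀ l j, l.length + j = m → X.dg j (γ l) = γ l
  mid : ∀ l, l.length ≤ m → E.Van ε l (X.d (γ l) - dl γ l)
  fin : ∀ l, l.length = m + 1 → E.Van ε l (dl γ l - a l • E.one)

/-- the form `α` of degree `m` corresponds to the cochain `a` -/
def Zg (ε : ℝ) (m : ℕ) (α : S) (a : List M → ℂ) : Prop := ∃ γ, γ [] = α ∧ E.Zz ε m γ a

/-- integral forms -/
def IsInt (m : ℕ) (α : S) : Prop := ∃ ε : ℝ, 0 < ε ∧ ∃ a : List M → ℤ, E.Zg ε m α (zl a)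

/-- the de Rham map as a bounded operator -/
def R1 (m : ℕ) : Prop := ∃ ε : ℝ, 0 < ε ∧ ∃ (A : List M → S →ₗ[ℂ] ℂ) (C : ℝ),
  (∀ l u, l.length = m + 1 → ‖A l u‖ ≤ C * E.nrm u) ∧
  ∀ u, X.Cl m u → E.Zg ε m u fun l => A l u

/-- every cocycle comes from a form -/
def I1 (m : ℕ) : Prop := ∀ (ε : ℝ) (a : List M → ℂ), 0 < ε → Coc ε m a → ∃ α, E.Zg ε m α a

/-- coboundaries come from exact forms -/
def U1 (m : ℕ) : Prop := ∀ (ε : ℝ) α (a : List M → ℂ), 0 < ε → E.Zg ε m α a → Cob ε m a →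
  ∃ β, α = X.d β

/-- exact forms give coboundaries -/
def U2 (m : ℕ) : Prop := ∀ ε : ℝ, 0 < ε → ∃ η : ℝ, 0 < η ∧ ∀ β (a : List M → ℂ),
  E.Zg ε m (X.d β) a → Cob η m a

/-- closed `L²` forms are cohomologous to smooth closed forms -/
def S1 : Prop := ∀ u : ℕ → S,
  (∀ ε : ℝ, 0 < ε → ∃ N, ∀ r ≥ N, ∀ s ≥ N, E.nrm (u r - u s) < ε) →
  Tendsto (fun s => E.nrm (X.d (u s))) atTop (𝓝 0) →
  ∃ (z : S) (y : ℕ → S), X.d z = 0 ∧ Tendsto (fun s => E.nrm (u s - z - X.d (y s))) atTop (𝓝 0)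

/-- null forms are limits of exact forms -/
def NC : Prop := ∀ z ∈ X.Nul, ∃ y : ℕ → S, Tendsto (fun s => E.nrm (z - X.d (y s))) atTop (𝓝 0)

/-- `b` is a basis of the lattice of integral classes of degree `m` -/
structure LB (m : ℕ) {n : ℕ} (b : Fin n → S) : Prop extends X.Bas m b where
  int : ∀ i, E.IsInt m (b i)
  crd : ∀ z, E.IsInt m z → ∃ k : Fin n → ℤ, z - ∑ i, (k i : ℂ) • b i ∈ X.Nul

/-- `T` is a pull-back along `f` -/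
structure Mor {M' S' : Type} [MetricSpace M'] [AddCommGroup S'] [Module ℂ S'] {D' : ℕ}
    {X' : Cx S' D'} (E' : LC M' X') (f : M → M') (T : S' →ₗ[ℂ] S) : Prop where
  cont : Continuous f
  d : ∀ a, T (X'.d a) = X.d (T a)
  dg : ∀ m a, T (X'.dg m a) = X.dg m (T a)
  one : T E'.one = E.one
  Z : ∀ a x, a ∈ E'.Z (f x) → T a ∈ E.Z x

end LC

end Vale.Agent.P281Z.Hg
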