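import Vale.Agent.P290.H470.Triv

/-!
# P281, Hodge block: trivialisation of a submersion near a compact fibre
-/

open scoped Manifold ContDiff Topology
open Set Filter
open Vale.Agent.P290.H470.Retr

namespace Vale.Agent.P281Z.Hg.Eh

variable {V H : Type*} [NormedAddCommGroup V] [NormedSpace ℝ V] [FiniteDimensional ℝ V]
  [NormedAddCommGroup H] [NormedSpace ℝ H] [FiniteDimensional ℝ H]
  {E : Type*} [TopologicalSpace E] [ChartedSpace (V × H) E] [T2Space E]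
  [SecondCountableTopology E] [IsManifold 𝓘(ℝ, V × H) ∞ E]

theorem triv {p : E → V} (hp : ∀ x, ∀ y ∈ (chartAt (V × H) x).source,
    (chartAt (V × H) x y).1 = p y) {t0 : V} (hM : IsCompact (p ⁻¹' {t0}))
    (hprop : ∀ O, IsOpen O → p ⁻¹' {t0} ⊆ O → ∀ᶠ t in 𝓝 t0, p ⁻¹' {t} ⊆ O) :
    ∃ (N : Set V) (r : E → E) (Φ : V → E → E), IsOpen N ∧ t0 ∈ N ∧
      (∀ t ∈ N, ∀ m, p m = t0 → p (Φ t m) = t ∧ r (Φ t m) = m) ∧
      (∀ y, p y ∈ N → p (r y) = t0 ∧ Φ (p y) (r y) = y) ∧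
      (∀ m, p m = t0 → Φ t0 m = m) ∧
      (∀ y, p y ∈ N → ContMDiffAt 𝓘(ℝ, V × H) 𝓘(ℝ, V × H) ∞ r y) ∧
      ∀ t ∈ N, ∀ m, p m = t0 → ∃ x, m ∈ (chartAt (V × H) x).source ∧
        Φ t m ∈ (chartAt (V × H) x).source ∧ ∃ σ : V × H → E,
        ContMDiffAt 𝓘(ℝ, V × H) 𝓘(ℝ, V × H) ∞ σ (t, (chartAt (V × H) x m).2) ∧
        (∀ᶠ q in 𝓝 (t, (chartAt (V × H) x m).2),
          Φ q.1 ((chartAt (V × H) x).symm (t0, q.2)) = σ q) ∧
        0 < (fderiv ℝ (fun w => (chartAt (V × H) x (σ (t, w))).2)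
          (chartAt (V × H) x m).2).det := by
  classical
  obtain ⟨O, r, hO, hMO, hr, hr0, hr1⟩ := good_fibre hp hM
  have hloc : ∀ y ∈ Reg (V := V) H O r, ∃ W ∈ 𝓝 y, ∀ a ∈ W, ∀ b ∈ W, p a = p b → r a = r b →
      a = b := by
    rintro y ⟨x, hyO, hy, hry, hd⟩
    set ψ := chartAt (V × H) x with hψ
    obtain ⟨G, -, -, -, U, hU, hU2⟩ := loc_inv (fr_smooth (hr y hyO) hy hry) hd.ne'
    refine ⟨ψ.source ∩ ψ ⁻¹' U, inter_mem (ψ.open_source.mem_nhds hy)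
      ((ψ.continuousAt hy).preimage_mem_nhds hU), ?_⟩
    rintro a ⟨ha, ha'⟩ b ⟨hb, hb'⟩ h1 h2
    refine ψ.injOn ha hb (hU2 _ ha' _ hb' ?_ ?_)
    · rw [hp x a ha, hp x b hb, h1]
    · rw [fr, fr, ← hψ, ψ.left_inv ha, ψ.left_inv hb, h2]
  have hMM : (p ⁻¹' {t0}) ×ˢ (p ⁻¹' {t0}) ⊆
      interior {c : E × E | p c.1 = p c.2 → r c.1 = r c.2 → c.1 = c.2} := by
    rintro ⟨a, b⟩ ⟨ha, hb⟩
    rw [mem_interior_iff_mem_nhds]
    by_cases hab : a = b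
    · subst hab
      obtain ⟨W, hW, hW2⟩ := hloc a (subset_reg hp hMO hr1 ha)
      exact mem_of_superset (prod_mem_nhds hW hW) fun c hc => hW2 _ hc.1 _ hc.2
    · obtain ⟨U1, U2, hU1, hU2, h1, h2, h3⟩ := t2_separation hab
      have h4 : r ⁻¹' U1 ∈ 𝓝 a := (hr a (hMO ha)).continuousAt.preimage_mem_nhds
        (by rw [hr1 a (hMO ha) ha]; exact hU1.mem_nhds h1)
      have h5 : r ⁻¹' U2 ∈ 𝓝 b := (hr b (hMO hb)).continuousAt.preimage_mem_nhds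
        (by rw [hr1 b (hMO hb) hb]; exact hU2.mem_nhds h2)
      exact mem_of_superset (prod_mem_nhds h4 h5) fun c hc _ h6 =>
        (disjoint_left.1 h3 (h6 ▸ hc.1 : r c.2 ∈ U1) hc.2).elim
  obtain ⟨u, v, hu, hv, hMu, hMv, huv⟩ := generalized_tube_lemma hM hM isOpen_interior hMM
  have hsu : ∀ᶠ t in 𝓝 t0, ∀ m ∈ p ⁻¹' {t0}, p m = t0 → ∃ y, p y = t ∧ r y = m := by
    refine hM.eventually_forall_of_forall_eventually fun m hm => ?_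
    obtain ⟨x, hyO, hys, hry, hd⟩ := subset_reg (H := H) hp hMO hr1 hm
    obtain ⟨σ, -, -, hσ3, -⟩ := local_section hp hO hr hr0 hyO hys hry hd
    set ψ := chartAt (V × H) x
    rw [hr1 m hyO hm, show p m = t0 from hm] at hσ3
    have h1 : ContinuousAt (fun z : V × E => (z.1, (ψ z.2).2)) (t0, m) := continuousAt_fst.prodMk
      (ContinuousAt.comp (f := Prod.snd) (ψ.continuousAt hys) continuousAt_snd).snd
    filter_upwards [h1.eventually hσ3, continuousAt_snd.eventually (ψ.open_source.mem_nhds hys)]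
      with z a b c
    refine ⟨_, a.1, a.2.trans ?_⟩
    rw [show (t0, (ψ z.2).2) = ψ z.2 from Prod.ext (by rw [hp x _ b, c]) rfl, ψ.left_inv b]
  obtain ⟨N, hN, hNo, htN⟩ := _root_.eventually_nhds_iff.1 ((hprop _
    (((isOpen_reg hO hr).inter hu).inter hv) fun y hy =>
      ⟨⟨subset_reg hp hMO hr1 hy, hMu hy⟩, hMv hy⟩).and hsu)
  have hNO := fun y (hy : p y ∈ N) => (hN _ hy).1 (rfl : y ∈ p ⁻¹' {p y})
  have hNOO : ∀ y, p y ∈ N → y ∈ O := fun y hy => (hNO y hy).1.1.choose_spec.1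
  choose! Φ hΦ using fun t ht m hm => (hN t ht).2 m hm hm
  have hΦr : ∀ y, p y ∈ N → Φ (p y) (r y) = y := fun y hy => by
    obtain ⟨h2, h3⟩ := hΦ _ hy (r y) (hr0 y (hNOO y hy))
    exact interior_subset (huv (⟨(hNO _ (h2.symm ▸ hy)).1.2, (hNO y hy).2⟩ :
      (Φ (p y) (r y), y) ∈ u ×ˢ v)) h2 h3
  refine ⟨N, r, Φ, hNo, htN, hΦ, fun y hy => ⟨hr0 y (hNOO y hy), hΦr y hy⟩, fun m hm => ?_,
    fun y hy => hr y (hNOO y hy), fun t ht m hm => ?_⟩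
  · have h2 := hΦr m (hm ▸ htN)
    rwa [hr1 m (hMO hm) hm, hm] at h2
  · obtain ⟨h1, h2⟩ := hΦ t ht m hm
    obtain ⟨x, hyO, hys, hry, hd⟩ := (hNO (Φ t m) (h1.symm ▸ ht)).1.1
    obtain ⟨σ, hσ1, -, hσ3, hσ4⟩ := local_section hp hO hr hr0 hyO hys hry hd
    rw [h1, h2] at hσ1 hσ3 hσ4
    rw [h2] at hry
    refine ⟨x, hry, hys, σ, hσ1, ?_, hσ4⟩
    filter_upwards [hσ3, continuousAt_fst.eventually (hNo.mem_nhds ht)] with q hq hqN
    rw [← hq.2, ← hq.1]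
    exact hΦr _ (hq.1.symm ▸ hqN)

end Vale.Agent.P281Z.Hg.Eh
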