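import Vale.Agent.P281Z.Hg.S1

/-!
# P281, Hodge block: the Lefschetz operators at a point form an `sl_2` triple
-/

open scoped ContDiff ComplexOrder Topology Matrix
open Vale.Agent.P272.K Vale.Agent.P272.K.C2 Vale.Agent.P299.IX Vale.Agent.P299.IX.Fock

noncomputable section

namespace Vale.Agent.P281Z.Hg

namespace F2bH

variable {d : ℕ}

theorem hne (j k : Fin d) : hl j ≠ ah k := fun h => by
  have h1 := congrArg Fin.val h
  have h2 := j.isLt
  simp only [hl, ah, Fin.val_castAdd, Fin.val_natAdd] at h1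
  omega

theorem hl_inj {j k : Fin d} : hl j = hl k ↔ j = k := Fin.castAdd_inj

theorem ah_inj {j k : Fin d} : ah j = ah k ↔ j = k := Fin.natAdd_inj _

theorem chh (j a : Fin d) :
    iot (hl j) * eps (hl a) = (if j = a then 1 else 0) - eps (hl a) * iot (hl j) := by
  rw [eq_sub_of_add_eq (car (hl j) (hl a))]
  simp only [hl_inj]

theorem caa (j a : Fin d) :
    iot (ah j) * eps (ah a) = (if j = a then 1 else 0) - eps (ah a) * iot (ah j) := by
  rw [eq_sub_of_add_eq (car (ah j) (ah a))]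
  simp only [ah_inj]

theorem cha (j a : Fin d) : iot (hl j) * eps (ah a) = -(eps (ah a) * iot (hl j)) := by
  rw [eq_sub_of_add_eq (car (hl j) (ah a)), if_neg (hne j a), zero_sub]

theorem cah (j a : Fin d) : iot (ah j) * eps (hl a) = -(eps (hl a) * iot (ah j)) := by
  rw [eq_sub_of_add_eq (car (ah j) (hl a)), if_neg (hne a j).symm, zero_sub]

theorem sum_split {M : Type} [AddCommMonoid M] (f : Fin (d + d) → M) :
    ∑ c, f c = ∑ j, f (hl j) + ∑ j, f (ah j) := Fin.sum_univ_add f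

theorem cases_c (c : Fin (d + d)) : (∃ j, c = hl j) ∨ ∃ j, c = ah j :=
  Fin.addCases (motive := fun c => (∃ j, c = hl j) ∨ ∃ j, c = ah j)
    (fun j => Or.inl ⟨j, rfl⟩) (fun j => Or.inr ⟨j, rfl⟩) c

variable (w : Matrix (Fin d) (Fin d) ℂ)

theorem ih_L (j : Fin d) :
    iot (hl j) * Lw w = Lw w * iot (hl j) + ∑ b, (Complex.I * w j b) • eps (ah b) := by
  have h : ∀ a b, iot (hl j) * ((Complex.I * w a b) • (eps (hl a) * eps (ah b))) =
      ((Complex.I * w a b) • (eps (hl a) * eps (ah b))) * iot (hl j) +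
        if j = a then (Complex.I * w a b) • eps (ah b) else 0 := by
    intro a b
    rw [Matrix.mul_smul, Matrix.smul_mul, ← Matrix.mul_assoc, chh, Matrix.sub_mul,
      Matrix.mul_assoc, cha, Matrix.mul_neg, Matrix.mul_assoc]
    split_ifs <;> simp [add_comm]
  simp only [Lw, Finset.mul_sum, Finset.sum_mul, h, Finset.sum_add_distrib]
  congr 1
  rw [Finset.sum_comm]
  simp

theorem ia_L (k : Fin d) :
    iot (ah k) * Lw w = Lw w * iot (ah k) - ∑ a, (Complex.I * w a k) • eps (hl a) := by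
  have h : ∀ a b, iot (ah k) * ((Complex.I * w a b) • (eps (hl a) * eps (ah b))) =
      ((Complex.I * w a b) • (eps (hl a) * eps (ah b))) * iot (ah k) -
        if k = b then (Complex.I * w a b) • eps (hl a) else 0 := by
    intro a b
    rw [Matrix.mul_smul, Matrix.smul_mul, ← Matrix.mul_assoc, cah, Matrix.neg_mul,
      Matrix.mul_assoc, caa, Matrix.mul_sub, Matrix.mul_assoc]
    split_ifs <;> simp [smul_sub]
  simp only [Lw, Finset.mul_sum, Finset.sum_mul, h, Finset.sum_sub_distrib]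
  simp

theorem Lm_eh (a : Fin d) :
    Lam w * eps (hl a) - eps (hl a) * Lam w = ∑ k, (-Complex.I * w⁻¹ k a) • iot (ah k) := by
  have h : ∀ j k, ((-Complex.I * w⁻¹ k j) • (iot (ah k) * iot (hl j))) * eps (hl a) =
      eps (hl a) * ((-Complex.I * w⁻¹ k j) • (iot (ah k) * iot (hl j))) +
        if j = a then (-Complex.I * w⁻¹ k j) • iot (ah k) else 0 := by
    intro j k
    rw [Matrix.mul_smul, Matrix.smul_mul, Matrix.mul_assoc, chh, Matrix.mul_sub,
      ← Matrix.mul_assoc, cah, Matrix.neg_mul, Matrix.mul_assoc]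
    split_ifs <;> simp [add_comm]
  simp only [Lam, Finset.mul_sum, Finset.sum_mul, h, Finset.sum_add_distrib, add_sub_cancel_left]
  rw [Finset.sum_comm]
  simp

theorem Lm_ea (b : Fin d) :
    Lam w * eps (ah b) - eps (ah b) * Lam w = ∑ j, (Complex.I * w⁻¹ b j) • iot (hl j) := by
  have h : ∀ j k, ((-Complex.I * w⁻¹ k j) • (iot (ah k) * iot (hl j))) * eps (ah b) =
      eps (ah b) * ((-Complex.I * w⁻¹ k j) • (iot (ah k) * iot (hl j))) +
        if k = b then (Complex.I * w⁻¹ k j) • iot (hl j) else 0 := by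
    intro j k
    rw [Matrix.mul_smul, Matrix.smul_mul, Matrix.mul_assoc, cha, Matrix.mul_neg,
      ← Matrix.mul_assoc, caa, Matrix.sub_mul, Matrix.mul_assoc]
    split_ifs <;> simp [sub_eq_add_neg, add_comm]
  simp only [Lam, Finset.mul_sum, Finset.sum_mul, h, Finset.sum_add_distrib, add_sub_cancel_left]
  simp

theorem eps_L (c : Fin (d + d)) : Lw w * eps c = eps c * Lw w := by
  simp only [Lw, Finset.mul_sum, Finset.sum_mul]
  refine Finset.sum_congr rfl fun a _ => Finset.sum_congr rfl fun b _ => ?_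
  rw [Matrix.mul_smul, Matrix.smul_mul, Matrix.mul_assoc, eps_eps (ah b), Matrix.mul_neg,
    ← Matrix.mul_assoc, eps_eps (hl a), Matrix.neg_mul, neg_neg, Matrix.mul_assoc]

theorem dgl_L (c : ℕ → ℂ) : dgl c * Lw w = Lw w * dgl fun p => c (p + 2) := by
  simp only [Lw, Finset.mul_sum, Finset.sum_mul]
  refine Finset.sum_congr rfl fun a _ => Finset.sum_congr rfl fun b _ => ?_
  rw [Matrix.mul_smul, Matrix.smul_mul, ← Matrix.mul_assoc, dgl_eps, Matrix.mul_assoc, dgl_eps,
    Matrix.mul_assoc]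

theorem dgl_Lm (c : ℕ → ℂ) : (dgl fun p => c (p + 2)) * Lam w = Lam w * dgl c := by
  simp only [Lam, Finset.mul_sum, Finset.sum_mul]
  refine Finset.sum_congr rfl fun a _ => Finset.sum_congr rfl fun b _ => ?_
  rw [Matrix.mul_smul, Matrix.smul_mul, Matrix.mul_assoc, ← dgl_iot, ← Matrix.mul_assoc,
    ← Matrix.mul_assoc, ← dgl_iot]

theorem dgl_congr {n : ℕ} {c c' : ℕ → ℂ} (h : ∀ p ≤ n, c p = c' p) : (dgl c : FM n) = dgl c' := by
  unfold dgl
  congr 1
  ext I
  exact h _ (by simpa using Finset.card_le_univ I)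

theorem dgl_const {n : ℕ} (x : ℂ) : (dgl fun _ => x : FM n) = x • 1 := by
  rw [dgl, Matrix.smul_one_eq_diagonal]

theorem dgl_add {n : ℕ} (c c' : ℕ → ℂ) : (dgl fun p => c p + c' p : FM n) = dgl c + dgl c' := by
  rw [dgl, dgl, dgl, Matrix.diagonal_add]

theorem Hw_eq : Hw d = dgl fun p => (p : ℂ) - d := by
  refine ext_mulVec fun a => ?_
  ext I
  have h : I.card ∈ Finset.range (d + d + 1) := by
    simpa [Nat.lt_succ_iff] using Finset.card_le_univ I
  rw [Hw, Matrix.sub_mulVec, Matrix.sum_mulVec, Pi.sub_apply, Finset.sum_apply, dgl_mulVec]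
  simp only [Matrix.smul_mulVec, Pi.smul_apply, dg_mulVec, smul_eq_mul, mul_ite, mul_zero,
    Matrix.one_mulVec]
  rw [Finset.sum_ite_eq, if_pos h, sub_mul]

theorem Hw_shift (k : ℕ) : (dgl fun p => ((p + k : ℕ) : ℂ) - d) = Hw d + (k : ℂ) • 1 := by
  rw [Hw_eq, ← dgl_const, ← dgl_add]
  congr 1
  ext p
  push_cast
  ring

theorem num : ∑ c, eps c * iot c = Hw d + (d : ℂ) • 1 := by
  rw [← Hw_shift]
  refine ext_mulVec fun a => ?_
  ext I
  rw [Matrix.sum_mulVec, Finset.sum_apply, dgl_mulVec]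
  simp only [eps_iot_mulVec]
  rw [Finset.sum_ite_mem, Finset.univ_inter]
  simp

theorem H_eps (c : Fin (d + d)) : Hw d * eps c - eps c * Hw d = eps c := by
  nth_rewrite 1 [Hw_eq]
  rw [dgl_eps, Hw_shift]
  simp [Matrix.mul_add]

theorem br (hw : IsUnit w.det) : Lw w * Lam w - Lam w * Lw w = Hw d := by
  have h : ∀ j k, ((-Complex.I * w⁻¹ k j) • (iot (ah k) * iot (hl j))) * Lw w =
      Lw w * ((-Complex.I * w⁻¹ k j) • (iot (ah k) * iot (hl j))) -
        ∑ a, (w a k * w⁻¹ k j) • (eps (hl a) * iot (hl j)) +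
        ∑ b, (w⁻¹ k j * w j b) • (iot (ah k) * eps (ah b)) := by
    intro j k
    rw [Matrix.smul_mul, Matrix.mul_assoc, ih_L, Matrix.mul_add, ← Matrix.mul_assoc, ia_L,
      Matrix.sub_mul, smul_add, smul_sub, Matrix.mul_smul, Matrix.mul_assoc, Finset.sum_mul,
      Finset.mul_sum, Finset.smul_sum, Finset.smul_sum]
    congr 1
    · congr 1
      refine Finset.sum_congr rfl fun a _ => ?_
      rw [Matrix.smul_mul, smul_smul]
      congr 1
      linear_combination (-(w a k * w⁻¹ k j)) * Complex.I_mul_I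
    · refine Finset.sum_congr rfl fun a _ => ?_
      rw [Matrix.mul_smul, smul_smul]
      congr 1
      linear_combination (-(w⁻¹ k j * w j a)) * Complex.I_mul_I
  have h1 : ∑ j, ∑ k, ∑ a, (w a k * w⁻¹ k j) • (eps (hl a) * iot (hl j)) =
      ∑ j : Fin d, eps (hl j) * iot (hl j) := by
    refine Finset.sum_congr rfl fun j _ => ?_
    rw [Finset.sum_comm]
    simp only [← Finset.sum_smul, ← Matrix.mul_apply, Matrix.mul_nonsing_inv _ hw]
    simp [Matrix.one_apply]
  have h2 : ∑ j, ∑ k, ∑ b, (w⁻¹ k j * w j b) • (iot (ah k) * eps (ah b)) =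
      (d : ℂ) • 1 - ∑ j : Fin d, eps (ah j) * iot (ah j) := by
    rw [Finset.sum_comm]
    have h3 : ∀ k, ∑ j, ∑ b, (w⁻¹ k j * w j b) • (iot (ah k) * eps (ah b)) =
        1 - eps (ah k) * iot (ah k) := by
      intro k
      rw [Finset.sum_comm]
      simp only [← Finset.sum_smul, ← Matrix.mul_apply, Matrix.nonsing_inv_mul _ hw]
      simp [Matrix.one_apply, caa]
    simp only [h3, Finset.sum_sub_distrib]
    simp [Nat.cast_smul_eq_nsmul]
  have h4 : Lam w * Lw w = Lw w * Lam w - ∑ j : Fin d, eps (hl j) * iot (hl j) +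
      ((d : ℂ) • 1 - ∑ j : Fin d, eps (ah j) * iot (ah j)) := by
    rw [← h1, ← h2]
    simp only [Lam, Finset.mul_sum, Finset.sum_mul, h, Finset.sum_add_distrib,
      Finset.sum_sub_distrib]
  have h5 := num (d := d)
  rw [sum_split] at h5
  rw [h4, eq_sub_of_add_eq h5.symm]
  abel

theorem sl2 (hw : IsUnit w.det) : SL2 d (Lw w) (Lam w) (Hw d) := by
  have h0 : (dgl fun p => if p ≤ d + d then 1 else 0 : Fm d) = 1 := by
    rw [← one_smul ℂ (1 : Fm d), ← dgl_const]
    exact dgl_congr fun p hp => if_pos hp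
  have h1 : (dgl fun p => if p + 2 * (d + d + 1) ≤ d + d then 1 else 0 : Fm d) = 0 := by
    rw [← zero_smul ℂ (1 : Fm d), ← dgl_const]
    exact dgl_congr fun p _ => if_neg (by omega)
  have h2 : ∀ (k : ℕ) (c : ℕ → ℂ), dgl c * Lw w ^ k = Lw w ^ k * dgl fun p => c (p + 2 * k) := by
    intro k c
    induction k with
    | zero => simp
    | succ k ih =>
      rw [pow_succ, ← Matrix.mul_assoc, ih, Matrix.mul_assoc, dgl_L, Matrix.mul_assoc]
      congr 3
      ext p
      congr 1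
      ring
  have h3 : ∀ (k : ℕ) (c : ℕ → ℂ), (dgl fun p => c (p + 2 * k)) * Lam w ^ k = Lam w ^ k * dgl c := by
    intro k c
    induction k with
    | zero => simp
    | succ k ih =>
      rw [pow_succ', Matrix.mul_assoc, ← ih, ← Matrix.mul_assoc, ← Matrix.mul_assoc, ← dgl_Lm]
      congr 3
      ext p
      congr 1
      ring
  refine ⟨br w hw, ?_, ?_, ?_, ?_⟩
  · nth_rewrite 1 [Hw_eq]
    rw [dgl_L, Hw_shift]
    simp [Matrix.mul_add]
  · nth_rewrite 2 [Hw_eq]
    rw [← dgl_Lm, Hw_shift]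
    simp [Matrix.add_mul]
  · have h := h2 (d + d + 1) fun p => if p ≤ d + d then 1 else 0
    rwa [h0, h1, Matrix.one_mul, Matrix.mul_zero] at h
  · have h := h3 (d + d + 1) fun p => if p ≤ d + d then 1 else 0
    rw [h0, h1, Matrix.mul_one, Matrix.zero_mul] at h
    exact h.symm

end F2bH

end Vale.Agent.P281Z.Hg
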