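import Vale.Agent.P281Z.Hg.FaA

/-!
# P281, Hodge block: first order behaviour of the Hodge projectors
-/

open scoped ComplexOrder Topology Matrix
open Filter Asymptotics

set_option linter.unusedSectionVars false

noncomputable section

namespace Vale.Agent.P281Z.Hg

namespace FaH

variable {S : Type} [AddCommGroup S] [Module ℂ S] {D : ℕ} {X : Cx S D} {n : ℕ} {b : Fin n → S}

/-- the Gram matrix -/
def Gr (X : Cx S D) (b : Fin n → S) : Mt n := Matrix.of fun i j => X.Q (b i) (b j)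

theorem Qsum (z : S) (M : Mt n) (j : Fin n) :
    X.Q z (∑ i, M i j • b i) = ∑ i, X.Q z (b i) * M i j := by
  simp only [map_sum, map_smul, smul_eq_mul, mul_comm]

theorem cl_sum (hb : X.Bas D b) (c : Fin n → ℂ) : X.d (∑ i, c i • b i) = 0 := by
  simp only [map_sum, map_smul, (hb.cl _).1, smul_zero, Finset.sum_const_zero]

theorem lim1 {K : KP X} (F : Full K) {P : ℕ → Mt n} (hP : K.IsPr b P) {z : S} (hz : X.d z = 0)
    (k : ℕ) {m : Fin n} {v : ℕ → S} (hv : K.Rep (b m) v) :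
    Tendsto (fun s => X.Q z (K.pr k (v s))) atTop (𝓝 (∑ i, X.Q z (b i) * P k i m)) := by
  rw [← Qsum]
  exact F.h.Qlim' hz (hP k m v hv)

theorem limE {K K' : KP X} (F : Full K) (F' : Full K') (h : Cmp K K' (1 / 4)) (hb : X.Bas D b)
    {P P' : ℕ → Mt n} (hP : K.IsPr b P) (hP' : K'.IsPr b P') {j : ℕ} (hj : j ≤ D) (k : ℕ)
    {l m : Fin n} {u v : ℕ → S} (hu : K.Rep (b l) u) (hv : K'.Rep (b m) v) :
    Tendsto (fun p : ℕ × ℕ => X.Q (u p.1) (K.pr j (K'.pr k (v p.2)))) FF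
      (𝓝 ((Gr X b * P j * P' k) l m)) := by
  have hz := hP (D - j) l u hu
  have e : ∀ a c, X.Q (K.pr (D - j) a) c = X.Q a (K.pr j c) := fun a c =>
    F.ok.alg.Qpr _ _ _ _ (Nat.sub_add_cancel hj)
  have h1 : ∀ i, (Gr X b * P j) l i = X.Q (∑ i, P (D - j) i l • b i) (b i) := fun i => by
    obtain ⟨w, hw⟩ := F.h.ex _ (hb.cl i).1
    have a1 := F.h.Qlim hz hw
    have a2 := F.h.Qlim hu (hP j i w hw)
    simp only [e] at a1
    rw [tendsto_nhds_unique a1 a2, Qsum]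
    rfl
  have h2 := F'.h.hpr k hv.toHar
  have h3 := F.mix hz (h.bdd F F' le_rfl h2.cau) (h.null F F' le_rfl h2.d)
    (lim1 F' hP' (cl_sum hb _) k hv)
  simp only [e, ← h1] at h3
  exact h3

theorem lo_of {α E : Type} [NormedAddCommGroup E] {l : Filter α} {f : α → ℂ} {g : α → E} (C : ℝ)
    (h : ∀ ε : ℝ, 0 < ε → ε ≤ 1 → ∀ᶠ t in l, ‖f t‖ ≤ C * (ε * ‖g t‖)) : f =o[l] g := by
  refine isLittleO_iff.2 fun c hc => ?_
  have h0 : 0 < |C| + 1 := by positivity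
  refine (h (min 1 (c / (|C| + 1))) (by positivity) (min_le_left _ _)).mono fun t ht => ?_
  refine ht.trans ?_
  rw [← mul_assoc]
  refine mul_le_mul_of_nonneg_right ?_ (norm_nonneg _)
  have h1 := (le_div_iff₀ h0).1 (min_le_right 1 (c / (|C| + 1)))
  have h2 : 0 ≤ min 1 (c / (|C| + 1)) := by positivity
  nlinarith [le_abs_self C]

variable {p : ℕ} {K : (Fin p → ℂ) → KP X} {t0 : Fin p → ℂ} {Pr : ℕ → (Fin p → ℂ) → Mt n}

/-- the properties of the parameters near `t0` -/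
structure Nr (K : (Fin p → ℂ) → KP X) (t0 : Fin p → ℂ) (b : Fin n → S)
    (Pr : ℕ → (Fin p → ℂ) → Mt n) (t : Fin p → ℂ) : Prop where
  full : Full (K t)
  cmp : Cmp (K t0) (K t) (1 / 4)
  pr : (K t).IsPr b fun k => Pr k t

variable (H : FamH K t0) (F : Full (K t0)) (hb : X.Bas D b) (h0 : (K t0).IsPr b fun k => Pr k t0)
  (hN : ∀ᶠ t in 𝓝 t0, Nr K t0 b Pr t)
include H F hN

theorem near {z : S} {v0 : ℕ → S} (hv : (K t0).Rep z v0) {ε : ℝ} (hε : 0 < ε) :
    ∀ᶠ t in 𝓝 t0, Nr K t0 b Pr t ∧ ∃ v, (K t).Rep z v ∧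
      ∀ᶠ s in atTop, (K t0).nrm (v s - v0 s) ≤ ε := by
  obtain ⟨B, hB⟩ := F.h.bdd hv.cau
  have h1 : 0 < 6 * B ^ 2 + 8 := by positivity
  have h2 : 0 < min (1 / 4) (ε ^ 2 / (6 * B ^ 2 + 8)) := by positivity
  filter_upwards [hN, H.h1 _ h2] with t a1 a2
  obtain ⟨v, hv'⟩ := a1.full.h.ex z hv.cl
  refine ⟨a1, v, hv', (Cmp.close F a1.full a2 (min_le_left _ _) h2 hv hv' hB).mono fun s hs => ?_⟩
  exact le_of_sq_le_sq (hs.trans ((le_div_iff₀ h1).1 (min_le_right _ _))) hε.le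

include hb h0

theorem cont (k : ℕ) (l m : Fin n) : ContinuousAt (fun t => (Gr X b * Pr k t) l m) t0 := by
  obtain ⟨v0, hv⟩ := F.h.ex _ (hb.cl m).1
  obtain ⟨B, hB⟩ := F.h.bdd hv.cau
  obtain ⟨C, hC, hQ⟩ := F.b.bQ
  have : (fun t => (Gr X b * Pr k t) l m - (Gr X b * Pr k t0) l m) =o[𝓝 t0] fun _ => (1 : ℝ) := by
    refine lo_of (C * (K t0).nrm (b l) * (B + 2)) fun ε hε h1 => ?_
    filter_upwards [near H F hN hv hε, H.h2 k ε hε] with t ⟨a1, v, a2, a3⟩ a4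
    refine le_of_tendsto ((lim1 a1.full a1.pr (hb.cl l).1 k a2).sub
      (lim1 F h0 (hb.cl l).1 k hv)).norm (a3.mono fun s hs => ?_)
    rw [← map_sub, mul_assoc _ (B + 2)]
    refine (hQ _ _).trans (mul_le_mul_of_nonneg_left ?_ (mul_nonneg hC (F.b.nn _)))
    have e1 := F.b.tri ((K t).pr k (v s) - (K t0).pr k (v s)) ((K t0).pr k (v s - v0 s))
    have e2 := F.b.tri (v s - v0 s) (v0 s)
    rw [sub_add_cancel] at e2
    have e3 := F.b.prb k (v s - v0 s)
    rw [map_sub] at e1 e3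
    rw [sub_add_sub_cancel] at e1
    have e4 := mul_le_mul_of_nonneg_left (e2.trans (add_le_add (hs.trans h1) (hB s))) hε.le
    rw [norm_one]
    nlinarith [a4 (v s)]
  exact tendsto_sub_nhds_zero_iff.1 ((isLittleO_one_iff ℝ).1 this)

theorem far {j k : ℕ} (hj : j ≤ D) (hjk : j + 2 ≤ k) (l m : Fin n) :
    (fun t => (Gr X b * Pr j t0 * Pr k t) l m) =o[𝓝 t0] fun t => t - t0 := by
  have := neBot
  obtain ⟨v0, hv⟩ := F.h.ex _ (hb.cl m).1
  obtain ⟨u, hu⟩ := F.h.ex _ (hb.cl l).1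
  obtain ⟨B, hB⟩ := F.h.bdd hv.cau
  obtain ⟨B', hB'⟩ := F.h.bdd hu.cau
  obtain ⟨C, hC, hQ⟩ := F.b.bQ
  refine lo_of (C * B' * (1 + B)) fun ε hε h1 => ?_
  filter_upwards [near H F hN hv one_pos, H.h3 j k hjk ε hε] with t ⟨a1, v, a2, a3⟩ a4
  refine le_of_tendsto (limE F a1.full a1.cmp hb h0 a1.pr hj k hu a2).norm
    ((t2.eventually a3).mono fun q hq => ?_)
  have e2 := F.b.tri (v q.2 - v0 q.2) (v0 q.2)
  rw [sub_add_cancel] at e2
  rw [mul_assoc _ (1 + B), mul_comm (1 + B)]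
  exact (hQ _ _).trans (mul_le_mul (mul_le_mul_of_nonneg_left (hB' _) hC) ((a4 _).trans
    (mul_le_mul_of_nonneg_left (e2.trans (add_le_add hq (hB _))) (by positivity))) (F.b.nn _)
    (mul_nonneg hC ((F.b.nn _).trans (hB' 0))))

theorem adj {k : ℕ} (hk : k ≤ D) (l m : Fin n) : ∃ L : Fin p → ℂ,
    (fun t => (Gr X b * Pr k t0 * Pr (k + 1) t) l m - ∑ j, (t - t0) j * L j) =o[𝓝 t0]
      fun t => t - t0 := by
  have := neBot
  obtain ⟨v0, hv⟩ := F.h.ex _ (hb.cl m).1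
  obtain ⟨u, hu⟩ := F.h.ex _ (hb.cl l).1
  obtain ⟨B, hB⟩ := F.h.bdd hv.cau
  obtain ⟨B', hB'⟩ := F.h.bdd hu.cau
  obtain ⟨C, hC, hQ⟩ := F.b.bQ
  obtain ⟨μ, η, hμ, hη, hθ, h4⟩ := H.h4
  choose M hM0 hM using hμ
  choose T hT0 hT using hθ
  set θ : Fin p → Module.End ℂ S := fun j => (K t0).Ab * η j + η j * (K t0).Ab with hθ
  have hC' : 0 ≤ C * B' := mul_nonneg hC ((F.b.nn _).trans (hB' 0))
  have hq : ∀ r a, ‖X.Q (u r) ((K t0).pr k a)‖ ≤ C * B' * (K t0).nrm a := fun r a =>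
    (hQ _ _).trans (mul_le_mul (mul_le_mul_of_nonneg_left (hB' r) hC) (F.b.prb k a) (F.b.nn _) hC')
  have hL : ∀ j, ∃ L, Tendsto (fun q : ℕ × ℕ =>
      X.Q (u q.1) ((K t0).pr k (μ j ((K t0).pr (k + 1) (v0 q.2))))) (Ultrafilter.of FF) (𝓝 L) :=
    fun j => by
      obtain ⟨L, -, hL⟩ := (isCompact_closedBall (0 : ℂ) (C * B' * (M j * B))).ultrafilter_le_nhds
        ((Ultrafilter.of FF).map fun q : ℕ × ℕ =>
          X.Q (u q.1) ((K t0).pr k (μ j ((K t0).pr (k + 1) (v0 q.2)))))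
        (le_principal_iff.2 (mem_map.2 (univ_mem' fun q => mem_closedBall_zero_iff.2
          ((hq _ _).trans (mul_le_mul_of_nonneg_left ((hM j _).trans (mul_le_mul_of_nonneg_left
            ((F.b.prb _ _).trans (hB _)) (hM0 j))) hC')))))
      exact ⟨L, hL⟩
  choose L hL using hL
  refine ⟨L, lo_of (C * B' * (1 + B + ∑ j, (M j + T j))) fun ε hε h1 => ?_⟩
  filter_upwards [near H F hN hv hε, h4 k ε hε] with t ⟨a1, v, a2, a3⟩ a4
  have l1 := (limE F a1.full a1.cmp hb h0 a1.pr hk (k + 1) hu a2).mono_left (Ultrafilter.of_le FF)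
  have l2 := tendsto_finsetSum Finset.univ fun j _ => ((hL j).const_mul ((t - t0) j)).add
    (((F.anti (hη j) hu.toHar (F.h.hpr (k + 1) hv.toHar) hk).mono_left
      (Ultrafilter.of_le FF)).const_mul (star ((t - t0) j)))
  simp only [mul_zero, add_zero] at l2
  refine le_of_tendsto (l1.sub l2).norm (((t2.mono_left (Ultrafilter.of_le FF)).eventually
    a3).mono fun q hs => ?_)
  have e1 : ∀ a : S, ∑ j, ((t - t0) j * X.Q (u q.1) ((K t0).pr k (μ j a)) +
      star ((t - t0) j) * X.Q (u q.1) ((K t0).pr k (θ j a))) =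
      X.Q (u q.1) ((K t0).pr k (∑ j, ((t - t0) j • μ j a + star ((t - t0) j) • θ j a))) :=
    fun a => by simp only [map_sum, map_add, map_smul, smul_eq_mul]
  have e2 := F.b.tri (v q.2 - v0 q.2) (v0 q.2)
  rw [sub_add_cancel] at e2
  set w := (K t0).pr (k + 1) (v q.2 - v0 q.2) with hw
  have e3 : (K t0).nrm w ≤ ε := (F.b.prb _ _).trans hs
  have e4 : (K t0).nrm (∑ j, ((t - t0) j • μ j w + star ((t - t0) j) • θ j w)) ≤
      (∑ j, (M j + T j)) * (ε * ‖t - t0‖) := by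
    rw [Finset.sum_mul]
    refine (F.sum_le _ _).trans (Finset.sum_le_sum fun j _ => (F.b.tri _ _).trans ?_)
    rw [F.b.smul, F.b.smul, norm_star, ← mul_add, mul_comm ε, mul_left_comm]
    refine mul_le_mul (norm_le_pi_norm _ j) ?_ (add_nonneg (F.b.nn _) (F.b.nn _)) (norm_nonneg _)
    rw [add_mul]
    exact add_le_add ((hM j w).trans (mul_le_mul_of_nonneg_left e3 (hM0 j)))
      ((hT j w).trans (mul_le_mul_of_nonneg_left e3 (hT0 j)))
  have e5 := (a4 (v q.2)).trans (mul_le_mul_of_nonneg_left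
    (e2.trans (add_le_add (hs.trans h1) (hB _))) (by positivity))
  have e6 := (hQ (u q.1) _).trans (mul_le_mul (mul_le_mul_of_nonneg_left (hB' _) hC) e5
    (F.b.nn _) hC')
  have e7 := (hq q.1 _).trans (mul_le_mul_of_nonneg_left e4 hC')
  refine le_of_eq_of_le (congrArg norm ?_) (((norm_add_le _ _).trans (add_le_add e6 e7)).trans_eq
    (by ring))
  rw [e1, ← map_sub, ← map_sub, ← map_add, ← map_add]
  refine congrArg _ (congrArg _ ?_)
  simp only [hw, hθ, map_sub, smul_sub, Finset.sum_add_distrib, Finset.sum_sub_distrib]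
  abel

omit H F hN hb h0

/-- entrywise little o -/
def LO (t0 : Fin p → ℂ) (M : (Fin p → ℂ) → Mt n) : Prop :=
  ∀ i j, (fun t => M t i j) =o[𝓝 t0] fun t => t - t0

theorem LO.mul {M : (Fin p → ℂ) → Mt n} (h : LO t0 M) (A : Mt n) : LO t0 fun t => A * M t :=
  fun i j => IsLittleO.fun_sum (s := Finset.univ) fun l _ => (h l j).const_mul_left (A i l)

theorem LO.add {M M' : (Fin p → ℂ) → Mt n} (h : LO t0 M) (h' : LO t0 M') :
    LO t0 fun t => M t + M' t := fun i j => (h i j).add (h' i j)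

theorem LO.sum {ι : Type} (s : Finset ι) {M : ι → (Fin p → ℂ) → Mt n}
    (h : ∀ a ∈ s, LO t0 (M a)) : LO t0 fun t => ∑ a ∈ s, M a t := fun i j => by
  simp only [Matrix.sum_apply]
  exact IsLittleO.fun_sum fun a ha => h a ha i j

end FaH

open FaH in
/-- **FA** -/
theorem fa_of (hA : ABall) (hT : TR) : FA := by
  intro S _ _ D X p K t0 n b Pr H hb h0 h1
  have F := full_of hA H.ok0
  have hN : ∀ᶠ t in 𝓝 t0, FaH.Nr K t0 b Pr t := by
    filter_upwards [H.ok, H.h1 (1 / 4) (by norm_num), h1] with t a1 a2 a3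
    exact ⟨full_of hA a1, a2, a3⟩
  have hG : (Gr X b)⁻¹ * Gr X b = 1 := Matrix.nonsing_inv_mul _ (hT.gram F.ok.cx hb)
  have hG' : ∀ A : Mt n, (Gr X b)⁻¹ * (Gr X b * A) = A := fun A => by
    rw [← Matrix.mul_assoc, hG, Matrix.one_mul]
  obtain ⟨-, Qm, -, hQ⟩ := F.m.ex hb
  have P := F.m.pg hb h0 hQ
  refine ⟨fun k i j => ?_, fun k => ?_⟩
  · have : ContinuousAt (fun t => ((Gr X b)⁻¹ * (Gr X b * Pr k t)) i j) t0 :=
      tendsto_finsetSum Finset.univ fun l _ =>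
        (cont H F hb h0 hN k l j).const_mul ((Gr X b)⁻¹ i l)
    simpa only [hG'] using this
  by_cases hk : D ≤ k
  · refine ⟨0, fun j => by simp, fun i i' => ?_⟩
    simp [Fp, Finset.Ico_eq_empty_of_le (Nat.succ_le_succ hk)]
  push Not at hk
  choose L hL using adj H F hb h0 hN hk.le
  have hP : Pr k t0 * Pr k t0 = Pr k t0 := by rw [P.orth, if_pos rfl]
  refine ⟨fun j => Pr k t0 * ((Gr X b)⁻¹ * Matrix.of fun l m => L l m j),
    fun j => by rw [← Matrix.mul_assoc, hP], ?_⟩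
  have e1 : 1 - Fp D Pr (k + 1) t0 = ∑ j ∈ Finset.range (k + 1), Pr j t0 := by
    rw [← P.sum, Fp, ← Finset.sum_range_add_sum_Ico _ (Nat.succ_le_succ hk.le),
      add_sub_cancel_right]
  have far' : ∀ j i, j ≤ D → j + 2 ≤ i → LO t0 fun t => Pr j t0 * Pr i t := fun j i a1 a2 => by
    have := LO.mul (M := fun t => Gr X b * Pr j t0 * Pr i t) (far H F hb h0 hN a1 a2) (Gr X b)⁻¹
    simpa only [Matrix.mul_assoc, hG'] using this
  have l1 : LO t0 fun t => Gr X b * Pr k t0 * Pr (k + 1) t -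
      ∑ j, (t - t0) j • (Matrix.of fun l m => L l m j : Mt n) := fun l m => by
    simpa only [Matrix.sub_apply, Matrix.sum_apply, Matrix.smul_apply, Matrix.of_apply,
      smul_eq_mul] using hL l m
  have l2 := (((l1.mul (Gr X b)⁻¹).mul (Pr k t0)).add (LO.sum (Finset.Ico (k + 2) (D + 1))
    fun i hi => far' k i hk.le (Finset.mem_Ico.1 hi).1)).add (LO.sum (Finset.range k) fun j hj =>
      LO.sum (Finset.Ico (k + 1) (D + 1)) fun i hi => far' j i
        (by have := Finset.mem_range.1 hj; omega)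
        (by have := Finset.mem_range.1 hj; have := (Finset.mem_Ico.1 hi).1; omega))
  refine (congrArg (LO t0) (funext fun t => ?_)).mp l2
  rw [e1, Finset.sum_range_succ, add_mul, Finset.sum_mul, Fp]
  simp only [Finset.mul_sum, Matrix.mul_sub, Matrix.mul_assoc, hG', Matrix.mul_smul]
  rw [← Matrix.mul_assoc, hP, Finset.sum_eq_sum_Ico_succ_bot (Nat.succ_lt_succ hk)
    fun i => Pr k t0 * Pr i t]
  abel

end Vale.Agent.P281Z.Hg
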