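import Vale.Agent.P281Z.Hg.S2

/-!
# P281, Hodge block: comparison of harmonic representatives for close Kähler packages
-/

open scoped ComplexOrder Topology Matrix
open Filter

set_option linter.unusedSectionVars false

noncomputable section

namespace Vale.Agent.P281Z.Hg.FaH

variable {S : Type} [AddCommGroup S] [Module ℂ S] {D : ℕ} {X : Cx S D} {K K' : KP X}

/-- a package with all consequences of the axioms -/
structure Full (K : KP X) : Prop where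
  ok : K.OK
  a : K.KIa
  b : K.KIb
  h : K.KH
  m : K.KM

theorem full_of (hA : ABall) (h : K.OK) : Full K :=
  let ⟨a, b, c, d⟩ := hA S D X K h
  ⟨h, a, b, c, d⟩

/-- the iterated limit -/
def FF : Filter (ℕ × ℕ) := (atTop : Filter ℕ).curry atTop

theorem neBot : FF.NeBot := ⟨fun h => by
  have : ∀ᶠ _p in FF, False := by rw [h]; exact eventually_bot
  obtain ⟨_, h1⟩ := (eventually_curry_iff.1 this).exists
  obtain ⟨_, h2⟩ := h1.exists
  exact h2⟩

theorem t1 : Tendsto Prod.fst FF atTop := tendsto_fst.mono_left curry_le_prod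

theorem t2 : Tendsto Prod.snd FF atTop := tendsto_snd.mono_left curry_le_prod

theorem t3 {f : ℕ → ℕ → ℂ} (h : ∀ r, Tendsto (f r) atTop (𝓝 0)) :
    Tendsto (fun p : ℕ × ℕ => f p.1 p.2) FF (𝓝 0) := fun _ hs =>
  eventually_curry_iff.2 (.of_forall fun r => h r hs)

namespace Full

variable (F : Full K)
include F

theorem neg (a : S) : K.nrm (-a) = K.nrm a := by
  rw [← neg_one_smul ℂ a, F.b.smul, norm_neg, norm_one, one_mul]

theorem sub_le (a b : S) : K.nrm (a - b) ≤ K.nrm a + K.nrm b := by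
  rw [sub_eq_add_neg, ← F.neg b]
  exact F.b.tri _ _

theorem sum_le {ι : Type} (s : Finset ι) (f : ι → S) :
    K.nrm (∑ i ∈ s, f i) ≤ ∑ i ∈ s, K.nrm (f i) :=
  Finset.le_sum_of_subadditive K.nrm (by simpa using (F.b.smul 0 0).le) F.b.tri s f

theorem pyth (a b : S) : K.nrm (a + b) ^ 2 = K.nrm a ^ 2 + K.nrm b ^ 2 + 2 * (K.ip a b).re := by
  rw [F.b.sq, F.b.sq, F.b.sq, F.a.ip_add_l, F.a.ip_add_r, F.a.ip_add_r, F.ok.alg.herm b a]
  simp only [Complex.add_re, Complex.star_def, Complex.conj_re]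
  ring

/-- products of a null sequence and a bounded sequence -/
theorem prod0 {α : Type} {l : Filter α} {f : α → ℂ} {x y : α → S} {C B : ℝ} (hC : 0 ≤ C)
    (hf : ∀ p, ‖f p‖ ≤ C * K.nrm (x p) * K.nrm (y p))
    (h : (Tendsto (fun p => K.nrm (x p)) l (𝓝 0) ∧ ∀ p, K.nrm (y p) ≤ B) ∨
      (Tendsto (fun p => K.nrm (y p)) l (𝓝 0) ∧ ∀ p, K.nrm (x p) ≤ B)) : Tendsto f l (𝓝 0) := by
  rcases h with ⟨h1, h2⟩ | ⟨h1, h2⟩
  · refine squeeze_zero_norm (fun p => (hf p).trans (mul_le_mul_of_nonneg_left (h2 p)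
      (mul_nonneg hC (F.b.nn _)))) ?_
    simpa using (h1.const_mul C).mul_const B
  · refine squeeze_zero_norm (fun p => (hf p).trans (mul_le_mul_of_nonneg_right
      (mul_le_mul_of_nonneg_left (h2 p) hC) (F.b.nn _))) ?_
    simpa using h1.const_mul (C * B)

theorem null_bdd {x : ℕ → S} (h : K.Null x) : ∃ C : ℝ, ∀ s, K.nrm (x s) ≤ C := by
  obtain ⟨C, hC⟩ := h.bddAbove_range
  exact ⟨C, fun s => hC ⟨s, rfl⟩⟩

theorem orth {v e y : ℕ → S} (hv : K.Har v) (he : ∃ C : ℝ, ∀ s, K.nrm (e s) ≤ C)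
    (h : K.Null fun s => e s - X.d (y s)) :
    Tendsto (fun s => (K.ip (e s) (v s)).re) atTop (𝓝 0) := by
  obtain ⟨C, hC⟩ := he
  obtain ⟨C', hC'⟩ := F.null_bdd h
  obtain ⟨B, hB⟩ := F.h.bdd hv.cau
  have h1 := F.h.orth hv y ⟨C + C', fun s => by
    have := F.sub_le (e s) (e s - X.d (y s))
    rw [sub_sub_cancel] at this
    linarith [hC s, hC' s]⟩
  have h2 := F.prod0 (f := fun s => K.ip (e s - X.d (y s)) (v s)) zero_le_one
    (fun s => by rw [one_mul]; exact F.b.cs _ _) (Or.inl ⟨h, hB⟩)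
  have h3 := (Complex.continuous_re.tendsto _).comp (h2.add h1)
  simp only [add_zero, Complex.zero_re] at h3
  refine h3.congr fun s => ?_
  simp only [Function.comp, ← F.a.ip_add_l, sub_add_cancel]

theorem mix {z : S} {w a : ℕ → S} {c : ℂ} (hw : K.Rep z w) (ha : ∃ C : ℝ, ∀ s, K.nrm (a s) ≤ C)
    (hd : K.Null fun s => X.d (a s)) (hc : Tendsto (fun s => X.Q z (a s)) atTop (𝓝 c)) :
    Tendsto (fun p : ℕ × ℕ => X.Q (w p.1) (a p.2)) FF (𝓝 c) := by
  obtain ⟨y, hy⟩ := hw.coh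
  obtain ⟨B, hB⟩ := ha
  obtain ⟨C, hC, hQ⟩ := F.b.bQ
  have h1 := F.prod0 (f := fun p : ℕ × ℕ => X.Q (w p.1 - z - X.d (y p.1)) (a p.2)) hC
    (fun p => hQ _ _) (Or.inl ⟨hy.comp t1, fun p => hB p.2⟩)
  have h2 := t3 (f := fun r s => X.Q (y r) (X.d (a s))) fun r =>
    F.prod0 hC (fun s => hQ _ _) (Or.inr ⟨hd, fun _ => le_rfl⟩)
  have h3 := (h1.add (hc.comp t2)).sub h2
  rw [zero_add, sub_zero] at h3
  refine h3.congr fun p => ?_
  simp only [Function.comp, map_sub, LinearMap.sub_apply, F.ok.cx.Qd]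
  ring

/-- the antiholomorphic term does not contribute -/
theorem anti {η : Module.End ℂ S} (hη : K.Bdd η) {u v : ℕ → S} (hu : K.Har u) (hv : K.Har v)
    {k : ℕ} (hk : k ≤ D) : Tendsto (fun p : ℕ × ℕ =>
      X.Q (u p.1) (K.pr k ((K.Ab * η + η * K.Ab) (v p.2)))) FF (𝓝 0) := by
  obtain ⟨C, hC, hQ⟩ := F.b.bQ
  obtain ⟨E, hE, hη⟩ := hη
  have hu' := F.h.hpr (D - k) hu
  obtain ⟨B, hB⟩ := F.h.bdd hu'.cau
  obtain ⟨B', hB'⟩ := F.h.bdd hv.cau
  have h1 := F.prod0 (f := fun p : ℕ × ℕ => X.Q (K.Ab (K.pr (D - k) (u p.1))) (η (v p.2))) hC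
    (fun p => hQ _ _) (Or.inl ⟨(F.h.nA hu').2.1.comp t1,
      fun p => (hη _).trans (mul_le_mul_of_nonneg_left (hB' p.2) hE)⟩)
  have h2 := F.prod0 (f := fun p : ℕ × ℕ => X.Q (K.pr (D - k) (u p.1)) (η (K.Ab (v p.2)))) hC
    (fun p => hQ _ _) (Or.inr ⟨squeeze_zero (fun _ => F.b.nn _) (fun p => hη _)
      (by simpa using ((F.h.nA hv).2.1.comp t2).const_mul E), fun p => hB p.1⟩)
  have h3 := h2.sub h1
  rw [sub_zero] at h3
  refine h3.congr fun p => ?_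
  rw [← F.ok.alg.Qpr (D - k) k _ _ (Nat.sub_add_cancel hk), F.a.QAb, LinearMap.add_apply, map_add,
    Module.End.mul_apply, Module.End.mul_apply]
  ring

end Full

/-- the norms are close -/
def Cmp (K K' : KP X) (ε : ℝ) : Prop :=
  ∀ a, |(K'.ip a a).re - (K.ip a a).re| ≤ ε * (K.ip a a).re

variable (F : Full K) (F' : Full K') {ε : ℝ} (h : Cmp K K' ε) (hε : ε ≤ 1 / 4)
include F F' h

theorem Cmp.sq (a : S) : |K'.nrm a ^ 2 - K.nrm a ^ 2| ≤ ε * K.nrm a ^ 2 := by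
  rw [F.b.sq, F'.b.sq]
  exact h a

include hε

theorem Cmp.le (a : S) : K.nrm a ≤ 2 * K'.nrm a := by
  have := abs_le.1 (h.sq F F' a)
  refine le_of_sq_le_sq ?_ (by linarith [F'.b.nn a])
  nlinarith [sq_nonneg (K.nrm a), sq_nonneg (K'.nrm a)]

theorem Cmp.le' (a : S) : K'.nrm a ≤ 2 * K.nrm a := by
  have := abs_le.1 (h.sq F F' a)
  refine le_of_sq_le_sq ?_ (by linarith [F.b.nn a])
  nlinarith [sq_nonneg (K.nrm a), sq_nonneg (K'.nrm a)]

theorem Cmp.null {x : ℕ → S} (hx : K'.Null x) : K.Null x :=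
  squeeze_zero (fun _ => F.b.nn _) (fun _ => h.le F F' hε _) (by simpa using hx.const_mul 2)

theorem Cmp.null' {x : ℕ → S} (hx : K.Null x) : K'.Null x :=
  squeeze_zero (fun _ => F'.b.nn _) (fun _ => h.le' F F' hε _) (by simpa using hx.const_mul 2)

theorem Cmp.bdd {x : ℕ → S} (hx : K'.Cau x) : ∃ C : ℝ, ∀ s, K.nrm (x s) ≤ C := by
  obtain ⟨C, hC⟩ := F'.h.bdd hx
  exact ⟨2 * C, fun s => (h.le F F' hε _).trans (by linarith [hC s])⟩

theorem Cmp.close (h0 : 0 < ε) {z : S} {v v' : ℕ → S} (hv : K.Rep z v) (hv' : K'.Rep z v') {B : ℝ}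
    (hB : ∀ s, K.nrm (v s) ≤ B) :
    ∀ᶠ s in atTop, K.nrm (v' s - v s) ^ 2 ≤ ε * (6 * B ^ 2 + 8) := by
  obtain ⟨y, hy⟩ := hv.coh
  obtain ⟨y', hy'⟩ := hv'.coh
  obtain ⟨B', hB'⟩ := h.bdd F F' hε hv'.cau
  have h1 : K.Null fun s => v' s - v s - X.d (y' s - y s) := by
    refine squeeze_zero (fun _ => F.b.nn _) (fun s => ?_)
      (by simpa using (h.null F F' hε hy').add hy)
    refine le_of_eq_of_le (congrArg K.nrm ?_) (F.sub_le _ _)
    simp only [map_sub]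
    abel
  have h2 : ∀ s, K.nrm (v' s - v s) ≤ B' + B := fun s =>
    (F.sub_le _ _).trans (add_le_add (hB' s) (hB s))
  have h3 := F.orth hv.toHar ⟨_, h2⟩ h1
  have h4 := F'.orth hv'.toHar ⟨2 * (B' + B), fun s => (h.le' F F' hε _).trans
    (by linarith [h2 s])⟩ (h.null' F F' hε h1)
  filter_upwards [h3.eventually (lt_mem_nhds (neg_lt_zero.2 h0)), h4.eventually (gt_mem_nhds h0)]
    with s a1 a2
  have e1 := F.pyth (v' s - v s) (v s)
  have e2 := F'.pyth (-(v' s - v s)) (v' s)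
  rw [sub_add_cancel] at e1
  rw [F'.neg, show -(v' s - v s) + v' s = v s by abel, ← neg_one_smul ℂ, F'.a.ip_smul_l] at e2
  simp only [star_neg, star_one, neg_mul, one_mul, Complex.neg_re] at e2
  have b1 := (abs_le.1 (h.sq F F' (v s))).2
  have b2 := (abs_le.1 (h.sq F F' (v' s))).1
  have b3 : K.nrm (v' s) ^ 2 ≤ 2 * K.nrm (v' s - v s) ^ 2 + 2 * K.nrm (v s) ^ 2 := by
    have := F.b.tri (v' s - v s) (v s)
    rw [sub_add_cancel] at this
    nlinarith [F.b.nn (v' s), sq_nonneg (K.nrm (v' s - v s) - K.nrm (v s))]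
  have b4 : K.nrm (v s) ^ 2 ≤ B ^ 2 := pow_le_pow_left₀ (F.b.nn _) (hB s) 2
  have b5 := mul_le_mul_of_nonneg_left b3 h0.le
  have b6 := mul_le_mul_of_nonneg_left b4 h0.le
  have b7 := mul_le_mul_of_nonneg_right hε (sq_nonneg (K.nrm (v' s - v s)))
  nlinarith [sq_nonneg (K'.nrm (v' s - v s))]

end Vale.Agent.P281Z.Hg.FaH
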