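import Vale.Agent.P281Z.Hg.S3

/-!
# P281, Hodge block, row FG2: calculus with parameters
-/

open scoped ContDiff Topology Matrix
open Filter
open Vale.Agent.P272.K Vale.Agent.P272.K.C2 Vale.Agent.P299.IX Vale.Agent.P299.IX.Fock

noncomputable section

namespace Vale.Agent.P281Z.Hg.F2

section gen

variable {E : Type} [NormedAddCommGroup E] [NormedSpace ℝ E]

/-- combinations of two directional derivatives -/
def DP (a b : ℂ) (v w : E) (f : E → ℂ) (z : E) : ℂ := a * fderiv ℝ f z v + b * fderiv ℝ f z w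

theorem DP_sm (a b : ℂ) (v w : E) {f : E → ℂ} {z : E} (hf : ContDiffAt ℝ ∞ f z) :
    ContDiffAt ℝ ∞ (DP a b v w f) z := by
  have h : ContDiffAt ℝ ∞ (fderiv ℝ f) z := hf.fderiv_right (by simp)
  exact (contDiffAt_const.mul (h.clm_apply contDiffAt_const)).add
    (contDiffAt_const.mul (h.clm_apply contDiffAt_const))

theorem DP_comm (a b a' b' : ℂ) (v w v' w' : E) {f : E → ℂ} {z : E} (hf : ContDiffAt ℝ ∞ f z) :
    DP a b v w (DP a' b' v' w' f) z = DP a' b' v' w' (DP a b v w f) z := by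
  have h1 : DifferentiableAt ℝ (fderiv ℝ f) z :=
    (hf.fderiv_right (m := ∞) (by simp)).differentiableAt (by simp)
  have hs : IsSymmSndFDerivAt ℝ f z :=
    (hf.of_le (m := 2) (WithTop.coe_le_coe.2 (le_top : (2 : ℕ∞) ≤ ⊤))).isSymmSndFDerivAt (by simp)
  have key : ∀ v₁ v₂ : E, fderiv ℝ (fun y => fderiv ℝ f y v₁) z v₂ =
      fderiv ℝ (fderiv ℝ f) z v₂ v₁ := by
    intro v₁ v₂
    rw [fderiv_clm_apply h1 (differentiableAt_const v₁)]
    simp
  have hd : ∀ v₁ : E, DifferentiableAt ℝ (fun y => fderiv ℝ f y v₁) z := fun v₁ =>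
    h1.clm_apply (differentiableAt_const v₁)
  have e : ∀ (c₁ c₂ : ℂ) (v₁ v₂ u : E), fderiv ℝ (DP c₁ c₂ v₁ v₂ f) z u =
      c₁ * fderiv ℝ (fderiv ℝ f) z u v₁ + c₂ * fderiv ℝ (fderiv ℝ f) z u v₂ := by
    intro c₁ c₂ v₁ v₂ u
    have : DP c₁ c₂ v₁ v₂ f = fun y => c₁ * fderiv ℝ f y v₁ + c₂ * fderiv ℝ f y v₂ := rfl
    rw [this, fderiv_fun_add ((hd _).const_mul _) ((hd _).const_mul _),
      fderiv_const_mul (hd _), fderiv_const_mul (hd _)]
    simp [key]
  rw [DP, DP, e, e, e, e, hs.eq v v', hs.eq v w', hs.eq w v', hs.eq w w']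
  ring

theorem ev_diff {F : Type} [NormedAddCommGroup F] [NormedSpace ℝ F] {f : E → F} {z : E}
    (hf : ContDiffAt ℝ ∞ f z) : ∀ᶠ y in 𝓝 z, DifferentiableAt ℝ f y :=
  (eventually_contDiffAt (m := 1) (hf.of_le (by exact_mod_cast le_top))).mono fun _ h =>
    h.differentiableAt (by simp)

variable {ι κ μ : Type}

/-- smooth matrix valued functions -/
def SM (A : E → Matrix ι κ ℂ) (z : E) : Prop := ∀ i j, ContDiffAt ℝ ∞ (fun y => A y i j) z

variable {z : E}

theorem SM.const (A : Matrix ι κ ℂ) : SM (fun _ : E => A) z := fun _ _ => contDiffAt_const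

theorem SM.add {A B : E → Matrix ι κ ℂ} (h : SM A z) (h' : SM B z) : SM (fun y => A y + B y) z :=
  fun i j => (h i j).add (h' i j)

theorem SM.sub {A B : E → Matrix ι κ ℂ} (h : SM A z) (h' : SM B z) : SM (fun y => A y - B y) z :=
  fun i j => (h i j).sub (h' i j)

theorem SM.smul {A : E → Matrix ι κ ℂ} {g : E → ℂ} (hg : ContDiffAt ℝ ∞ g z) (h : SM A z) :
    SM (fun y => g y • A y) z := fun i j => hg.mul (h i j)

theorem SM.sum {α : Type} (s : Finset α) {A : α → E → Matrix ι κ ℂ} (h : ∀ a, SM (A a) z) :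
    SM (fun y => ∑ a ∈ s, A a y) z := fun i j => by
  simp only [Matrix.sum_apply]
  exact ContDiffAt.sum fun a _ => h a i j

theorem SM.mul [Fintype κ] {A : E → Matrix ι κ ℂ} {B : E → Matrix κ μ ℂ} (h : SM A z)
    (h' : SM B z) : SM (fun y => A y * B y) z := fun i j => by
  simp only [Matrix.mul_apply]
  exact ContDiffAt.sum fun q _ => (h i q).mul (h' q j)

theorem SM.comp {E' : Type} [NormedAddCommGroup E'] [NormedSpace ℝ E'] {A : E → Matrix ι κ ℂ}
    {f : E' → E} {x : E'} (h : SM A (f x)) (hf : ContDiffAt ℝ ∞ f x) : SM (fun y => A (f y)) x :=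
  fun i j => ContDiffAt.comp (g := fun y => A y i j) x (h i j) hf

variable [Fintype ι] [DecidableEq ι] {A : E → Matrix ι ι ℂ}

theorem SM.det (hA : SM A z) : ContDiffAt ℝ ∞ (fun y => (A y).det) z := by
  simp only [Matrix.det_apply, Units.smul_def, zsmul_eq_mul]
  exact ContDiffAt.sum fun σ _ => contDiffAt_const.mul (contDiffAt_prod fun i _ => hA (σ i) i)

theorem SM.inv (hA : SM A z) (h0 : (A z).det ≠ 0) : SM (fun y => (A y)⁻¹) z := by
  intro i j
  simp only [Matrix.inv_def, Matrix.smul_apply, Ring.inverse_eq_inv', smul_eq_mul,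
    Matrix.adjugate_apply]
  refine (hA.det.inv h0).mul (SM.det (A := fun y => (A y).updateRow j (Pi.single i 1))
    fun a b => ?_)
  by_cases h : a = j
  · subst h
    simp only [Matrix.updateRow_self]
    exact contDiffAt_const
  · simp only [Matrix.updateRow_ne h]
    exact hA a b

end gen

section dr

variable {n : ℕ}

theorem dr_hl (j : Fin n) : dr (hl j) = dz j := Fin.addCases_left j

theorem dr_ah (j : Fin n) : dr (ah j) = dzb j := Fin.addCases_right j

theorem cx_hl (w : Cm n) (j : Fin n) : cx w (hl j) = w j := Fin.addCases_left j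

theorem cx_ah (w : Cm n) (j : Fin n) : cx w (ah j) = star (w j) := Fin.addCases_right j

theorem ind {P : Fin (n + n) → Prop} (h : ∀ j, P (hl j)) (h' : ∀ j, P (ah j)) (c : Fin (n + n)) :
    P c := Fin.addCases h h' c

theorem sum_split {V : Type} [AddCommMonoid V] (f : Fin (n + n) → V) :
    ∑ c, f c = ∑ j, f (hl j) + ∑ j, f (ah j) := Fin.sum_univ_add f

theorem hl_ne_ah (i j : Fin n) : hl i ≠ ah j := fun h => by
  have := congrArg Fin.val h
  simp only [hl, ah, Fin.val_castAdd, Fin.val_natAdd] at this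
  omega

theorem dr_DD (c : Fin (n + n)) : ∃ a b v w, dr c = DD a b v w :=
  ind (P := fun c => ∃ a b v w, dr c = DD a b v w)
    (fun j => ⟨_, _, _, _, by rw [dr_hl]; exact funext (dz_eq_DD' j)⟩)
    (fun j => ⟨_, _, _, _, by rw [dr_ah]; exact funext (dzb_eq_DD' j)⟩) c

theorem dr_congr (c : Fin (n + n)) {f g : Cm n → ℂ} {z : Cm n} (h : f =ᶠ[𝓝 z] g) :
    dr c f z = dr c g z := by
  obtain ⟨a, b, v, w, e⟩ := dr_DD c
  rw [e, DD_congr a b v w h]

theorem dr_cx (c c' : Fin (n + n)) (k : K1b) (t0 z : Cm n) :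
    dr c (fun t => cx (t - t0) c') z = if c = c' then 1 else 0 := by
  have h1 := congrFun (congrFun (k.jc_id z) c) c'
  obtain ⟨a, b, v, w, e⟩ := dr_DD c
  have h2 : ∀ t, cx (t - t0) c' = cx t c' - cx t0 c' := fun t =>
    ind (P := fun c' => cx (t - t0) c' = cx t c' - cx t0 c') (fun j => by simp [cx_hl])
      (fun j => by simp [cx_ah]) c'
  have h3 : DifferentiableAt ℝ (fun t : Cm n => cx t c') z :=
    ind (P := fun c' => DifferentiableAt ℝ (fun t : Cm n => cx t c') z)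
      (fun j => by simp only [cx_hl]; fun_prop)
      (fun j => by simp only [cx_ah]; exact differentiableAt_conj (by fun_prop)) c'
  rw [jc, Matrix.of_apply, e, Matrix.one_apply] at h1
  simp only [h2]
  rw [e, DD_sub a b v w h3 (differentiableAt_const _), DD_const, sub_zero, h1]

theorem sm_cx {E : Type} [NormedAddCommGroup E] [NormedSpace ℝ E] {f : E → Cm n} {z : E}
    (h : ContDiffAt ℝ ∞ f z) (c : Fin (n + n)) : ContDiffAt ℝ ∞ (fun y => cx (f y) c) z :=
  ind (P := fun c => ContDiffAt ℝ ∞ (fun y => cx (f y) c) z)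
    (fun j => by simp only [cx_hl]; exact contDiffAt_pi.1 h j)
    (fun j => by
      simp only [cx_ah]
      exact (Complex.conjCLE : ℂ →L[ℝ] ℂ).contDiff.contDiffAt.comp z (contDiffAt_pi.1 h j)) c

variable {ι κ μ : Type}

/-- derivative of matrix valued functions -/
def Dr (c : Fin (n + n)) (A : Cm n → Matrix ι κ ℂ) (z : Cm n) : Matrix ι κ ℂ :=
  Matrix.of fun i j => dr c (fun y => A y i j) z

variable (c : Fin (n + n)) {z : Cm n}

theorem SM.md {A : Cm n → Matrix ι κ ℂ} (h : SM A z) : MD A z :=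
  fun i j => (h i j).differentiableAt (by simp)

theorem Dr_congr {A B : Cm n → Matrix ι κ ℂ} (h : A =ᶠ[𝓝 z] B) : Dr c A z = Dr c B z := by
  ext i j
  exact dr_congr c (h.mono fun y hy => congrFun (congrFun hy i) j)

theorem Dr_const (A : Matrix ι κ ℂ) : Dr c (fun _ => A) z = 0 := by
  obtain ⟨a, b, v, w, e⟩ := dr_DD c
  ext i j
  rw [Dr, e]
  exact DD_const a b v w _

theorem Dr_sub {A B : Cm n → Matrix ι κ ℂ} (h : SM A z) (h' : SM B z) :
    Dr c (fun y => A y - B y) z = Dr c A z - Dr c B z := by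
  obtain ⟨a, b, v, w, e⟩ := dr_DD c
  ext i j
  rw [Dr, Dr, Dr, e]
  exact DD_sub a b v w (h.md i j) (h'.md i j)

theorem Dr_mul [Fintype κ] {A : Cm n → Matrix ι κ ℂ} {B : Cm n → Matrix κ μ ℂ} (h : SM A z)
    (h' : SM B z) : Dr c (fun y => A y * B y) z = Dr c A z * B z + A z * Dr c B z := by
  obtain ⟨a, b, v, w, e⟩ := dr_DD c
  ext i j
  simp only [Dr, e, Matrix.of_apply, Matrix.add_apply, Matrix.mul_apply, ← Finset.sum_add_distrib]
  rw [DD_sum a b v w _ fun q _ => (h.md i q).fun_mul (h'.md q j)]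
  exact Finset.sum_congr rfl fun q _ => DD_mul a b v w (h.md i q) (h'.md q j)

theorem Dr_comb {α : Type} [Fintype α] {g : α → Cm n → ℂ} (hg : ∀ a, ContDiffAt ℝ ∞ (g a) z)
    (A : α → Matrix ι κ ℂ) : Dr c (fun y => ∑ a, g a y • A a) z = ∑ a, dr c (g a) z • A a := by
  obtain ⟨a, b, v, w, e⟩ := dr_DD c
  have h := fun q => (hg q).differentiableAt (by simp)
  ext i j
  simp only [Dr, e, Matrix.of_apply, Matrix.sum_apply, Matrix.smul_apply, smul_eq_mul]
  rw [DD_sum a b v w _ fun q _ => (h q).mul_const _]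
  exact Finset.sum_congr rfl fun q _ => DD_mul_const a b v w _ (h q)

theorem Dr_lam {m : ℕ} {A : Cm n → Matrix (Fin m) (Fin m) ℂ} (h : SM A z) (h1 : A z = 1) :
    Dr c (fun y => lam (A y)) z = dlam (Dr c A z) := by
  refine ind (P := fun c => Dr c (fun y => lam (A y)) z = dlam (Dr c A z)) (fun j => ?_)
    (fun j => ?_) c
  · have := DM_lam' h.md (k := j) (B := DM j A z) (by rw [h1, Matrix.mul_one])
    rw [h1, lam_one, Matrix.mul_one] at this
    rw [Dr, Dr, dr_hl]
    exact this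
  · have := DMb_lam' h.md (k := j) (B := DMb j A z) (by rw [h1, Matrix.mul_one])
    rw [h1, lam_one, Matrix.mul_one] at this
    rw [Dr, Dr, dr_ah]
    exact this

theorem Dr_inv [Fintype ι] [DecidableEq ι] {A : Cm n → Matrix ι ι ℂ} (h : SM A z)
    (h1 : A z = 1) : Dr c (fun y => (A y)⁻¹) z = -Dr c A z := by
  have h0 : (A z).det ≠ 0 := by simp [h1]
  have h2 := Dr_mul c h (h.inv h0)
  rw [Dr_congr c (B := fun _ => 1) ((h.det.continuousAt.eventually_ne h0).mono fun y hy =>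
    Matrix.mul_nonsing_inv _ (isUnit_iff_ne_zero.2 hy)), Dr_const, h1, inv_one, Matrix.mul_one,
    Matrix.one_mul] at h2
  exact eq_neg_of_add_eq_zero_right h2.symm

theorem Dv_mulVec [Fintype κ] {A : Cm n → Matrix ι κ ℂ} {u : Cm n → κ → ℂ} (h : SM A z)
    (hu : ContDiffAt ℝ ∞ u z) :
    Dv c (fun y => A y *ᵥ u y) z = Dr c A z *ᵥ u z + A z *ᵥ Dv c u z := by
  obtain ⟨a, b, v, w, e⟩ := dr_DD c
  have h' := fun q => (contDiffAt_pi.1 hu q).differentiableAt (by simp)
  ext i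
  simp only [Dv, Dr, e, Matrix.of_apply, Pi.add_apply, Matrix.mulVec, dotProduct,
    ← Finset.sum_add_distrib]
  rw [DD_sum a b v w _ fun q _ => (h.md i q).fun_mul (h' q)]
  exact Finset.sum_congr rfl fun q _ => DD_mul a b v w (h.md i q) (h' q)

theorem Dv_congr {u v : Cm n → κ → ℂ} (h : u =ᶠ[𝓝 z] v) : Dv c u z = Dv c v z :=
  funext fun i => dr_congr c (h.mono fun _ hy => congrFun hy i)

end dr

section par

variable {p d : ℕ} {F : Cm p × Cm d → ℂ} {q : Cm p × Cm d}

theorem d1_eq (a b : ℂ) (v w : Cm p) (h : DifferentiableAt ℝ F q) :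
    DD a b v w (fun t => F (t, q.2)) q.1 = DP a b (v, 0) (w, 0) F q := by
  have : HasFDerivAt (fun t => F (t, q.2)) _ q.1 :=
    HasFDerivAt.comp (f := fun t => (t, q.2)) q.1 h.hasFDerivAt (hasFDerivAt_prodMk_left q.1 q.2)
  rw [DD, this.fderiv]
  rfl

theorem d2_eq (a b : ℂ) (v w : Cm d) (h : DifferentiableAt ℝ F q) :
    DD a b v w (fun y => F (q.1, y)) q.2 = DP a b (0, v) (0, w) F q := by
  have : HasFDerivAt (fun y => F (q.1, y)) _ q.2 :=
    HasFDerivAt.comp (f := fun y => (q.1, y)) q.2 h.hasFDerivAt (hasFDerivAt_prodMk_right q.1 q.2)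
  rw [DD, this.fderiv]
  rfl

theorem d1_sm (c : Fin (p + p)) (h : ContDiffAt ℝ ∞ F q) :
    ContDiffAt ℝ ∞ (fun q : Cm p × Cm d => dr c (fun t => F (t, q.2)) q.1) q := by
  obtain ⟨a, b, v, w, e⟩ := dr_DD c
  rw [e]
  exact (DP_sm a b _ _ h).congr_of_eventuallyEq ((ev_diff h).mono fun _ k => d1_eq a b v w k)

theorem d2_sm (c : Fin (d + d)) (h : ContDiffAt ℝ ∞ F q) :
    ContDiffAt ℝ ∞ (fun q : Cm p × Cm d => dr c (fun y => F (q.1, y)) q.2) q := by
  obtain ⟨a, b, v, w, e⟩ := dr_DD c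
  rw [e]
  exact (DP_sm a b _ _ h).congr_of_eventuallyEq ((ev_diff h).mono fun _ k => d2_eq a b v w k)

theorem d12 (c : Fin (p + p)) (c' : Fin (d + d)) {t : Cm p} {z : Cm d}
    (h : ContDiffAt ℝ ∞ F (t, z)) : dr c (fun t => dr c' (fun y => F (t, y)) z) t =
      dr c' (fun y => dr c (fun t => F (t, y)) t) z := by
  obtain ⟨a, b, v, w, e⟩ := dr_DD c
  obtain ⟨a', b', v', w', e'⟩ := dr_DD c'
  have h1 : ContinuousAt (fun s : Cm p => (s, z)) t := by fun_prop
  have h2 : ContinuousAt (fun y : Cm d => (t, y)) z := by fun_prop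
  rw [e, e', DD_congr a b v w ((h1.eventually (ev_diff h)).mono fun _ k => d2_eq a' b' v' w' k),
    DD_congr a' b' v' w' ((h2.eventually (ev_diff h)).mono fun _ k => d1_eq a b v w k),
    d1_eq (q := (t, z)) a b v w ((DP_sm _ _ _ _ h).differentiableAt (by simp)),
    d2_eq (q := (t, z)) a' b' v' w' ((DP_sm _ _ _ _ h).differentiableAt (by simp)),
    DP_comm _ _ _ _ _ _ _ _ h]

/-- the uniform Taylor formula of first order -/
theorem tay (k : K1a) {t : Cm p} {z : Cm d} (h : ContDiffAt ℝ ∞ F (t, z))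
    (h0 : ∀ c, dr c (fun s => F (s, z)) t = 0) {ε : ℝ} (hε : 0 < ε) :
    ∀ᶠ q in 𝓝 (t, z), ‖F q - F (t, q.2)‖ ≤ ε * ‖q.1 - t‖ := by
  have h1 := h.hasStrictFDerivAt (by simp)
  have h2 : HasFDerivAt (fun s => F (s, z)) _ t :=
    HasFDerivAt.comp (f := fun s => (s, z)) t h1.hasFDerivAt (hasFDerivAt_prodMk_left t z)
  have h3 : ∀ v, fderiv ℝ F (t, z) (v, 0) = 0 := fun v => by
    have := k.fd v h2.differentiableAt
    rw [h2.fderiv] at this
    simp only [h0, mul_zero, Finset.sum_const_zero] at this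
    exact this
  have h4 : Tendsto (fun q : Cm p × Cm d => (q, (t, q.2))) (𝓝 (t, z)) (𝓝 ((t, z), (t, z))) :=
    Continuous.tendsto' (by fun_prop) _ _ rfl
  filter_upwards [h4.eventually (h1.isLittleO.def hε)] with q hq
  have e : q - (t, q.2) = (q.1 - t, 0) := Prod.ext rfl (sub_self _)
  simpa only [e, h3, sub_zero, Prod.norm_mk, norm_zero, max_eq_left (norm_nonneg _)] using hq

end par

end Vale.Agent.P281Z.Hg.F2
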