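import Vale.Agent.P281Z.Hg.Fg2a

/-!
# P281, Hodge block, row FG2: the local formulas
-/

open scoped ContDiff Topology Matrix
open Filter
open Vale.Agent.P272.K Vale.Agent.P272.K.C2 Vale.Agent.P299.IX Vale.Agent.P299.IX.Fock

noncomputable section

namespace Vale.Agent.P281Z.Hg.F2

section alg

variable {d : ℕ}

/-- the part of `dlam B` lowering the holomorphic degree -/
def NB (B : Matrix (Fin (d + d)) (Fin (d + d)) ℂ) : Fm d :=
  ∑ a, ∑ l, B (ah a) (hl l) • (eps (ah a) * iot (hl l))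

theorem NB_pm (f : F1b) (B : Matrix (Fin (d + d)) (Fin (d + d)) ℂ) (k : ℕ) :
    NB B * pm d (k + 1) = pm d k * NB B := by
  simp only [NB, Finset.sum_mul, Finset.mul_sum, Matrix.smul_mul, Matrix.mul_smul]
  refine Finset.sum_congr rfl fun a _ => Finset.sum_congr rfl fun l _ => ?_
  rw [Matrix.mul_assoc, ← f.pm_ihl, ← Matrix.mul_assoc, ← f.pm_ah, Matrix.mul_assoc]

theorem pm_dlam (f : F1b) (B : Matrix (Fin (d + d)) (Fin (d + d)) ℂ) {j k : ℕ} (h : j ≤ k) :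
    pm d j * (dlam B * pm d (k + 1) - pm d (k + 1) * dlam B) = pm d j * (pm d k * NB B) := by
  have h1 : ∀ m, k < m → ∀ A : Fm d, pm d j * (pm d m * A) = 0 := fun m hm A => by
    rw [← Matrix.mul_assoc, f.pm_mul, if_neg (by omega), Matrix.zero_mul]
  have h2 : ∀ a l : Fin d, pm d j * (eps (hl a) * iot (hl l) * pm d (k + 1)) = 0 := fun a l => by
    rw [Matrix.mul_assoc, ← f.pm_ihl, ← Matrix.mul_assoc (eps _), ← f.pm_hl, Matrix.mul_assoc,
      h1 _ (by omega)]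
  have h3 : ∀ a l : Fin d, pm d j * (eps (hl a) * iot (ah l) * pm d (k + 1)) = 0 := fun a l => by
    rw [Matrix.mul_assoc, ← f.pm_iah, ← Matrix.mul_assoc (eps _), ← f.pm_hl, Matrix.mul_assoc,
      h1 _ (by omega)]
  have h4 : ∀ a l : Fin d, pm d j * (eps (ah a) * iot (ah l) * pm d (k + 1)) = 0 := fun a l => by
    rw [Matrix.mul_assoc, ← f.pm_iah, ← Matrix.mul_assoc (eps _), ← f.pm_ah, Matrix.mul_assoc,
      h1 _ (by omega)]
  rw [Matrix.mul_sub, h1 _ (by omega), sub_zero, ← NB_pm f]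
  simp only [dlam, NB, sum_split, Finset.sum_mul, Finset.mul_sum, Matrix.smul_mul, Matrix.mul_smul,
    Matrix.add_mul, Matrix.mul_add, h2, h3, h4, smul_zero, Finset.sum_const_zero, add_zero,
    zero_add]

theorem pm_eps (f : F1b) (D : Fin (d + d) → Fo d) :
    ∑ k ∈ Finset.range (d + 1), pm d k *ᵥ ∑ c, eps c *ᵥ (pm d k *ᵥ D c) =
      ∑ a, eps (ah a) *ᵥ D (ah a) := by
  have h1 : ∀ k (a : Fin d), pm d k * (eps (hl a) * pm d k) = 0 := fun k a => by
    rw [← f.pm_hl, ← Matrix.mul_assoc, f.pm_mul, if_neg (by omega), Matrix.zero_mul]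
  have h2 : ∀ k (a : Fin d), pm d k * (eps (ah a) * pm d k) = pm d k * eps (ah a) :=
    fun k a => by rw [← f.pm_ah, ← Matrix.mul_assoc, f.pm_mul, if_pos rfl]
  simp only [sum_split, Matrix.mulVec_add, Matrix.mulVec_sum, Matrix.mulVec_mulVec, h1, h2,
    Matrix.zero_mulVec, Finset.sum_const_zero, zero_add]
  rw [Finset.sum_comm]
  refine Finset.sum_congr rfl fun a _ => ?_
  rw [← Matrix.sum_mulVec, ← Finset.sum_mul, f.pm_sum, Matrix.one_mul]

theorem ctr_eps (ξ : Fin d → ℂ) (a : Fin d) : ctr ξ * eps (ah a) = -(eps (ah a) * ctr ξ) := by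
  simp only [ctr, Finset.sum_mul, Finset.mul_sum, Matrix.smul_mul, Matrix.mul_smul,
    ← Finset.sum_neg_distrib, ← smul_neg]
  refine Finset.sum_congr rfl fun l _ => ?_
  rw [eq_neg_of_add_eq_zero_left ((car (hl l) (ah a)).trans (if_neg (hl_ne_ah l a)))]

theorem ctr_blk (f : F1b) (A B : Matrix (Fin d) (Fin d) ℂ) (ξ : Fin d → ℂ) :
    ctr ξ * lam (blk Aᵀ B) = lam (blk Aᵀ B) * ctr (A *ᵥ ξ) := by
  simp only [ctr, Finset.sum_mul, Matrix.smul_mul, iot_lam, sum_split, f.blk_hh, f.blk_ha,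
    zero_smul, Finset.sum_const_zero, add_zero, ← Matrix.mul_smul, ← Finset.mul_sum,
    Finset.smul_sum, smul_smul, Matrix.mulVec, dotProduct, Finset.sum_smul, Matrix.transpose_apply]
  rw [Finset.sum_comm]
  simp only [mul_comm]

theorem norm_mulVec {ι κ : Type} [Fintype ι] [Fintype κ] {G : Matrix ι κ ℂ} {δ : ℝ} (h0 : 0 ≤ δ)
    (h : ∀ i j, ‖G i j‖ ≤ δ) (u : κ → ℂ) : ‖G *ᵥ u‖ ≤ Fintype.card κ * δ * ‖u‖ := by
  refine (pi_norm_le_iff_of_nonneg (by positivity)).2 fun i => (norm_sum_le _ _).trans ?_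
  rw [mul_assoc, ← nsmul_eq_mul]
  refine Finset.sum_le_card_nsmul _ _ _ fun j _ => ?_
  rw [norm_mul]
  exact mul_le_mul (h i j) (norm_le_pi_norm u j) (norm_nonneg _) h0

end alg

section loc

variable {p d : ℕ}

theorem dr_sm (c : Fin (d + d)) {g : Cm d → ℂ} {z : Cm d} (h : ContDiffAt ℝ ∞ g z) :
    ContDiffAt ℝ ∞ (dr c g) z := by
  obtain ⟨a, b, v, w, e⟩ := dr_DD c
  rw [e]
  exact DD_contDiffAt a b v w h (by simp)

/-- the conjugated projectors -/
def Rq (φ : Cm p → Cm d → Cm d) (k : ℕ) (q : Cm p × Cm d) : Fm d :=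
  lam (jc (φ q.1) q.2) * pm d k * lam (jc (φ q.1) q.2)⁻¹

/-- the infinitesimal deformation -/
def xi (φ : Cm p → Cm d → Cm d) (t0 : Cm p) (c : Fin (p + p)) (y : Cm d) (l : Fin (d + d)) : ℂ :=
  dr c (fun t => cx (φ t y) l) t0

/-- its derivative -/
def Bm (φ : Cm p → Cm d → Cm d) (t0 : Cm p) (c : Fin (p + p)) (z : Cm d) :
    Matrix (Fin (d + d)) (Fin (d + d)) ℂ := Matrix.of fun a l => dr a (fun y => xi φ t0 c y l) z

variable {φ : Cm p → Cm d → Cm d} {t0 : Cm p} {z : Cm d}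
  (hs : ContDiffAt ℝ ∞ (fun q : Cm p × Cm d => φ q.1 q.2) (t0, z))

theorem sm_l {ι κ : Type} {A : Cm p × Cm d → Matrix ι κ ℂ} (h : SM A (t0, z)) :
    SM (fun t => A (t, z)) t0 := SM.comp (f := fun t => (t, z)) h (by fun_prop)

theorem SM.lam (k : K1b) {E : Type} [NormedAddCommGroup E] [NormedSpace ℝ E] {m : ℕ}
    {J : E → Matrix (Fin m) (Fin m) ℂ} {x : E} (h : SM J x) : SM (fun y => lam (J y)) x :=
  k.lr_smooth h

include hs

theorem xi_sm (c : Fin (p + p)) (l : Fin (d + d)) : ContDiffAt ℝ ∞ (fun y => xi φ t0 c y l) z :=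
  ContDiffAt.comp (f := fun y => (t0, y)) z (d1_sm c (sm_cx hs l)) (by fun_prop)

theorem NB_sm (c : Fin (p + p)) : SM (fun y => NB (Bm φ t0 c y)) z :=
  SM.sum _ fun _ => SM.sum _ fun _ => SM.smul (dr_sm _ (xi_sm hs c _)) (SM.const _)

theorem J_sm : SM (fun q : Cm p × Cm d => jc (φ q.1) q.2) (t0, z) :=
  fun a l => d2_sm a (sm_cx hs l)

theorem J_dr (c : Fin (p + p)) : Dr c (fun t => jc (φ t) z) t0 = Bm φ t0 c z := by
  ext a l
  exact d12 c a (sm_cx hs l)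

variable (k : K1b) (h1 : jc (φ t0) z = 1)

include k h1

theorem R_sm (m : ℕ) : SM (Rq φ m) (t0, z) :=
  (((J_sm hs).lam k).mul (SM.const _)).mul (((J_sm hs).inv (by simp [h1])).lam k)

theorem R_dr (m : ℕ) (c : Fin (p + p)) : Dr c (fun t => Rq φ m (t, z)) t0 =
    dlam (Bm φ t0 c z) * pm d m - pm d m * dlam (Bm φ t0 c z) := by
  have h2 := sm_l (J_sm hs)
  have h3 := h2.inv (by simp [h1])
  simp only [Rq]
  rw [Dr_mul c ((h2.lam k).mul (SM.const _)) (h3.lam k), Dr_mul c (h2.lam k) (SM.const _),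
    Dr_const, Dr_lam c h2 h1, Dr_lam c h3 (by simp [h1]), Dr_inv c h2 h1, J_dr hs]
  simp [h1, lam_one, dlam_neg, sub_eq_add_neg]

theorem pm_R (f : F1b) {j m : ℕ} (h : j ≤ m) (c : Fin (p + p)) :
    pm d j * Dr c (fun t => Rq φ (m + 1) (t, z)) t0 = pm d j * (pm d m * NB (Bm φ t0 c z)) := by
  rw [R_dr hs k h1, pm_dlam f _ h]

theorem NB_eq (f : F1b) (c : Fin (p + p)) : NB (Bm φ t0 c z) =
    ∑ m ∈ Finset.range (d + 1), pm d m * Dr c (fun t => Rq φ (m + 1) (t, z)) t0 := by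
  simp only [pm_R hs k h1 f le_rfl, ← Matrix.mul_assoc, f.pm_mul, if_true, ← Finset.sum_mul,
    f.pm_sum, Matrix.one_mul]

omit k h1 in
/-- the commutator of `∂̄` and a contraction -/
theorem dbar_ctr (c : Fin (p + p)) {u : Cm d → Fo d} (hu : ContDiffAt ℝ ∞ u z) :
    ∑ a, eps (ah a) *ᵥ Dv (ah a) (fun y => ctr (fun l => xi φ t0 c y (hl l)) *ᵥ u y) z +
      ctr (fun l => xi φ t0 c z (hl l)) *ᵥ ∑ a, eps (ah a) *ᵥ Dv (ah a) u z =
      NB (Bm φ t0 c z) *ᵥ u z := by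
  have h2 : SM (fun y => ctr fun l => xi φ t0 c y (hl l)) z :=
    SM.sum _ fun l => SM.smul (xi_sm hs c _) (SM.const _)
  have h3 := fun a => Dr_comb a (fun l => xi_sm hs c (hl l)) fun l : Fin d => iot (hl l)
  simp only [Dv_mulVec _ h2 hu, Matrix.mulVec_add, Matrix.mulVec_sum, Matrix.mulVec_mulVec,
    ctr_eps, Matrix.neg_mulVec, Finset.sum_add_distrib, Finset.sum_neg_distrib, add_neg_cancel_right]
  simp only [ctr, h3, NB, Matrix.sum_mulVec, Finset.mul_sum, Matrix.mul_smul]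
  rfl

end loc

/-- the chain rule for the deformation vectors -/
theorem xi_ch {p d : ℕ} {θ : Cm p × Cm d → Cm d} {ψ : Cm p → Cm d} {t0 : Cm p} {z : Cm d}
    (hθ : DifferentiableAt ℂ θ (t0, z)) (hψ : DifferentiableAt ℝ ψ t0) (h0 : ψ t0 = z) (j : Fin p)
    (l : Fin d) : dzb j (fun t => θ (t, ψ t) l) t0 =
      ∑ i, dz i (fun y => θ (t0, y) l) z * dzb j (fun t => ψ t i) t0 := by
  obtain ⟨L, hL⟩ : ∃ L : Cm p × Cm d →L[ℂ] ℂ, HasFDerivAt (fun q => θ q l) L (t0, z) :=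
    ⟨_, (differentiableAt_pi.1 hθ l).hasFDerivAt⟩
  have h1 : HasFDerivAt (fun t => θ (t, ψ t) l) _ t0 :=
    HasFDerivAt.comp (f := fun t => (t, ψ t)) (g := fun q => θ q l) t0
      (by rw [h0]; exact hL.restrictScalars ℝ) ((hasFDerivAt_id t0).prodMk hψ.hasFDerivAt)
  have h2 : HasFDerivAt (fun y => θ (t0, y) l) _ z :=
    HasFDerivAt.comp (f := fun y => (t0, y)) (g := fun q => θ q l) z (hL.restrictScalars ℝ)
      (hasFDerivAt_prodMk_right t0 z)
  have h3 : ∀ i, dz i (fun y => θ (t0, y) l) z = L (0, Pi.single i 1) := fun i => by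
    have e : ((0, Pi.single i Complex.I) : Cm p × Cm d) = Complex.I • (0, Pi.single i 1) := by
      simp [← Pi.single_smul']
    rw [dz, h2.fderiv]
    show (L (0, Pi.single i 1) - Complex.I * L (0, Pi.single i Complex.I)) / 2 = _
    rw [e, map_smul, smul_eq_mul, ← mul_assoc, Complex.I_mul_I]
    ring
  have h4 : ∀ (v : Cm p) (w : Cm d), L (v, w) = L (v, 0) + ∑ i, L (0, Pi.single i 1) * w i := by
    intro v w
    have e : ((v, w) : Cm p × Cm d) = (v, 0) + ∑ i, w i • (0, Pi.single i 1) := by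
      ext i <;> simp [Prod.fst_sum, Prod.snd_sum, Pi.single_apply]
    rw [e, map_add, map_sum]
    simp only [map_smul, smul_eq_mul, mul_comm]
  have h5 : ∀ i v, fderiv ℝ (fun t => ψ t i) t0 v = fderiv ℝ ψ t0 v i := fun i v => by
    rw [fderiv_apply hψ]
    rfl
  have e : ((Pi.single j Complex.I, 0) : Cm p × Cm d) = Complex.I • (Pi.single j 1, 0) := by
    simp [← Pi.single_smul']
  simp only [dzb, h1.fderiv, h3, h5]
  show (L (Pi.single j 1, fderiv ℝ ψ t0 (Pi.single j 1)) + Complex.I *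
    L (Pi.single j Complex.I, fderiv ℝ ψ t0 (Pi.single j Complex.I))) / 2 = _
  rw [h4, h4 (Pi.single j Complex.I), e, map_smul, smul_eq_mul, mul_add, ← mul_assoc,
    Complex.I_mul_I, Finset.mul_sum]
  simp only [mul_div_assoc', mul_add, ← Finset.sum_div, Finset.sum_add_distrib, mul_left_comm]
  ring

end Vale.Agent.P281Z.Hg.F2
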