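import Vale.Agent.P281Z.Hg.S3
import Mathlib.Analysis.Calculus.ParametricIntegral

/-!
# P281, Hodge block: calculus with parameters
-/

open scoped ContDiff Topology Matrix
open Filter MeasureTheory Set
open Vale.Agent.P272.K Vale.Agent.P272.K.C2 Vale.Agent.P299.IX Vale.Agent.P299.IX.Fock

noncomputable section

namespace Vale.Agent.P281Z.Hg.Fg3

variable {p d : ℕ} {t0 : Cm p} {z : Cm d}

theorem dr_DD (c : Fin (d + d)) : ∃ (a b : ℂ) (v w : Cm d), dr c = DD a b v w := by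
  refine Fin.addCases (fun j => ?_) (fun j => ?_) c
  · exact ⟨_, _, _, _, by
      rw [dr, Fin.addCases_left]
      exact funext fun f => dz_eq_DD' j f⟩
  · exact ⟨_, _, _, _, by
      rw [dr, Fin.addCases_right]
      exact funext fun f => dzb_eq_DD' j f⟩

theorem diff_of_dzb {F : Cm p → ℂ} (hF : DifferentiableAt ℝ F t0) (h : ∀ j, dzb j F t0 = 0) :
    DifferentiableAt ℂ F t0 := by
  refine (differentiableAt_iff_restrictScalars ℝ hF).2
    ⟨∑ j, dz j F t0 • ContinuousLinearMap.proj j, ContinuousLinearMap.ext fun v => ?_⟩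
  rw [INT.fderiv_apply]
  simp [h, mul_comm]

section par
variable {f : Cm p × Cm d → ℂ}

theorem inr_fd {q : Cm p × Cm d} (h : DifferentiableAt ℝ f q) (w : Cm d) :
    fderiv ℝ (fun y => f (q.1, y)) q.2 w = fderiv ℝ f q (0, w) := by
  have := (HasFDerivAt.comp (f := fun y => (q.1, y)) q.2 h.hasFDerivAt
    (hasFDerivAt_prodMk_right q.1 q.2)).fderiv
  exact congrArg (fun L : Cm d →L[ℝ] ℂ => L w) this

theorem inl_fd {q : Cm p × Cm d} (h : DifferentiableAt ℝ f q) (v : Cm p) :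
    fderiv ℝ (fun t => f (t, q.2)) q.1 v = fderiv ℝ f q (v, 0) := by
  have := (HasFDerivAt.comp (f := fun t => (t, q.2)) q.1 h.hasFDerivAt
    (hasFDerivAt_prodMk_left q.1 q.2)).fderiv
  exact congrArg (fun L : Cm p →L[ℝ] ℂ => L v) this

theorem d2 {q : Cm p × Cm d} (h : ContDiffAt ℝ 2 f q) (a b : ℂ) (u u' : Cm p × Cm d) :
    DifferentiableAt ℝ (fun x => a * fderiv ℝ f x u + b * fderiv ℝ f x u') q ∧ ∀ v,
      fderiv ℝ (fun x => a * fderiv ℝ f x u + b * fderiv ℝ f x u') q v =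
        a * fderiv ℝ (fderiv ℝ f) q v u + b * fderiv ℝ (fderiv ℝ f) q v u' := by
  have h1 := ((h.fderiv_right (m := 1) (by norm_num)).differentiableAt one_ne_zero).hasFDerivAt
  have h2 := ((h1.clm_apply (hasFDerivAt_const u q)).const_mul a).add
    ((h1.clm_apply (hasFDerivAt_const u' q)).const_mul b)
  exact ⟨h2.differentiableAt, fun v => (congrArg (fun L : Cm p × Cm d →L[ℝ] ℂ => L v)
    h2.fderiv).trans (by simp)⟩

theorem DD_swap (h : ContDiffAt ℝ 2 f (t0, z)) (a b a' b' : ℂ) (v v' : Cm p) (w w' : Cm d) :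
    DD a b v v' (fun t => DD a' b' w w' (fun y => f (t, y)) z) t0 =
      DD a' b' w w' (fun y => DD a b v v' (fun t => f (t, y)) t0) z := by
  have ev := (h.eventually (by simp)).mono fun q hq => hq.differentiableAt two_ne_zero
  have e1 : (fun t => DD a' b' w w' (fun y => f (t, y)) z) =ᶠ[𝓝 t0]
      fun t => a' * fderiv ℝ f (t, z) (0, w) + b' * fderiv ℝ f (t, z) (0, w') :=
    ((Continuous.prodMk_left z).continuousAt.eventually ev).mono fun t ht => by
      simp only [DD, inr_fd (q := (t, z)) ht]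
  have e2 : (fun y => DD a b v v' (fun t => f (t, y)) t0) =ᶠ[𝓝 z]
      fun y => a * fderiv ℝ f (t0, y) (v, 0) + b * fderiv ℝ f (t0, y) (v', 0) :=
    ((Continuous.prodMk_right t0).continuousAt.eventually ev).mono fun y hy => by
      simp only [DD, inl_fd (q := (t0, y)) hy]
  have s := h.isSymmSndFDerivAt (by simp)
  rw [DD_congr _ _ _ _ e1, DD_congr _ _ _ _ e2]
  simp only [DD, inl_fd (q := (t0, z)) (d2 h a' b' (0, w) (0, w')).1,
    inr_fd (q := (t0, z)) (d2 h a b (v, 0) (v', 0)).1, (d2 h _ _ _ _).2]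
  rw [s (v, 0) (0, w), s (v, 0) (0, w'), s (v', 0) (0, w), s (v', 0) (0, w')]
  ring

theorem dr_swap (h : ContDiffAt ℝ 2 f (t0, z)) (j : Fin p) (c : Fin (d + d)) :
    dzb j (fun t => dr c (fun y => f (t, y)) z) t0 =
      dr c (fun y => dzb j (fun t => f (t, y)) t0) z := by
  obtain ⟨a, b, v, w, e⟩ := dr_DD c
  simp only [e, dzb_eq_DD]
  exact DD_swap h _ _ _ _ _ _ _ _

theorem sm_dr (h : ContDiffAt ℝ ∞ f (t0, z)) (c : Fin (d + d)) :
    ContDiffAt ℝ ∞ (fun q : Cm p × Cm d => dr c (fun y => f (q.1, y)) q.2) (t0, z) := by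
  obtain ⟨a, b, v, w, e⟩ := dr_DD c
  have h1 : ContDiffAt ℝ ∞ (fun q : Cm p × Cm d => fderiv ℝ (fun y => f (q.1, y)) q.2) (t0, z) :=
    ContDiffAt.fderiv (n := ∞) (f := fun (q : Cm p × Cm d) y => f (q.1, y))
      (h.comp ((t0, z), z) (contDiffAt_fst.fst.prodMk contDiffAt_snd)) contDiffAt_snd le_rfl
  simp only [e, DD]
  exact (contDiffAt_const.mul (h1.clm_apply contDiffAt_const)).add
    (contDiffAt_const.mul (h1.clm_apply contDiffAt_const))

theorem sm_dzb (h : ContDiffAt ℝ ∞ f (t0, z)) (j : Fin p) :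
    ContDiffAt ℝ ∞ (fun y => dzb j (fun t => f (t, y)) t0) z := by
  have h1 : ContDiffAt ℝ ∞ (fun y => fderiv ℝ (fun t => f (t, y)) t0) z :=
    ContDiffAt.fderiv (n := ∞) (f := fun y t => f (t, y)) (g := fun _ => t0)
      (h.comp (z, t0) (contDiffAt_snd.prodMk contDiffAt_fst)) contDiffAt_const le_rfl
  simp only [dzb_eq_DD, DD]
  exact (contDiffAt_const.mul (h1.clm_apply contDiffAt_const)).add
    (contDiffAt_const.mul (h1.clm_apply contDiffAt_const))

theorem dzb_par {ψ : Cm p → Cm d} (hψ : DifferentiableAt ℝ ψ t0)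
    (hf : DifferentiableAt ℂ f (t0, ψ t0)) (j : Fin p) :
    dzb j (fun t => f (t, ψ t)) t0 =
      ∑ l, dzb j (fun t => ψ t l) t0 * dz l (fun y => f (t0, y)) (ψ t0) := by
  set L := fderiv ℂ f (t0, ψ t0)
  have h1 : ∀ v, fderiv ℝ (fun t => f (t, ψ t)) t0 v = L (v, fderiv ℝ ψ t0 v) := fun v => by
    have := ((hf.hasFDerivAt.restrictScalars ℝ).comp t0
      ((hasFDerivAt_id t0).prodMk hψ.hasFDerivAt)).fderiv
    exact congrArg (fun A : Cm p →L[ℝ] ℂ => A v) this
  have h2 := hf.hasFDerivAt.comp (ψ t0) (hasFDerivAt_prodMk_right t0 (ψ t0))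
  have h3 : ∀ l, dz l (fun y => f (t0, y)) (ψ t0) = L (0, Pi.single l 1) := fun l =>
    (INT.dz_of_holo h2.differentiableAt l).trans
      (congrArg (fun A : Cm d →L[ℂ] ℂ => A (Pi.single l 1)) h2.fderiv)
  have h4 : ∀ v l, fderiv ℝ (fun t => ψ t l) t0 v = fderiv ℝ ψ t0 v l := fun v l => by
    rw [fderiv_apply hψ l]
    rfl
  have h5 : ∀ u : Cm d, ∑ l, u l * L (0, Pi.single l 1) = L (0, u) := fun u => by
    have := map_sum (L.comp (ContinuousLinearMap.inr ℂ _ _)) (fun l => u l • Pi.single l 1)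
      Finset.univ
    rw [← pi_eq_sum_univ'] at this
    simpa only [map_smul, smul_eq_mul, ContinuousLinearMap.comp_apply,
      ContinuousLinearMap.inr_apply] using this.symm
  have h6 : (Pi.single j Complex.I : Cm p) = Complex.I • (Pi.single j 1 : Cm p) := by
    rw [← Pi.single_smul]; simp
  simp only [h3, dzb, h1, h4]
  rw [h5 fun l => (fderiv ℝ ψ t0 (Pi.single j 1) l +
    Complex.I * fderiv ℝ ψ t0 (Pi.single j Complex.I) l) / 2, ← smul_eq_mul, ← map_smul, ← map_add,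
    div_eq_inv_mul, ← smul_eq_mul, ← map_smul]
  congr 1
  refine Prod.ext ?_ (funext fun l => ?_)
  · simp [h6, smul_smul]
  · simp [div_eq_inv_mul, mul_add]

theorem par_int {K : Set (Cm d)} (hK : IsCompact K) (h : ∀ y ∈ K, ContDiffAt ℝ 1 f (t0, y))
    {ρ : Cm d → ℂ} (hρ : ContinuousOn ρ K) :
    DifferentiableAt ℝ (fun t => ∫ y in K, ρ y * f (t, y)) t0 ∧ ∀ j,
      dzb j (fun t => ∫ y in K, ρ y * f (t, y)) t0 =
        ∫ y in K, ρ y * dzb j (fun t => f (t, y)) t0 := by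
  obtain ⟨r, hr, hb⟩ := Metric.nhds_basis_closedBall.eventually_iff.1
    (hK.eventually_forall_of_forall_eventually (x₀ := t0)
      (P := fun t y => ContDiffAt ℝ 1 f (t, y)) fun y hy => (h y hy).eventually (by simp))
  let F' : Cm p × Cm d → Cm p →L[ℝ] ℂ := fun q =>
    ρ q.2 • (fderiv ℝ f q).comp (ContinuousLinearMap.inl ℝ _ _)
  have hc : ContinuousOn F' (Metric.closedBall t0 r ×ˢ K) :=
    (hρ.comp continuousOn_snd fun q hq => hq.2).smul (ContinuousOn.clm_comp
      (fun q hq => ((hb hq.1 q.2 hq.2).fderiv_right (m := 0)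
        (by norm_num)).continuousAt.continuousWithinAt) continuousOn_const)
  obtain ⟨C, hC⟩ := ((isCompact_closedBall t0 r).prod hK).exists_bound_of_continuousOn hc
  have h1 : ∀ t ∈ Metric.closedBall t0 r, ContinuousOn (fun y => ρ y * f (t, y)) K :=
    fun t ht => hρ.mul fun y hy => ((hb ht y hy).continuousAt.comp
      (Continuous.prodMk_right t).continuousAt).continuousWithinAt
  have h0 := Metric.mem_closedBall_self (x := t0) hr.le
  have h2 : IntegrableOn (fun y => F' (t0, y)) K :=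
    (hc.comp (Continuous.prodMk_right t0).continuousOn fun y hy => ⟨h0, hy⟩).integrableOn_compact hK
  have h3 := hasFDerivAt_integral_of_dominated_of_fderiv_le (μ := volume.restrict K)
    (F := fun t y => ρ y * f (t, y)) (F' := fun t y => F' (t, y)) (bound := fun _ => C)
    (Metric.closedBall_mem_nhds t0 hr)
    (mem_of_superset (Metric.closedBall_mem_nhds t0 hr) fun t ht =>
      (h1 t ht).aestronglyMeasurable hK.measurableSet)
    ((h1 t0 h0).integrableOn_compact hK) h2.aestronglyMeasurable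
    (ae_restrict_of_forall_mem hK.measurableSet fun y hy t ht => hC (t, y) ⟨ht, hy⟩)
    (integrableOn_const hK.measure_lt_top.ne)
    (ae_restrict_of_forall_mem hK.measurableSet fun y hy t ht =>
      ((((hb ht y hy).differentiableAt one_ne_zero).hasFDerivAt.comp t
        (hasFDerivAt_prodMk_left t y)).const_mul (ρ y)))
  refine ⟨h3.differentiableAt, fun j => ?_⟩
  have h4 := fun v => h2.apply_continuousLinearMap v
  rw [dzb, h3.fderiv, ContinuousLinearMap.integral_apply h2, ContinuousLinearMap.integral_apply h2,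
    ← integral_const_mul, ← integral_add (h4 _) ((h4 _).const_mul _), ← integral_div]
  refine setIntegral_congr_fun hK.measurableSet fun y hy => ?_
  simp only [dzb, inl_fd (q := (t0, y)) ((h y hy).differentiableAt one_ne_zero), F', smul_apply,
    ContinuousLinearMap.comp_apply, ContinuousLinearMap.inl_apply, smul_eq_mul]
  ring

end par

/-! ### the Cartan formula at a point -/

theorem cx_hl (w : Cm d) (l : Fin d) : cx w (hl l) = w l := Fin.addCases_left l

theorem sm_cx {E : Type} [NormedAddCommGroup E] [NormedSpace ℝ E] {φ : E → Cm d} {q : E}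
    (h : ContDiffAt ℝ ∞ φ q) (l : Fin (d + d)) : ContDiffAt ℝ ∞ (fun x => cx (φ x) l) q := by
  refine Fin.addCases (fun j => ?_) (fun j => ?_) l
  · simp only [cx, Fin.addCases_left]
    exact contDiffAt_pi.1 h j
  · simp only [cx, Fin.addCases_right]
    exact (Complex.conjCLE : ℂ →L[ℝ] ℂ).contDiff.contDiffAt.comp q (contDiffAt_pi.1 h j)

theorem sm_jc {φ : Cm p × Cm d → Cm d} (h : ContDiffAt ℝ ∞ φ (t0, z)) (c l : Fin (d + d)) :
    ContDiffAt ℝ ∞ (fun q : Cm p × Cm d => jc (fun y => φ (q.1, y)) q.2 c l) (t0, z) :=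
  sm_dr (f := fun q => cx (φ q) l) (sm_cx h l) c

theorem ctr_Hd (f1 : F1b) (c l : Fin d) :
    eps (hl c) *ᵥ (iot (hl l) *ᵥ ev (Hd d)) = if c = l then ev (Hd d) else 0 := by
  rw [Matrix.mulVec_mulVec, car', Matrix.sub_mulVec, ← Matrix.mulVec_mulVec, f1.eps_Hd,
    Matrix.mulVec_zero, sub_zero]
  by_cases h : c = l
  · simp [h]
  · rw [if_neg h, if_neg fun h' : hl l = hl c => h (Fin.castAdd_injective _ _ h').symm,
      Matrix.zero_mulVec]

theorem dT_ctr (f1 : F1b) (k1 : K1a) {η : Cm d → Cm d} {σ : Cm d → ℂ}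
    (hη : ∀ l, DifferentiableAt ℝ (fun y => η y l) z) (hσ : DifferentiableAt ℂ σ z)
    {B : Matrix (Fin (d + d)) (Fin (d + d)) ℂ} (hB : ∀ c l, B c (hl l) = dr c (fun y => η y l) z) :
    dT (fun y => ctr (η y) *ᵥ (σ y • ev (Hd d))) z =
      (∑ l, η z l * dz l σ z) • ev (Hd d) + σ z • dlam B *ᵥ ev (Hd d) := by
  have hσ' := hσ.restrictScalars ℝ
  have h1 : ∀ c, Dv c (fun y => ctr (η y) *ᵥ (σ y • ev (Hd d))) z = ∑ l,
      (B c (hl l) * σ z + η z l * dr c σ z) • iot (hl l) *ᵥ ev (Hd d) := fun c => by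
    obtain ⟨a, b, v, w, e⟩ := dr_DD c
    funext I
    simp only [Dv, ctr, Matrix.sum_mulVec, Matrix.smul_mulVec, Matrix.mulVec_smul,
      Finset.sum_apply, Pi.smul_apply, smul_eq_mul, hB, e, Finset.mul_sum, ← mul_assoc]
    rw [DD_sum _ _ _ _ _ fun l _ => (hσ'.fun_mul (hη l)).mul_const _]
    exact Finset.sum_congr rfl fun l _ => by
      rw [DD_mul_const _ _ _ _ _ (hσ'.fun_mul (hη l)), DD_mul _ _ _ _ hσ' (hη l)]
      ring
  have h2 : ∀ l, ∑ c, dr c σ z • eps c *ᵥ (iot (hl l) *ᵥ ev (Hd d)) = dz l σ z • ev (Hd d) :=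
    fun l => by
      rw [Fin.sum_univ_add]
      show ∑ c, dr (hl c) σ z • eps (hl c) *ᵥ _ + ∑ c, dr (ah c) σ z • eps (ah c) *ᵥ _ = _
      simp [k1.dr_hl, k1.dr_ah, INT.dzb_of_holo hσ, ctr_Hd f1]
  have h3 : dlam B *ᵥ ev (Hd d) = ∑ c, ∑ l, B c (hl l) • eps c *ᵥ (iot (hl l) *ᵥ ev (Hd d)) := by
    rw [dlam, Matrix.sum_mulVec]
    refine Finset.sum_congr rfl fun c _ => ?_
    rw [Fin.sum_univ_add]
    show (∑ l, B c (hl l) • (eps c * iot (hl l)) + ∑ l, B c (ah l) • (eps c * iot (ah l))) *ᵥ _ = _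
    simp only [Matrix.add_mulVec, Matrix.sum_mulVec, Matrix.smul_mulVec, ← Matrix.mulVec_mulVec,
      f1.iot_Hd, Matrix.mulVec_zero, smul_zero, Finset.sum_const_zero, add_zero]
  simp only [dT, h1, h3]
  simp only [Matrix.mulVec_sum, Matrix.mulVec_smul]
  simp only [add_smul, Finset.sum_add_distrib, Finset.smul_sum, smul_smul, Finset.sum_smul]
  refine (add_comm _ _).trans ?_
  congr 1
  · rw [Finset.sum_comm]
    refine Finset.sum_congr rfl fun l _ => ?_
    rw [mul_smul, ← h2, Finset.smul_sum]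
    exact Finset.sum_congr rfl fun c _ => mul_smul _ _ _
  · exact Finset.sum_congr rfl fun c _ => Finset.sum_congr rfl fun l _ => by rw [mul_comm]

theorem cartan (f1 : F1b) (k1 : K1a) (k2 : K1b) {φ : Cm p × Cm d → Cm d} {σ : Cm p × Cm d → ℂ}
    (hφ : ContDiffAt ℝ ∞ φ (t0, z)) (hid : (fun y => φ (t0, y)) =ᶠ[𝓝 z] fun y => y)
    (hσ : AnalyticAt ℂ σ (t0, z)) (j : Fin p) (I : FI (d + d)) :
    dzb j (fun t => (lam (jc (fun y => φ (t, y)) z) *ᵥ (σ (t, φ (t, z)) • ev (Hd d))) I) t0 =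
      dT (fun y => ctr (fun l => dzb j (fun t => φ (t, y) l) t0) *ᵥ (σ (t0, y) • ev (Hd d))) z I := by
  have h0 : φ (t0, z) = z := hid.self_of_nhds
  have hl1 : ContDiffAt ℝ ∞ (fun t : Cm p => (t, z)) t0 := contDiffAt_id.prodMk contDiffAt_const
  have hψ : DifferentiableAt ℝ (fun t => φ (t, z)) t0 :=
    (hφ.comp t0 hl1).differentiableAt (by simp)
  have hJ : MD (fun t => jc (fun y => φ (t, y)) z) t0 := fun c l => by
    have := ((sm_jc hφ c l).comp t0 hl1).differentiableAt (by simp)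
    exact this
  have h1 : jc (fun y => φ (t0, y)) z = 1 := (k2.jc_congr hid).trans (k2.jc_id z)
  have hσ1 : DifferentiableAt ℂ σ (t0, φ (t0, z)) := h0.symm ▸ hσ.differentiableAt
  have h2 := congrFun (congrFun (DMb_lam' hJ (k := j)
    (B := DMb j (fun t => jc (fun y => φ (t, y)) z) t0) (by rw [h1, Matrix.mul_one])) I) (Hd d)
  rw [dT_ctr f1 k1 (σ := fun y => σ (t0, y)) (B := DMb j (fun t => jc (fun y => φ (t, y)) z) t0)
    (fun l => (sm_dzb (f := fun q => φ q l) (contDiffAt_pi.1 hφ l) j).differentiableAt (by simp))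
    (hσ.differentiableAt.comp z ((differentiableAt_const t0).prodMk differentiableAt_id))
    fun c l => by
      simp only [DMb_apply, jc, Matrix.of_apply, cx_hl]
      exact dr_swap (f := fun q => φ q l) ((contDiffAt_pi.1 hφ l).of_le (by norm_cast)) j c]
  simp only [Matrix.mulVec_smul, Pi.smul_apply, Pi.add_apply, mulVec_ev, smul_eq_mul]
  refine (dzb_mul j (f := fun t => σ (t, φ (t, z)))
    ((hσ1.restrictScalars ℝ).comp t0 (differentiableAt_id.prodMk hψ)) (MD_lam hJ I (Hd d))).trans ?_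
  rw [DMb_apply] at h2
  beta_reduce
  rw [dzb_par hψ hσ1, h2, h1, lam_one, Matrix.mul_one, h0, ← mulVec_ev 1 (Hd d) I,
    Matrix.one_mulVec]

end Vale.Agent.P281Z.Hg.Fg3
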