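import Vale.Agent.P281Z.Hg.S3
import Vale.Agent.P299.H863.LocD

/-!
# P281, Hodge block, row G5, part 1: operators of order zero and one in the charts
-/

open scoped Manifold ContDiff ComplexOrder Topology Matrix
open Filter MeasureTheory
open Vale.Agent.P272.K Vale.Agent.P272.K.C2 Vale.Agent.P272.K.INT Vale.Agent.P299.IX
  Vale.Agent.P299.IX.Fock Vale.Agent.P299.H863

noncomputable section

namespace Vale.Agent.P281Z.Hg.Ws

section gen
variable {E V : Type} [NormedAddCommGroup E] [NormedSpace ℝ E] [NormedAddCommGroup V]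
  [NormedSpace ℝ V] {s : Set E}

theorem cdo_flip {G : E → E →L[ℝ] V →L[ℝ] V} (h : ContDiffOn ℝ ∞ G s) :
    ContDiffOn ℝ ∞ (fun z => (G z).flip) s := by
  have h1 : ContDiff ℝ ∞ (ContinuousLinearMap.flipₗᵢ ℝ E V V) :=
    LinearIsometryEquiv.contDiff (𝕜 := ℝ) (E := E →L[ℝ] V →L[ℝ] V) (F := V →L[ℝ] E →L[ℝ] V) _
  exact h1.comp_contDiffOn h

theorem cdo_compL {F : E → V →L[ℝ] V} (h : ContDiffOn ℝ ∞ F s) :
    ContDiffOn ℝ ∞ (fun z => ContinuousLinearMap.compL ℝ E V V (F z)) s := by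
  have h1 : ContDiff ℝ ∞ (ContinuousLinearMap.compL ℝ E V V) :=
    ContinuousLinearMap.contDiff (𝕜 := ℝ) (E := V →L[ℝ] V) (F := (E →L[ℝ] V) →L[ℝ] E →L[ℝ] V) _
  exact h1.comp_contDiffOn h

end gen

/-- the fibre as a Hilbert space -/
abbrev Vd (d : ℕ) : Type := EuclideanSpace ℂ (FI (d + d))

variable {d : ℕ}

/-- a matrix as a real continuous linear map -/
def mE (A : Fm d) : Vd d →L[ℝ] Vd d :=
  ContinuousLinearMap.restrictScalarsL ℂ (Vd d) (Vd d) ℝ ℝ (Matrix.toEuclideanCLM (𝕜 := ℂ) A)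

theorem mE_apply (A : Fm d) (v : Fo d) : mE A (WithLp.toLp 2 v) = WithLp.toLp 2 (A *ᵥ v) := rfl

theorem contDiffAt_clm {A : Cm d → Fm d} {z : Cm d} (hA : MC ∞ A z) :
    ContDiffAt ℝ ∞ (fun z => (Matrix.toEuclideanCLM (𝕜 := ℂ) (A z) : Vd d →L[ℂ] Vd d)) z := by
  have h1 : (fun z => (Matrix.toEuclideanCLM (𝕜 := ℂ) (A z) : Vd d →L[ℂ] Vd d)) =
      fun z => ∑ i, ∑ j, A z i j • Matrix.toEuclideanCLM (𝕜 := ℂ) (Matrix.single i j (1 : ℂ)) := by
    funext z
    conv_lhs => rw [Matrix.matrix_eq_sum_single (A z)]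
    simp only [map_sum]
    refine Finset.sum_congr rfl fun i _ => Finset.sum_congr rfl fun j _ => ?_
    rw [← map_smul, Matrix.smul_single, smul_eq_mul, mul_one]
  rw [h1]
  refine ContDiffAt.sum fun i _ => ContDiffAt.sum fun j _ => ?_
  exact (hA i j).smul (contDiffAt_const (c := (Matrix.toEuclideanCLM (n := FI (d + d)) (𝕜 := ℂ)
      (Matrix.single i j (1 : ℂ)) : Vd d →L[ℂ] Vd d)))

theorem contDiffAt_mE {A : Cm d → Fm d} {z : Cm d} (hA : MC ∞ A z) :
    ContDiffAt ℝ ∞ (fun z => mE (A z)) z :=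
  (ContinuousLinearMap.restrictScalarsL ℂ (Vd d) (Vd d) ℝ ℝ).contDiff.contDiffAt.comp z
    (contDiffAt_clm hA)

theorem fderiv_lp {u : Cm d → Fo d} {z : Cm d} (hu : ContDiffAt ℝ ∞ u z) (v : Cm d)
    (i : FI (d + d)) :
    (fderiv ℝ (fun y => (WithLp.toLp 2 (u y) : Vd d)) z v).ofLp i =
      fderiv ℝ (fun y => u y i) z v := by
  have h1 : DifferentiableAt ℝ (fun y => (WithLp.toLp 2 (u y) : Vd d)) z := by
    have h2 : ContDiffAt ℝ ∞ (fun y => (WithLp.toLp 2 (u y) : Vd d)) z :=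
      (PiLp.contDiff_toLp (p := 2)).contDiffAt.comp z hu
    exact h2.differentiableAt (by simp)
  have h3 := (EuclideanSpace.proj (𝕜 := ℂ) i : Vd d →L[ℂ] ℂ).restrictScalars ℝ
    |>.hasFDerivAt.comp z h1.hasFDerivAt
  have h4 : HasFDerivAt (fun y => u y i)
    (((EuclideanSpace.proj (𝕜 := ℂ) i : Vd d →L[ℂ] ℂ).restrictScalars ℝ).comp
      (fderiv ℝ (fun y => (WithLp.toLp 2 (u y) : Vd d)) z)) z := h3
  rw [h4.fderiv]
  rfl

/-- the coordinate derivatives are linear in the differential -/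
theorem exists_drE (c : Fin (d + d)) : ∃ Φ : (Cm d →L[ℝ] Vd d) →L[ℝ] Vd d,
    ∀ (u : Cm d → Fo d) z, ContDiffAt ℝ ∞ u z →
      Φ (fderiv ℝ (fun y => (WithLp.toLp 2 (u y) : Vd d)) z) = WithLp.toLp 2 (Dv c u z) := by
  refine Fin.addCases (fun l => ?_) (fun l => ?_) c
  · refine ⟨(2⁻¹ : ℂ) • (ContinuousLinearMap.apply ℝ (Vd d) (Pi.single l 1 : Cm d) -
      Complex.I • ContinuousLinearMap.apply ℝ (Vd d) (Pi.single l Complex.I : Cm d)),
      fun u z hu => ?_⟩
    ext i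
    show ((2⁻¹ : ℂ) • (fderiv ℝ (fun y => (WithLp.toLp 2 (u y) : Vd d)) z (Pi.single l 1) -
      Complex.I • fderiv ℝ (fun y => (WithLp.toLp 2 (u y) : Vd d)) z
        (Pi.single l Complex.I))).ofLp i = dr (Fin.castAdd d l) (fun y => u y i) z
    simp only [PiLp.smul_apply, PiLp.sub_apply, fderiv_lp hu, smul_eq_mul, dr, Fin.addCases_left,
      dz]
    ring
  · refine ⟨(2⁻¹ : ℂ) • (ContinuousLinearMap.apply ℝ (Vd d) (Pi.single l 1 : Cm d) +
      Complex.I • ContinuousLinearMap.apply ℝ (Vd d) (Pi.single l Complex.I : Cm d)),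
      fun u z hu => ?_⟩
    ext i
    show ((2⁻¹ : ℂ) • (fderiv ℝ (fun y => (WithLp.toLp 2 (u y) : Vd d)) z (Pi.single l 1) +
      Complex.I • fderiv ℝ (fun y => (WithLp.toLp 2 (u y) : Vd d)) z
        (Pi.single l Complex.I))).ofLp i = dr (Fin.natAdd d l) (fun y => u y i) z
    simp only [PiLp.smul_apply, PiLp.add_apply, fderiv_lp hu, smul_eq_mul, dr, Fin.addCases_right,
      dzb]
    ring

theorem mc_blk {A B : Cm d → Matrix (Fin d) (Fin d) ℂ} {z : Cm d} (hA : MC ∞ A z)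
    (hB : MC ∞ B z) : MC ∞ (fun y => blk (A y) (B y)) z := by
  intro p q
  show ContDiffAt ℝ ∞ (fun y => Matrix.fromBlocks (A y) 0 0 (B y) (finSumFinEquiv.symm p)
    (finSumFinEquiv.symm q)) z
  rcases finSumFinEquiv.symm p with i | i <;> rcases finSumFinEquiv.symm q with j | j
  · exact hA i j
  · exact contDiffAt_const
  · exact contDiffAt_const
  · exact hB i j

theorem mc_Gm {w : Cm d → Matrix (Fin d) (Fin d) ℂ} {z : Cm d} (hw : MC ∞ w z)
    (h0 : (w z).det ≠ 0) : MC ∞ (fun y => Gm (w y)) z := by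
  have h1 := hw.inv h0
  have h2 : MC ∞ (fun y => ((w y)⁻¹)ᵀ) z := fun i j => h1 j i
  exact fun p q => hw.det.mul (MC_lam (mc_blk h1 h2) p q)

theorem mc_Lam {w : Cm d → Matrix (Fin d) (Fin d) ℂ} {z : Cm d} (hw : MC ∞ w z)
    (h0 : (w z).det ≠ 0) : MC ∞ (fun y => Lam (w y)) z := by
  have h1 := hw.inv h0
  intro p q
  simp only [Lam, Matrix.sum_apply, Matrix.smul_apply, smul_eq_mul]
  exact ContDiffAt.sum fun j _ => ContDiffAt.sum fun k _ =>
    (contDiffAt_const.mul (h1 k j)).mul contDiffAt_const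

variable {M : Type} [TopologicalSpace M] [ChartedSpace (Cm d) M]

theorem at_symm {e : Chart d M} (he : e ∈ atlas (Cm d) M) {z : Cm d} (hz : z ∈ e.target) :
    At e (e.symm z) := ⟨he, e.map_target hz⟩

/-- the values of a form in a chart -/
def rE (u : SF d M) (e : Chart d M) (z : Cm d) : Vd d := WithLp.toLp 2 (vl u e z)

theorem vl_smooth (u : SF d M) {e : Chart d M} (he : e ∈ atlas (Cm d) M) {z : Cm d}
    (hz : z ∈ e.target) : ContDiffAt ℝ ∞ (vl u e) z := by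
  have h := (vl_isF u).sm e _ (at_symm he hz)
  rwa [e.right_inv hz] at h

theorem rE_smooth (u : SF d M) {e : Chart d M} (he : e ∈ atlas (Cm d) M) {z : Cm d}
    (hz : z ∈ e.target) : ContDiffAt ℝ ∞ (rE u e) z :=
  (PiLp.contDiff_toLp (p := 2)).contDiffAt.comp z (vl_smooth u he hz)

theorem rE_add (u v : SF d M) (e : Chart d M) (z : Cm d) : rE (u + v) e z = rE u e z + rE v e z :=
  rfl

theorem rE_smul (c : ℂ) (u : SF d M) (e : Chart d M) (z : Cm d) :
    rE (c • u) e z = c • rE u e z := rfl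

/-- operators of order zero -/
def ZO (T : Module.End ℂ (SF d M)) : Prop := ∀ e ∈ atlas (Cm d) M,
  ∃ F : Cm d → Vd d →L[ℝ] Vd d, ContDiffOn ℝ ∞ F e.target ∧
    ∀ u, ∀ z ∈ e.target, rE (T u) e z = F z (rE u e z)

/-- operators of order one -/
def FO (T : Module.End ℂ (SF d M)) : Prop := ∀ e ∈ atlas (Cm d) M,
  ∃ (a : Cm d → (Cm d →L[ℝ] Vd d) →L[ℝ] Vd d) (b : Cm d → Vd d →L[ℝ] Vd d),
    ContDiffOn ℝ ∞ a e.target ∧ ContDiffOn ℝ ∞ b e.target ∧
    ∀ u, ∀ z ∈ e.target, rE (T u) e z = fo a b (rE u e) z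

theorem zo_of {F : Rw d M (Fm d)} {T : Module.End ℂ (SF d M)} (h : IsOp F T)
    (hF : ∀ e x, At e x → MC ∞ (F e) (e x)) : ZO T := by
  intro e he
  refine ⟨fun z => mE (F e z), fun z hz => ?_, fun u z hz => ?_⟩
  · have h1 := hF e _ (at_symm he hz)
    rw [e.right_inv hz] at h1
    exact (contDiffAt_mE h1).contDiffWithinAt
  · have h1 := h u e _ (at_symm he hz)
    rw [e.right_inv hz] at h1
    rw [rE, h1, rE, mE_apply]

theorem FO.zero : FO (0 : Module.End ℂ (SF d M)) := fun _ _ =>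
  ⟨0, 0, contDiffOn_const, contDiffOn_const, fun u z _ => by
    simp only [fo, Pi.zero_apply, _root_.zero_apply, add_zero]
    rfl⟩

variable {T T' : Module.End ℂ (SF d M)}

theorem FO.add (h : FO T) (h' : FO T') : FO (T + T') := by
  intro e he
  obtain ⟨a, b, ha, hb, h1⟩ := h e he
  obtain ⟨a', b', ha', hb', h2⟩ := h' e he
  refine ⟨fun z => a z + a' z, fun z => b z + b' z, ha.add ha', hb.add hb', fun u z hz => ?_⟩
  rw [LinearMap.add_apply, rE_add, h1 u z hz, h2 u z hz]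
  simp only [fo, _root_.add_apply]
  abel

theorem FO.smul (c : ℂ) (h : FO T) : FO (c • T) := by
  intro e he
  obtain ⟨a, b, ha, hb, h1⟩ := h e he
  refine ⟨fun z => c • a z, fun z => c • b z, ha.const_smul c, hb.const_smul c, fun u z hz => ?_⟩
  rw [LinearMap.smul_apply, rE_smul, h1 u z hz]
  simp only [fo, _root_.smul_apply, smul_add]

theorem FO.sub (h : FO T) (h' : FO T') : FO (T - T') := by
  have h1 := h.add (h'.smul (-1))
  rwa [neg_one_smul, ← sub_eq_add_neg] at h1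

theorem FO.sum {ι : Type} (s : Finset ι) {T : ι → Module.End ℂ (SF d M)} (h : ∀ i, FO (T i)) :
    FO (∑ i ∈ s, T i) :=
  Finset.sum_induction _ FO (fun _ _ => FO.add) FO.zero fun i _ => h i

theorem ZO.mul (h : ZO T) (h' : FO T') : FO (T * T') := by
  intro e he
  obtain ⟨F, hF, h1⟩ := h e he
  obtain ⟨a, b, ha, hb, h2⟩ := h' e he
  refine ⟨fun z => (F z).comp (a z), fun z => (F z).comp (b z), hF.clm_comp ha, hF.clm_comp hb,
    fun u z hz => ?_⟩
  rw [Module.End.mul_apply, h1 _ z hz, h2 u z hz]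
  simp only [fo, ContinuousLinearMap.comp_apply, map_add]

theorem FO.mul (h : FO T) (h' : ZO T') : FO (T * T') := by
  intro e he
  obtain ⟨a, b, ha, hb, h1⟩ := h e he
  obtain ⟨F, hF, h2⟩ := h' e he
  have hD : ContDiffOn ℝ ∞ (fderiv ℝ F) e.target :=
    hF.fderiv_of_isOpen e.open_target (by simp)
  have hfl : ContDiffOn ℝ ∞ (fun z => (fderiv ℝ F z).flip) e.target :=
    cdo_flip hD
  have hc : ContDiffOn ℝ ∞
      (fun z => ContinuousLinearMap.compL ℝ (Cm d) (Vd d) (Vd d) (F z)) e.target :=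
    cdo_compL hF
  refine ⟨fun z => (a z).comp (ContinuousLinearMap.compL ℝ (Cm d) (Vd d) (Vd d) (F z)),
    fun z => (a z).comp (fderiv ℝ F z).flip + (b z).comp (F z), ha.clm_comp hc,
    (ha.clm_comp hfl).add (hb.clm_comp hF), fun u z hz => ?_⟩
  have hn := e.open_target.mem_nhds hz
  have e1 : rE (T' u) e =ᶠ[𝓝 z] fun y => F y (rE u e y) := by
    filter_upwards [hn] with y hy using h2 u y hy
  have d1 : DifferentiableAt ℝ F z := (hF.contDiffAt hn).differentiableAt (by simp)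
  have d2 : DifferentiableAt ℝ (rE u e) z := (rE_smooth u he hz).differentiableAt (by simp)
  rw [Module.End.mul_apply, h1 _ z hz]
  simp only [fo]
  rw [e1.fderiv_eq, fderiv_clm_apply d1 d2, h2 u z hz]
  simp only [ContinuousLinearMap.comp_apply, _root_.add_apply, map_add,
    ContinuousLinearMap.compL_apply]
  abel

variable [T2Space M] [CompactSpace M] [IsManifold 𝓘(ℂ, Cm d) ω M] {X : Cx (SF d M) d}

theorem fo_d (hX : RealX X) : FO X.d := by
  choose Φ hΦ using exists_drE (d := d)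
  intro e he
  refine ⟨fun _ => ∑ c, (mE (eps c)).comp (Φ c), 0, contDiffOn_const, contDiffOn_const,
    fun u z hz => ?_⟩
  have h1 := hX.d u e _ (at_symm he hz)
  rw [e.right_inv hz] at h1
  have h2 : ∀ c, Φ c (fderiv ℝ (rE u e) z) = WithLp.toLp 2 (Dv c (vl u e) z) := fun c =>
    hΦ c (vl u e) z (vl_smooth u he hz)
  rw [rE, h1, dT, WithLp.toLp_sum]
  simp only [fo, Pi.zero_apply, _root_.zero_apply, add_zero,
    _root_.sum_apply, ContinuousLinearMap.comp_apply, h2, mE_apply]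

theorem fo_D {w : Rw d M (Matrix (Fin d) (Fin d) ℂ)} {K : KP X} (hX : RealX X) (hw : IsKahler w)
    (hK : RealK w K) : FO (X.d + K.ds) := by
  have hd := fo_d hX
  have hp : ∀ k, ZO (K.pr k) := fun k => zo_of (hK.pr k) fun _ _ _ => MC_const _ _
  have hL : ZO K.Lm := zo_of hK.Lm fun e x hx =>
    mc_Lam (fun i j => hw.smooth e x hx i j) (hw.posDef e x hx).det_pos.ne'
  have hA : FO K.A := FO.sum _ fun k => ((hp (k + 1)).mul hd).mul (hp k)
  have hAb : FO K.Ab := FO.sum _ fun k => ((hp k).mul hd).mul (hp k)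
  exact hd.add ((((hL.mul hAb).sub (hAb.mul hL)).smul _).add
    (((hL.mul hA).sub (hA.mul hL)).smul _))

end Vale.Agent.P281Z.Hg.Ws
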