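import Vale.Agent.P281Z.Hg.S3
import Vale.Agent.P281Z.Hg.K1a
import Vale.Agent.P272.K.INT.Part

/-!
# P281, Hodge block: localisation of the de Rham complex (rows G7 and ULCG)
-/

open scoped Manifold ContDiff ComplexOrder Topology Matrix
open Filter MeasureTheory
open Vale.Agent.P272.K Vale.Agent.P272.K.C2 Vale.Agent.P272.K.INT Vale.Agent.P299.IX
  Vale.Agent.P299.IX.Fock

noncomputable section

namespace Vale.Agent.P281Z.Hg

namespace G7A

section top
variable {d : ℕ} {M : Type} [TopologicalSpace M] [ChartedSpace (Cm d) M]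

theorem at_chart (x : M) : At (chartAt (Cm d) x) x :=
  ⟨chart_mem_atlas _ _, mem_chart_source _ _⟩

omit [ChartedSpace (Cm d) M] in
/-- a small closed ball in a chart -/
theorem ball_ex {e : Chart d M} {p : M} (hp : p ∈ e.source) {O : Set M} (hO : O ∈ 𝓝 p) :
    ∃ s : ℝ, 0 < s ∧ ∀ z ∈ Metric.closedBall (e p) s, z ∈ e.target ∧ e.symm z ∈ O := by
  have h1 : e.target ∈ 𝓝 (e p) := e.open_target.mem_nhds (e.map_source hp)
  have h2 : e.symm ⁻¹' O ∈ 𝓝 (e p) :=
    e.continuousAt_symm (e.map_source hp) (by rw [e.left_inv hp]; exact hO)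
  obtain ⟨s, hs, h⟩ := Metric.nhds_basis_closedBall.mem_iff.1 (inter_mem h1 h2)
  exact ⟨s, hs, fun z hz => h hz⟩

/-- a constant is bounded by the norm of a form equal to it on an open set -/
theorem ev_bd {nrm : SF d M → ℝ} (hL : IsL2 nrm) (nn : ∀ u, 0 ≤ nrm u) {one : SF d M}
    (h1 : IsOne one) (O : Set M) (hO : IsOpen O) (hne : O.Nonempty) :
    ∃ C : ℝ, 0 ≤ C ∧ ∀ (c : ℂ) u, (∀ y ∈ O, c • one - u ∈ ZP y) → ‖c‖ ≤ C * nrm u := by
  obtain ⟨p, hp⟩ := hne
  obtain ⟨he, hpe⟩ := at_chart (d := d) p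
  generalize chartAt (Cm d) p = e at he hpe
  obtain ⟨s, hs, hb⟩ := ball_ex hpe (hO.mem_nhds hp)
  have hK : IsCompact (e.symm '' Metric.closedBall (e p) s) :=
    (isCompact_closedBall _ _).image_of_continuousOn
      (e.continuousOn_symm.mono fun z hz => (hb z hz).1)
  have hKs : e.symm '' Metric.closedBall (e p) s ⊆ e.source := by
    rintro _ ⟨z, hz, rfl⟩
    exact e.map_target (hb z hz).1
  have him : e '' (e.symm '' Metric.closedBall (e p) s) = Metric.closedBall (e p) s := by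
    ext z
    constructor
    · rintro ⟨_, ⟨w, hw, rfl⟩, rfl⟩
      rw [e.right_inv (hb w hw).1]
      exact hw
    · exact fun hz => ⟨_, ⟨z, hz, rfl⟩, e.right_inv (hb z hz).1⟩
  obtain ⟨C, hC, hr⟩ := hL.res e he _ hK hKs
  have hm : 0 < (volume : Measure (Cm d)).real (Metric.closedBall (e p) s) :=
    ENNReal.toReal_pos (Metric.measure_closedBall_pos volume _ hs).ne'
      (isCompact_closedBall _ _).measure_lt_top.ne
  generalize hmm : (volume : Measure (Cm d)).real (Metric.closedBall (e p) s) = m at hm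
  refine ⟨Real.sqrt (C / m), Real.sqrt_nonneg _, fun c u hu => ?_⟩
  have h2 := hr u
  have h3 : ∀ z ∈ Metric.closedBall (e p) s, ‖vl u e z‖ ^ 2 = ‖c‖ ^ 2 := by
    intro z hz
    have ha : At e (e.symm z) := ⟨he, e.map_target (hb z hz).1⟩
    have h4 := hu _ (hb z hz).2 e ha
    rw [vl_sub, vl_smul, h1 e _ ha, e.right_inv (hb z hz).1, sub_eq_zero] at h4
    rw [← h4, norm_smul, ev, Pi.norm_single, norm_one, mul_one]
  rw [him, setIntegral_congr_fun Metric.isClosed_closedBall.measurableSet h3, setIntegral_const,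
    hmm, smul_eq_mul] at h2
  refine (sq_le_sq₀ (norm_nonneg _) (mul_nonneg (Real.sqrt_nonneg _) (nn u))).1 ?_
  rw [mul_pow, Real.sq_sqrt (div_nonneg hC hm.le), div_mul_eq_mul_div, le_div_iff₀ hm, mul_comm]
  exact h2

end top

section met
variable {d : ℕ} {M : Type} [MetricSpace M] [ChartedSpace (Cm d) M] [CompactSpace M]

theorem ulc (d : ℕ) (M : Type) [MetricSpace M] [ChartedSpace (Cm d) M] [CompactSpace M] :
    ULC M := by
  intro r hr
  choose s hs hb using fun p : M =>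
    ball_ex (mem_chart_source (Cm d) p) (Metric.ball_mem_nhds p (half_pos hr))
  obtain ⟨δ, hδ, hl⟩ := lebesgue_number_lemma_of_metric (isCompact_univ (X := M))
    (c := fun p : M => (chartAt (Cm d) p).source ∩
      chartAt (Cm d) p ⁻¹' Metric.ball (chartAt (Cm d) p p) (s p))
    (fun p => (chartAt (Cm d) p).isOpen_inter_preimage Metric.isOpen_ball)
    fun p _ => Set.mem_iUnion.2 ⟨p, mem_chart_source _ p, Metric.mem_ball_self (hs p)⟩
  refine ⟨δ / 2, half_pos hδ, fun x => ?_⟩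
  obtain ⟨p, hp⟩ := hl x (Set.mem_univ x)
  have hpe := mem_chart_source (Cm d) p
  have hb' := hb p
  have hs' := hs p
  generalize s p = t at hb' hs' hp
  generalize chartAt (Cm d) p = e at hb' hp hpe
  have hq : ∀ y ∈ Metric.closedBall x (δ / 2), y ∈ e.source ∧ e y ∈ Metric.closedBall (e p) t :=
    fun y hy =>
      have h := hp (Metric.closedBall_subset_ball (half_lt_self hδ) hy)
      ⟨h.1, Metric.ball_subset_closedBall h.2⟩
  have hc : ∀ a ∈ Set.Icc (0 : ℝ) 1, ∀ y ∈ Metric.closedBall x (δ / 2),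
      e y + a • (e p - e y) ∈ Metric.closedBall (e p) t := fun a ha y hy =>
    (convex_closedBall (e p) t).add_smul_sub_mem (hq y hy).2
      (Metric.mem_closedBall_self hs'.le) ha
  refine ⟨fun a y => e.symm (e y + a • (e p - e y)), p, ?_, fun y hy => ⟨?_, ?_⟩,
    fun a ha y hy => ?_⟩
  · have h1 : ContinuousOn (fun q : ℝ × M => e q.2)
        (Set.Icc 0 1 ×ˢ Metric.closedBall x (δ / 2)) :=
      e.continuousOn.comp continuous_snd.continuousOn fun q hq' => (hq q.2 hq'.2).1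
    exact e.continuousOn_symm.comp
      (h1.add (continuous_fst.continuousOn.smul (continuousOn_const.sub h1)))
      fun q hq' => (hb' _ (hc q.1 hq'.1 q.2 hq'.2)).1
  · show e.symm (e y + (0 : ℝ) • (e p - e y)) = y
    rw [zero_smul, add_zero, e.left_inv (hq y hy).1]
  · show e.symm (e y + (1 : ℝ) • (e p - e y)) = p
    rw [one_smul, add_sub_cancel, e.left_inv hpe]
  · have hx := hq x (Metric.mem_closedBall_self (half_pos hδ).le)
    have h1 := (hb' _ hx.2).2
    rw [e.left_inv hx.1] at h1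
    have h2 := (hb' _ (hc a ha y hy)).2
    rw [Metric.mem_ball] at h1 h2
    have h3 := dist_triangle_right x (e.symm (e y + a • (e p - e y))) p
    show dist x (e.symm (e y + a • (e p - e y))) < r
    linarith

variable [IsManifold 𝓘(ℂ, Cm d) ω M]

variable (d M) in
/-- smooth partitions of unity with small supports -/
theorem part {ε : ℝ} (hε : 0 < ε) : ∃ (N : ℕ) (x : Fin N → M) (ρ : Fin N → M → ℝ),
    (∀ i, SmoothFn (n := d) (ρ i)) ∧ (∀ i y, ε ≤ dist (x i) y → ρ i y = 0) ∧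
    ∀ y, ∑ i, ρ i y = 1 := by
  have := isManifold_real d M
  obtain ⟨t, ht⟩ := isCompact_univ.elim_finite_subcover (fun x : M => Metric.ball x ε)
    (fun x => Metric.isOpen_ball) fun x _ => Set.mem_iUnion.2 ⟨x, Metric.mem_ball_self hε⟩
  let c : Fin t.card → M := fun i => (t.equivFin.symm i : M)
  have hc : (Set.univ : Set M) ⊆ ⋃ i, Metric.ball (c i) ε := by
    intro x hx
    obtain ⟨y, hy⟩ := Set.mem_iUnion.1 (ht hx)
    obtain ⟨hyt, hxy⟩ := Set.mem_iUnion.1 hy
    exact Set.mem_iUnion.2 ⟨t.equivFin ⟨y, hyt⟩, by simpa [c] using hxy⟩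
  obtain ⟨f, hf⟩ := SmoothPartitionOfUnity.exists_isSubordinate 𝓘(ℝ, Cm d)
    isClosed_univ (fun i => Metric.ball (c i) ε) (fun i => Metric.isOpen_ball) hc
  refine ⟨t.card, c, fun i => f i, fun i => smoothFn_of_contMDiff (f i).contMDiff,
    fun i y hy => ?_, fun y => ?_⟩
  · refine image_eq_zero_of_notMem_tsupport fun h => ?_
    have h1 := hf i h
    rw [Metric.mem_ball, dist_comm] at h1
    exact absurd h1 (not_lt.2 hy)
  · have h := f.sum_eq_one (Set.mem_univ y)
    rwa [finsum_eq_sum_of_fintype] at h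

/-- multiplication by a smooth function -/
theorem mulop (hk : K1a) (g1 : G1 d M) (gb : G4b d M) {X : Cx (SF d M) d} (hX : RealX X)
    {nrm : SF d M → ℝ} (hL : IsL2 nrm) (nn : ∀ u, 0 ≤ nrm u) {ρ : M → ℝ}
    (hρ : SmoothFn (n := d) ρ) : ∃ (T : Module.End ℂ (SF d M)) (C : ℝ), 0 ≤ C ∧
    (∀ u e x, At e x → vl (T u) e (e x) = (ρ x : ℂ) • vl u e (e x)) ∧
    (∀ u, nrm (T u) ≤ C * nrm u) ∧ ∀ u, nrm (X.d (T u) - T (X.d u)) ≤ C * nrm u := by
  obtain ⟨T, hT⟩ := g1.op _ (g1.fn ρ hρ)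
  have hT' : ∀ u e x, At e x → vl (T u) e (e x) = (ρ x : ℂ) • vl u e (e x) := by
    intro u e x he
    rw [hT u e x he]
    show ((ρ (e.symm (e x)) : ℂ) • (1 : Fm d)) *ᵥ _ = _
    rw [e.left_inv he.2, Matrix.smul_mulVec, Matrix.one_mulVec]
  have hg : ∀ (e : Chart d M) x, At e x →
      ContDiffAt ℝ ∞ (fun y => (ρ (e.symm y) : ℂ)) (e x) := fun e x he =>
    Complex.ofRealCLM.contDiff.contDiffAt.comp (e x) (hρ e x he)
  obtain ⟨C1, h1, b1⟩ := (gb nrm hL nn).2.1 _ T
    (fun e x he I J => ((g1.fn ρ hρ).sm e x he I J).continuousAt) hT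
  obtain ⟨C2, h2, b2⟩ := (gb nrm hL nn).2.1
    (fun e z => epsV fun c => dr c (fun y => (ρ (e.symm y) : ℂ)) z)
    (fun u => X.d (T u) - T (X.d u)) (fun e x he I J => by
      simp only [epsV, Matrix.sum_apply, Matrix.smul_apply, smul_eq_mul]
      exact tendsto_finsetSum _ fun c _ =>
        (Ka.dr_smooth (hg e x he)).continuousAt.mul continuousAt_const) (fun u e x he => by
      have h3 : vl (T u) e =ᶠ[𝓝 (e x)] fun y => (ρ (e.symm y) : ℂ) • vl u e y := by
        filter_upwards [e.open_target.mem_nhds (e.map_source he.2)] with z hz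
        have h4 := hT' u e (e.symm z) ⟨he.1, e.map_target hz⟩
        rwa [e.right_inv hz] at h4
      show vl (X.d (T u) - T (X.d u)) e (e x) = _
      rw [vl_sub, hX.d _ e x he, hT' _ e x he, hX.d _ e x he, hk.congr h3,
        hk.fun_mul ((hg e x he).differentiableAt (by simp))
          (((vl_isF u).sm e x he).differentiableAt (by simp)), e.left_inv he.2,
        add_sub_cancel_right])
  refine ⟨T, C1 + C2, add_nonneg h1 h2, hT', fun u => (b1 u).trans ?_, fun u => (b2 u).trans ?_⟩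
  · exact mul_le_mul_of_nonneg_right (le_add_of_nonneg_right h2) (nn u)
  · exact mul_le_mul_of_nonneg_right (le_add_of_nonneg_left h1) (nn u)

theorem pu (hk : K1a) (g1 : G1 d M) (gb : G4b d M) {X : Cx (SF d M) d} (hX : RealX X)
    {E : LC M X} (hZ : ∀ x, E.Z x = ZP x) (hL : IsL2 E.nrm) (nn : ∀ u, 0 ≤ E.nrm u) : E.PU := by
  intro ε hε
  obtain ⟨N, x, ρ, hs, h0, h1⟩ := part d M hε
  choose T C hC hT b1 b2 using fun i => mulop hk g1 gb hX hL nn (hs i)
  have hle : ∀ i u, C i * E.nrm u ≤ (∑ j, C j) * E.nrm u := fun i u =>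
    mul_le_mul_of_nonneg_right
      (Finset.single_le_sum (fun j _ => hC j) (Finset.mem_univ i)) (nn u)
  refine ⟨N, x, T, ∑ j, C j, Finset.sum_nonneg fun j _ => hC j, ?_, fun i u y hy => ?_,
    fun i m => ?_, fun i u => (b1 i u).trans (hle i u), fun i u => (b2 i u).trans (hle i u)⟩
  · refine LinearMap.ext fun u => g1.ext _ _ fun y => ⟨_, at_chart y, ?_⟩
    rw [LinearMap.sum_apply, vl_sum, Finset.sum_congr rfl fun i _ => hT i u _ y (at_chart y),
      ← Finset.sum_smul, ← Complex.ofReal_sum, h1, Complex.ofReal_one, one_smul]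
    rfl
  · rw [hZ] at hy ⊢
    intro e he
    rw [hT i u e y he]
    rcases hy with hy | hy
    · rw [hy e he, smul_zero]
    · rw [h0 i y hy, Complex.ofReal_zero, zero_smul]
  · refine LinearMap.ext fun u => g1.ext _ _ fun y => ⟨_, at_chart y, ?_⟩
    rw [Module.End.mul_apply, Module.End.mul_apply, hT i _ _ y (at_chart y),
      hX.dg m _ _ y (at_chart y), hX.dg m _ _ y (at_chart y), hT i _ _ y (at_chart y),
      Matrix.mulVec_smul]

end met

end G7A

/-- row ULCG -/
theorem ulcg (d : ℕ) (M : Type) [MetricSpace M] [ChartedSpace (Cm d) M] [CompactSpace M] :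
    ULCG M := G7A.ulc d M

/-- row G7 -/
theorem g7 (hk : K1a) {d : ℕ} {M : Type} [MetricSpace M] [ChartedSpace (Cm d) M]
    [CompactSpace M] [IsManifold 𝓘(ℂ, Cm d) ω M] (g1 : G1 d M) (g2 : G2 d M) (gb : G4b d M) :
    G7 d M := by
  intro X K hX hok hL hb
  obtain ⟨one, h1⟩ := g1.one
  refine ⟨⟨⟨ZP, one, K.nrm⟩, fun _ => rfl, h1, rfl⟩, fun E hE po => ?_⟩
  have hL' : IsL2 E.nrm := hE.nrm ▸ hL
  have nn : ∀ u, 0 ≤ E.nrm u := hE.nrm ▸ hb.nn
  obtain ⟨a1, -, a3, -⟩ := g2.2.2 X hX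
  refine ⟨hok, fun u hu => g1.ext _ _ fun y => ⟨_, G7A.at_chart y, ?_⟩, fun u x hu => ?_,
    fun m u x hu => ?_, (a1 _ hE.one).1, (a1 _ hE.one).2, nn, hE.nrm ▸ hb.tri, hE.nrm ▸ hb.smul,
    hE.nrm ▸ hb.dgb, fun O hO hne => ?_, G7A.pu hk g1 gb hX hE.Z hL' nn, po⟩
  · have h := hu y
    rw [hE.Z] at h
    exact h _ (G7A.at_chart y)
  · simp only [hE.Z] at hu ⊢
    exact a3 u x hu
  · rw [hE.Z] at hu ⊢
    intro e he
    rw [hX.dg m u e x he, hu e he, Matrix.mulVec_zero]
  · simp only [hE.Z]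
    exact G7A.ev_bd hL' nn hE.one O hO hne

end Vale.Agent.P281Z.Hg
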