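import Vale.Agent.P281Z.Hg.S4

/-!
# P281, Hodge block: assembly of the family, part 1 (the data)
-/

open scoped Manifold ContDiff Topology Matrix
open Filter
open Vale.Agent.P272.K

noncomputable section

namespace Vale.Agent.P281Z.Hg

/-- the rows used in the assembly -/
structure Rows : Prop where
  f1a : F1a
  f2b : F2b
  ab : ABall
  flat : FLAT
  tr : TR
  fa : FA
  pvs : PVS
  cm : CM
  one : ∀ (d : ℕ) (M : Type) [MetricSpace M] [ChartedSpace (Cm d) M] [CompactSpace M]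
    [IsManifold 𝓘(ℂ, Cm d) ω M], ONE d M
  g1 : ∀ (d : ℕ) (M : Type) [TopologicalSpace M] [ChartedSpace (Cm d) M] [T2Space M]
    [CompactSpace M] [IsManifold 𝓘(ℂ, Cm d) ω M], G1 d M
  g2 : ∀ (d : ℕ) (M : Type) [TopologicalSpace M] [ChartedSpace (Cm d) M] [T2Space M]
    [CompactSpace M] [IsManifold 𝓘(ℂ, Cm d) ω M], G2 d M
  fg1 : ∀ (d : ℕ) (M : Type) [TopologicalSpace M] [ChartedSpace (Cm d) M] [T2Space M]
    [CompactSpace M] [IsManifold 𝓘(ℂ, Cm d) ω M], FG1 d M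
  fg2 : ∀ (d : ℕ) (M : Type) [TopologicalSpace M] [ChartedSpace (Cm d) M] [T2Space M]
    [CompactSpace M] [IsManifold 𝓘(ℂ, Cm d) ω M], FG2 d M
  fg3 : ∀ (d : ℕ) (M : Type) [TopologicalSpace M] [ChartedSpace (Cm d) M] [T2Space M]
    [CompactSpace M] [IsManifold 𝓘(ℂ, Cm d) ω M], FG3 d M
  pb1 : ∀ (d : ℕ) (M : Type) [TopologicalSpace M] [ChartedSpace (Cm d) M] [T2Space M]
    [CompactSpace M] [IsManifold 𝓘(ℂ, Cm d) ω M] (d' : ℕ) (M' : Type) [TopologicalSpace M']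
    [ChartedSpace (Cm d') M'] [T2Space M'] [CompactSpace M'] [IsManifold 𝓘(ℂ, Cm d') ω M'],
    PB1 d M d' M'
  pbc : ∀ (d : ℕ) (M : Type) [TopologicalSpace M] [ChartedSpace (Cm d) M] [T2Space M]
    [CompactSpace M] [IsManifold 𝓘(ℂ, Cm d) ω M] (d' : ℕ) (M' : Type) [TopologicalSpace M']
    [ChartedSpace (Cm d') M'] [T2Space M'] [CompactSpace M'] [IsManifold 𝓘(ℂ, Cm d') ω M'],
    PBc d M d' M'
  pb2 : ∀ (d : ℕ) (M M' : Type) [TopologicalSpace M] [ChartedSpace (Cm d) M] [T2Space M]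
    [CompactSpace M] [IsManifold 𝓘(ℂ, Cm d) ω M] [TopologicalSpace M'] [ChartedSpace (Cm d) M']
    [T2Space M'] [CompactSpace M'] [IsManifold 𝓘(ℂ, Cm d) ω M'], PB2 d M M'
  fam : ∀ (p d : ℕ) (X Y : Type) [TopologicalSpace X] [ChartedSpace (Cm (p + d)) X]
    [TopologicalSpace Y] [ChartedSpace (Cm p) Y] [T2Space X] [CompactSpace X]
    [IsManifold 𝓘(ℂ, Cm (p + d)) ω X] [T2Space Y] [IsManifold 𝓘(ℂ, Cm p) ω Y],
    FIB p d X Y ∧ EHR p d X Y ∧ TRF p d X Y ∧ TOPF p d X Y ∧ MDL p d X Y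

theorem tube {Y F X : Type} [TopologicalSpace Y] [TopologicalSpace F] [CompactSpace F]
    [MetricSpace X] {G : Y × F → X} {t : Y} (h : ∀ x, ContinuousAt G (t, x)) {δ : ℝ}
    (hδ : 0 < δ) : ∀ᶠ s in 𝓝 t, ∀ x, dist (G (s, x)) (G (t, x)) < δ := by
  have h1 : ∀ᶠ s in 𝓝 t, ∀ x ∈ (Set.univ : Set F), dist (G (s, x)) (G (t, x)) < δ := by
    refine isCompact_univ.eventually_forall_of_forall_eventually fun x _ => ?_
    have h2 : ContinuousAt (fun q : Y × F => G (t, q.2)) (t, x) :=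
      ContinuousAt.comp (g := G) (h x) (continuousAt_const.prodMk continuousAt_snd)
    have h3 : ContinuousAt (fun q : Y × F => dist (G q) (G (t, q.2))) (t, x) := (h x).dist h2
    have h4 : dist (G (t, x)) (G (t, x)) < δ := by rw [dist_self]; exact hδ
    exact h3.eventually (gt_mem_nhds h4)
  filter_upwards [h1] with s hs x using hs x (Set.mem_univ x)

variable {p d : ℕ} {X Y : Type} [MetricSpace X] [ChartedSpace (Cm (p + d)) X]
  [TopologicalSpace Y] [ChartedSpace (Cm p) Y]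

theorem Fib.f_j {f : X → Y} {y : Y} (B : Fib p d f y) (m : B.F) : f (B.j m) = y := by
  have h : B.j m ∈ f ⁻¹' {y} := B.rng ▸ Set.mem_range_self m
  exact h

theorem Triv.mono {f : X → Y} {a : Y} {N N' : Set Y} {r : X → X} {Φ : Y → X → X}
    (h : Triv p d f a N r Φ) (ho : IsOpen N') (ha : a ∈ N') (hs : N' ⊆ N) :
    Triv p d f a N' r Φ :=
  ⟨ho, ha, fun t ht => h.h1 t (hs ht), fun x hx => h.h2 x (hs hx), h.h3,
    fun x hx => h.rc x (hs hx), fun e e' x hx => h.rs e e' x (hs hx), fun t ht => h.pc t (hs ht),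
    fun t ht => h.ps t (hs ht), fun t ht => h.ori t (hs ht)⟩

theorem Triv.contAt {f : X → Y} {a : Y} {N : Set Y} {r : X → X} {Φ : Y → X → X}
    (h : Triv p d f a N r Φ) (B : Fib p d f a) {t : Y} (ht : t ∈ N) (m : B.F) :
    ContinuousAt (fun q : Y × B.F => Φ q.1 (B.j q.2)) (t, m) := by
  have h1 := h.pc t ht (B.j m) (B.f_j m)
  have h2 : ContinuousAt (fun q : Y × B.F => (q.1, B.j q.2)) (t, m) :=
    continuousAt_fst.prodMk (B.emb.continuous.continuousAt.comp continuousAt_snd)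
  have h3 := ContinuousWithinAt.comp (s := Set.univ) (f := fun q : Y × B.F => (q.1, B.j q.2))
    (x := (t, m)) h1 h2.continuousWithinAt (fun q _ => B.f_j q.2)
  exact continuousWithinAt_univ _ _ |>.1 h3

/-- the data attached to the family -/
structure Dat (w : Rw (p + d) X (Matrix (Fin (p + d)) (Fin (p + d)) ℂ)) (f : X → Y) (U : Set Y)
    (n : ℕ) (ε : ℝ) where
  B : ∀ y : U, Fib p d f y
  P : ∀ y : U, Pk w (B y) n
  N : U → Set Y
  r : U → X → X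
  Φ : U → Y → X → X
  sub : ∀ a, N a ⊆ U
  triv : ∀ a : U, Triv p d f a (N a) (r a) (Φ a)
  cls : ∀ a : U, ∀ t ∈ N a, ∀ m : (B a).F, dist (Φ a t ((B a).j m)) ((B a).j m) < ε
  φ : ∀ a t : U, t.1 ∈ N a → (B a).F ≃ₜ (B t).F
  φj : ∀ a t h m, (B t).j (φ a t h m) = Φ a t ((B a).j m)
  φs : ∀ a t h x, (B a).j ((φ a t h).symm x) = r a ((B t).j x)
  sm : ∀ a t h, Smo d d (φ a t h)
  sm' : ∀ a t h, Smo d d (φ a t h).symm
  T : ∀ a t : U, t.1 ∈ N a → SF d (B t).F ≃ₗ[ℂ] SF d (B a).F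
  pb : ∀ a t h, IsPb (φ a t h) (T a t h)
  pb' : ∀ a t h, IsPb (φ a t h).symm (T a t h).symm
  iso : ∀ a t h, (P t).Xc.Iso (P a).Xc (T a t h)

variable [CompactSpace X] [IsManifold 𝓘(ℂ, Cm (p + d)) ω X] [T2Space Y]
  [IsManifold 𝓘(ℂ, Cm p) ω Y] {w : Rw (p + d) X (Matrix (Fin (p + d)) (Fin (p + d)) ℂ)}
  {f : X → Y} {U : Set Y}

theorem exists_pk (R : Rows) (hF : Fam p d w f U) {y : Y} (hy : y ∈ U) (B : Fib p d f y) :
    ∃ n, Nonempty (Pk w B n) := by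
  obtain ⟨-, ⟨wF, hk, hr⟩, -⟩ := ((R.fam p d X Y).1 w f U hF y hy).2 B
  obtain ⟨Xc, K, E, h1, h2, h3, h4, h5, h6, h7⟩ := R.one d B.F wF hk
  obtain ⟨n, b, hb⟩ := h7 d
  exact ⟨n, ⟨⟨Xc, wF, K, E, b, h1, hk, hr, h2, h3, h4, h5, h6, hb⟩⟩⟩

theorem exists_triv' (R : Rows) (hF : Fam p d w f U) {a : Y} (ha : a ∈ U) (B : Fib p d f a)
    {ε : ℝ} (hε : 0 < ε) : ∃ (N : Set Y) (r : X → X) (Φ : Y → X → X), N ⊆ U ∧
      Triv p d f a N r Φ ∧ ∀ t ∈ N, ∀ m : B.F, dist (Φ t (B.j m)) (B.j m) < ε := by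
  obtain ⟨N, r, Φ, hN, ht⟩ := (R.fam p d X Y).2.1 w f U hF a ha
  have h1 := tube (G := fun q : Y × B.F => Φ q.1 (B.j q.2)) (fun m => ht.contAt B ht.mem m) hε
  obtain ⟨O, hO, hOo, haO⟩ := eventually_nhds_iff.1 h1
  refine ⟨N ∩ O, r, Φ, fun t h => hN h.1,
    ht.mono (ht.opn.inter hOo) ⟨ht.mem, haO⟩ Set.inter_subset_left, fun t h m => ?_⟩
  have h2 := hO t h.2 m
  rwa [ht.h3 _ (B.f_j m)] at h2

theorem exists_iso (R : Rows) (hF : Fam p d w f U) {a t : Y} {N : Set Y} {r : X → X}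
    {Φ : Y → X → X} (hN : N ⊆ U) (h : Triv p d f a N r Φ) (ht : t ∈ N) {Ba : Fib p d f a}
    {Bt : Fib p d f t} {n n' : ℕ} (Pa : Pk w Ba n) (Pt : Pk w Bt n') :
    ∃ (φ : Ba.F ≃ₜ Bt.F) (T : SF d Bt.F ≃ₗ[ℂ] SF d Ba.F), (∀ m, Bt.j (φ m) = Φ t (Ba.j m)) ∧
      (∀ x, Ba.j (φ.symm x) = r (Bt.j x)) ∧ Smo d d φ ∧ Smo d d φ.symm ∧ IsPb φ T ∧
      IsPb φ.symm T.symm ∧ Pt.Xc.Iso Pa.Xc T := by
  obtain ⟨φ, h1, h2, h3, h4, h5⟩ := (R.fam p d X Y).2.2.1 w f U a N r Φ hF hN h t ht Ba Bt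
  obtain ⟨T, h6, h7, h8⟩ := R.pb2 d Ba.F Bt.F φ Pa.Xc Pt.Xc h3 h4 h5 Pa.rx Pt.rx
  exact ⟨φ, T, h1, h2, h3, h4, h6, h7, h8⟩

theorem exists_dat (R : Rows) (hF : Fam p d w f U) (hU : IsPreconnected U) {ε : ℝ} (hε : 0 < ε) :
    ∃ n, Nonempty (Dat w f U n ε) := by
  have hB : ∀ y : U, Nonempty (Fib p d f y) := fun y => ((R.fam p d X Y).1 w f U hF y y.2).1
  let B : ∀ y : U, Fib p d f y := fun y => (hB y).some
  choose N r Φ hN htr hcl using fun a : U => exists_triv' R hF a.2 (B a) hε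
  choose nn hnn using fun y : U => exists_pk R hF y.2 (B y)
  have hloc : IsLocallyConstant nn := by
    rw [IsLocallyConstant.iff_eventually_eq]
    intro a
    have h1 : ∀ᶠ t : U in 𝓝 a, t.1 ∈ N a :=
      continuous_subtype_val.continuousAt.eventually ((htr a).opn.mem_nhds (htr a).mem)
    filter_upwards [h1] with t ht
    obtain ⟨φ, T, -, -, -, -, -, -, h⟩ := exists_iso R hF (hN a) (htr a) ht (hnn a).some (hnn t).some
    exact (R.tr.rank h (hnn a).some.lb.toBas (hnn t).some.lb.toBas).symm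
  have : PreconnectedSpace U := Subtype.preconnectedSpace hU
  obtain ⟨n, hn⟩ : ∃ n, ∀ y, nn y = n := by
    rcases isEmpty_or_nonempty U with h | ⟨⟨y0⟩⟩
    · exact ⟨0, fun y => h.elim y⟩
    · exact ⟨nn y0, fun y => hloc.apply_eq_of_preconnectedSpace y y0⟩
  have hP : ∀ y : U, Nonempty (Pk w (B y) n) := fun y => hn y ▸ hnn y
  let P : ∀ y : U, Pk w (B y) n := fun y => (hP y).some
  choose φ T h1 h2 h3 h4 h5 h6 h7 using fun (a t : U) (h : t.1 ∈ N a) =>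
    exists_iso R hF (hN a) (htr a) h (P a) (P t)
  exact ⟨n, ⟨⟨B, P, N, r, Φ, hN, htr, hcl, φ, h1, h2, h3, h4, T, h5, h6, h7⟩⟩⟩

end Vale.Agent.P281Z.Hg
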