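import Vale.Agent.P281Z.Hg.Pv1

/-!
# P281, Hodge block: assembly of the family, part 2 (flat form, cocycle)
-/

open scoped Manifold ContDiff Topology Matrix
open Filter
open Vale.Agent.P272.K Vale.Agent.P299.IX Vale.Agent.P299.IX.Fock

noncomputable section

namespace Vale.Agent.P281Z.Hg

section abstr
variable {S : Type} [AddCommGroup S] [Module ℂ S] {D : ℕ} {X : Cx S D}

theorem Cx.OK.exact_nul (h : X.OK) (y : S) : X.d y ∈ X.Nul := by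
  refine ⟨h.dd y, fun z hz => ?_⟩
  have h1 := h.Qd z y
  rw [hz, map_zero, LinearMap.zero_apply] at h1
  exact neg_eq_zero.1 h1.symm

theorem Cx.Bas.uniq {m n : ℕ} {b : Fin n → S} (h : X.Bas m b) {z : S} {v v' : Fin n → ℂ}
    (h1 : z - ∑ i, v i • b i ∈ X.Nul) (h2 : z - ∑ i, v' i • b i ∈ X.Nul) : v = v' := by
  have h3 := X.Nul.sub_mem h2 h1
  have h4 : z - ∑ i, v' i • b i - (z - ∑ i, v i • b i) = ∑ i, (v - v') i • b i := by
    simp only [Pi.sub_apply, sub_smul, Finset.sum_sub_distrib]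
    abel
  rw [h4] at h3
  exact sub_eq_zero.1 (h.ind _ h3)

/-- change of coordinates by a linear map preserving null forms -/
theorem nul_map {S' : Type} [AddCommGroup S'] [Module ℂ S'] {X' : Cx S' D} {n : ℕ}
    {b : Fin n → S} {b' : Fin n → S'} (T : S' →ₗ[ℂ] S) (hT : ∀ a ∈ X'.Nul, T a ∈ X.Nul) {g : Mt n}
    (hg : ∀ j, T (b' j) - ∑ i, g i j • b i ∈ X.Nul) {z : S'} {v : Fin n → ℂ}
    (hz : z - ∑ j, v j • b' j ∈ X'.Nul) : T z - ∑ i, (g *ᵥ v) i • b i ∈ X.Nul := by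
  have h1 := hT _ hz
  have h2 : ∑ j, v j • (T (b' j) - ∑ i, g i j • b i) ∈ X.Nul :=
    X.Nul.sum_mem fun j _ => X.Nul.smul_mem _ (hg j)
  have h3 := X.Nul.add_mem h1 h2
  have h4 : ∑ i, (g *ᵥ v) i • b i = ∑ j, v j • ∑ i, g i j • b i := by
    simp only [Matrix.mulVec, dotProduct, Finset.sum_smul, Finset.smul_sum, smul_smul]
    rw [Finset.sum_comm]
    refine Finset.sum_congr rfl fun j _ => Finset.sum_congr rfl fun i _ => ?_
    rw [mul_comm]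
  have h5 : T (z - ∑ j, v j • b' j) + ∑ j, v j • (T (b' j) - ∑ i, g i j • b i) =
      T z - ∑ i, (g *ᵥ v) i • b i := by
    rw [h4, map_sub, map_sum]
    simp only [map_smul, smul_sub, Finset.sum_sub_distrib]
    abel
  rwa [h5] at h3

end abstr

theorem unif_inj {F X : Type} [MetricSpace F] [CompactSpace F] [MetricSpace X] {j : F → X}
    (hc : Continuous j) (hi : Function.Injective j) {η : ℝ} (hη : 0 < η) :
    ∃ δ : ℝ, 0 < δ ∧ ∀ {x x'}, dist (j x) (j x') < δ → dist x x' < η := by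
  have hK : IsCompact {q : F × F | η ≤ dist q.1 q.2} :=
    (isClosed_le continuous_const (continuous_fst.dist continuous_snd)).isCompact
  obtain ⟨δ, hδ, h⟩ := hK.exists_forall_le' (f := fun q : F × F => dist (j q.1) (j q.2))
    ((hc.comp continuous_fst).dist (hc.comp continuous_snd)).continuousOn (a := 0) (by
      intro q hq
      refine dist_pos.2 fun h => ?_
      have h1 : η ≤ dist q.1 q.2 := hq
      rw [hi h, dist_self] at h1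
      exact absurd hη (not_lt.2 h1))
  refine ⟨δ, hδ, fun {x x'} hx => ?_⟩
  by_contra hcon
  exact absurd hx (not_lt.2 (h (x, x') (not_lt.1 hcon)))

theorem mor_of (R : Rows) {d d' : ℕ} {M M' : Type} [MetricSpace M] [ChartedSpace (Cm d) M]
    [CompactSpace M] [IsManifold 𝓘(ℂ, Cm d) ω M] [MetricSpace M'] [ChartedSpace (Cm d') M']
    [CompactSpace M'] [IsManifold 𝓘(ℂ, Cm d') ω M'] {X : Cx (SF d M) d} {X' : Cx (SF d' M') d'}
    {K : KP X} {K' : KP X'} {E : LC M X} {E' : LC M' X'} (hX : RealX X) (hX' : RealX X')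
    (hE : RealE K E) (hE' : RealE K' E') {g : M → M'} (hg : Smo d d' g)
    {T : SF d' M' →ₗ[ℂ] SF d M} (hT : IsPb g T) : E.Mor E' g T := by
  obtain ⟨h1, h2, -, h4, h5, -⟩ := (R.pb1 d M d' M' g hg).2.2.2 T X X' hT hX hX'
  refine ⟨hg.cont, h1, h2, ?_, fun a x ha => ?_⟩
  · refine (R.g1 d M).ext _ _ fun x => ⟨chartAt (Cm d) x, ⟨chart_mem_atlas _ x,
      mem_chart_source _ x⟩, ?_⟩
    rw [h4 _ hE'.one _ x ⟨chart_mem_atlas _ x, mem_chart_source _ x⟩,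
      hE.one _ x ⟨chart_mem_atlas _ x, mem_chart_source _ x⟩]
  · rw [hE.Z]
    rw [hE'.Z] at ha
    exact h5 a x ha

variable {p d : ℕ} {X Y : Type} [MetricSpace X] [ChartedSpace (Cm (p + d)) X]
  [TopologicalSpace Y] [ChartedSpace (Cm p) Y]
  {w : Rw (p + d) X (Matrix (Fin (p + d)) (Fin (p + d)) ℂ)} {f : X → Y} {U : Set Y} {n : ℕ} {ε : ℝ}

namespace Dat

variable (Δ : Dat w f U n ε)

/-- the transported Kähler package -/
def K (a t : U) (h : t.1 ∈ Δ.N a) : KP (Δ.P a).Xc := (Δ.P t).K.tr (Δ.P a).Xc (Δ.T a t h)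

theorem K_ok (R : Rows) (a t : U) (h : t.1 ∈ Δ.N a) : (Δ.K a t h).OK :=
  R.tr.ok (Δ.iso a t h) (Δ.P t).ok

theorem bas (a : U) : (Δ.P a).Xc.Bas d (Δ.P a).b := (Δ.P a).lb.toBas

theorem T_self (R : Rows) (a : U) (h : a.1 ∈ Δ.N a) : Δ.T a a h = LinearEquiv.refl ℂ _ := by
  have h1 : (Δ.φ a a h : (Δ.B a).F → (Δ.B a).F) = id := by
    funext m
    refine (Δ.B a).emb.injective ?_
    rw [Δ.φj, (Δ.triv a).h3 _ ((Δ.B a).f_j m)]
    rfl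
  have h2 := Δ.pb a a h
  rw [h1] at h2
  obtain ⟨h3, h4, -⟩ := R.pbc d (Δ.B a).F d (Δ.B a).F
  have h5 := (R.pb1 d (Δ.B a).F d (Δ.B a).F id h4).2.1 _ _ h2 h3
  exact LinearEquiv.ext fun u => congrFun h5 u

theorem K_self (R : Rows) (a : U) (h : a.1 ∈ Δ.N a) : Δ.K a a h = (Δ.P a).K := by
  unfold K
  rw [Δ.T_self R a h]
  rfl

/-- the transition between the frames at `a` and `b` -/
def Rl (a b t : U) (ha : t.1 ∈ Δ.N a) (hb : t.1 ∈ Δ.N b) : SF d (Δ.B b).F →ₗ[ℂ] SF d (Δ.B a).F :=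
  (Δ.T a t ha).toLinearMap ∘ₗ (Δ.T b t hb).symm.toLinearMap

theorem Rl_smo (R : Rows) (a b t : U) (ha : t.1 ∈ Δ.N a) (hb : t.1 ∈ Δ.N b) :
    Smo d d ((Δ.φ b t hb).symm ∘ Δ.φ a t ha) ∧
      IsPb ((Δ.φ b t hb).symm ∘ Δ.φ a t ha) (Δ.Rl a b t ha hb) := by
  obtain ⟨h1, h2⟩ := (R.pbc d (Δ.B a).F d (Δ.B t).F).2.2 d (Δ.B b).F _ _ (Δ.sm a t ha)
    (Δ.sm' b t hb)
  exact ⟨h1, h2 _ _ (Δ.pb a t ha) (Δ.pb' b t hb)⟩

theorem Rl_mor (R : Rows) (a b t : U) (ha : t.1 ∈ Δ.N a) (hb : t.1 ∈ Δ.N b) :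
    (Δ.P a).E.Mor (Δ.P b).E ((Δ.φ b t hb).symm ∘ Δ.φ a t ha) (Δ.Rl a b t ha hb) :=
  mor_of R (Δ.P a).rx (Δ.P b).rx (Δ.P a).re (Δ.P b).re (Δ.Rl_smo R a b t ha hb).1
    (Δ.Rl_smo R a b t ha hb).2

theorem Rl_nul (R : Rows) (a b t : U) (ha : t.1 ∈ Δ.N a) (hb : t.1 ∈ Δ.N b) :
    ∀ u ∈ (Δ.P b).Xc.Nul, Δ.Rl a b t ha hb u ∈ (Δ.P a).Xc.Nul := by
  intro u hu
  refine (R.tr.nul (Δ.iso a t ha) _).2 ((R.tr.nul (Δ.iso b t hb) _).1 ?_)
  change Δ.T b t hb ((Δ.T b t hb).symm u) ∈ _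
  rwa [LinearEquiv.apply_symm_apply]

theorem exists_g (R : Rows) (a b t : U) (ha : t.1 ∈ Δ.N a) (hb : t.1 ∈ Δ.N b) :
    ∃ g : Matrix (Fin n) (Fin n) ℤ, ∀ j,
      Δ.Rl a b t ha hb ((Δ.P b).b j) - ∑ i, zc g i j • (Δ.P a).b i ∈ (Δ.P a).Xc.Nul := by
  choose k hk using fun j => (Δ.P a).lb.crd _
    (R.cm.int (Δ.Rl_mor R a b t ha hb) d _ ((Δ.P b).lb.int j))
  exact ⟨Matrix.of fun i j => k j i, hk⟩

open Classical in
/-- the cocycle -/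
def g (R : Rows) (a b : U) (t : Y) : Matrix (Fin n) (Fin n) ℤ :=
  if h : t ∈ Δ.N a ∧ t ∈ Δ.N b then (Δ.exists_g R a b ⟨t, Δ.sub a h.1⟩ h.1 h.2).choose else 1

theorem g_spec (R : Rows) (a b t : U) (ha : t.1 ∈ Δ.N a) (hb : t.1 ∈ Δ.N b) (j : Fin n) :
    Δ.Rl a b t ha hb ((Δ.P b).b j) - ∑ i, zc (Δ.g R a b t) i j • (Δ.P a).b i ∈ (Δ.P a).Xc.Nul := by
  unfold g
  rw [dif_pos ⟨ha, hb⟩]
  exact (Δ.exists_g R a b t ha hb).choose_spec j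

theorem g_uniq (R : Rows) (a b t : U) (ha : t.1 ∈ Δ.N a) (hb : t.1 ∈ Δ.N b)
    {g : Matrix (Fin n) (Fin n) ℤ} (h : ∀ j,
      Δ.Rl a b t ha hb ((Δ.P b).b j) - ∑ i, zc g i j • (Δ.P a).b i ∈ (Δ.P a).Xc.Nul) :
    Δ.g R a b t = g := by
  ext i j
  have h1 := congrFun ((Δ.bas a).uniq (Δ.g_spec R a b t ha hb j) (h j)) i
  exact Int.cast_injective (α := ℂ) h1

theorem g_one (R : Rows) (a t : U) (ha : t.1 ∈ Δ.N a) : Δ.g R a a t = 1 := by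
  refine Δ.g_uniq R a a t ha ha fun j => ?_
  have h1 : Δ.Rl a a t ha ha ((Δ.P a).b j) = (Δ.P a).b j := (Δ.T a t ha).apply_symm_apply _
  have h2 : ∑ i, zc (1 : Matrix (Fin n) (Fin n) ℤ) i j • (Δ.P a).b i = (Δ.P a).b j := by
    rw [Finset.sum_eq_single j]
    · simp [zc]
    · intro i _ hi
      simp [zc, Matrix.one_apply_ne hi]
    · simp
  rw [h1, h2, sub_self]
  exact Submodule.zero_mem _

theorem zc_mul (g g' : Matrix (Fin n) (Fin n) ℤ) : zc (g * g') = zc g * zc g' :=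
  Matrix.map_mul (f := Int.castRingHom ℂ)

theorem zc_one : zc (1 : Matrix (Fin n) (Fin n) ℤ) = 1 := by
  ext i j
  by_cases h : i = j <;> simp [zc, Matrix.one_apply, h]

theorem g_coc (R : Rows) (a b c t : U) (ha : t.1 ∈ Δ.N a) (hb : t.1 ∈ Δ.N b) (hc : t.1 ∈ Δ.N c) :
    Δ.g R a b t * Δ.g R b c t = Δ.g R a c t := by
  refine (Δ.g_uniq R a c t ha hc fun j => ?_).symm
  have h1 := nul_map (Δ.Rl a b t ha hb) (Δ.Rl_nul R a b t ha hb) (Δ.g_spec R a b t ha hb)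
    (Δ.g_spec R b c t hb hc j)
  have h2 : Δ.Rl a b t ha hb (Δ.Rl b c t hb hc ((Δ.P c).b j)) = Δ.Rl a c t ha hc ((Δ.P c).b j) := by
    change Δ.T a t ha ((Δ.T b t hb).symm (Δ.T b t hb _)) = _
    rw [LinearEquiv.symm_apply_apply]
    rfl
  rw [h2] at h1
  rw [zc_mul]
  exact h1

theorem g_lc (R : Rows) (a b : U) {t : Y} (ha : t ∈ Δ.N a) (hb : t ∈ Δ.N b) :
    ∀ᶠ s in 𝓝 t, Δ.g R a b s = Δ.g R a b t := by
  obtain ⟨η, hη, hc⟩ := R.cm.close (Δ.P b).E d (Δ.P b).eok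
  obtain ⟨δ, hδ, hd⟩ := unif_inj (Δ.B b).emb.continuous (Δ.B b).emb.injective hη
  have h1 : ∀ x, ContinuousAt (fun q : Y × (Δ.B a).F => Δ.r b (Δ.Φ a q.1 ((Δ.B a).j q.2))) (t, x) := by
    intro x
    refine ContinuousAt.comp (g := Δ.r b) ((Δ.triv b).rc _ ?_) ((Δ.triv a).contAt (Δ.B a) ha x)
    rw [((Δ.triv a).h1 t ha _ ((Δ.B a).f_j x)).1]
    exact hb
  filter_upwards [tube h1 hδ, (Δ.triv a).opn.mem_nhds ha, (Δ.triv b).opn.mem_nhds hb]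
    with s hs hsa hsb
  refine Δ.g_uniq R a b ⟨s, Δ.sub a hsa⟩ hsa hsb fun j => ?_
  obtain ⟨y, hy⟩ := hc (Δ.P a).eok (Δ.Rl_mor R a b ⟨s, Δ.sub a hsa⟩ hsa hsb)
    (Δ.Rl_mor R a b ⟨t, Δ.sub a ha⟩ ha hb) (fun x => hd (by
      simp only [Function.comp_apply]
      rw [Δ.φs, Δ.φs, Δ.φj, Δ.φj]
      exact hs x)) _ ((Δ.bas b).cl j)
  have h2 := (Δ.P a).Xc.Nul.add_mem ((Δ.P a).ok.cx.exact_nul y)
    (Δ.g_spec R a b ⟨t, Δ.sub a ha⟩ ha hb j)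
  rw [← hy, sub_add_sub_cancel] at h2
  exact h2

end Dat

end Vale.Agent.P281Z.Hg
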