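import Vale.Agent.P281Z.Hg.Pv2

/-!
# P281, Hodge block: assembly of the family, part 3 (the variation of Hodge structure)
-/

open scoped Manifold ContDiff Topology Matrix
open Filter Asymptotics
open Vale.Agent.P272.K Vale.Agent.P299.IX Vale.Agent.P299.IX.Fock

set_option linter.unusedSectionVars false

noncomputable section

namespace Vale.Agent.P281Z.Hg

theorem Fp_conj {n w : ℕ} {T : Type} {Pr Pr' : ℕ → T → Mt n} {g g' : Mt n} {t : T}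
    (h : ∀ k, Pr k t = g * Pr' k t * g') (k : ℕ) : Fp w Pr k t = g * Fp w Pr' k t * g' := by
  unfold Fp
  rw [Finset.mul_sum, Finset.sum_mul]
  exact Finset.sum_congr rfl fun j _ => h j

theorem Ctr.conj {p n w : ℕ} {Pr Pr' : ℕ → (Fin p → ℂ) → Mt n} {t0 : Fin p → ℂ} {g g' : Mt n}
    (h : Ctr w Pr' t0) (_h1 : g * g' = 1) (h2 : g' * g = 1)
    (he : ∀ᶠ t in 𝓝 t0, ∀ k, Pr k t = g * Pr' k t * g') : Ctr w Pr t0 := by
  have h0 := he.self_of_nhds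
  have hent : ∀ (A : Mt n) i j, (g * A * g') i j = ∑ b, ∑ a, g i a * A a b * g' b j := by
    intro A i j
    simp only [Matrix.mul_apply, Finset.sum_mul]
  refine ⟨fun k i j => ?_, fun k => ?_⟩
  · have h3 : ContinuousAt (fun t => ∑ b, ∑ a, g i a * Pr' k t a b * g' b j) t0 :=
      tendsto_finsetSum _ fun b _ => tendsto_finsetSum _ fun a _ =>
        (continuousAt_const.mul (h.cont k a b)).mul continuousAt_const
    refine h3.congr ?_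
    filter_upwards [he] with t ht
    rw [ht k, hent]
  · obtain ⟨Dm, hD1, hD2⟩ := h.der k
    refine ⟨fun j => g * Dm j * g', fun j => ?_, fun i i' => ?_⟩
    · rw [h0 k]
      calc g * Pr' k t0 * g' * (g * Dm j * g') = g * (Pr' k t0 * (g' * g) * Dm j) * g' := by
            simp only [Matrix.mul_assoc]
        _ = g * Dm j * g' := by rw [h2, Matrix.mul_one, hD1]
    · have h3 : (fun t => ∑ b, ∑ a, g i a * ((1 - Fp w Pr' (k + 1) t0) * Fp w Pr' (k + 1) t -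
          ∑ j, (t - t0) j • Dm j) a b * g' b i') =o[𝓝 t0] fun t => t - t0 := by
        refine IsLittleO.fun_sum fun b _ => IsLittleO.fun_sum fun a _ => ?_
        have h4 := ((hD2 a b).const_mul_left (g i a * g' b i'))
        refine h4.congr_left fun t => ?_
        ring
      refine h3.congr' ?_ EventuallyEq.rfl
      filter_upwards [he] with t ht
      rw [← hent, Fp_conj h0, Fp_conj ht]
      have h5 : (1 - g * Fp w Pr' (k + 1) t0 * g') * (g * Fp w Pr' (k + 1) t * g') =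
          g * ((1 - Fp w Pr' (k + 1) t0) * Fp w Pr' (k + 1) t) * g' := by
        calc (1 - g * Fp w Pr' (k + 1) t0 * g') * (g * Fp w Pr' (k + 1) t * g') =
            g * Fp w Pr' (k + 1) t * g' -
              g * (Fp w Pr' (k + 1) t0 * (g' * g) * Fp w Pr' (k + 1) t) * g' := by
              simp only [Matrix.sub_mul, Matrix.one_mul, Matrix.mul_assoc]
          _ = _ := by
              rw [h2, Matrix.mul_one]
              simp only [Matrix.sub_mul, Matrix.mul_sub, Matrix.one_mul]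
      rw [h5, Matrix.mul_sub, Matrix.sub_mul, Finset.mul_sum, Finset.sum_mul]
      simp only [Matrix.mul_smul, Matrix.smul_mul]

variable {p d : ℕ} {X Y : Type} [MetricSpace X] [ChartedSpace (Cm (p + d)) X]
  [TopologicalSpace Y] [ChartedSpace (Cm p) Y]
  {w : Rw (p + d) X (Matrix (Fin (p + d)) (Fin (p + d)) ℂ)} {f : X → Y} {U : Set Y} {n : ℕ} {ε : ℝ}

namespace Dat

variable (Δ : Dat w f U n ε)

theorem exists_Pr (R : Rows) (a t : U) (h : t.1 ∈ Δ.N a) :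
    ∃ Pr Qm, (Δ.K a t h).IsPr (Δ.P a).b Pr ∧ (Δ.K a t h).IsQ (Δ.P a).b Qm :=
  (R.ab _ _ _ _ (Δ.K_ok R a t h)).2.2.2.ex (Δ.bas a)

open Classical in
/-- the Hodge projectors -/
def Pr (R : Rows) (a : U) (k : ℕ) (t : Y) : Mt n :=
  if h : t ∈ Δ.N a then (Δ.exists_Pr R a ⟨t, Δ.sub a h⟩ h).choose k else 0

theorem Pr_spec (R : Rows) (a t : U) (h : t.1 ∈ Δ.N a) :
    (Δ.K a t h).IsPr (Δ.P a).b fun k => Δ.Pr R a k t := by
  have h1 : (fun k => Δ.Pr R a k t) = (Δ.exists_Pr R a t h).choose := by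
    funext k
    unfold Pr
    rw [dif_pos h]
  rw [h1]
  exact (Δ.exists_Pr R a t h).choose_spec.choose_spec.1

/-- the polarisation -/
def Q (R : Rows) (a : U) : Mt n := (Δ.exists_Pr R a a (Δ.triv a).mem).choose_spec.choose

/-- the Kähler class is flat -/
def Flat : Prop := ∀ (a t : U) (h : t.1 ∈ Δ.N a) (z : SF d (Δ.B a).F), (Δ.P a).Xc.d z = 0 →
  (Δ.K a t h).L z - (Δ.P a).K.L z ∈ (Δ.P a).Xc.Nul

theorem K_c (a t : U) (h : t.1 ∈ Δ.N a) : (Δ.K a t h).c = cc d := (Δ.P t).rk.c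

theorem Q_spec (R : Rows) (hf : Δ.Flat) (a t : U) (h : t.1 ∈ Δ.N a) :
    (Δ.K a t h).IsQ (Δ.P a).b (Δ.Q R a) := by
  obtain ⟨Pr, Qm, -, h2⟩ := Δ.exists_Pr R a t h
  have h3 : (Δ.K a a (Δ.triv a).mem).IsQ (Δ.P a).b (Δ.Q R a) :=
    (Δ.exists_Pr R a a (Δ.triv a).mem).choose_spec.choose_spec.2
  rw [Δ.K_self R] at h3
  rw [← R.flat _ _ _ _ _ n _ Qm _ (Δ.K_ok R a t h) (Δ.P a).ok
    ((Δ.K_c a t h).trans (Δ.P a).rk.c.symm) (hf a t h) (fun i => ((Δ.bas a).cl i).1) h2 h3]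
  exact h2

theorem chg (R : Rows) (hf : Δ.Flat) (a b t : U) (ha : t.1 ∈ Δ.N a) (hb : t.1 ∈ Δ.N b) :
    (∀ k, Δ.Pr R a k t * zc (Δ.g R a b t) = zc (Δ.g R a b t) * Δ.Pr R b k t) ∧
      Δ.Q R b = (zc (Δ.g R a b t))ᴴ * Δ.Q R a * zc (Δ.g R a b t) :=
  R.tr.chg (Δ.iso a t ha) (Δ.iso b t hb) (Δ.P t).ok (Δ.bas a) (Δ.bas b) (Δ.g_spec R a b t ha hb)
    (Δ.Pr_spec R a t ha) (Δ.Pr_spec R b t hb) (Δ.Q_spec R hf a t ha) (Δ.Q_spec R hf b t hb)

open Classical in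
/-- the family of packages in the chart `χ` of the base -/
def Kc (b : U) (χ : Chart p Y) (s : Cm p) : KP (Δ.P b).Xc :=
  if h : χ.symm s ∈ Δ.N b then Δ.K b ⟨χ.symm s, Δ.sub b h⟩ h else (Δ.P b).K

theorem Kc_eq (b : U) (χ : Chart p Y) {s : Cm p} (h : χ.symm s ∈ Δ.N b) :
    Δ.Kc b χ s = Δ.K b ⟨χ.symm s, Δ.sub b h⟩ h := by
  unfold Kc
  rw [dif_pos h]

theorem K_congr (a : U) {t t' : U} (e : t = t') (h : t.1 ∈ Δ.N a) (h' : t'.1 ∈ Δ.N a) :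
    Δ.K a t h = Δ.K a t' h' := by
  subst e
  rfl

theorem Kc_centre (R : Rows) (b : U) {χ : Chart p Y} (hχ : At χ b.1) :
    Δ.Kc b χ (χ b) = (Δ.P b).K := by
  have h1 : χ.symm (χ b) = b.1 := χ.left_inv hχ.2
  have h2 : χ.symm (χ b) ∈ Δ.N b := by rw [h1]; exact (Δ.triv b).mem
  rw [Δ.Kc_eq b χ h2, Δ.K_congr b (t' := b) (Subtype.ext h1) h2 (Δ.triv b).mem, Δ.K_self R]

theorem ev_N {χ : Chart p Y} {x : Y} (hχ : At χ x) {O : Set Y} (hO : IsOpen O) (hx : x ∈ O) :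
    ∀ᶠ s in 𝓝 (χ x), χ.symm s ∈ O := by
  have h1 : ContinuousAt χ.symm (χ x) := χ.continuousAt_symm (χ.map_source hχ.2)
  refine h1.eventually (hO.mem_nhds ?_)
  rwa [χ.left_inv hχ.2]

variable [CompactSpace X] [IsManifold 𝓘(ℂ, Cm (p + d)) ω X] [T2Space Y]
  [IsManifold 𝓘(ℂ, Cm p) ω Y]

theorem mdl (R : Rows) (hF : Fam p d w f U) (b : U) {χ : Chart p Y} (hχ : At χ b.1) :
    ∃ φ' wt, Mdl (Δ.Kc b χ) (χ b) φ' wt ∧ ∀ (V : Set Y) (σ : PC p d X Y → Cm p × Cm d → ℂ)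
      (u : Cm p → SF d (Δ.B b).F), IsOpen V → b.1 ∈ V → RelHol f V σ →
      (∀ s (h : χ.symm s ∈ Δ.N b), s ∈ χ.target → χ.symm s ∈ V →
        ∃ u', (Δ.B ⟨χ.symm s, Δ.sub b h⟩).Is (rs σ (χ.symm s)) u' ∧
          u s = Δ.T b ⟨χ.symm s, Δ.sub b h⟩ h u') → MdlS (χ b) φ' u := by
  refine (R.fam p d X Y).2.2.2.2 w f U b (Δ.N b) (Δ.r b) (Δ.Φ b) n (Δ.B b) (Δ.P b).Xc
    (fun t => Δ.B ⟨t.1, Δ.sub b t.2⟩) (fun t => Δ.P ⟨t.1, Δ.sub b t.2⟩)
    (fun t => Δ.φ b ⟨t.1, Δ.sub b t.2⟩ t.2) (fun t => Δ.T b ⟨t.1, Δ.sub b t.2⟩ t.2) χ (Δ.Kc b χ) hF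
    (Δ.sub b) (Δ.triv b) (fun t m => Δ.φj b _ t.2 m) (fun t => Δ.pb b _ t.2) hχ (fun s => ?_)
    fun s h _ => Δ.Kc_eq b χ h
  unfold Kc
  split_ifs with h
  · exact Δ.K_c _ _ _
  · exact (Δ.P b).rk.c

theorem ctr_centre (R : Rows) (hF : Fam p d w f U) (b : U) {χ : Chart p Y} (hχ : At χ b.1) :
    Ctr d (fun k s => Δ.Pr R b k (χ.symm s)) (χ b) := by
  obtain ⟨φ', wt, hM, -⟩ := Δ.mdl R hF b hχ
  have h0 := Δ.Kc_centre R b hχ
  have hok0 : (Δ.Kc b χ (χ b)).OK := by rw [h0]; exact (Δ.P b).ok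
  have hl2 : IsL2 (Δ.Kc b χ (χ b)).nrm := by rw [h0]; exact (Δ.P b).l2
  have hb := (R.ab _ _ _ _ hok0).2.1
  obtain ⟨h1, h2⟩ := R.fg1 d (Δ.B b).F p _ _ _ φ' wt (Δ.P b).rx hM hl2 hb
  obtain ⟨h3, h4⟩ := R.fg2 d (Δ.B b).F p _ _ _ φ' wt (Δ.P b).rx hM hl2 hb
  have hev := ev_N hχ (Δ.triv b).opn (Δ.triv b).mem
  have hpr : ∀ᶠ s in 𝓝 (χ b), (Δ.Kc b χ s).IsPr (Δ.P b).b fun k => Δ.Pr R b k (χ.symm s) := by
    filter_upwards [hev] with s hs
    rw [Δ.Kc_eq b χ hs]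
    exact Δ.Pr_spec R b ⟨χ.symm s, Δ.sub b hs⟩ hs
  refine R.fa _ _ _ p (Δ.Kc b χ) (χ b) n (Δ.P b).b _ ⟨hok0, ?_, h1, h2, h3, h4⟩ (Δ.bas b)
    hpr.self_of_nhds hpr
  filter_upwards [hev] with s hs
  rw [Δ.Kc_eq b χ hs]
  exact Δ.K_ok R _ _ _

theorem g_inv (R : Rows) (a b t : U) (ha : t.1 ∈ Δ.N a) (hb : t.1 ∈ Δ.N b) :
    zc (Δ.g R a b t) * zc (Δ.g R b a t) = 1 := by
  rw [← zc_mul, Δ.g_coc R a b a t ha hb ha, Δ.g_one R a t ha, zc_one]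

theorem ctr (R : Rows) (hF : Fam p d w f U) (hf : Δ.Flat) (a b : U) (hb : b.1 ∈ Δ.N a)
    {χ : Chart p Y} (hχ : At χ b.1) : Ctr d (fun k s => Δ.Pr R a k (χ.symm s)) (χ b) := by
  have hbb := (Δ.triv b).mem
  refine (Δ.ctr_centre R hF b hχ).conj (Δ.g_inv R a b b hb hbb) (Δ.g_inv R b a b hbb hb) ?_
  have h1 : Tendsto χ.symm (𝓝 (χ b)) (𝓝 b.1) := χ.tendsto_symm hχ.2
  filter_upwards [h1.eventually (Δ.g_lc R a b hb hbb), ev_N hχ (Δ.triv a).opn hb,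
    ev_N hχ (Δ.triv b).opn hbb] with s hs hsa hsb k
  have h2 := (Δ.chg R hf a b ⟨χ.symm s, Δ.sub a hsa⟩ hsa hsb).1 k
  rw [hs] at h2
  rw [← h2, Matrix.mul_assoc, Δ.g_inv R a b b hb hbb, Matrix.mul_one]

theorem pv (R : Rows) (hF : Fam p d w f U) (hf : Δ.Flat) (a : U) {χ : Chart p Y} {x : Y}
    (hχ : At χ x) (hx : x ∈ Δ.N a) :
    PVAt d (Δ.Q R a) (fun k s => Δ.Pr R a k (χ.symm s)) (χ x) := by
  refine R.pvs p n d _ _ (χ.target ∩ χ.symm ⁻¹' Δ.N a)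
    (χ.isOpen_inter_preimage_symm (Δ.triv a).opn) (fun s hs => ⟨?_, ?_⟩) _
    ⟨χ.map_source hχ.2, by rw [Set.mem_preimage, χ.left_inv hχ.2]; exact hx⟩
  · exact (R.ab _ _ _ _ (Δ.K_ok R a ⟨χ.symm s, Δ.sub a hs.2⟩ hs.2)).2.2.2.pg (Δ.bas a)
      (Δ.Pr_spec R a ⟨χ.symm s, Δ.sub a hs.2⟩ hs.2) (Δ.Q_spec R hf a ⟨χ.symm s, Δ.sub a hs.2⟩ hs.2)
  · have h1 := Δ.ctr R hF hf a ⟨χ.symm s, Δ.sub a hs.2⟩ hs.2 (χ := χ) ⟨hχ.1, χ.map_target hs.1⟩
    rwa [χ.right_inv hs.1] at h1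

open Classical in
/-- the variation of Hodge structure -/
def loc (R : Rows) (hF : Fam p d w f U) (hf : Δ.Flat) : Loc p n d U where
  N a := if h : a ∈ U then Δ.N ⟨a, h⟩ else ∅
  Q a := if h : a ∈ U then Δ.Q R ⟨a, h⟩ else 0
  Pr a := if h : a ∈ U then Δ.Pr R ⟨a, h⟩ else 0
  g a b := if h : a ∈ U ∧ b ∈ U then Δ.g R ⟨a, h.1⟩ ⟨b, h.2⟩ else 0
  opn a := by
    split_ifs with h
    · exact (Δ.triv ⟨a, h⟩).opn
    · exact isOpen_empty
  mem a h := by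
    rw [dif_pos h]
    exact (Δ.triv ⟨a, h⟩).mem
  sub a := by
    split_ifs with h
    · exact Δ.sub _
    · exact Set.empty_subset _
  pv a e x he hx := by
    by_cases h : a ∈ U
    · rw [dif_pos h] at hx
      simp only [dif_pos h]
      exact Δ.pv R hF hf _ he hx
    · rw [dif_neg h] at hx
      exact hx.elim
  lc a b t ha hb := by
    by_cases h : a ∈ U
    · by_cases h' : b ∈ U
      · rw [dif_pos h] at ha
        rw [dif_pos h'] at hb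
        rw [dif_pos ⟨h, h'⟩]
        exact Δ.g_lc R _ _ ha hb
      · rw [dif_neg h'] at hb
        exact hb.elim
    · rw [dif_neg h] at ha
      exact ha.elim
  one a t ha := by
    by_cases h : a ∈ U
    · rw [dif_pos h] at ha
      rw [dif_pos ⟨h, h⟩]
      exact Δ.g_one R _ ⟨t, Δ.sub _ ha⟩ ha
    · rw [dif_neg h] at ha
      exact ha.elim
  coc a b c t ha hb hc := by
    by_cases h : a ∈ U
    · by_cases h' : b ∈ U
      · by_cases h'' : c ∈ U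
        · rw [dif_pos h] at ha
          rw [dif_pos h'] at hb
          rw [dif_pos h''] at hc
          rw [dif_pos ⟨h, h'⟩, dif_pos ⟨h', h''⟩, dif_pos ⟨h, h''⟩]
          exact Δ.g_coc R _ _ _ ⟨t, Δ.sub _ ha⟩ ha hb hc
        · rw [dif_neg h''] at hc
          exact hc.elim
      · rw [dif_neg h'] at hb
        exact hb.elim
    · rw [dif_neg h] at ha
      exact ha.elim
  chP a b k t ha hb := by
    by_cases h : a ∈ U
    · by_cases h' : b ∈ U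
      · rw [dif_pos h] at ha
        rw [dif_pos h'] at hb
        rw [dif_pos (And.intro h h'), dif_pos h, dif_pos h']
        exact (Δ.chg R hf _ _ ⟨t, Δ.sub _ ha⟩ ha hb).1 k
      · rw [dif_neg h'] at hb
        exact hb.elim
    · rw [dif_neg h] at ha
      exact ha.elim
  chQ a b t ha hb := by
    by_cases h : a ∈ U
    · by_cases h' : b ∈ U
      · rw [dif_pos h] at ha
        rw [dif_pos h'] at hb
        rw [dif_pos (And.intro h h'), dif_pos h, dif_pos h']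
        exact (Δ.chg R hf _ _ ⟨t, Δ.sub _ ha⟩ ha hb).2
      · rw [dif_neg h'] at hb
        exact hb.elim
    · rw [dif_neg h] at ha
      exact ha.elim

end Dat

end Vale.Agent.P281Z.Hg
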