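import Vale.Agent.P281Z.Hg.Pv3

/-!
# P281, Hodge block: assembly of the family, part 4 (flat Kähler class, class map, end)
-/

open scoped Manifold ContDiff Topology Matrix
open Filter
open Vale.Agent.P272.K Vale.Agent.P299.IX Vale.Agent.P299.IX.Fock

set_option linter.unusedSectionVars false

noncomputable section

namespace Vale.Agent.P281Z.Hg

theorem at_chart {d : ℕ} {M : Type} [TopologicalSpace M] [ChartedSpace (Cm d) M] (x : M) :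
    At (chartAt (Cm d) x) x := ⟨chart_mem_atlas _ x, mem_chart_source _ x⟩

theorem dg_one_prim {S : Type} [AddCommGroup S] [Module ℂ S] {D : ℕ} {X : Cx S D} (h : X.OK)
    {u y : S} (hu : X.dg 2 u = u) (hy : u = X.d y) : u = X.d (X.dg 1 y) := by
  have h1 := LinearMap.congr_fun (h.dg_d 1) y
  simp only [Module.End.mul_apply] at h1
  rw [← h1, ← hy]
  exact hu.symm

variable {p d : ℕ} {X Y : Type} [MetricSpace X] [ChartedSpace (Cm (p + d)) X]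
  [TopologicalSpace Y] [ChartedSpace (Cm p) Y]
  {w : Rw (p + d) X (Matrix (Fin (p + d)) (Fin (p + d)) ℂ)} {f : X → Y} {U : Set Y} {n : ℕ}
  [CompactSpace X] [IsManifold 𝓘(ℂ, Cm (p + d)) ω X] [T2Space Y] [IsManifold 𝓘(ℂ, Cm p) ω Y]

theorem exists_flat (R : Rows) (hF : Fam p d w f U) :
    ∃ ε : ℝ, 0 < ε ∧ ∀ (n : ℕ) (Δ : Dat w f U n ε), Δ.Flat := by
  obtain ⟨Xt, Kt, Et, h1, -, -, h4, h5, -, -⟩ := R.one (p + d) X w hF.kah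
  obtain ⟨om, hom⟩ := (R.g1 (p + d) X).om w hF.kah
  have hcl : Xt.Cl 2 om := ((R.g2 (p + d) X).2.2 Xt h1).2.1 w om hF.kah hom
  obtain ⟨ε, hε, hc⟩ := R.cm.close Et 2 h5
  refine ⟨ε, hε, fun n Δ a t h z hz => ?_⟩
  obtain ⟨hja, -, hoa⟩ := ((R.fam p d X Y).1 w f U hF a a.2).2 (Δ.B a)
  obtain ⟨hjt, -, hot⟩ := ((R.fam p d X Y).1 w f U hF t t.2).2 (Δ.B t)
  obtain ⟨Ta, hTa⟩ := (R.pb1 d (Δ.B a).F (p + d) X _ hja).1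
  obtain ⟨Tt, hTt⟩ := (R.pb1 d (Δ.B t).F (p + d) X _ hjt).1
  obtain ⟨hs, hp⟩ := (R.pbc d (Δ.B a).F d (Δ.B t).F).2.2 (p + d) X _ _ (Δ.sm a t h) hjt
  have hm1 := mor_of R (T := (Δ.T a t h).toLinearMap ∘ₗ Tt) (Δ.P a).rx h1 (Δ.P a).re h4 hs
    (hp _ _ (Δ.pb a t h) hTt)
  have hm2 := mor_of R (Δ.P a).rx h1 (Δ.P a).re h4 hja hTa
  obtain ⟨y, hy⟩ := hc (Δ.P a).eok hm1 hm2 (fun x => by
    simp only [Function.comp_apply]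
    rw [Δ.φj]
    exact Δ.cls a t h x) om hcl
  have hdeg : (Δ.P a).Xc.dg 2 (((Δ.T a t h).toLinearMap ∘ₗ Tt) om - Ta om) =
      ((Δ.T a t h).toLinearMap ∘ₗ Tt) om - Ta om := by
    rw [map_sub, ← hm1.dg, ← hm2.dg, hcl.2]
  have hy1 := dg_one_prim (Δ.P a).ok.cx hdeg hy
  set y1 := (Δ.P a).Xc.dg 1 y with hy1d
  have hy2 : (Δ.P a).Xc.dg 1 y1 = y1 := by
    have h6 := LinearMap.congr_fun ((Δ.P a).ok.cx.dg_mul 1 1) y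
    simpa using h6
  have G := R.g1 d (Δ.B a).F
  obtain ⟨Wy, hWy⟩ := G.op _ (G.wed y1)
  obtain ⟨Wd, hWd⟩ := G.op _ (G.wed ((Δ.P a).Xc.d y1))
  obtain ⟨Wt, hWt⟩ := G.op _ (G.wed (Δ.T a t h (Tt om)))
  have hl := ((R.g2 d (Δ.B a).F).2.2 _ (Δ.P a).rx).2.2.2 y1 Wy Wd hy2 hWy hWd z
  have hoa' := hoa _ Ta om (Δ.P a).res hTa hom
  have hot' := hot _ Tt om (Δ.P t).res hTt hom
  have hLt : IsOp (fun e z => wg (vl (Tt om) e z)) (Δ.P t).K.L := by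
    intro u e x hx
    rw [(Δ.P t).rk.L u e x hx]
    beta_reduce
    rw [hot' e x hx, ← R.f2b.L_wg]
  have h7 := ((R.pb1 d (Δ.B a).F d (Δ.B t).F _ (Δ.sm a t h)).2.2.2 _ _ _ (Δ.pb a t h) (Δ.P a).rx
    (Δ.P t).rx).2.2.2.2.2 (Tt om) _ _ hLt hWt ((Δ.T a t h).symm z)
  rw [LinearEquiv.apply_symm_apply] at h7
  have h8 : (Δ.K a t h).L z = Wt z := h7
  have h9 : Wt z - (Δ.P a).K.L z = Wd z := by
    refine G.ext _ _ fun x => ⟨_, at_chart x, ?_⟩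
    rw [vl_sub, hWt z _ x (at_chart x), (Δ.P a).rk.L z _ x (at_chart x), hWd z _ x (at_chart x)]
    beta_reduce
    rw [← hy1, vl_sub, hoa' _ x (at_chart x), sub_eq_add_neg (vl _ _ _), ← neg_one_smul ℂ (_ *ᵥ _),
      R.f1a.wg_add, R.f1a.wg_smul, ← R.f2b.L_wg, Matrix.add_mulVec, Matrix.smul_mulVec,
      neg_one_smul, ← sub_eq_add_neg]
    rfl
  rw [h8, h9]
  rw [hz, map_zero, sub_zero] at hl
  rw [← hl]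
  exact (Δ.P a).ok.cx.exact_nul _

namespace Dat

variable {ε : ℝ} (Δ : Dat w f U n ε)

theorem topf (R : Rows) (hF : Fam p d w f U) (t : U) :
    (∀ σ, FibHol f t.1 σ → ∃ u, (Δ.B t).Is σ u) ∧
    (∀ σ u u', (Δ.B t).Is σ u → (Δ.B t).Is σ u' → u = u') ∧
    (∀ σ σ' u u' (c : ℂ), (Δ.B t).Is σ u → (Δ.B t).Is σ' u' →
      (Δ.B t).Is (σ + c • σ') (u + c • u')) ∧
    (∀ (σ σ' : PC p d X Y → Cm d → ℂ) (c : ℂ), FibHol f t.1 σ → FibHol f t.1 σ' →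
      FibHol f t.1 (σ + c • σ')) ∧
    (∀ σ u, FibHol f t.1 σ → (Δ.B t).Is σ u → (Δ.P t).Xc.d u = 0 ∧ (Δ.P t).K.Top u) ∧
    (∀ u, (Δ.P t).Xc.d u = 0 → (Δ.P t).K.Top u → ∃ σ, FibHol f t.1 σ ∧ (Δ.B t).Is σ u) ∧
    (∀ σ σ' u u', FibHol f t.1 σ → FibHol f t.1 σ' → (Δ.B t).Is σ u → (Δ.B t).Is σ' u' →
      FibItg f t.1 (fun q z => star (σ q z) * σ' q z) ((Δ.P t).K.ip u u')) ∧
    ∀ (V : Set Y) (s : PC p d X Y → Cm p × Cm d → ℂ), t.1 ∈ V → RelHol f V s →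
      FibHol f t.1 (rs s t.1) :=
  (R.fam p d X Y).2.2.2.1 w f t (Δ.B t) n (Δ.P t) hF.hol.continuous

theorem T_top (R : Rows) (hF : Fam p d w f U) (a t : U) (h : t.1 ∈ Δ.N a) {σ u}
    (hσ : FibHol f t.1 σ) (hu : (Δ.B t).Is σ u) :
    (Δ.P a).Xc.d (Δ.T a t h u) = 0 ∧ (Δ.K a t h).Top (Δ.T a t h u) := by
  obtain ⟨h1, h2⟩ := (Δ.topf R hF t).2.2.2.2.1 σ u hσ hu
  exact ⟨by rw [← (Δ.iso a t h).d, h1, map_zero], (R.tr.top _ (Δ.iso a t h) u).2 h2⟩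

theorem exists_cl (R : Rows) (hF : Fam p d w f U) (a t : U) (h : t.1 ∈ Δ.N a) {σ}
    (hσ : FibHol f t.1 σ) : ∃ v : Fin n → ℂ, ∀ u, (Δ.B t).Is σ u →
      Δ.T a t h u - ∑ i, v i • (Δ.P a).b i ∈ (Δ.P a).Xc.Nul := by
  obtain ⟨u, hu⟩ := (Δ.topf R hF t).1 σ hσ
  obtain ⟨h1, h2⟩ := Δ.T_top R hF a t h hσ hu
  obtain ⟨v, hv⟩ := (Δ.bas a).span _ ⟨h1, h2.2⟩
  exact ⟨v, fun u' hu' => (Δ.topf R hF t).2.1 σ u u' hu hu' ▸ hv⟩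

open Classical in
/-- the class map -/
def cl (R : Rows) (hF : Fam p d w f U) (a t : Y) (σ : PC p d X Y → Cm d → ℂ) : Fin n → ℂ :=
  if h : ∃ ha : a ∈ U, t ∈ Δ.N ⟨a, ha⟩ ∧ FibHol f t σ then
    (Δ.exists_cl R hF ⟨a, h.1⟩ ⟨t, Δ.sub _ h.2.1⟩ h.2.1 h.2.2).choose else 0

theorem cl_spec (R : Rows) (hF : Fam p d w f U) (a t : U) (h : t.1 ∈ Δ.N a) {σ u}
    (hσ : FibHol f t.1 σ) (hu : (Δ.B t).Is σ u) :
    Δ.T a t h u - ∑ i, Δ.cl R hF a t σ i • (Δ.P a).b i ∈ (Δ.P a).Xc.Nul := by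
  unfold cl
  rw [dif_pos ⟨a.2, h, hσ⟩]
  exact (Δ.exists_cl R hF a t h hσ).choose_spec u hu

theorem cl_ch (R : Rows) (hF : Fam p d w f U) (a b t : U) (ha : t.1 ∈ Δ.N a) (hb : t.1 ∈ Δ.N b)
    {σ} (hσ : FibHol f t.1 σ) : Δ.cl R hF a t σ = zc (Δ.g R a b t) *ᵥ Δ.cl R hF b t σ := by
  obtain ⟨u, hu⟩ := (Δ.topf R hF t).1 σ hσ
  have h1 := nul_map (Δ.Rl a b t ha hb) (Δ.Rl_nul R a b t ha hb) (Δ.g_spec R a b t ha hb)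
    (Δ.cl_spec R hF b t hb hσ hu)
  have h2 : Δ.Rl a b t ha hb (Δ.T b t hb u) = Δ.T a t ha u := by
    change Δ.T a t ha ((Δ.T b t hb).symm (Δ.T b t hb _)) = _
    rw [LinearEquiv.symm_apply_apply]
  rw [h2] at h1
  exact (Δ.bas a).uniq (Δ.cl_spec R hF a t ha hσ hu) h1

theorem cl_top (R : Rows) (hF : Fam p d w f U) (a t : U) (h : t.1 ∈ Δ.N a) {σ}
    (hσ : FibHol f t.1 σ) : Δ.Pr R a d t *ᵥ Δ.cl R hF a t σ = Δ.cl R hF a t σ := by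
  obtain ⟨u, hu⟩ := (Δ.topf R hF t).1 σ hσ
  obtain ⟨h1, h2⟩ := Δ.T_top R hF a t h hσ hu
  exact (R.ab _ _ _ _ (Δ.K_ok R a t h)).2.2.2.top (Δ.bas a) (Δ.Pr_spec R a t h) h1 h2
    (Δ.cl_spec R hF a t h hσ hu)

theorem cl_centre (R : Rows) (hF : Fam p d w f U) (b : U) {χ : Chart p Y} (hχ : At χ b.1)
    {V : Set Y} {s : PC p d X Y → Cm p × Cm d → ℂ} (hV : IsOpen V) (hb : b.1 ∈ V)
    (hs : RelHol f V s) :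
    DifferentiableAt ℂ (fun z => Δ.cl R hF b (χ.symm z) (rs s (χ.symm z))) (χ b) := by
  classical
  obtain ⟨φ', wt, hM, hS⟩ := Δ.mdl R hF b hχ
  have hex : ∀ z : Cm p, ∃ u : SF d (Δ.B b).F, ∀ h : χ.symm z ∈ Δ.N b, χ.symm z ∈ V →
      ∃ u', (Δ.B ⟨χ.symm z, Δ.sub b h⟩).Is (rs s (χ.symm z)) u' ∧
        u = Δ.T b ⟨χ.symm z, Δ.sub b h⟩ h u' := by
    intro z
    by_cases h : χ.symm z ∈ Δ.N b ∧ χ.symm z ∈ V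
    · obtain ⟨u', hu'⟩ := (Δ.topf R hF ⟨χ.symm z, Δ.sub b h.1⟩).1 _
        ((Δ.topf R hF ⟨χ.symm z, Δ.sub b h.1⟩).2.2.2.2.2.2.2 V s h.2 hs)
      exact ⟨Δ.T b ⟨χ.symm z, Δ.sub b h.1⟩ h.1 u', fun _ _ => ⟨u', hu', rfl⟩⟩
    · exact ⟨0, fun h1 h2 => (h ⟨h1, h2⟩).elim⟩
  choose u hu using hex
  have hS' := hS V s u hV hb hs fun z h _ h' => hu z h h'
  have hd := R.fg3 d (Δ.B b).F p _ _ _ φ' wt u (Δ.P b).rx (Δ.P b).ok.cx hM hS'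
  set G : Mt n := Matrix.of fun i j => (Δ.P b).Xc.Q ((Δ.P b).b i) ((Δ.P b).b j) with hG
  have hGu : IsUnit G.det := R.tr.gram (Δ.P b).ok.cx (Δ.bas b)
  have h1 : DifferentiableAt ℂ (fun z => G⁻¹ *ᵥ fun i => (Δ.P b).Xc.Q ((Δ.P b).b i) (u z)) (χ b) := by
    refine differentiableAt_pi.2 fun i => ?_
    simp only [Matrix.mulVec, dotProduct]
    exact DifferentiableAt.fun_sum fun j _ => (hd _ ((Δ.bas b).cl j).1).const_mul _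
  refine h1.congr_of_eventuallyEq ?_
  filter_upwards [ev_N hχ (Δ.triv b).opn (Δ.triv b).mem, ev_N hχ hV hb] with z h2 h3
  obtain ⟨u', h4, h5⟩ := hu z h2 h3
  have h6 := Δ.cl_spec R hF b ⟨χ.symm z, Δ.sub b h2⟩ h2
    ((Δ.topf R hF ⟨χ.symm z, Δ.sub b h2⟩).2.2.2.2.2.2.2 V s h3 hs) h4
  rw [← h5] at h6
  have h7 : (fun i => (Δ.P b).Xc.Q ((Δ.P b).b i) (u z)) =
      G *ᵥ Δ.cl R hF b (χ.symm z) (rs s (χ.symm z)) := by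
    funext i
    have h8 := h6.2 _ ((Δ.bas b).cl i).1
    rw [map_sub, sub_eq_zero, map_sum] at h8
    rw [h8]
    simp only [Matrix.mulVec, dotProduct, map_smul, smul_eq_mul, hG, Matrix.of_apply]
    exact Finset.sum_congr rfl fun j _ => mul_comm _ _
  rw [h7, Matrix.mulVec_mulVec, Matrix.nonsing_inv_mul _ hGu, Matrix.one_mulVec]

theorem cl_hol (R : Rows) (hF : Fam p d w f U) (a b : U) (hb : b.1 ∈ Δ.N a) {χ : Chart p Y}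
    (hχ : At χ b.1) {V : Set Y} {s : PC p d X Y → Cm p × Cm d → ℂ} (hV : IsOpen V) (hbV : b.1 ∈ V)
    (hs : RelHol f V s) :
    DifferentiableAt ℂ (fun z => Δ.cl R hF a (χ.symm z) (rs s (χ.symm z))) (χ b) := by
  have hbb := (Δ.triv b).mem
  have h0 := Δ.cl_centre R hF b hχ hV hbV hs
  have h1 : DifferentiableAt ℂ (fun z => zc (Δ.g R a b b) *ᵥ
      Δ.cl R hF b (χ.symm z) (rs s (χ.symm z))) (χ b) := by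
    refine differentiableAt_pi.2 fun i => ?_
    simp only [Matrix.mulVec, dotProduct]
    exact DifferentiableAt.fun_sum fun j _ => (differentiableAt_pi.1 h0 j).const_mul _
  refine h1.congr_of_eventuallyEq ?_
  have h2 : Tendsto χ.symm (𝓝 (χ b)) (𝓝 b.1) := χ.tendsto_symm hχ.2
  filter_upwards [h2.eventually (Δ.g_lc R a b hb hbb), ev_N hχ (Δ.triv a).opn hb,
    ev_N hχ (Δ.triv b).opn hbb, ev_N hχ hV hbV] with z h3 h4 h5 h6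
  rw [← h3]
  exact Δ.cl_ch R hF a b ⟨χ.symm z, Δ.sub a h4⟩ h4 h5
    ((Δ.topf R hF ⟨χ.symm z, Δ.sub a h4⟩).2.2.2.2.2.2.2 V s h6 hs)

theorem loc_mem (R : Rows) (hF : Fam p d w f U) (hf : Δ.Flat) {a t : Y}
    (h : t ∈ (Δ.loc R hF hf).N a) : ∃ ha : a ∈ U, t ∈ Δ.N ⟨a, ha⟩ ∧
      (Δ.loc R hF hf).Q a = Δ.Q R ⟨a, ha⟩ ∧ (Δ.loc R hF hf).Pr a = Δ.Pr R ⟨a, ha⟩ := by
  by_cases ha : a ∈ U
  · exact ⟨ha, by simpa only [loc, dif_pos ha] using h, dif_pos ha, dif_pos ha⟩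
  · simp only [loc, dif_neg ha] at h
    exact h.elim

theorem loc_g (R : Rows) (hF : Fam p d w f U) (hf : Δ.Flat) {a b : Y} (ha : a ∈ U) (hb : b ∈ U) :
    (Δ.loc R hF hf).g a b = Δ.g R ⟨a, ha⟩ ⟨b, hb⟩ := dif_pos (And.intro ha hb)

theorem clMap (R : Rows) (hF : Fam p d w f U) (hf : Δ.Flat) :
    ClMap f (Δ.loc R hF hf) (Δ.cl R hF) := by
  have hch : ∀ a b, ∀ t ∈ (Δ.loc R hF hf).N a, t ∈ (Δ.loc R hF hf).N b → ∀ σ, FibHol f t σ →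
      Δ.cl R hF a t σ = zc ((Δ.loc R hF hf).g a b t) *ᵥ Δ.cl R hF b t σ := by
    intro a b t h h' σ hσ
    obtain ⟨ha, h1, -⟩ := Δ.loc_mem R hF hf h
    obtain ⟨hb, h2, -⟩ := Δ.loc_mem R hF hf h'
    rw [Δ.loc_g R hF hf ha hb]
    exact Δ.cl_ch R hF ⟨a, ha⟩ ⟨b, hb⟩ ⟨t, Δ.sub _ h1⟩ h1 h2 hσ
  have htop : ∀ a, ∀ t ∈ (Δ.loc R hF hf).N a, ∀ σ, FibHol f t σ →
      (Δ.loc R hF hf).Pr a d t *ᵥ Δ.cl R hF a t σ = Δ.cl R hF a t σ := by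
    intro a t h σ hσ
    obtain ⟨ha, h1, -, h3⟩ := Δ.loc_mem R hF hf h
    rw [h3]
    exact Δ.cl_top R hF ⟨a, ha⟩ ⟨t, Δ.sub _ h1⟩ h1 hσ
  refine ⟨fun a t h c σ σ' hσ hσ' => ?_, hch, htop, fun a t h v hv => ?_,
    fun a t h σ σ' hσ hσ' => ?_, fun V s hV hVU hs => ⟨fun a b t h h' ht => ?_,
      fun a e x he h hx => ?_, fun a t h ht => ?_⟩⟩
  · obtain ⟨ha, h1, -⟩ := Δ.loc_mem R hF hf h
    have H := Δ.topf R hF ⟨t, Δ.sub _ h1⟩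
    obtain ⟨u, hu⟩ := H.1 σ hσ
    obtain ⟨u', hu'⟩ := H.1 σ' hσ'
    refine (Δ.bas ⟨a, ha⟩).uniq (Δ.cl_spec R hF ⟨a, ha⟩ ⟨t, Δ.sub _ h1⟩ h1 (H.2.2.2.1 σ σ' c hσ hσ')
      (H.2.2.1 σ σ' u u' c hu hu')) ?_
    have h2 := Submodule.add_mem _ (Δ.cl_spec R hF ⟨a, ha⟩ ⟨t, Δ.sub _ h1⟩ h1 hσ hu)
      (Submodule.smul_mem _ c (Δ.cl_spec R hF ⟨a, ha⟩ ⟨t, Δ.sub _ h1⟩ h1 hσ' hu'))
    refine (congrArg (· ∈ _) ?_).mp h2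
    simp only [map_add, map_smul, Pi.add_apply, Pi.smul_apply, smul_eq_mul, add_smul, mul_smul,
      Finset.sum_add_distrib, smul_sub, Finset.smul_sum]
    abel
  · obtain ⟨ha, h1, -, h3⟩ := Δ.loc_mem R hF hf h
    rw [h3] at hv
    obtain ⟨z, z1, z2, z3⟩ := (R.ab _ _ _ _ (Δ.K_ok R ⟨a, ha⟩ ⟨t, Δ.sub _ h1⟩ h1)).2.2.2.onto
      (Δ.bas ⟨a, ha⟩) (Δ.Pr_spec R ⟨a, ha⟩ ⟨t, Δ.sub _ h1⟩ h1) hv
    obtain ⟨u, rfl⟩ := (Δ.T ⟨a, ha⟩ ⟨t, Δ.sub _ h1⟩ h1).surjective z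
    rw [← (Δ.iso _ _ h1).d, LinearEquiv.map_eq_zero_iff] at z1
    obtain ⟨σ, hσ, hu⟩ := (Δ.topf R hF ⟨t, Δ.sub _ h1⟩).2.2.2.2.2.1 u z1
      ((R.tr.top _ (Δ.iso _ _ h1) u).1 z2)
    exact ⟨σ, hσ, (Δ.bas ⟨a, ha⟩).uniq (Δ.cl_spec R hF ⟨a, ha⟩ ⟨t, Δ.sub _ h1⟩ h1 hσ hu) z3⟩
  · obtain ⟨ha, h1, h2, -⟩ := Δ.loc_mem R hF hf h
    have H := Δ.topf R hF ⟨t, Δ.sub _ h1⟩
    obtain ⟨u, hu⟩ := H.1 σ hσ
    obtain ⟨u', hu'⟩ := H.1 σ' hσ'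
    obtain ⟨a1, a2⟩ := Δ.T_top R hF ⟨a, ha⟩ ⟨t, Δ.sub _ h1⟩ h1 hσ hu
    obtain ⟨a3, a4⟩ := Δ.T_top R hF ⟨a, ha⟩ ⟨t, Δ.sub _ h1⟩ h1 hσ' hu'
    have h5 := (R.ab _ _ _ _ (Δ.K_ok R ⟨a, ha⟩ ⟨t, Δ.sub _ h1⟩ h1)).2.2.2.ip (Δ.bas ⟨a, ha⟩)
      (Δ.Q_spec R hf ⟨a, ha⟩ ⟨t, Δ.sub _ h1⟩ h1) a1 a2 a3 a4
      (Δ.cl_spec R hF ⟨a, ha⟩ ⟨t, Δ.sub _ h1⟩ h1 hσ hu)
      (Δ.cl_spec R hF ⟨a, ha⟩ ⟨t, Δ.sub _ h1⟩ h1 hσ' hu')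
    rw [h2, ← h5]
    have h6 := R.tr.ip (Δ.P ⟨t, Δ.sub _ h1⟩).K (Δ.iso ⟨a, ha⟩ _ h1) u u'
    exact h6 ▸ H.2.2.2.2.2.2.1 σ σ' u u' hσ hσ' hu hu'
  · exact hch a b t h h' _ ((Δ.topf R hF ⟨t, hVU ht⟩).2.2.2.2.2.2.2 V s ht hs)
  · obtain ⟨ha, h1, -⟩ := Δ.loc_mem R hF hf h
    filter_upwards [ev_N he (Δ.triv ⟨a, ha⟩).opn h1, ev_N he hV hx,
      e.open_target.mem_nhds (e.map_source he.2)] with z h2 h3 h4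
    have h5 := Δ.cl_hol R hF ⟨a, ha⟩ ⟨e.symm z, hVU h3⟩ h2 (χ := e) ⟨he.1, e.map_target h4⟩ hV h3 hs
    rwa [e.right_inv h4] at h5
  · exact htop a t h _ ((Δ.topf R hF ⟨t, hVU ht⟩).2.2.2.2.2.2.2 V s ht hs)

end Dat

theorem hodge_of (R : Rows) : HODGE := by
  intro p d X Y _ _ _ _ _ _ _ _ _ w f U hF hU
  have : SecondCountableTopology X := ChartedSpace.secondCountable_of_sigmaCompact (Cm (p + d)) X
  let _ : MetricSpace X := TopologicalSpace.metrizableSpaceMetric X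
  obtain ⟨ε, hε, h⟩ := exists_flat R hF
  obtain ⟨n, ⟨Δ⟩⟩ := exists_dat R hF hU hε
  exact ⟨n, Δ.loc R hF (h n Δ), Δ.cl R hF, Δ.clMap R hF (h n Δ)⟩

end Vale.Agent.P281Z.Hg
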