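import Vale.Agent.P281Z.Hg.DH
import Vale.Agent.P281Z.Hg.S4

/-!
# P281, Hodge block: statements of the rows for the weighted output
-/

open scoped Manifold ContDiff ComplexOrder Topology Matrix
open Filter
open Vale.Agent.P272.K Vale.Agent.P299.IX Vale.Agent.P299.IX.Fock

noncomputable section

namespace Vale.Agent.P281Z.Hg

/-- bounded operators commuting with the structure -/
structure KP.Com {S : Type} [AddCommGroup S] [Module ℂ S] {D : ℕ} {X : Cx S D} (K : KP X)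
    (r : Module.End ℂ S) : Prop where
  d : r * X.d = X.d * r
  dg : ∀ m, r * X.dg m = X.dg m * r
  pr : ∀ k, r * K.pr k = K.pr k * r
  Lm : r * K.Lm = K.Lm * r
  bdd : K.Bdd r

/-- row WQ: commuting operators, the pairing with a form of top type -/
structure WQ : Prop where
  nul : ∀ {S : Type} [AddCommGroup S] [Module ℂ S] {D : ℕ} {X : Cx S D} {K : KP X}
    {r : Module.End ℂ S}, K.OK → K.Com r → ∀ z ∈ X.Nul, r z ∈ X.Nul
  pr : ∀ {S : Type} [AddCommGroup S] [Module ℂ S] {D : ℕ} {X : Cx S D} {K : KP X}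
    {r : Module.End ℂ S} {n : ℕ} {b : Fin n → S} {Pr : ℕ → Mt n} {R : Mt n}, K.OK → K.Com r →
    X.Bas D b → K.IsPr b Pr → (∀ j, r (b j) - ∑ i, R i j • b i ∈ X.Nul) →
    ∀ k, Pr k * R = R * Pr k
  ip : ∀ {S : Type} [AddCommGroup S] [Module ℂ S] {D : ℕ} {X : Cx S D} {K : KP X} {n : ℕ}
    {b : Fin n → S} {Qm : Mt n} {σ z : S} {v v' : Fin n → ℂ}, K.OK → X.Bas D b → K.IsQ b Qm →
    X.d σ = 0 → K.Top σ → X.Cl D z → σ - ∑ i, v i • b i ∈ X.Nul → z - ∑ i, v' i • b i ∈ X.Nul →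
    K.ip σ z = star v ⬝ᵥ (Qm *ᵥ v')
  tr : ∀ {S S' : Type} [AddCommGroup S] [Module ℂ S] [AddCommGroup S'] [Module ℂ S'] {D : ℕ}
    {X : Cx S D} {X' : Cx S' D} {T : S' ≃ₗ[ℂ] S} {K : KP X'} {r : Module.End ℂ S'}, X'.Iso X T →
    K.Com r → (K.tr X T).Com (T.conj r)
  pg : ∀ {n w : ℕ} {T : Type} {Q R : Mt n} {Pr : ℕ → T → Mt n} {t : T}, PG w Q Pr t → IsUnit R →
    (∀ k, Pr k t * R = R * Pr k t) → PG w (Rᴴ * Q * R) Pr t

/-- row CL2: close maps and forms which are closed near the images -/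
def CL2 : Prop := ∀ {S' : Type} [AddCommGroup S'] [Module ℂ S'] {D' : ℕ} {X' : Cx S' D'}
  {M' : Type} [MetricSpace M'] (E' : LC M' X') (m : ℕ), E'.OK → ∀ ε0 : ℝ, 0 < ε0 →
  ∃ ε : ℝ, 0 < ε ∧ ∀ {S : Type} [AddCommGroup S] [Module ℂ S] {D : ℕ} {X : Cx S D} {M : Type}
    [MetricSpace M] [CompactSpace M] {E : LC M X} {f g : M → M'} {T T' : S' →ₗ[ℂ] S}, E.OK →
    E.Mor E' f T → E.Mor E' g T' → (∀ x, dist (f x) (g x) < ε) → ∀ u, X'.dg m u = u →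
    (∀ x y, dist (g x) y < ε0 → X'.d u ∈ E'.Z y) → ∃ y, T u - T' u = X.d y

/-- row MW: multiplication by a locally constant function -/
def MW (d : ℕ) (M : Type) [TopologicalSpace M] [ChartedSpace (Cm d) M] [T2Space M]
    [CompactSpace M] [IsManifold 𝓘(ℂ, Cm d) ω M] : Prop :=
  ∀ ρ : M → ℝ, IsLocallyConstant ρ → ∃ r : Module.End ℂ (SF d M),
    IsOp (fun e z => (ρ (e.symm z) : ℂ) • (1 : Fm d)) r ∧
    ∀ (X : Cx (SF d M) d) (w : Rw d M (Matrix (Fin d) (Fin d) ℂ)) (K : KP X), RealX X →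
      RealK w K → IsL2 K.nrm → K.Com r

/-- the form `u` on the fibre is `γ` -/
def Fib.IsF {p d : ℕ} {X Y : Type} [TopologicalSpace X] [ChartedSpace (Cm (p + d)) X]
    [TopologicalSpace Y] [ChartedSpace (Cm p) Y] {f : X → Y} {y : Y} (B : Fib p d f y)
    (γ : PC p d X Y → Cm d → Fo d) (u : SF d B.F) : Prop :=
  ∀ q e x, IsPC f q → At e x → Sl y B.j q e → vl u e (e x) = γ q (e x)

section
variable (p d : ℕ) (X Y : Type) [TopologicalSpace X] [ChartedSpace (Cm (p + d)) X]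
  [TopologicalSpace Y] [ChartedSpace (Cm p) Y]

/-- row FF: smooth forms on a fibre -/
def FF : Prop := ∀ w (f : X → Y) (y : Y) (B : Fib p d f y) (n : ℕ) (P : Pk w B n),
  (∀ γ, FibSm f y γ → ∃ u, B.IsF γ u) ∧
  (∀ u, ∃ γ, B.IsF γ u) ∧
  (∀ γ u, B.IsF γ u → (FibCl f y γ ↔ P.Xc.Cl d u)) ∧
  (∀ γ γ' u u', B.IsF γ u → B.IsF γ' u' → (∀ q x, IsPC f q → x ∈ q.2.source → f x = y →
    γ q (q.2 x).2 = γ' q (q.2 x).2) → u = u') ∧
  (∀ γ β u v, B.IsF γ u → B.IsF β v → (∀ q x, IsPC f q → x ∈ q.2.source → f x = y →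
    γ q (q.2 x).2 = dT (β q) (q.2 x).2) → u = P.Xc.d v) ∧
  (∀ (ρ : X → ℝ) (r : SF d B.F → SF d B.F) σ γ u u',
    IsOp (fun e z => (ρ (B.j (e.symm z)) : ℂ) • (1 : Fm d)) r → B.IsF (tf σ) u → B.IsF γ u' →
    P.Xc.dg d u' = u' → FibItg f y (fun q z => ((ρ (q.2.symm (q.1 y, z)) ^ 2 : ℝ) : ℂ) *
      (star (σ q z) * γ q z (Hd d))) (P.K.ip (r u) (r u'))) ∧
  ∀ (Γ : Rw (p + d) X (Fo (p + d))) (G : SF (p + d) X) (T : SF (p + d) X → SF d B.F) γ,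
    (∀ e x, At e x → f x = y → vl G e (e x) = Γ e (e x)) → IsPb B.j T →
    (Rst f y Γ γ ↔ B.IsF γ (T G))

variable [T2Space X] [CompactSpace X] [IsManifold 𝓘(ℂ, Cm (p + d)) ω X] [T2Space Y]

/-- row CUT: cutting off a closed form on the preimage of an open set -/
def CUT : Prop := ∀ (f : X → Y) (V : Set Y) (Γ : Rw (p + d) X (Fo (p + d))) (t : Y)
  (Xt : Cx (SF (p + d) X) (p + d)), Continuous f → RealX Xt → IsOpen V → t ∈ V →
  TotCl p d f V Γ → ∃ (G : SF (p + d) X) (W : Set Y), IsOpen W ∧ t ∈ W ∧ W ⊆ V ∧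
    (∀ e x, At e x → f x ∈ W → vl G e (e x) = Γ e (e x)) ∧ Xt.dg d G = G ∧
    ∀ x, f x ∈ W → Xt.d G ∈ ZP x

end

end Vale.Agent.P281Z.Hg
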