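import Vale.Agent.P281Z.Hg.Pv4
import Vale.Agent.P281Z.Hg.S5

/-!
# P281, Hodge block: assembly of the weighted output, part 1 (the weighted polarisation)
-/

open scoped Manifold ContDiff Topology Matrix
open Filter
open Vale.Agent.P272.K Vale.Agent.P299.IX Vale.Agent.P299.IX.Fock

set_option linter.unusedSectionVars false

noncomputable section

namespace Vale.Agent.P281Z.Hg

/-- the additional rows -/
structure Rows2 : Prop extends Rows where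
  wq : WQ
  cl2 : CL2
  mw : ∀ (d : ℕ) (M : Type) [TopologicalSpace M] [ChartedSpace (Cm d) M] [T2Space M]
    [CompactSpace M] [IsManifold 𝓘(ℂ, Cm d) ω M], MW d M
  ff : ∀ (p d : ℕ) (X Y : Type) [TopologicalSpace X] [ChartedSpace (Cm (p + d)) X]
    [TopologicalSpace Y] [ChartedSpace (Cm p) Y] [T2Space X] [CompactSpace X]
    [IsManifold 𝓘(ℂ, Cm (p + d)) ω X] [T2Space Y] [IsManifold 𝓘(ℂ, Cm p) ω Y],
    FF p d X Y ∧ CUT p d X Y

section loc
variable {p n w : ℕ} {Y : Type} [TopologicalSpace Y] [ChartedSpace (Cm p) Y] {U : Set Y}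

/-- twisting the polarisation by a flat automorphism of the Hodge structure -/
def Loc.tw (L : Loc p n w U) (h : WQ) (R : Y → Mt n) (hu : ∀ a, IsUnit (R a))
    (hP : ∀ a k, ∀ t ∈ L.N a, L.Pr a k t * R a = R a * L.Pr a k t)
    (hg : ∀ a b, ∀ t ∈ L.N a, t ∈ L.N b → zc (L.g a b t) * R b = R a * zc (L.g a b t)) :
    Loc p n w U where
  N := L.N
  Q a := (R a)ᴴ * L.Q a * R a
  Pr := L.Pr
  g := L.g
  opn := L.opn
  mem := L.mem
  sub := L.sub
  pv a e x he hx := ⟨h.pg (L.pv a e x he hx).toPG (hu a) fun k => by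
      rw [e.left_inv he.2]
      exact hP a k x hx, (L.pv a e x he hx).smooth, (L.pv a e x he hx).trans,
    (L.pv a e x he hx).comm⟩
  lc := L.lc
  one := L.one
  coc := L.coc
  chP := L.chP
  chQ a b t ha hb := by
    rw [L.chQ a b t ha hb]
    calc (R b)ᴴ * ((zc (L.g a b t))ᴴ * L.Q a * zc (L.g a b t)) * R b =
          (zc (L.g a b t) * R b)ᴴ * L.Q a * (zc (L.g a b t) * R b) := by
          simp only [Matrix.conjTranspose_mul, Matrix.mul_assoc]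
      _ = _ := by
          rw [hg a b t ha hb]
          simp only [Matrix.conjTranspose_mul, Matrix.mul_assoc]

theorem Loc.Sec.congr {L : Loc p n w U} {V : Set Y} {ψ ψ' : Y → Y → Fin n → ℂ} (h : L.Sec V ψ)
    (hV : IsOpen V) (e : ∀ a, ∀ t ∈ L.N a, t ∈ V → ψ' a t = ψ a t) : L.Sec V ψ' := by
  refine ⟨fun a b t ha hb ht => ?_, fun a c x hc hx hxV => ?_, fun a t ha ht => ?_⟩
  · rw [e a t ha ht, e b t hb ht]
    exact h.ch a b t ha hb ht
  · have h1 : ∀ᶠ z in 𝓝 (c x), ψ' a (c.symm z) = ψ a (c.symm z) := by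
      filter_upwards [Dat.ev_N hc (L.opn a) hx, Dat.ev_N hc hV hxV] with z h1 h2
      exact e a _ h1 h2
    filter_upwards [h.hol a c x hc hx hxV, h1.eventually_nhds] with y h2 h3
    exact h2.congr_of_eventuallyEq h3
  · rw [e a t ha ht]
    exact h.top a t ha ht

end loc

variable {p d : ℕ} {X Y : Type} [MetricSpace X] [ChartedSpace (Cm (p + d)) X]
  [TopologicalSpace Y] [ChartedSpace (Cm p) Y]
  {w : Rw (p + d) X (Matrix (Fin (p + d)) (Fin (p + d)) ℂ)} {f : X → Y} {U : Set Y} {n : ℕ} {ε : ℝ}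

theorem FibItg.congr {t : Y} {F F' : PC p d X Y → Cm d → ℂ} {I : ℂ} (h : FibItg f t F I)
    (e : ∀ q z, f (q.2.symm (q.1 t, z)) = t → F' q z = F q z) : FibItg f t F' I := by
  intro N q ρ hq ht h1 h2 h3
  rw [← h N q ρ hq ht h1 h2 h3]
  refine Finset.sum_congr rfl fun i _ => MeasureTheory.setIntegral_congr_fun
    ((q i).2.open_target.preimage (Continuous.prodMk_right _)).measurableSet fun z hz => ?_
  obtain ⟨k1, k2⟩ := (hq i).2.fst _ ((q i).2.map_target hz)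
  rw [(q i).2.right_inv hz] at k2
  rw [e (q i) z ((q i).1.injOn k1 (ht i) k2.symm)]

namespace Dat

variable (Δ : Dat w f U n ε)

/-- shrinking the neighbourhoods -/
def res (O : U → Set Y) (hO : ∀ a, IsOpen (O a)) (hm : ∀ a : U, a.1 ∈ O a) : Dat w f U n ε where
  B := Δ.B
  P := Δ.P
  N a := Δ.N a ∩ O a
  r := Δ.r
  Φ := Δ.Φ
  sub a _ h := Δ.sub a h.1
  triv a := (Δ.triv a).mono ((Δ.triv a).opn.inter (hO a)) ⟨(Δ.triv a).mem, hm a⟩
    Set.inter_subset_left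
  cls a t h := Δ.cls a t h.1
  φ a t h := Δ.φ a t h.1
  φj a t h := Δ.φj a t h.1
  φs a t h := Δ.φs a t h.1
  sm a t h := Δ.sm a t h.1
  sm' a t h := Δ.sm' a t h.1
  T a t h := Δ.T a t h.1
  pb a t h := Δ.pb a t h.1
  pb' a t h := Δ.pb' a t h.1
  iso a t h := Δ.iso a t h.1

/-- the weight is invariant under the trivialisations -/
def Inv (wt : X → ℝ) : Prop := ∀ a : U, ∀ t ∈ Δ.N a, ∀ m : (Δ.B a).F,
  wt (Δ.Φ a t ((Δ.B a).j m)) = wt ((Δ.B a).j m)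

theorem ev_wt {wt : X → ℝ} (hw : ∀ x, f x ∈ U → ∀ᶠ y in 𝓝 x, wt y = wt x) (a : U)
    (m : (Δ.B a).F) : ∀ᶠ y in 𝓝 ((Δ.B a).j m), wt y = wt ((Δ.B a).j m) :=
  hw _ (by rw [(Δ.B a).f_j]; exact a.2)

include Δ in
theorem exists_inv {wt : X → ℝ} (hw : ∀ x, f x ∈ U → ∀ᶠ y in 𝓝 x, wt y = wt x) :
    ∃ Δ' : Dat w f U n ε, Δ'.Inv wt := by
  have h : ∀ a : U, ∀ᶠ t in 𝓝 a.1, ∀ m ∈ (Set.univ : Set (Δ.B a).F),
      wt (Δ.Φ a t ((Δ.B a).j m)) = wt ((Δ.B a).j m) := by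
    intro a
    refine isCompact_univ.eventually_forall_of_forall_eventually fun m _ => ?_
    have h1 := ((Δ.triv a).contAt (Δ.B a) (Δ.triv a).mem m).tendsto
    rw [(Δ.triv a).h3 _ ((Δ.B a).f_j m)] at h1
    have h2 : ContinuousAt (fun q : Y × (Δ.B a).F => (Δ.B a).j q.2) (a.1, m) :=
      (Δ.B a).emb.continuous.continuousAt.comp continuousAt_snd
    filter_upwards [h1.eventually (Δ.ev_wt hw a m), h2.tendsto.eventually (Δ.ev_wt hw a m)]
      with q k1 k2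
    rw [k1, k2]
  choose O h1 h2 h3 using fun a => eventually_nhds_iff.1 (h a)
  exact ⟨Δ.res O h2 h3, fun a t ht m => h1 a t ht.2 m (Set.mem_univ _)⟩

/-- the multiplication operators and their matrices -/
structure Wd (τ : X → ℝ) where
  r : ∀ a : U, Module.End ℂ (SF d (Δ.B a).F)
  R : U → Mt n
  op : ∀ a, IsOp (fun e z => (τ ((Δ.B a).j (e.symm z)) : ℂ) • (1 : Fm d)) (r a)
  com : ∀ a, (Δ.P a).K.Com (r a)
  spec : ∀ a j, r a ((Δ.P a).b j) - ∑ i, R a i j • (Δ.P a).b i ∈ (Δ.P a).Xc.Nul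

theorem _root_.Vale.Agent.P281Z.Hg.KP.Com.cl {S : Type} [AddCommGroup S] [Module ℂ S] {D : ℕ}
    {X : Cx S D} {K : KP X} {r : Module.End ℂ S} (h : K.Com r) {m : ℕ} {z : S} (hz : X.Cl m z) :
    X.Cl m (r z) := by
  have h1 := LinearMap.congr_fun h.d z
  have h2 := LinearMap.congr_fun (h.dg m) z
  simp only [Module.End.mul_apply] at h1 h2
  exact ⟨by rw [← h1, hz.1, map_zero], by rw [← h2, hz.2]⟩

variable [CompactSpace X] [IsManifold 𝓘(ℂ, Cm (p + d)) ω X] [T2Space Y]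
  [IsManifold 𝓘(ℂ, Cm p) ω Y]

theorem exists_wd (R : Rows2) {τ : X → ℝ} (hw : ∀ x, f x ∈ U → ∀ᶠ y in 𝓝 x, τ y = τ x) :
    Nonempty (Δ.Wd τ) := by
  choose r h1 h2 using fun a : U => R.mw d (Δ.B a).F (fun m => τ ((Δ.B a).j m))
    ((IsLocallyConstant.iff_eventually_eq _).2 fun m =>
      (Δ.B a).emb.continuous.continuousAt.tendsto.eventually (Δ.ev_wt hw a m))
  have h3 := fun a : U => h2 a _ _ _ (Δ.P a).rx (Δ.P a).rk (Δ.P a).l2
  choose c hc using fun (a : U) j => (Δ.bas a).span _ ((h3 a).cl ((Δ.bas a).cl j))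
  exact ⟨⟨r, fun a => Matrix.of fun i j => c a j i, h1, h3, hc⟩⟩

variable {Δ} {τ τ' : X → ℝ}

theorem Wd.T (W : Δ.Wd τ) (R : Rows) (hi : Δ.Inv τ) (a t : U) (h : t.1 ∈ Δ.N a) (u) :
    Δ.T a t h (W.r t u) = W.r a (Δ.T a t h u) := by
  refine (R.g1 d (Δ.B a).F).ext _ _ fun x => ⟨_, at_chart x, ?_⟩
  rw [Δ.pb a t h _ _ _ x (at_chart x) (at_chart _), W.op t u _ _ (at_chart _),
    W.op a _ _ x (at_chart x), Δ.pb a t h _ _ _ x (at_chart x) (at_chart _)]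
  beta_reduce
  rw [(chartAt _ _).left_inv (mem_chart_source _ _), (chartAt _ _).left_inv (mem_chart_source _ _),
    Δ.φj, hi a t h x, Matrix.smul_mulVec, Matrix.smul_mulVec, Matrix.one_mulVec, Matrix.one_mulVec,
    Matrix.mulVec_smul]

theorem Wd.com' (W : Δ.Wd τ) (R : Rows2) (hi : Δ.Inv τ) (a t : U) (h : t.1 ∈ Δ.N a) :
    (Δ.K a t h).Com (W.r a) := by
  have h1 : (Δ.T a t h).conj (W.r t) = W.r a := by
    ext u
    rw [LinearEquiv.conj_apply_apply, W.T R.toRows hi, LinearEquiv.apply_symm_apply]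
  exact h1 ▸ R.wq.tr (Δ.iso a t h) (W.com t)

theorem Wd.map (W : Δ.Wd τ) (R : Rows2) (a : U) {z} {v : Fin n → ℂ}
    (hz : z - ∑ j, v j • (Δ.P a).b j ∈ (Δ.P a).Xc.Nul) :
    W.r a z - ∑ i, (W.R a *ᵥ v) i • (Δ.P a).b i ∈ (Δ.P a).Xc.Nul :=
  nul_map (W.r a) (R.wq.nul (Δ.P a).ok (W.com a)) (W.spec a) hz

theorem Wd.unit (W : Δ.Wd τ) (W' : Δ.Wd τ') (R : Rows2) (h : ∀ x, f x ∈ U → τ x * τ' x = 1)
    (a : U) : IsUnit (W.R a) := by
  have h1 : ∀ u, W.r a (W'.r a u) = u := fun u => by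
    refine (R.g1 d (Δ.B a).F).ext _ _ fun x => ⟨_, at_chart x, ?_⟩
    rw [W.op a _ _ x (at_chart x), W'.op a _ _ x (at_chart x)]
    beta_reduce
    rw [Matrix.smul_mulVec, Matrix.smul_mulVec, Matrix.one_mulVec, Matrix.one_mulVec, smul_smul,
      ← Complex.ofReal_mul, h _ (by rw [(Δ.B a).f_j]; exact a.2), Complex.ofReal_one, one_smul]
  refine (Matrix.isUnit_iff_isUnit_det _).2 (Matrix.isUnit_det_of_right_inverse (B := W'.R a) ?_)
  ext i j
  have h2 := W.map R a (W'.spec a j)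
  rw [h1] at h2
  have h3 : (Δ.P a).b j - ∑ i, (1 : Mt n) i j • (Δ.P a).b i ∈ (Δ.P a).Xc.Nul := by
    rw [Finset.sum_eq_single j, Matrix.one_apply_eq, one_smul, sub_self]
    · exact Submodule.zero_mem _
    · intro i _ hi
      rw [Matrix.one_apply_ne hi, zero_smul]
    · simp
  exact congrFun ((Δ.bas a).uniq h2 h3) i

theorem Wd.chg (W : Δ.Wd τ) (R : Rows2) (hi : Δ.Inv τ) (a b t : U) (ha : t.1 ∈ Δ.N a)
    (hb : t.1 ∈ Δ.N b) : zc (Δ.g R.toRows a b t) * W.R b = W.R a * zc (Δ.g R.toRows a b t) := by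
  ext i j
  have h1 := nul_map (Δ.Rl a b t ha hb) (Δ.Rl_nul R.toRows a b t ha hb)
    (Δ.g_spec R.toRows a b t ha hb) (W.spec b j)
  have h2 := W.map R a (Δ.g_spec R.toRows a b t ha hb j)
  have h3 : ∀ u, Δ.Rl a b t ha hb (W.r b u) = W.r a (Δ.Rl a b t ha hb u) := fun u => by
    obtain ⟨u, rfl⟩ := (Δ.T b t hb).surjective u
    rw [← W.T R.toRows hi]
    change Δ.T a t ha ((Δ.T b t hb).symm _) = W.r a (Δ.T a t ha ((Δ.T b t hb).symm _))
    rw [LinearEquiv.symm_apply_apply, LinearEquiv.symm_apply_apply, W.T R.toRows hi]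
  rw [h3] at h1
  exact congrFun ((Δ.bas a).uniq h1 h2) i

open Classical in
/-- the matrix of the weight, for all points of the base -/
def Wd.R' (W : Δ.Wd τ) (a : Y) : Mt n := if h : a ∈ U then W.R ⟨a, h⟩ else 1

theorem Wd.R'_eq (W : Δ.Wd τ) {a : Y} (h : a ∈ U) : W.R' a = W.R ⟨a, h⟩ := dif_pos h

/-- the variation of Hodge structure with the weighted polarisation -/
def Wd.loc (W : Δ.Wd τ) (R : Rows2) (hF : Fam p d w f U) (hf : Δ.Flat) (hi : Δ.Inv τ)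
    (hu : ∀ a, IsUnit (W.R a)) : Loc p n d U :=
  (Δ.loc R.toRows hF hf).tw R.wq W.R' (fun a => by
    by_cases h : a ∈ U
    · rw [W.R'_eq h]
      exact hu _
    · rw [Wd.R', dif_neg h]
      exact isUnit_one) (fun a k t h => by
    obtain ⟨ha, h1, -, h3⟩ := Δ.loc_mem R.toRows hF hf h
    rw [h3, W.R'_eq ha]
    exact R.wq.pr (Δ.K_ok R.toRows ⟨a, ha⟩ ⟨t, Δ.sub _ h1⟩ h1)
      (W.com' R hi ⟨a, ha⟩ ⟨t, Δ.sub _ h1⟩ h1) (Δ.bas _)
      (Δ.Pr_spec R.toRows ⟨a, ha⟩ ⟨t, Δ.sub _ h1⟩ h1) (W.spec _) k) fun a b t h h' => by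
    obtain ⟨ha, h1, -⟩ := Δ.loc_mem R.toRows hF hf h
    obtain ⟨hb, h2, -⟩ := Δ.loc_mem R.toRows hF hf h'
    rw [Δ.loc_g R.toRows hF hf ha hb, W.R'_eq ha, W.R'_eq hb]
    exact W.chg R hi ⟨a, ha⟩ ⟨b, hb⟩ ⟨t, Δ.sub _ h1⟩ h1 h2

end Dat

end Vale.Agent.P281Z.Hg
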