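import Vale.Agent.P281Z.Hg.D0

/-!
# P281, Hodge block: statements of the pointwise and local rows
-/

open scoped ContDiff ComplexOrder Topology Matrix
open Filter MeasureTheory
open Vale.Agent.P272.K Vale.Agent.P272.K.C2 Vale.Agent.P299.IX Vale.Agent.P299.IX.Fock

noncomputable section

namespace Vale.Agent.P281Z.Hg

/-- row F1a: exterior powers, wedge, pairing -/
structure F1a : Prop where
  lr_eps : ∀ {a b : ℕ} (J : Matrix (Fin a) (Fin b) ℂ) l,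
    lr J * eps l = epsV (fun p => J p l) * lr J
  lr_ev : ∀ {a b : ℕ} (J : Matrix (Fin a) (Fin b) ℂ), lr J *ᵥ ev ∅ = ev ∅
  lr_mul : ∀ {a b c : ℕ} (J : Matrix (Fin a) (Fin b) ℂ) (J' : Matrix (Fin b) (Fin c) ℂ),
    lr (J * J') = lr J * lr J'
  lr_dg : ∀ {a b : ℕ} (J : Matrix (Fin a) (Fin b) ℂ) m, (dg m : FM a) * lr J = lr J * (dg m : FM b)
  lr_par : ∀ {a b : ℕ} (J : Matrix (Fin a) (Fin b) ℂ), (par : FM a) * lr J = lr J * (par : FM b)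
  wg_eps : ∀ {n : ℕ} (u : Fk n) l, wg (eps l *ᵥ u) = eps l * wg u
  wg_ev : ∀ {n : ℕ}, wg (ev ∅ : Fk n) = 1
  wg_add : ∀ {n : ℕ} (u v : Fk n), wg (u + v) = wg u + wg v
  wg_smul : ∀ {n : ℕ} (c : ℂ) (u : Fk n), wg (c • u) = c • wg u
  wg_one : ∀ {n : ℕ} (u : Fk n), wg u *ᵥ ev ∅ = u
  wg_apply : ∀ {n : ℕ} (u : Fk n) K J, wg u K J = ∑ I, wg (ev I) K J * u I
  eps_wg : ∀ {n : ℕ} (u : Fk n) l, eps l * wg u = wg (par *ᵥ u) * eps l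
  lr_wg : ∀ {a b : ℕ} (J : Matrix (Fin a) (Fin b) ℂ) (u : Fk b), lr J * wg u = wg (lr J *ᵥ u) * lr J
  Bq_eps : ∀ {n : ℕ} (u v : Fk n) l, Bq (eps l *ᵥ u) v = Bq u (eps l *ᵥ v)
  Bq_iot : ∀ {n : ℕ} (u v : Fk n) l, Bq (iot l *ᵥ u) v = Bq u (iot l *ᵥ v)
  Bq_symm : ∀ {d : ℕ} (u v : Fo d), Bq u v = (-1) ^ d * Bq v u
  Bq_lam : ∀ {n : ℕ} (J : Matrix (Fin n) (Fin n) ℂ) (u v : Fk n), IsUnit J.det →
    Bq (lam J *ᵥ u) (lam J *ᵥ v) = J.det * Bq u v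
  Bq_dg : ∀ {n : ℕ} (u v : Fk n) j k, j + k = n → Bq (dg j *ᵥ u) v = Bq u (dg k *ᵥ v)
  dg_mul : ∀ {n : ℕ} j k, (dg j : FM n) * dg k = if j = k then dg k else 0
  dg_sum : ∀ {n : ℕ}, ∑ m ∈ Finset.range (n + 1), (dg m : FM n) = 1
  dg_zero : ∀ {n : ℕ} m, n < m → (dg m : FM n) = 0
  dg0 : ∀ {n : ℕ} (u : Fk n), dg 0 *ᵥ u = u ∅ • ev ∅
  hst_star : ∀ {n : ℕ}, (hst : FM n).map star = hst

/-- row F1b: types, conjugation, block matrices -/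
structure F1b : Prop where
  pm_mul : ∀ d j k, pm d j * pm d k = if j = k then pm d k else 0
  pm_sum : ∀ d, ∑ k ∈ Finset.range (d + 1), pm d k = 1
  pm_zero : ∀ d k, d < k → pm d k = 0
  pm_dg : ∀ d k m, pm d k * dg m = dg m * pm d k
  pm_lt : ∀ d k m, m < k → pm d k * dg m = 0
  pm_hl : ∀ d k (j : Fin d), pm d (k + 1) * eps (hl j) = eps (hl j) * pm d k
  pm0_hl : ∀ d (j : Fin d), pm d 0 * eps (hl j) = 0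
  pm_ah : ∀ d k (j : Fin d), pm d k * eps (ah j) = eps (ah j) * pm d k
  pm_ihl : ∀ d k (j : Fin d), pm d k * iot (hl j) = iot (hl j) * pm d (k + 1)
  pm_iah : ∀ d k (j : Fin d), pm d k * iot (ah j) = iot (ah j) * pm d k
  Bq_pm : ∀ {d : ℕ} (u v : Fo d) j k, j + k = d → Bq (pm d j *ᵥ u) v = Bq u (pm d k *ᵥ v)
  Cw_eq : ∀ d, Cw d = ∑ m ∈ Finset.range (d + d + 1), ∑ k ∈ Finset.range (d + 1),
    (Complex.I ^ m * (-1) ^ k) • (dg m * pm d k)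
  blk_hh : ∀ {d : ℕ} (A B : Matrix (Fin d) (Fin d) ℂ) i j, blk A B (hl i) (hl j) = A i j
  blk_aa : ∀ {d : ℕ} (A B : Matrix (Fin d) (Fin d) ℂ) i j, blk A B (ah i) (ah j) = B i j
  blk_ha : ∀ {d : ℕ} (A B : Matrix (Fin d) (Fin d) ℂ) i j, blk A B (hl i) (ah j) = 0
  blk_ah : ∀ {d : ℕ} (A B : Matrix (Fin d) (Fin d) ℂ) i j, blk A B (ah i) (hl j) = 0
  blk_mul : ∀ {d : ℕ} (A B A' B' : Matrix (Fin d) (Fin d) ℂ),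
    blk A B * blk A' B' = blk (A * A') (B * B')
  blk_one : ∀ d, blk (1 : Matrix (Fin d) (Fin d) ℂ) 1 = 1
  blk_det : ∀ {d : ℕ} (A B : Matrix (Fin d) (Fin d) ℂ), (blk A B).det = A.det * B.det
  blk_ct : ∀ {d : ℕ} (A B : Matrix (Fin d) (Fin d) ℂ), (blk A B)ᴴ = blk Aᴴ Bᴴ
  blk_tr : ∀ {d : ℕ} (A B : Matrix (Fin d) (Fin d) ℂ), (blk A B)ᵀ = blk Aᵀ Bᵀ
  pm_blk : ∀ {d : ℕ} (A B : Matrix (Fin d) (Fin d) ℂ) k,
    pm d k * lam (blk A B) = lam (blk A B) * pm d k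
  blk_Hd : ∀ {d : ℕ} (A B : Matrix (Fin d) (Fin d) ℂ), lam (blk A B) *ᵥ ev (Hd d) = A.det • ev (Hd d)
  top : ∀ {d : ℕ} (u : Fo d), (pm d d *ᵥ u = u ∧ dg d *ᵥ u = u) ↔ u = u (Hd d) • ev (Hd d)
  eps_Hd : ∀ {d : ℕ} (j : Fin d), eps (hl j) *ᵥ ev (Hd d) = 0
  iot_Hd : ∀ {d : ℕ} (j : Fin d), iot (ah j) *ᵥ ev (Hd d) = 0
  swm_sq : ∀ d, swm d * swm d = 1
  swm_tr : ∀ d, (swm d)ᵀ = swm d
  swm_star : ∀ d, (swm d).map star = swm d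
  swm_det : ∀ d, (swm d).det = (-1) ^ d
  swm_blk : ∀ {d : ℕ} (A B : Matrix (Fin d) (Fin d) ℂ), swm d * blk A B * swm d = blk B A
  swm_hl : ∀ {d : ℕ} (j : Fin d) p, swm d p (hl j) = if p = ah j then 1 else 0
  swm_ah : ∀ {d : ℕ} (j : Fin d) p, swm d p (ah j) = if p = hl j then 1 else 0
  cjv_add : ∀ {d : ℕ} (u v : Fo d), cjv (u + v) = cjv u + cjv v
  cjv_smul : ∀ {d : ℕ} (c : ℂ) (u : Fo d), cjv (c • u) = star c • cjv u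
  cjv_cjv : ∀ {d : ℕ} (u : Fo d), cjv (cjv u) = u
  cjv_ev : ∀ d, cjv (ev ∅ : Fo d) = ev ∅
  cjv_hl : ∀ {d : ℕ} (u : Fo d) j, cjv (eps (hl j) *ᵥ u) = eps (ah j) *ᵥ cjv u
  cjv_ah : ∀ {d : ℕ} (u : Fo d) j, cjv (eps (ah j) *ᵥ u) = eps (hl j) *ᵥ cjv u
  cjv_ihl : ∀ {d : ℕ} (u : Fo d) j, cjv (iot (hl j) *ᵥ u) = iot (ah j) *ᵥ cjv u
  cjv_iah : ∀ {d : ℕ} (u : Fo d) j, cjv (iot (ah j) *ᵥ u) = iot (hl j) *ᵥ cjv u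
  cjv_dg : ∀ {d : ℕ} (u : Fo d) m, cjv (dg m *ᵥ u) = dg m *ᵥ cjv u
  cjv_pm : ∀ {d : ℕ} (u : Fo d) j k,
    cjv (pm d j *ᵥ (dg (j + k) *ᵥ u)) = pm d k *ᵥ (dg (j + k) *ᵥ cjv u)
  cjv_lr : ∀ {a b : ℕ} (J : Matrix (Fin (a + a)) (Fin (b + b)) ℂ) (u : Fo b),
    cjv (lr J *ᵥ u) = lr (swm a * J.map star * swm b) *ᵥ cjv u
  Bq_cjv : ∀ {d : ℕ} (u v : Fo d), Bq (cjv u) (cjv v) = (-1) ^ d * star (Bq u v)

/-- an `sl_2` triple with nilpotent `L`, `Λ` -/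
structure SL2 {R : Type} [Ring R] [Algebra ℂ R] (D : ℕ) (L Lm H : R) : Prop where
  br : L * Lm - Lm * L = H
  HL : H * L - L * H = (2 : ℂ) • L
  HLm : H * Lm - Lm * H = -((2 : ℂ) • Lm)
  nL : L ^ (D + D + 1) = 0
  nLm : Lm ^ (D + D + 1) = 0

/-- row F2a: the Weyl element -/
structure F2a : Prop where
  ex_comm : ∀ {R : Type} [Ring R] [Algebra ℂ R] (K : ℕ) (A B y : R), A * y = y * B →
    ex K A * y = y * ex K B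
  wy_comm : ∀ {R : Type} [Ring R] [Algebra ℂ R] (D : ℕ) (L Lm L' Lm' y : R), L * y = y * L' →
    Lm * y = y * Lm' → wy D L Lm * y = y * wy D L' Lm'
  desc : ∀ {R : Type} [Ring R] [Algebra ℂ R] {D : ℕ} {L Lm H : R}, SL2 D L Lm H → ∀ (y : R) (k : ℕ),
    L * y = y * L → H * y - y * H = -(((k + 1 : ℕ) : ℂ) • y) → y = 0
  wy_y : ∀ {R : Type} [Ring R] [Algebra ℂ R] {D : ℕ} {L Lm H : R}, SL2 D L Lm H → ∀ y : R,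
    L * y = y * L → H * y - y * H = y →
      wy D L Lm * y = -((Lm * y - y * Lm) * wy D L Lm) ∧
      wy D L Lm * (Lm * y - y * Lm) = y * wy D L Lm ∧
      Lm * (Lm * y - y * Lm) = (Lm * y - y * Lm) * Lm
  wy_L : ∀ {R : Type} [Ring R] [Algebra ℂ R] {D : ℕ} {L Lm H : R}, SL2 D L Lm H →
    wy D L Lm * L = -(Lm * wy D L Lm) ∧ wy D L Lm * Lm = -(L * wy D L Lm) ∧
      wy D L Lm * H = -(H * wy D L Lm)
  wy_inv : ∀ {R : Type} [Ring R] [Algebra ℂ R] {D : ℕ} {L Lm H : R}, SL2 D L Lm H →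
    wy D L Lm * wy D (-L) (-Lm) = 1 ∧ wy D (-L) (-Lm) * wy D L Lm = 1
  uniq : ∀ {R : Type} [Ring R] [Algebra ℂ R] {D : ℕ} {L Lm Lm' H : R}, SL2 D L Lm H →
    SL2 D L Lm' H → Lm = Lm'

/-- the weight operator on forms at a point -/
def Hw (d : ℕ) : Fm d := ∑ m ∈ Finset.range (d + d + 1), (m : ℂ) • dg m - (d : ℂ) • 1

/-- row F2b: the Lefschetz operators and the metric at a point -/
structure F2b : Prop where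
  sl2 : ∀ {d : ℕ} (w : Matrix (Fin d) (Fin d) ℂ), IsUnit w.det → SL2 d (Lw w) (Lam w) (Hw d)
  pm_L : ∀ {d : ℕ} (w : Matrix (Fin d) (Fin d) ℂ) k, pm d (k + 1) * Lw w = Lw w * pm d k
  dg_L : ∀ {d : ℕ} (w : Matrix (Fin d) (Fin d) ℂ) m, dg (m + 2) * Lw w = Lw w * dg m
  pm_Lm : ∀ {d : ℕ} (w : Matrix (Fin d) (Fin d) ℂ) k, pm d k * Lam w = Lam w * pm d (k + 1)
  dg_Lm : ∀ {d : ℕ} (w : Matrix (Fin d) (Fin d) ℂ) m, dg m * Lam w = Lam w * dg (m + 2)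
  Bq_L : ∀ {d : ℕ} (w : Matrix (Fin d) (Fin d) ℂ) (u v : Fo d), Bq (Lw w *ᵥ u) v = -Bq u (Lw w *ᵥ v)
  Bq_Lm : ∀ {d : ℕ} (w : Matrix (Fin d) (Fin d) ℂ) (u v : Fo d),
    Bq (Lam w *ᵥ u) v = -Bq u (Lam w *ᵥ v)
  cjv_L : ∀ {d : ℕ} (w : Matrix (Fin d) (Fin d) ℂ) (u : Fo d), w.IsHermitian →
    cjv (Lw w *ᵥ u) = Lw w *ᵥ cjv u
  cjv_Lm : ∀ {d : ℕ} (w : Matrix (Fin d) (Fin d) ℂ) (u : Fo d), w.IsHermitian →
    cjv (Lam w *ᵥ u) = Lam w *ᵥ cjv u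
  L_wg : ∀ {d : ℕ} (w : Matrix (Fin d) (Fin d) ℂ), Lw w = wg (Lw w *ᵥ ev ∅)
  L_blk : ∀ {d : ℕ} (A w : Matrix (Fin d) (Fin d) ℂ),
    lam (blk A (A.map star)) * Lw w = Lw (A * w * Aᴴ) * lam (blk A (A.map star))
  Lm_blk : ∀ {d : ℕ} (A w : Matrix (Fin d) (Fin d) ℂ), IsUnit A.det → IsUnit w.det →
    lam (blk A (A.map star)) * Lam w = Lam (A * w * Aᴴ) * lam (blk A (A.map star))
  cc_ne : ∀ d, cc d ≠ 0
  G_eq : ∀ {d : ℕ} (w : Matrix (Fin d) (Fin d) ℂ), w.PosDef → cc d • G0 w = Gm w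
  G_Bq : ∀ {d : ℕ} (w : Matrix (Fin d) (Fin d) ℂ) (u v : Fo d),
    Bq (cjv u) (wy d (Lw w) (Lam w) *ᵥ (Cw d *ᵥ v)) = star u ⬝ᵥ (G0 w *ᵥ v)
  G_pos : ∀ {d : ℕ} (w : Matrix (Fin d) (Fin d) ℂ), w.PosDef → (Gm w).PosDef
  G_Hd : ∀ {d : ℕ} (w : Matrix (Fin d) (Fin d) ℂ), IsUnit w.det → Gm w (Hd d) (Hd d) = 1

/-- row K1a: calculus of `dT` -/
structure K1a : Prop where
  dr_hl : ∀ {d : ℕ} (j : Fin d), dr (hl j) = dz j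
  dr_ah : ∀ {d : ℕ} (j : Fin d), dr (ah j) = dzb j
  congr : ∀ {d : ℕ} {u v : Cm d → Fo d} {z}, u =ᶠ[𝓝 z] v → dT u z = dT v z
  add : ∀ {d : ℕ} {u v : Cm d → Fo d} {z}, DifferentiableAt ℝ u z → DifferentiableAt ℝ v z →
    dT (fun y => u y + v y) z = dT u z + dT v z
  smul : ∀ {d : ℕ} (c : ℂ) {u : Cm d → Fo d} {z}, DifferentiableAt ℝ u z →
    dT (fun y => c • u y) z = c • dT u z
  const : ∀ {d : ℕ} (u : Fo d) z, dT (fun _ => u) z = 0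
  Dv_mul : ∀ {d : ℕ} (A : Fm d) {u : Cm d → Fo d} {z} c, DifferentiableAt ℝ u z →
    Dv c (fun y => A *ᵥ u y) z = A *ᵥ Dv c u z
  fun_mul : ∀ {d : ℕ} {g : Cm d → ℂ} {u : Cm d → Fo d} {z}, DifferentiableAt ℝ g z →
    DifferentiableAt ℝ u z →
    dT (fun y => g y • u y) z = epsV (fun c => dr c g z) *ᵥ u z + g z • dT u z
  smooth : ∀ {d : ℕ} {u : Cm d → Fo d} {z}, ContDiffAt ℝ ∞ u z → ContDiffAt ℝ ∞ (dT u) z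
  dd : ∀ {d : ℕ} {u : Cm d → Fo d} {z}, ContDiffAt ℝ ∞ u z → dT (dT u) z = 0
  leib : ∀ {d : ℕ} {u v : Cm d → Fo d} {z}, DifferentiableAt ℝ u z → DifferentiableAt ℝ v z →
    dT (fun y => wg (u y) *ᵥ v y) z = wg (dT u z) *ᵥ v z + wg (par *ᵥ u z) *ᵥ dT v z
  cjv : ∀ {d : ℕ} {u : Cm d → Fo d} {z}, DifferentiableAt ℝ u z →
    dT (fun y => cjv (u y)) z = cjv (dT u z)
  Bq_dT : ∀ {d : ℕ} {u v : Cm d → Fo d} {z}, DifferentiableAt ℝ u z → DifferentiableAt ℝ v z →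
    Bq (dT u z) (v z) + Bq (u z) (dT v z) = ∑ c, dr c (fun y => Bq (eps c *ᵥ u y) (v y)) z
  stokes : ∀ {d : ℕ} (c : Fin (d + d)) {g : Cm d → ℂ}, ContDiff ℝ ∞ g → HasCompactSupport g →
    ∫ z, dr c g z = 0
  om : ∀ {d : ℕ} {w : Cm d → Matrix (Fin d) (Fin d) ℂ} {z}, MC ∞ w z →
    (∀ᶠ y in 𝓝 z, (w y).IsHermitian) →
    (∀ i j k, dz k (fun y => w y i j) z = dz i (fun y => w y k j) z) →
    dT (fun y => Lw (w y) *ᵥ ev ∅) z = 0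
  fd : ∀ {d : ℕ} {g : Cm d → ℂ} {z} (v : Cm d), DifferentiableAt ℝ g z →
    fderiv ℝ g z v = ∑ c, cx v c * dr c g z

/-- row K1b: pull-back calculus -/
structure K1b : Prop where
  jc_congr : ∀ {a b : ℕ} {φ ψ : Cm a → Cm b} {z}, φ =ᶠ[𝓝 z] ψ → jc φ z = jc ψ z
  jc_id : ∀ {a : ℕ} (z : Cm a), jc (fun y => y) z = 1
  jc_comp : ∀ {a b c : ℕ} {ψ : Cm a → Cm b} {φ : Cm b → Cm c} {z}, DifferentiableAt ℝ ψ z →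
    DifferentiableAt ℝ φ (ψ z) → jc (fun y => φ (ψ y)) z = jc ψ z * jc φ (ψ z)
  jc_smooth : ∀ {a b : ℕ} {ψ : Cm a → Cm b} {z}, ContDiffAt ℝ ∞ ψ z → MC ∞ (jc ψ) z
  jc_hol : ∀ {a : ℕ} {τ : Cm a → Cm a} {z}, DifferentiableAt ℂ τ z →
    jc τ z = blk (Matrix.of fun p i => dz i (fun y => τ y p) z)ᵀ
      ((Matrix.of fun p i => dz i (fun y => τ y p) z)ᵀ.map star)
  jc_real : ∀ {a b : ℕ} {ψ : Cm a → Cm b} {z}, DifferentiableAt ℝ ψ z →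
    swm a * (jc ψ z).map star * swm b = jc ψ z
  jc_det : ∀ {a : ℕ} {ψ : Cm a → Cm a} {z}, DifferentiableAt ℝ ψ z →
    (jc ψ z).det = ((fderiv ℝ ψ z).det : ℝ)
  dr_comp : ∀ {a b : ℕ} {ψ : Cm a → Cm b} {g : Cm b → ℂ} {z} p, DifferentiableAt ℝ ψ z →
    DifferentiableAt ℝ g (ψ z) → dr p (fun y => g (ψ y)) z = ∑ l, jc ψ z p l * dr l g (ψ z)
  lr_smooth : ∀ {E : Type} [NormedAddCommGroup E] [NormedSpace ℝ E] {a b : ℕ}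
    {J : E → Matrix (Fin a) (Fin b) ℂ} {z}, (∀ i j, ContDiffAt ℝ ∞ (fun y => J y i j) z) →
    ∀ K I, ContDiffAt ℝ ∞ (fun y => lr (J y) K I) z
  pbk_smooth : ∀ {a b : ℕ} {ψ : Cm a → Cm b} {u : Cm b → Fo b} {z}, ContDiffAt ℝ ∞ ψ z →
    ContDiffAt ℝ ∞ u (ψ z) → ContDiffAt ℝ ∞ (pbk ψ u) z
  nat : ∀ {a b : ℕ} {ψ : Cm a → Cm b} {u : Cm b → Fo b} {z}, ContDiffAt ℝ ∞ ψ z →
    ContDiffAt ℝ ∞ u (ψ z) → dT (pbk ψ u) z = pbk ψ (dT u) z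

end Vale.Agent.P281Z.Hg
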