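import Vale.Agent.P281Z.Hg.DF
import Vale.Agent.P281Z.Hg.S1
import Vale.Agent.P281Z.Hg.S2

/-!
# P281, Hodge block: statements of the global rows
-/

open scoped Manifold ContDiff ComplexOrder Topology Matrix
open Filter MeasureTheory
open Vale.Agent.P272.K Vale.Agent.P272.K.C2 Vale.Agent.P272.K.INT Vale.Agent.P299.IX
  Vale.Agent.P299.IX.Fock

noncomputable section

namespace Vale.Agent.P281Z.Hg

section
variable (d : ℕ) (M : Type) [TopologicalSpace M] [ChartedSpace (Cm d) M] [T2Space M]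
  [CompactSpace M] [IsManifold 𝓘(ℂ, Cm d) ω M]

/-- row G1: transition matrices, pointwise operators, integrals -/
structure G1 : Prop where
  ext : ∀ u v : SF d M, (∀ x, ∃ e, At e x ∧ vl u e (e x) = vl v e (e x)) → u = v
  zp : ∀ (u : SF d M) e x, At e x → vl u e (e x) = 0 → u ∈ ZP x
  jt_eq : ∀ (e e' : Chart d M) x, At e x → At e' x →
    jt e e' x = blk (jacM e e' x)ᵀ ((jacM e e' x)ᵀ.map star)
  jt_inv : ∀ (e e' : Chart d M) x, At e x → At e' x → jt e e' x * jt e' e x = 1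
  jt_det : ∀ (e e' : Chart d M) x, At e x → At e' x →
    (jt e e' x).det = ((‖(jacM e e' x).det‖ ^ 2 : ℝ) : ℂ)
  mkf : ∀ u : Rw d M (Fo d), (∀ e x, At e x → ContDiffAt ℝ ∞ (u e) (e x)) →
    (∀ e e' x, At e x → At e' x → u e (e x) = lam (jt e e' x) *ᵥ u e' (e' x)) →
    ∃ v : SF d M, ∀ e x, At e x → vl v e =ᶠ[𝓝 (e x)] u e
  loc : ∀ (e : Chart d M) (K : Set M) (u : Cm d → Fo d), e ∈ atlas (Cm d) M → IsCompact K →
    K ⊆ e.source → ContDiffOn ℝ ∞ u e.target → (∀ z ∈ e.target, z ∉ e '' K → u z = 0) →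
    ∃ v : SF d M, (∀ z ∈ e.target, vl v e z = u z) ∧ ∀ x, x ∉ K → v ∈ ZP x
  op : ∀ F : Rw d M (Fm d), CovF F → ∃ T : Module.End ℂ (SF d M), IsOp F T
  fn : ∀ ρ : M → ℝ, SmoothFn (n := d) ρ →
    CovF (d := d) (M := M) fun e z => (ρ (e.symm z) : ℂ) • (1 : Fm d)
  wed : ∀ y : SF d M, CovF fun e z => wg (vl y e z)
  one : ∃ u : SF d M, IsOne u
  om : ∀ w, IsKahler w → ∃ u : SF d M, IsOm w u
  dens : ∀ a b : SF d M, IsDensity (fun e z => (Bq (vl a e z) (vl b e z)).re) ∧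
    IsDensity fun e z => (Bq (vl a e z) (vl b e z)).im
  itg_eq : ∀ F : Rw d M ℂ, IsDensity (fun e z => (F e z).re) → IsDensity (fun e z => (F e z).im) →
    ∀ (N : ℕ) (e : Fin N → Chart d M) (ρ : Fin N → M → ℝ), (∀ i, e i ∈ atlas (Cm d) M) →
    (∀ i, Continuous (ρ i)) → (∀ i, tsupport (ρ i) ⊆ (e i).source) → (∀ x, ∑ i, ρ i x = 1) →
    itg F = ∑ i, ∫ z in (e i).target, (ρ i ((e i).symm z) : ℂ) * F (e i) z

/-- row G2: the de Rham complex -/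
def G2 : Prop := (∃ X : Cx (SF d M) d, RealX X ∧ X.OK) ∧
  (∀ X X' : Cx (SF d M) d, RealX X → RealX X' → X = X') ∧
  ∀ X : Cx (SF d M) d, RealX X → (∀ u, IsOne u → X.d u = 0 ∧ X.dg 0 u = u) ∧
    (∀ w u, IsKahler w → IsOm w u → X.Cl 2 u) ∧
    (∀ u x, (∀ᶠ y in 𝓝 x, u ∈ ZP y) → X.d u ∈ ZP x) ∧
    ∀ (y : SF d M) (T T' : SF d M → SF d M), X.dg 1 y = y → IsOp (fun e z => wg (vl y e z)) T →
      IsOp (fun e z => wg (vl (X.d y) e z)) T' → ∀ u, X.d (T u) = T' u - T (X.d u)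

/-- row G3: the Kähler package -/
def G3 : Prop := ∀ (X : Cx (SF d M) d) (w : Rw d M (Matrix (Fin d) (Fin d) ℂ)), RealX X → X.OK →
  IsKahler w → (∃ K : KP X, RealK w K) ∧ ∀ K : KP X, RealK w K → IsL2 K.nrm → K.Alg

/-- row G4: the `L²` norm -/
def G4 : Prop := ∀ (X : Cx (SF d M) d) (w : Rw d M (Matrix (Fin d) (Fin d) ℂ)) (K : KP X),
  RealX X → IsKahler w → RealK w K →
  (∀ a b, K.ip a b = itg fun e z => star (vl a e z) ⬝ᵥ (Gm (w e z) *ᵥ vl b e z)) ∧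
  (∀ a b : SF d M, IsDensity (fun e z => (star (vl a e z) ⬝ᵥ (Gm (w e z) *ᵥ vl b e z)).re) ∧
    IsDensity fun e z => (star (vl a e z) ⬝ᵥ (Gm (w e z) *ᵥ vl b e z)).im) ∧
  IsL2 K.nrm

/-- row G4b: pointwise bounds give `L²` bounds -/
def G4b : Prop := ∀ nrm : SF d M → ℝ, IsL2 nrm → (∀ u, 0 ≤ nrm u) →
  (∀ (N : ℕ) (e : Fin N → Chart d M) (K : Fin N → Set M), (∀ i, e i ∈ atlas (Cm d) M) →
    (∀ i, IsCompact (K i)) → (∀ i, K i ⊆ (e i).source) → (∀ x, ∃ i, x ∈ K i) →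
    ∃ C : ℝ, 0 ≤ C ∧ ∀ (u v : SF d M) (ε : ℝ), 0 ≤ ε →
      (∀ i, ∀ x ∈ K i, ‖vl v (e i) (e i x)‖ ≤ ε * ‖vl u (e i) (e i x)‖) → nrm v ≤ C * ε * nrm u) ∧
  (∀ (F : Rw d M (Fm d)) (T : SF d M → SF d M),
    (∀ e x, At e x → ∀ I J, ContinuousAt (fun z => F e z I J) (e x)) → IsOp F T →
    ∃ C : ℝ, 0 ≤ C ∧ ∀ u, nrm (T u) ≤ C * nrm u) ∧
  ∃ (N : ℕ) (e : Fin N → Chart d M) (K : Fin N → Set M), (∀ i, e i ∈ atlas (Cm d) M) ∧
    (∀ i, IsCompact (K i)) ∧ (∀ i, K i ⊆ (e i).source) ∧ ∀ x, ∃ i, x ∈ K i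

/-- row G5: weak equals strong -/
def G5 : Prop := ∀ (X : Cx (SF d M) d) (w : Rw d M (Matrix (Fin d) (Fin d) ℂ)) (K : KP X),
  RealX X → X.OK → IsKahler w → RealK w K → K.Alg → K.KIa → K.KIb → K.WS

/-- row G6: closed `L²` forms of top holomorphic type are holomorphic -/
def G6 : Prop := ∀ (X : Cx (SF d M) d) (w : Rw d M (Matrix (Fin d) (Fin d) ℂ)) (K : KP X),
  RealX X → RealK w K → IsL2 K.nrm → K.KIb → K.HOL

/-- row FG1 -/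
def FG1 : Prop := ∀ (p : ℕ) (X : Cx (SF d M) d) (K : Cm p → KP X) (t0 : Cm p) φ wt, RealX X →
  Mdl K t0 φ wt → IsL2 (K t0).nrm → (K t0).KIb →
  (∀ ε : ℝ, 0 < ε → ∀ᶠ t in 𝓝 t0, ∀ a,
    |((K t).ip a a).re - ((K t0).ip a a).re| ≤ ε * ((K t0).ip a a).re) ∧
  (∀ k, ∀ ε : ℝ, 0 < ε → ∀ᶠ t in 𝓝 t0, ∀ a,
    (K t0).nrm ((K t).pr k a - (K t0).pr k a) ≤ ε * (K t0).nrm a)

/-- row FG2 -/
def FG2 : Prop := ∀ (p : ℕ) (X : Cx (SF d M) d) (K : Cm p → KP X) (t0 : Cm p) φ wt, RealX X →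
  Mdl K t0 φ wt → IsL2 (K t0).nrm → (K t0).KIb →
  (∀ j k, j + 2 ≤ k → ∀ ε : ℝ, 0 < ε → ∀ᶠ t in 𝓝 t0, ∀ a,
    (K t0).nrm ((K t0).pr j ((K t).pr k a)) ≤ ε * ‖t - t0‖ * (K t0).nrm a) ∧
  ∃ μ η : Fin p → Module.End ℂ (SF d M), (∀ j, (K t0).Bdd (μ j)) ∧ (∀ j, (K t0).Bdd (η j)) ∧
    (∀ j, (K t0).Bdd ((K t0).Ab * η j + η j * (K t0).Ab)) ∧
    ∀ k, ∀ ε : ℝ, 0 < ε → ∀ᶠ t in 𝓝 t0, ∀ a,
      (K t0).nrm ((K t0).pr k ((K t).pr (k + 1) a - ∑ j, ((t - t0) j • μ j ((K t0).pr (k + 1) a) +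
        star ((t - t0) j) • ((K t0).Ab * η j + η j * (K t0).Ab) ((K t0).pr (k + 1) a)))) ≤
        ε * ‖t - t0‖ * (K t0).nrm a

/-- row FG3 -/
def FG3 : Prop := ∀ (p : ℕ) (X : Cx (SF d M) d) (K : Cm p → KP X) (t0 : Cm p) φ wt
  (s : Cm p → SF d M), RealX X → X.OK → Mdl K t0 φ wt → MdlS t0 φ s →
  ∀ z, X.d z = 0 → DifferentiableAt ℂ (fun t => X.Q z (s t)) t0

variable (d' : ℕ) (M' : Type) [TopologicalSpace M'] [ChartedSpace (Cm d') M'] [T2Space M']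
  [CompactSpace M'] [IsManifold 𝓘(ℂ, Cm d') ω M']

/-- row PB1: pull-back of forms -/
def PB1 : Prop := ∀ f : M → M', Smo d d' f → (∃ T : SF d' M' →ₗ[ℂ] SF d M, IsPb f T) ∧
  (∀ T T' : SF d' M' → SF d M, IsPb f T → IsPb f T' → T = T') ∧
  (∀ T : SF d' M' → SF d M, (∀ u x, ∃ e e', At e x ∧ At e' (f x) ∧ vl (T u) e (e x) =
    lr (jc (fun z => e' (f (e.symm z))) (e x)) *ᵥ vl u e' (e' (f x))) → IsPb f T) ∧
  ∀ (T : SF d' M' → SF d M) (X : Cx (SF d M) d) (X' : Cx (SF d' M') d'), IsPb f T → RealX X →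
    RealX X' → (∀ a, T (X'.d a) = X.d (T a)) ∧ (∀ m a, T (X'.dg m a) = X.dg m (T a)) ∧
    (∀ a, T (X'.cj a) = X.cj (T a)) ∧ (∀ u, IsOne u → IsOne (T u)) ∧
    (∀ a x, a ∈ ZP (f x) → T a ∈ ZP x) ∧
    ∀ (y : SF d' M') (W' : SF d' M' → SF d' M') (W : SF d M → SF d M),
      IsOp (fun e z => wg (vl y e z)) W' → IsOp (fun e z => wg (vl (T y) e z)) W →
      ∀ u, T (W' u) = W (T u)

/-- row PB1, second part: composition -/
def PBc : Prop := IsPb (d := d) (M := M) id id ∧ Smo d d (id : M → M) ∧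
  ∀ (d'' : ℕ) (M'' : Type) [TopologicalSpace M''] [ChartedSpace (Cm d'') M'']
    [IsManifold 𝓘(ℂ, Cm d'') ω M''] (f : M → M') (g : M' → M''), Smo d d' f → Smo d' d'' g →
    Smo d d'' (g ∘ f) ∧ ∀ (T : SF d' M' → SF d M) (T' : SF d'' M'' → SF d' M'), IsPb f T →
      IsPb g T' → IsPb (g ∘ f) (T ∘ T')

end

/-- row PB2: orientation preserving diffeomorphisms -/
def PB2 (d : ℕ) (M M' : Type) [TopologicalSpace M] [ChartedSpace (Cm d) M] [T2Space M]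
    [CompactSpace M] [IsManifold 𝓘(ℂ, Cm d) ω M] [TopologicalSpace M'] [ChartedSpace (Cm d) M']
    [T2Space M'] [CompactSpace M'] [IsManifold 𝓘(ℂ, Cm d) ω M'] : Prop :=
  ∀ (φ : M ≃ₜ M') (X : Cx (SF d M) d) (X' : Cx (SF d M') d), Smo d d φ → Smo d d φ.symm →
    Ori d φ → RealX X → RealX X' →
    ∃ T : SF d M' ≃ₗ[ℂ] SF d M, IsPb φ T ∧ IsPb φ.symm T.symm ∧ X'.Iso X T

section
variable (d : ℕ) (M : Type) [MetricSpace M] [ChartedSpace (Cm d) M] [CompactSpace M]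
  [IsManifold 𝓘(ℂ, Cm d) ω M]

/-- row G7: localisation, given the homotopy operators -/
def G7 : Prop := ∀ (X : Cx (SF d M) d) (K : KP X),
  RealX X → X.OK → IsL2 K.nrm → K.KIb → (∃ E : LC M X, RealE K E) ∧
    ∀ E : LC M X, RealE K E → E.PO → E.OK

/-- row POG: the homotopy operators -/
def POG : Prop := ∀ (X : Cx (SF d M) d) (K : KP X) (E : LC M X), RealX X → IsL2 K.nrm → K.KIb →
  RealE K E → E.PO

/-- row ULCG -/
def ULCG : Prop := ULC M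

/-- everything on one compact Kähler manifold -/
def ONE : Prop := ∀ w : Rw d M (Matrix (Fin d) (Fin d) ℂ), IsKahler w →
  ∃ (X : Cx (SF d M) d) (K : KP X) (E : LC M X), RealX X ∧ RealK w K ∧ K.OK ∧ RealE K E ∧ E.OK ∧
    IsL2 K.nrm ∧ ∀ m, ∃ (n : ℕ) (b : Fin n → SF d M), E.LB m b

end

end Vale.Agent.P281Z.Hg
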