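import Vale.Agent.P281Z.Hg.S2

/-!
# P281, Hodge block: chains of lists
-/

noncomputable section

namespace Vale.Agent.P281Z.Hg.Vt2

variable {M N : Type} [AddCommGroup N]

/-- chains -/
abbrev C (M : Type) : Type := List M →₀ ℤ

/-- linear extension -/
def L (f : List M → N) : C M →ₗ[ℤ] N := Finsupp.linearCombination ℤ f

/-- a list as a chain -/
def sg (l : List M) : C M := Finsupp.single l 1

@[simp] theorem L_sg (f : List M → N) (l : List M) : L f (sg l) = f l := by simp [L, sg]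

/-- the chains of lists of length `j` with the property `P` -/
def Ch (j : ℕ) (P : List M → Prop) : Submodule ℤ (C M) :=
  Finsupp.supported ℤ ℤ {l | l.length = j ∧ P l}

variable {j : ℕ} {P Q : List M → Prop} {c : C M}

theorem mem_ch : c ∈ Ch j P ↔ ∀ l ∈ c.support, l.length = j ∧ P l := Iff.rfl

theorem sg_mem {l : List M} (h : l.length = j) (h' : P l) : sg l ∈ Ch j P :=
  Finsupp.single_mem_supported ℤ 1 ⟨h, h'⟩

theorem mem_of (hc : c ∈ Ch j P) (T : C M →ₗ[ℤ] N) {S : Submodule ℤ N}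
    (h : ∀ l, l.length = j → P l → T (sg l) ∈ S) : T c ∈ S := by
  rw [Ch, Finsupp.supported_eq_span_single] at hc
  refine (Submodule.span_le (p := S.comap T)).2 ?_ hc
  rintro _ ⟨l, hl, rfl⟩
  exact h l hl.1 hl.2

theorem ch_mono (hc : c ∈ Ch j P) (h : ∀ l, l.length = j → P l → Q l) : c ∈ Ch j Q :=
  fun _ hl => ⟨(hc hl).1, h _ (hc hl).1 (hc hl).2⟩

theorem eq_on (hc : c ∈ Ch j P) (T T' : C M →ₗ[ℤ] N)
    (h : ∀ l, l.length = j → P l → T (sg l) = T' (sg l)) : T c = T' c :=
  sub_eq_zero.1 (mem_of hc (T - T') (S := ⊥) fun l a b => sub_eq_zero.2 (h l a b))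

theorem eq_all (T T' : C M →ₗ[ℤ] N) (h : ∀ l, T (sg l) = T' (sg l)) (c : C M) : T c = T' c :=
  LinearMap.congr_fun (Finsupp.lhom_ext' fun l => LinearMap.ext_ring (h l)) c

theorem L_L (a : List M → N) (f : List M → C M) (c : C M) :
    L a (L f c) = L (fun l => L a (f l)) c :=
  eq_all (L a ∘ₗ L f) _ (fun l => by simp) c

/-- the cone -/
def cons (x : M) : C M →ₗ[ℤ] C M := L fun l => sg (x :: l)

/-- the push forward -/
def push (f : M → M) : C M →ₗ[ℤ] C M := L fun l => sg (l.map f)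

@[simp] theorem cons_sg (x : M) (l : List M) : cons x (sg l) = sg (x :: l) := L_sg _ _

@[simp] theorem push_sg (f : M → M) (l : List M) : push f (sg l) = sg (l.map f) := L_sg _ _

/-- the boundary of a list -/
def bd1 : List M → C M
  | [] => 0
  | x :: l => sg l - cons x (bd1 l)

/-- the boundary -/
def bd : C M →ₗ[ℤ] C M := L bd1

@[simp] theorem bd_sg (l : List M) : bd (sg l) = bd1 l := L_sg _ _

theorem bd_cons (x : M) (c : C M) : bd (cons x c) = c - cons x (bd c) :=
  eq_all (bd ∘ₗ cons x) (LinearMap.id - cons x ∘ₗ bd) (fun l => by simp [bd1]) c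

theorem bd_bd1 : ∀ l : List M, bd (bd1 l) = 0
  | [] => map_zero _
  | x :: l => by simp [bd1, bd_cons, bd_bd1 l]

theorem push_cons (f : M → M) (x : M) (c : C M) : push f (cons x c) = cons (f x) (push f c) :=
  eq_all (push f ∘ₗ cons x) (cons (f x) ∘ₗ push f) (fun l => by simp) c

theorem bd1_map (f : M → M) : ∀ l : List M, bd1 (l.map f) = push f (bd1 l)
  | [] => (map_zero _).symm
  | x :: l => by simp [bd1, push_cons, bd1_map f l]

theorem bd_push (f : M → M) (c : C M) : bd (push f c) = push f (bd c) :=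
  eq_all (bd ∘ₗ push f) (push f ∘ₗ bd) (fun l => by simp [bd1_map]) c

theorem L_bd1 : ∀ (l : List M) (a : List M → N), L a (bd1 l) = dl a l
  | [], _ => map_zero _
  | x :: l, a => by
    rw [bd1, dl, map_sub, L_sg, ← L_bd1 l, cons, L_L]
    simp only [L_sg]

theorem L_bd (a : List M → N) (c : C M) : L a (bd c) = L (dl a) c := by
  simp only [bd, L_L, L_bd1]

theorem evc_eq (a : List M → ℂ) (c : C M) : evc a c = L a c := by
  simp only [evc, L, Finsupp.linearCombination_apply, zsmul_eq_mul]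

theorem cons_mem {x : M} (hc : c ∈ Ch j P) (h : ∀ l, P l → Q (x :: l)) : cons x c ∈ Ch (j + 1) Q :=
  mem_of hc _ fun l a b => cons_sg x l ▸ sg_mem (by simp [a]) (h l b)

theorem bd1_mem : ∀ {j : ℕ} {l : List M}, l.length = j + 1 → bd1 l ∈ Ch j (· ⊆ l)
  | _, [], h => by simp at h
  | 0, [x], _ => by simpa [bd1] using sg_mem (P := (· ⊆ [x])) rfl (List.nil_subset _)
  | 0, _ :: _ :: _, h => by simp at h
  | j + 1, x :: l, h => by
    have h1 : l.length = j + 1 := by simpa using h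
    exact sub_mem (sg_mem h1 (List.subset_cons_self _ _))
      (cons_mem (bd1_mem h1) fun _ k => List.cons_subset_cons x k)

/-- the prism -/
def pr1 (f g : M → M) : List M → C M
  | [] => 0
  | x :: l => cons (f x) (sg ((x :: l).map g) - pr1 f g l)

theorem pr_cons (f g : M → M) (x : M) (c : C M) :
    L (pr1 f g) (cons x c) = cons (f x) (cons (g x) (push g c) - L (pr1 f g) c) :=
  eq_all (L (pr1 f g) ∘ₗ cons x) (cons (f x) ∘ₗ (cons (g x) ∘ₗ push g - L (pr1 f g)))
    (fun l => by simp [pr1]) c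

theorem bd_pr1 (f g : M → M) : ∀ l : List M,
    bd (pr1 f g l) = sg (l.map g) - sg (l.map f) - L (pr1 f g) (bd1 l)
  | [] => by simp [pr1, bd1]
  | x :: l => by
    simp only [pr1, bd1, bd_cons, map_sub, bd_sg, bd_pr1 f g l, List.map_cons, bd1_map, pr_cons,
      L_sg, cons_sg]
    abel

theorem bd_pr (f g : M → M) (c : C M) :
    bd (L (pr1 f g) c) = push g c - push f c - L (pr1 f g) (bd c) :=
  eq_all (bd ∘ₗ L (pr1 f g)) (push g - push f - L (pr1 f g) ∘ₗ bd) (fun l => by simp [bd_pr1]) c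

theorem pr1_mem (f g : M → M) : ∀ l : List M,
    pr1 f g l ∈ Ch (l.length + 1) fun l' => ∀ w ∈ l', ∃ y ∈ l, w = f y ∨ w = g y
  | [] => zero_mem _
  | x :: l => by
    refine cons_mem (P := fun l' => ∀ w ∈ l', ∃ y ∈ x :: l, w = f y ∨ w = g y)
      (sub_mem (sg_mem (by simp) fun w hw => ?_) (ch_mono (pr1_mem f g l) fun l' _ h w hw => ?_))
      fun l' h => List.forall_mem_cons.2 ⟨⟨x, List.mem_cons_self, .inl rfl⟩, h⟩
    · obtain ⟨y, a, b⟩ := List.mem_map.1 hw
      exact ⟨y, a, .inr b.symm⟩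
    · obtain ⟨y, a, b⟩ := h w hw
      exact ⟨y, List.mem_cons_of_mem _ a, b⟩

/-- one step of an inductive construction -/
theorem step {S : List M → Submodule ℤ (C M)} {α ψ : List M → C M} {σ : ℤ}
    (h : ∀ l, l.length ≤ j → P l → ψ l ∈ S l ∧ bd (ψ l) = α l + σ • L ψ (bd1 l))
    (h' : ∀ l, l.length = j + 1 → P l → ∃ b ∈ S l, bd b = α l + σ • L ψ (bd1 l)) :
    ∃ ψ' : List M → C M, ψ' [] = ψ [] ∧
      ∀ l, l.length ≤ j + 1 → P l → ψ' l ∈ S l ∧ bd (ψ' l) = α l + σ • L ψ' (bd1 l) := by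
  choose! b hb using h'
  refine ⟨fun l => if l.length ≤ j then ψ l else b l, if_pos (Nat.zero_le j), fun l k1 k2 => ?_⟩
  have e : L (fun l => if l.length ≤ j then ψ l else b l) (bd1 l) = L ψ (bd1 l) := by
    cases l with
    | nil => simp [bd1]
    | cons x l =>
      refine eq_on (bd1_mem (l := x :: l) rfl) _ _ fun l' a _ => ?_
      rw [L_sg, L_sg, if_pos (a ▸ Nat.le_of_succ_le_succ k1)]
  rw [e]
  beta_reduce
  split_ifs with k
  · exact h l k k2
  · exact hb l (by omega) k2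

end Vale.Agent.P281Z.Hg.Vt2
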